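import Crest.Agent.R183.HSBasic

/-!
# The final asymptotic comparison
-/

set_option autoImplicit false

open Filter

namespace Crest.Agent.R183

namespace Analytic

/-- Real partial sums. -/
noncomputable def S (c : ℕ → ℝ) (N : ℕ) : ℝ := ∑ j ∈ Finset.range (N + 1), c j

/-- `liminf c N / Bn d N ≥ e`. -/
def Low (c : ℕ → ℝ) (d : ℕ) (e : ℝ) : Prop := ∀ ε > 0, ∀ᶠ N in atTop, (e - ε) * Bn d N ≤ c N

theorem Bn_succ (d N : ℕ) : Bn (d + 1) (N + 1) = Bn d (N + 1) + Bn (d + 1) N := by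
  unfold Bn
  rw [show N + 1 + (d + 1) - 1 = N + d + 1 by omega, show N + 1 + d - 1 = N + d by omega,
    show N + (d + 1) - 1 = N + d by omega, Nat.choose_succ_succ]

theorem sum_Bn (d N : ℕ) : ∑ j ∈ Finset.range (N + 1), Bn d j = Bn (d + 1) N + Bn d 0 := by
  induction N with
  | zero => simp [Bn]
  | succ N ih => rw [Finset.sum_range_succ, ih, Bn_succ]; ring

theorem Bn_pos (d : ℕ) {N : ℕ} (h : 1 ≤ N) : 0 < Bn d N := Nat.choose_pos (by omega)

theorem Bn_mul (d : ℕ) {N : ℕ} (h : 1 ≤ N) : Bn (d + 1) N * (d + 1) = (N + d) * Bn d N := by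
  unfold Bn
  have := Nat.add_one_mul_choose_eq (N + d - 1) d
  rw [show N + d - 1 + 1 = N + d by omega] at this
  rw [show N + (d + 1) - 1 = N + d by omega, this]

theorem le_Bn (d N : ℕ) : N ≤ Bn (d + 1) N := by
  induction N with
  | zero => exact Nat.zero_le _
  | succ N ih => have := Bn_pos d (N := N + 1) (by omega); rw [Bn_succ]; omega

theorem Low.step {c : ℕ → ℝ} {d : ℕ} {e : ℝ} (h : Low c d e) : Low (S c) (d + 1) e := by
  intro ε hε
  obtain ⟨N₀, hN₀⟩ := eventually_atTop.1 (h (ε / 2) (by positivity))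
  set K : ℝ := ∑ j ∈ Finset.range N₀, (c j - (e - ε / 2) * Bn d j) + (e - ε / 2) * Bn d 0 with hK
  have h1 : ∀ᶠ N : ℕ in atTop, -K / (ε / 2) ≤ N := tendsto_natCast_atTop_atTop.eventually_ge_atTop _
  filter_upwards [h1, eventually_ge_atTop N₀] with N hN hN'
  have h2 : ∑ j ∈ Finset.range N₀, (c j - (e - ε / 2) * Bn d j) ≤
      ∑ j ∈ Finset.range (N + 1), (c j - (e - ε / 2) * Bn d j) :=
    Finset.sum_le_sum_of_subset_of_nonneg (Finset.range_subset_range.2 (by omega))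
      fun j _ hj => sub_nonneg.2 (hN₀ j (by simpa using hj))
  rw [Finset.sum_sub_distrib (s := Finset.range (N + 1)), ← Finset.mul_sum, ← Nat.cast_sum, sum_Bn,
    Nat.cast_add] at h2
  rw [div_le_iff₀ (by positivity)] at hN
  have h3 : (N : ℝ) ≤ Bn (d + 1) N := by exact_mod_cast le_Bn d N
  have h4 := mul_le_mul_of_nonneg_right h3 (by positivity : 0 ≤ ε / 2)
  unfold S
  linarith

theorem Low.iter {c : ℕ → ℝ} {d : ℕ} {e : ℝ} (h : Low c d e) (k : ℕ) : Low (S^[k] c) (d + k) e := by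
  induction k with
  | zero => exact h
  | succ k ih => rw [Function.iterate_succ_apply']; exact ih.step

theorem Low.succ {c : ℕ → ℝ} {d : ℕ} {e e' : ℝ} (h : Low c d e) (he : e' ≤ 0) :
    Low c (d + 1) e' := by
  intro ε hε
  have h1 : ∀ᶠ N : ℕ in atTop, (1 - e) * (d + 1) / ε ≤ N :=
    tendsto_natCast_atTop_atTop.eventually_ge_atTop _
  filter_upwards [h 1 one_pos, h1, eventually_ge_atTop 1] with N hN hN' hN1
  refine le_trans ?_ hN
  rw [div_le_iff₀ hε] at hN'
  have h2 : (Bn (d + 1) N : ℝ) * (d + 1) = (N + d) * Bn d N := by exact_mod_cast Bn_mul d hN1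
  have h3 : (0 : ℝ) ≤ Bn d N := by positivity
  have h4 : (0 : ℝ) ≤ Bn (d + 1) N := by positivity
  refine le_of_mul_le_mul_right ?_ (by positivity : (0 : ℝ) < d + 1)
  have h5 : e' * (Bn (d + 1) N * (d + 1)) ≤ 0 := mul_nonpos_of_nonpos_of_nonneg he (by positivity)
  have h6 := mul_le_mul_of_nonneg_right hN' h3
  have h7 : (0 : ℝ) ≤ ε * d * Bn d N := by positivity
  have h8 : ε * (Bn (d + 1) N * (d + 1)) = ε * ((N + d) * Bn d N) := by rw [h2]
  linarith

theorem Low.of_le {c : ℕ → ℝ} {d D : ℕ} {e : ℝ} (h : Low c d e) (he : e ≤ 0) (hd : d ≤ D) :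
    Low c D e := by
  induction D, hd using Nat.le_induction with
  | base => exact h
  | succ D _ ih => exact ih.succ he

theorem tendsto_Bn (d : ℕ) :
    Tendsto (fun N : ℕ => (d.factorial : ℝ) * (Bn d N : ℝ) / (N : ℝ) ^ d) atTop (nhds 1) := by
  induction d with
  | zero => simp [Bn]
  | succ d ih =>
    have h1 : Tendsto (fun N : ℕ => 1 + (d : ℝ) / (N : ℝ)) atTop (nhds (1 + 0)) :=
      tendsto_const_nhds.add (tendsto_const_div_atTop_nhds_zero_nat _)
    have h2 := h1.mul ih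
    rw [add_zero, one_mul] at h2
    refine h2.congr' ?_
    filter_upwards [eventually_ge_atTop 1] with N hN
    have h3 : (Bn (d + 1) N : ℝ) * (d + 1) = (N + d) * Bn d N := by exact_mod_cast Bn_mul d hN
    have h4 : (N : ℝ) ≠ 0 := by positivity
    rw [Nat.factorial_succ]
    push_cast
    field_simp
    linear_combination (-(N : ℝ) * (N : ℝ) ^ d) * h3

theorem low_of_tendsto {c : ℕ → ℝ} {d : ℕ} {e : ℝ}
    (he : Tendsto (fun N : ℕ => (d.factorial : ℝ) * c N / (N : ℝ) ^ d) atTop (nhds e)) :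
    Low c d e := by
  intro ε hε
  have h1 := he.div (tendsto_Bn d) one_ne_zero
  rw [div_one] at h1
  filter_upwards [h1.eventually_const_lt (sub_lt_self e hε), eventually_ge_atTop 1] with N hN hN1
  have h3 : (0 : ℝ) < Bn d N := by exact_mod_cast Bn_pos d hN1
  have h4 : (N : ℝ) ≠ 0 := by positivity
  have h5 : (d.factorial : ℝ) ≠ 0 := by positivity
  rw [← le_div_iff₀ h3]
  refine hN.le.trans (le_of_eq ?_)
  simp only [Pi.div_apply]
  field_simp

theorem iter_neg (c : ℕ → ℝ) (k : ℕ) : S^[k] (fun N => -c N) = fun N => -(S^[k] c N) := by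
  induction k with
  | zero => rfl
  | succ k ih =>
    rw [Function.iterate_succ_apply', Function.iterate_succ_apply', ih]
    funext N
    simp [S]

theorem iter_psum (a : ℕ → ℕ∞) (ha : ∀ N, a N ≠ ⊤) (k : ℕ) :
    ∃ c : ℕ → ℕ, (∀ N, psum^[k] a N = c N) ∧ ∀ N, S^[k] (fun N => ((a N).toNat : ℝ)) N = c N := by
  induction k with
  | zero => exact ⟨fun N => (a N).toNat, fun N => (ENat.natCast_toNat (ha N)).symm, fun N => rfl⟩
  | succ k ih =>
    obtain ⟨c, h1, h2⟩ := ih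
    refine ⟨fun N => ∑ j ∈ Finset.range (N + 1), c j, fun N => ?_, fun N => ?_⟩
    · rw [Function.iterate_succ_apply', psum]; simp [h1]
    · rw [Function.iterate_succ_apply', S]; simp [h2]

end Analytic

theorem le_of_psum_le (a b : ℕ → ℕ∞) (ha : ∀ N, a N ≠ ⊤) (hb : ∀ N, b N ≠ ⊤) (d d' f k : ℕ)
    (hd : d' ≤ d + f) (h : ∀ N, psum^[k + f] a N ≤ psum^[k] b N) (e e' : ℝ)
    (he : ∀ ε > 0, ∀ᶠ N in atTop, (e - ε) * Bn d N ≤ ((a N).toNat : ℝ))
    (he' : Tendsto (fun N : ℕ => (d'.factorial : ℝ) * ((b N).toNat : ℝ) / (N : ℝ) ^ d') atTop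
      (nhds e')) : e ≤ e' := by
  have he0 : 0 ≤ e' := ge_of_tendsto' he' fun N => by positivity
  have h1 : Analytic.Low (fun N => -((b N).toNat : ℝ)) d' (-e') :=
    Analytic.low_of_tendsto (by simpa only [mul_neg, neg_div] using he'.neg)
  have h2 := (h1.of_le (neg_nonpos.2 he0) hd).iter k
  have h3 := Analytic.Low.iter (c := fun N => ((a N).toNat : ℝ)) he (k + f)
  rw [Analytic.iter_neg, show d + f + k = d + (k + f) by ring] at h2
  obtain ⟨ca, ha1, ha2⟩ := Analytic.iter_psum a ha (k + f)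
  obtain ⟨cb, hb1, hb2⟩ := Analytic.iter_psum b hb k
  refine le_of_forall_pos_le_add fun ε hε => ?_
  obtain ⟨N, hN1, hN2, hN3⟩ := ((h2 (ε / 2) (by positivity)).and ((h3 (ε / 2) (by positivity)).and
    (eventually_ge_atTop 1))).exists
  have h4 := h N
  rw [ha1, hb1, Nat.cast_le] at h4
  have h5 : (ca N : ℝ) ≤ cb N := by exact_mod_cast h4
  rw [ha2] at hN2
  simp only [hb2] at hN1
  have h6 : (0 : ℝ) < Bn (d + (k + f)) N := by exact_mod_cast Analytic.Bn_pos _ hN3
  refine le_of_mul_le_mul_right ?_ h6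
  linarith

theorem eventually_le_of_tendsto (a : ℕ → ℕ∞) (d : ℕ) (e : ℝ)
    (he : Tendsto (fun N : ℕ => (d.factorial : ℝ) * ((a N).toNat : ℝ) / (N : ℝ) ^ d) atTop
      (nhds e)) : ∀ ε > 0, ∀ᶠ N in atTop, (e - ε) * Bn d N ≤ ((a N).toNat : ℝ) := by
  exact Analytic.low_of_tendsto he

end Crest.Agent.R183
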