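import Crest.Agent.R183.SL

/-!
# Hilbert–Samuel functions: finiteness, base change, growth bounds, reductions
-/

set_option autoImplicit false

open scoped ENNReal NNReal TensorProduct
open IsLocalRing

namespace Crest.Agent.R183

theorem hsBasic_length_self_congr {R S : Type} [CommRing R] [CommRing S] (e : R ≃+* S) :
    Module.length R R = Module.length S S := by
  let _ : Algebra R S := e.toRingHom.toAlgebra
  rw [← Module.length_eq_of_surjective (S := R) (R := S) (M := S) e.surjective]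
  exact (AlgEquiv.ofRingEquiv (R := R) (f := e) fun _ => rfl).toLinearEquiv.length_eq

theorem hsBasic_length_quot_congr {R S : Type} [CommRing R] [CommRing S] (I : Ideal R)
    (J : Ideal S) (e : (R ⧸ I) ≃+* (S ⧸ J)) :
    Module.length R (R ⧸ I) = Module.length S (S ⧸ J) := by
  rw [Module.length_eq_of_surjective (S := R) (R := R ⧸ I) (M := R ⧸ I)
      Ideal.Quotient.mk_surjective,
    Module.length_eq_of_surjective (S := S) (R := S ⧸ J) (M := S ⧸ J)
      Ideal.Quotient.mk_surjective]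
  exact hsBasic_length_self_congr e

theorem hsBasic_length_residue (B : Type) [CommRing B] [IsLocalRing B] :
    Module.length B (B ⧸ maximalIdeal B) = 1 := by
  rw [Module.length_eq_one_iff, isSimpleModule_iff_quot_maximal]
  exact ⟨_, inferInstance, ⟨LinearEquiv.refl _ _⟩⟩

theorem hsBasic_smul_quot {B : Type} [CommRing B] {M : Type} [AddCommGroup M] [Module B M]
    {I : Ideal B} {a : B} (ha : a ∈ I) (x : M ⧸ (I • ⊤ : Submodule B M)) : a • x = 0 := by
  obtain ⟨x, rfl⟩ := Submodule.Quotient.mk_surjective _ x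
  rw [← Submodule.Quotient.mk_smul, Submodule.Quotient.mk_eq_zero]
  exact Submodule.smul_mem_smul ha Submodule.mem_top

theorem hsBasic_length_le {B : Type} [CommRing B] {V W : Type} [AddCommGroup V] [Module B V]
    [AddCommGroup W] [Module B W] (g : V →ₗ[B] W) (hg : Function.Surjective g) (I : Ideal B)
    (hI : ∀ a ∈ I, ∀ w : W, a • w = 0) :
    Module.length B W ≤ Module.length B (V ⧸ (I • ⊤ : Submodule B V)) := by
  have hle : (I • ⊤ : Submodule B V) ≤ LinearMap.ker g := by
    refine Submodule.smul_le.2 fun a ha v _ => ?_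
    rw [LinearMap.mem_ker, map_smul, hI a ha]
  refine Module.length_le_of_surjective (Submodule.liftQ _ g hle) fun w => ?_
  obtain ⟨v, rfl⟩ := hg w
  exact ⟨Submodule.Quotient.mk v, rfl⟩

theorem hs_ne_top (B : Type) [CommRing B] [IsLocalRing B] (hfg : (maximalIdeal B).FG) (N : ℕ) :
    HS B N ≠ ⊤ := by
  refine length_ne_top_of_pow (maximalIdeal B) hfg (B ⧸ maximalIdeal B ^ N) ⟨N, fun a ha x => ?_⟩
  obtain ⟨x, rfl⟩ := Ideal.Quotient.mk_surjective x
  change Ideal.Quotient.mk _ (a * x) = 0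
  exact Ideal.Quotient.eq_zero_iff_mem.2 (Ideal.mul_mem_right _ _ ha)

theorem hs_mono (B : Type) [CommRing B] [IsLocalRing B] : Monotone (HS B) := by
  intro N N' h
  have hle : maximalIdeal B ^ N' ≤ maximalIdeal B ^ N := Ideal.pow_le_pow_right h
  exact Module.length_le_of_surjective (Submodule.factor hle) (Submodule.factor_surjective hle)

theorem hs_congr {B B' : Type} [CommRing B] [IsLocalRing B] [CommRing B'] [IsLocalRing B']
    (e : B ≃+* B') : HS B = HS B' := by
  funext N
  have h : maximalIdeal B' ^ N = (maximalIdeal B ^ N).map (e : B →+* B') := by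
    rw [Ideal.map_pow, IsLocalRing.map_maximalIdeal_of_surjective (e : B →+* B') e.surjective]
  exact hsBasic_length_quot_congr _ _ (Ideal.quotientEquiv _ _ e h)

theorem hs_le_of_map_eq (B B' : Type) [CommRing B] [IsLocalRing B] [CommRing B'] [IsLocalRing B']
    [Algebra B B'] (h : (maximalIdeal B).map (algebraMap B B') = maximalIdeal B') (N : ℕ) :
    HS B' N ≤ HS B N := by
  by_cases hfin : HS B N = ⊤
  · rw [hfin]; exact le_top
  have h1 := (LF.length B').val_quot_map_le (maximalIdeal B) (maximalIdeal B ^ N) ⟨N, le_rfl⟩ hfin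
  rw [LF.length_val, LF.length_val, Ideal.map_pow, h, hsBasic_length_residue] at h1
  have h2 : ((HS B' N : ℕ∞) : ℝ≥0∞) ≤ ((HS B N : ℕ∞) : ℝ≥0∞) := by simpa [HS] using h1
  exact ENat.toENNReal_le.1 h2

theorem hs_eq_of_flat (B B' : Type) [CommRing B] [IsLocalRing B] [CommRing B'] [IsLocalRing B']
    [Algebra B B'] [Module.Flat B B']
    (h : (maximalIdeal B).map (algebraMap B B') = maximalIdeal B') (N : ℕ) :
    HS B' N = HS B N := by
  have : IsLocalHom (algebraMap B B') := ((IsLocalRing.local_hom_TFAE _).out 0 2).mpr h.le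
  have h1 := IsLocalRing.length_baseChange B B' (B ⧸ maximalIdeal B ^ N)
  rw [← (Algebra.TensorProduct.quotIdealMapEquivTensorQuot B'
    (maximalIdeal B ^ N)).toLinearEquiv.length_eq, Ideal.map_pow, h, hsBasic_length_residue,
    mul_one] at h1
  exact h1

/-- the Hilbert–Samuel function of the completion of a local ring with finitely generated maximal
ideal -/
theorem hs_adicCompletion (B : Type) [CommRing B] [IsLocalRing B] (hfg : (maximalIdeal B).FG)
    [IsLocalRing (AdicCompletion (maximalIdeal B) B)] (N : ℕ) :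
    HS (AdicCompletion (maximalIdeal B) B) N = HS B N := by
  have hker : RingHom.ker (AdicCompletion.evalₐ (maximalIdeal B) N).toRingHom =
      maximalIdeal (AdicCompletion (maximalIdeal B) B) ^ N := by
    have hm : maximalIdeal (AdicCompletion (maximalIdeal B) B) =
        (maximalIdeal B).map (algebraMap B (AdicCompletion (maximalIdeal B) B)) :=
      AdicCompletion.maximalIdeal_eq_map_of_fg hfg
    ext x
    rw [RingHom.mem_ker, hm, ← Ideal.map_pow, ← Submodule.restrictScalars_mem B,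
      ← Ideal.smul_top_eq_map, AdicCompletion.pow_smul_top_eq_ker_eval hfg, LinearMap.mem_ker]
    have e1 : maximalIdeal B ^ N ≤ maximalIdeal B ^ N • ⊤ := by simp
    have e2 : maximalIdeal B ^ N • ⊤ ≤ maximalIdeal B ^ N := by simp
    constructor
    · intro hx
      rw [← AdicCompletion.factor_evalₐ_eq_eval _ x e1]
      have hx' : AdicCompletion.evalₐ (maximalIdeal B) N x = 0 := hx
      rw [hx', map_zero]
    · intro hx
      change AdicCompletion.evalₐ (maximalIdeal B) N x = 0
      rw [← AdicCompletion.factor_eval_eq_evalₐ _ x e2, hx]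
      exact map_zero _
  exact hsBasic_length_quot_congr _ _ ((Ideal.quotEquivOfEq hker.symm).trans
    (RingHom.quotientKerEquivOfSurjective (AdicCompletion.surjective_evalₐ (maximalIdeal B) N)))

theorem psum_mono {H H' : ℕ → ℕ∞} (h : ∀ N, H N ≤ H' N) (k N : ℕ) :
    psum^[k] H N ≤ psum^[k] H' N := by
  induction k generalizing N with
  | zero => exact h N
  | succ k ih =>
    rw [Function.iterate_succ_apply', Function.iterate_succ_apply']
    exact Finset.sum_le_sum fun j _ => ih j

/-- an ideal of definition with at most `δ` generators -/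
theorem exists_sop (B : Type) [CommRing B] [IsLocalRing B] [IsNoetherianRing B] (δ : ℕ)
    (h : ringKrullDim B ≤ δ) :
    ∃ x : Fin δ → B, (∀ i, x i ∈ maximalIdeal B) ∧ ∃ c : ℕ, maximalIdeal B ^ c ≤ sp x := by
  classical
  obtain ⟨s, hs, hc⟩ := (maximalIdeal B).exists_finset_card_eq_height_of_isNoetherianRing
  have hcard : s.card ≤ δ := by
    rw [← IsLocalRing.maximalIdeal_height_eq_ringKrullDim, ← hc] at h
    exact_mod_cast h
  have hsm : ∀ a ∈ s, a ∈ maximalIdeal B := fun a ha => hs.1.2 (Ideal.subset_span ha)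
  refine ⟨fun i => if hi : (i : ℕ) < s.card then (s.equivFin.symm ⟨i, hi⟩ : B) else 0, ?_, ?_⟩
  · intro i
    dsimp only
    split_ifs with hi
    · exact hsm _ (s.equivFin.symm ⟨i, hi⟩).2
    · exact zero_mem _
  · have hrad : maximalIdeal B ≤ (Ideal.span (s : Set B)).radical := by
      rw [Ideal.radical_eq_sInf]
      refine le_sInf fun J hJ => ?_
      exact hs.2 ⟨hJ.2, hJ.1⟩ (le_maximalIdeal hJ.2.ne_top)
    obtain ⟨c, hc'⟩ := Ideal.exists_pow_le_of_le_radical_of_fg hrad
      (IsNoetherian.noetherian (maximalIdeal B))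
    refine ⟨c, hc'.trans (Ideal.span_mono fun a ha => ?_)⟩
    refine ⟨⟨s.equivFin ⟨a, ha⟩, lt_of_lt_of_le (s.equivFin ⟨a, ha⟩).2 hcard⟩, ?_⟩
    simp

theorem ringKrullDim_le_of_sop (B : Type) [CommRing B] [IsLocalRing B] [IsNoetherianRing B]
    {δ : ℕ} (x : Fin δ → B) (hx : ∀ i, x i ∈ maximalIdeal B) {c : ℕ}
    (h : maximalIdeal B ^ c ≤ sp x) : ringKrullDim B ≤ δ := by
  have hmin : maximalIdeal B ∈ (Ideal.span (Set.range x)).minimalPrimes := by
    refine ⟨⟨inferInstance, Ideal.span_le.2 ?_⟩, fun q hq _ => ?_⟩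
    · rintro _ ⟨i, rfl⟩
      exact hx i
    · have := hq.1
      exact Ideal.IsPrime.le_of_pow_le (h.trans hq.2)
  have h1 := Ideal.height_le_card_of_mem_minimalPrimes_span (Set.finite_range x) hmin
  have h2 : (Set.range x).ncard ≤ δ := by
    rw [← Set.image_univ]
    exact (Set.ncard_image_le Set.finite_univ).trans (by simp [Set.ncard_univ])
  rw [← IsLocalRing.maximalIdeal_height_eq_ringKrullDim]
  have h3 : (maximalIdeal B).height ≤ (δ : ℕ∞) := h1.trans (by exact_mod_cast h2)
  exact_mod_cast h3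

/-- growth bound: `ℓ(M / (J + m^N) M) = O(N^δ)` if `dim B / J ≤ δ` -/
theorem growth_le (B : Type) [CommRing B] [IsLocalRing B] [IsNoetherianRing B] (J : Ideal B)
    (δ : ℕ) (h : ringKrullDim (B ⧸ J) ≤ δ) (M : Type) [AddCommGroup M] [Module B M]
    [Module.Finite B M] : ∃ C : ℕ, ∀ N : ℕ,
      Module.length B (M ⧸ ((J ⊔ maximalIdeal B ^ N) • ⊤ : Submodule B M)) ≤
        (C * (N + 1) ^ δ : ℕ) := by
  classical
  by_cases hJ : J = ⊤
  · refine ⟨0, fun N => ?_⟩
    have : Subsingleton (M ⧸ ((J ⊔ maximalIdeal B ^ N) • ⊤ : Submodule B M)) := by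
      rw [Submodule.Quotient.subsingleton_iff, hJ]
      simp
    simp
  have : Nontrivial (B ⧸ J) := Ideal.Quotient.nontrivial_iff.2 hJ
  have : IsLocalRing (B ⧸ J) :=
    IsLocalRing.of_surjective' (Ideal.Quotient.mk J) Ideal.Quotient.mk_surjective
  have hmap : (maximalIdeal B).map (Ideal.Quotient.mk J) = maximalIdeal (B ⧸ J) :=
    IsLocalRing.map_maximalIdeal_of_surjective _ Ideal.Quotient.mk_surjective
  obtain ⟨y, hy, c, hc⟩ := exists_sop (B ⧸ J) δ h
  have hx : ∀ i, ∃ a ∈ maximalIdeal B, Ideal.Quotient.mk J a = y i := fun i =>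
    (Ideal.mem_map_iff_of_surjective _ Ideal.Quotient.mk_surjective).1 (hmap ▸ hy i)
  choose x hxm hxy using hx
  have hc' : maximalIdeal B ^ c ≤ sp x ⊔ J := by
    have h1 : (maximalIdeal B ^ c).map (Ideal.Quotient.mk J) ≤
        (sp x).map (Ideal.Quotient.mk J) := by
      rw [Ideal.map_pow, hmap, sp_map]
      simpa only [hxy] using hc
    have h2 := Ideal.map_le_iff_le_comap.1 h1
    rwa [Ideal.comap_map_of_surjective _ Ideal.Quotient.mk_surjective, ← RingHom.ker_eq_comap_bot,
      Ideal.mk_ker] at h2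
  have hfin : Module.length B ((M ⧸ (J • ⊤ : Submodule B M)) ⧸
      (sp x • ⊤ : Submodule B (M ⧸ (J • ⊤ : Submodule B M)))) ≠ ⊤ := by
    refine length_ne_top_of_pow (maximalIdeal B) (IsNoetherian.noetherian _) _
      ⟨c, fun a ha v => ?_⟩
    obtain ⟨a₁, h₁, a₂, h₂, rfl⟩ := Submodule.mem_sup.1 (hc' ha)
    rw [add_smul, hsBasic_smul_quot h₁, zero_add]
    obtain ⟨v, rfl⟩ := Submodule.Quotient.mk_surjective _ v
    rw [← Submodule.Quotient.mk_smul, hsBasic_smul_quot h₂, Submodule.Quotient.mk_zero]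
  obtain ⟨C, hC⟩ := ENat.ne_top_iff_exists.1 hfin
  refine ⟨C, fun N => ?_⟩
  have hle : (J • ⊤ : Submodule B M) ≤ (J ⊔ maximalIdeal B ^ N) • ⊤ :=
    Submodule.smul_mono_left le_sup_left
  have hI : sp (fun i => x i ^ N) ≤ J ⊔ maximalIdeal B ^ N := by
    refine le_sup_of_le_right (Ideal.span_le.2 ?_)
    rintro _ ⟨i, rfl⟩
    exact Ideal.pow_mem_pow (hxm i) N
  refine (hsBasic_length_le (Submodule.factor hle) (Submodule.factor_surjective hle)
    (sp fun i => x i ^ N) fun a ha w => hsBasic_smul_quot (hI ha) w).trans ?_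
  have h3 := val_monI_le (V := M ⧸ (J • ⊤ : Submodule B M)) (LF.length B) x
    (isUpperSet_boxGE fun _ : Fin δ => N) (finite_compl_boxGE _)
  rw [LF.length_val, LF.length_val, monI_boxGE, ncard_compl_boxGE, ← hC] at h3
  rw [← ENat.toENNReal_le]
  refine h3.trans ?_
  simp only [Finset.prod_const, Finset.card_univ, Fintype.card_fin, ENat.toENNReal_coe]
  have h4 : N ^ δ * C ≤ C * (N + 1) ^ δ := by
    rw [mul_comm]
    exact Nat.mul_le_mul_left _ (Nat.pow_le_pow_left (Nat.le_succ N) δ)
  exact_mod_cast h4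

theorem hs_growth_le (B : Type) [CommRing B] [IsLocalRing B] [IsNoetherianRing B] (δ : ℕ)
    (h : ringKrullDim B ≤ δ) : ∃ C : ℕ, ∀ N : ℕ, HS B N ≤ (C * (N + 1) ^ δ : ℕ) := by
  obtain ⟨C, hC⟩ := growth_le B ⊥ δ ((ringKrullDim_quotient_le ⊥).trans h) B
  refine ⟨C, fun N => ?_⟩
  have h1 : ((⊥ ⊔ maximalIdeal B ^ N) • ⊤ : Submodule B B) = maximalIdeal B ^ N := by simp
  have h2 := hC N
  rw [h1] at h2
  exact h2

/-- dividing a domain of dimension `≤ δ + 1` by a nonzero element -/
theorem ringKrullDim_quot_le (B : Type) [CommRing B] [IsDomain B] (δ : ℕ)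
    (h : ringKrullDim B ≤ (δ + 1 : ℕ)) (J : Ideal B) (hJ : J ≠ ⊥) :
    ringKrullDim (B ⧸ J) ≤ δ := by
  obtain ⟨r, hr, hr0⟩ := Submodule.exists_mem_ne_zero_of_ne_bot hJ
  have h1 := ringKrullDim_succ_le_of_surjective (Ideal.Quotient.mk J) Ideal.Quotient.mk_surjective
    (mem_nonZeroDivisors_of_ne_zero hr0) (Ideal.Quotient.eq_zero_iff_mem.2 hr)
  have h2 := h1.trans h
  rw [Nat.cast_add, Nat.cast_one] at h2
  exact ENat.WithBot.add_le_add_one_right_iff.1 h2

theorem ringKrullDim_le_of_isIntegral (A B : Type) [CommRing A] [CommRing B] [Algebra A B]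
    [Algebra.IsIntegral A B] :
    ringKrullDim B ≤ ringKrullDim (A ⧸ RingHom.ker (algebraMap A B)) := by
  let _ : Algebra (A ⧸ RingHom.ker (algebraMap A B)) B :=
    (RingHom.kerLift (algebraMap A B)).toAlgebra
  have : IsScalarTower A (A ⧸ RingHom.ker (algebraMap A B)) B :=
    IsScalarTower.of_algebraMap_eq fun a => (RingHom.kerLift_mk (algebraMap A B) a).symm
  have : Algebra.IsIntegral (A ⧸ RingHom.ker (algebraMap A B)) B :=
    Algebra.IsIntegral.tower_top A
  refine Order.krullDim_le_of_strictMono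
    (PrimeSpectrum.comap (algebraMap (A ⧸ RingHom.ker (algebraMap A B)) B)) fun p q hpq => ?_
  exact Ideal.IsIntegral.comap_lt_comap (I := p.asIdeal) (J := q.asIdeal) hpq

theorem IsRed.pow_le {B : Type} [CommRing B] {ι : Type} {x : ι → B} {I : Ideal B}
    (h : IsRed x I) : ∃ r : ℕ, ∀ N : ℕ, I ^ (N + r) ≤ sp x ^ N := by
  obtain ⟨-, r, hr⟩ := h
  have key : ∀ N : ℕ, I ^ (N + r) ≤ sp x ^ N * I ^ r := by
    intro N
    induction N with
    | zero => simp
    | succ N ih =>
      calc I ^ (N + 1 + r) = I * I ^ (N + r) := by ring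
        _ ≤ I * (sp x ^ N * I ^ r) := Ideal.mul_mono_right ih
        _ = sp x ^ N * I ^ (r + 1) := by ring
        _ ≤ sp x ^ N * (sp x * I ^ r) := Ideal.mul_mono_right hr
        _ = sp x ^ (N + 1) * I ^ r := by ring
  exact ⟨r, fun N => (key N).trans Ideal.mul_le_left⟩

theorem IsRed.map {B B' : Type} [CommRing B] [CommRing B'] (φ : B →+* B') {ι : Type}
    {x : ι → B} {I : Ideal B} (h : IsRed x I) : IsRed (fun i => φ (x i)) (I.map φ) := by
  obtain ⟨hx, r, hr⟩ := h
  refine ⟨fun i => Ideal.mem_map_of_mem φ (hx i), r, ?_⟩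
  rw [← sp_map, ← Ideal.map_pow, ← Ideal.map_pow, ← Ideal.map_mul]
  exact Ideal.map_mono hr

theorem bn_pos {d N : ℕ} (hN : 0 < N) : 0 < Bn d N := by
  exact Nat.choose_pos (by omega)

theorem bn_mono (d : ℕ) : Monotone (Bn d) := by
  intro N N' h
  exact Nat.choose_le_choose d (by omega)

/-- `d! Bn d N / N^d → 1` -/
theorem tendsto_bn (d : ℕ) :
    Filter.Tendsto (fun N : ℕ => (d.factorial : ℝ) * Bn d N / (N : ℝ) ^ d) Filter.atTop
      (nhds 1) := by
  have h1 : ∀ N : ℕ, (d.factorial : ℝ) * Bn d N = N.ascFactorial d := by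
    intro N
    rw [Nat.ascFactorial_eq_factorial_mul_choose', Bn]
    push_cast
    rfl
  simp only [h1]
  clear h1
  induction d with
  | zero => simp
  | succ d ih =>
    have h2 : Filter.Tendsto (fun N : ℕ => ((N : ℝ) + d) / N) Filter.atTop (nhds 1) := by
      have h3 := (tendsto_const_div_atTop_nhds_zero_nat (d : ℝ)).const_add 1
      rw [add_zero] at h3
      refine h3.congr' ?_
      filter_upwards [Filter.eventually_gt_atTop 0] with N hN
      have : (N : ℝ) ≠ 0 := by positivity
      field_simp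
    have h4 := h2.mul ih
    rw [mul_one] at h4
    refine h4.congr fun N => ?_
    rw [Nat.ascFactorial_succ, pow_succ', div_mul_div_comm]
    push_cast
    rfl

theorem hsBasic_tendsto_lin (q c : ℕ) :
    Filter.Tendsto (fun N : ℕ => ((q * N + c : ℕ) : ℝ) / N) Filter.atTop (nhds (q : ℝ)) := by
  have h3 := (tendsto_const_div_atTop_nhds_zero_nat (c : ℝ)).const_add (q : ℝ)
  rw [add_zero] at h3
  refine h3.congr' ?_
  filter_upwards [Filter.eventually_gt_atTop 0] with N hN
  have : (N : ℝ) ≠ 0 := by positivity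
  push_cast
  field_simp

/-- `Bn d (q N + c) / Bn d N → q^d` -/
theorem tendsto_bn_div (d q c : ℕ) (hq : 0 < q) :
    Filter.Tendsto (fun N : ℕ => (Bn d (q * N + c) : ℝ) / Bn d N) Filter.atTop
      (nhds ((q : ℝ) ^ d)) := by
  have hφ : Filter.Tendsto (fun N : ℕ => q * N + c) Filter.atTop Filter.atTop :=
    Filter.tendsto_atTop_mono (fun N => (Nat.le_mul_of_pos_left N hq).trans (Nat.le_add_right _ c))
      Filter.tendsto_id
  have h1 := (tendsto_bn d).comp hφ
  have h2 := hsBasic_tendsto_lin q c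
  have h3 := (h1.mul (h2.pow d)).div (tendsto_bn d) one_ne_zero
  rw [one_mul, div_one] at h3
  refine h3.congr' ?_
  filter_upwards [Filter.eventually_gt_atTop 0] with N hN
  have hN' : (N : ℝ) ≠ 0 := by positivity
  have hB : (Bn d N : ℝ) ≠ 0 := by exact_mod_cast (bn_pos hN).ne'
  have hf : (d.factorial : ℝ) ≠ 0 := by positivity
  have hqN : ((q * N + c : ℕ) : ℝ) ≠ 0 := by positivity
  simp only [Pi.div_apply, Function.comp_apply, div_pow]
  field_simp

/-- lower order terms -/
theorem tendsto_err (e C a c : ℕ) :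
    Filter.Tendsto (fun N : ℕ => ((C * (a * N + c + 1) ^ e : ℕ) : ℝ) / Bn (e + 1) N)
      Filter.atTop (nhds 0) := by
  have h2 := hsBasic_tendsto_lin a (c + 1)
  have h3 := ((((h2.pow e).const_mul (C * ((e + 1).factorial : ℝ))).mul
    tendsto_inv_atTop_nhds_zero_nat).div (tendsto_bn (e + 1)) one_ne_zero)
  rw [mul_zero, zero_div] at h3
  refine h3.congr' ?_
  filter_upwards [Filter.eventually_gt_atTop 0] with N hN
  have hN' : (N : ℝ) ≠ 0 := by positivity
  have hB : (Bn (e + 1) N : ℝ) ≠ 0 := by exact_mod_cast (bn_pos hN).ne'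
  have hf : ((e + 1).factorial : ℝ) ≠ 0 := by positivity
  simp only [Pi.div_apply, div_pow]
  push_cast
  field_simp
  ring

end Crest.Agent.R183
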