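import Crest.Agent.R183.TopDefs
import Crest.Agent.R183.HSBasic

/-!
# Normalized upper and lower limits
-/

set_option autoImplicit false

open scoped ENNReal NNReal
open Filter

namespace Crest.Agent.R183

variable {d : ℕ} {a b : ℕ → ℝ≥0∞}

theorem asym_limsup_add_le (u v : ℕ → ℝ≥0∞) :
    limsup (fun N => u N + v N) atTop ≤ limsup u atTop + limsup v atTop := by
  rw [limsup_eq_iInf_iSup_of_nat (u := v), ENNReal.add_iInf]
  refine le_iInf fun n => ?_
  rw [← limsup_add_const atTop u _ (by isBoundedDefault) (by isBoundedDefault)]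
  refine limsup_le_limsup ?_
  filter_upwards [eventually_ge_atTop n] with i hi
  exact add_le_add le_rfl (le_iSup₂ (f := fun i (_ : i ≥ n) => v i) i hi)

theorem asym_liminf_add_le (u v : ℕ → ℝ≥0∞) :
    liminf (fun N => u N + v N) atTop ≤ liminf u atTop + limsup v atTop := by
  rw [limsup_eq_iInf_iSup_of_nat (u := v), ENNReal.add_iInf]
  refine le_iInf fun n => ?_
  rw [← liminf_add_const atTop u _ (by isBoundedDefault) (by isBoundedDefault)]
  refine liminf_le_liminf ?_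
  filter_upwards [eventually_ge_atTop n] with i hi
  exact add_le_add le_rfl (le_iSup₂ (f := fun i (_ : i ≥ n) => v i) i hi)

theorem asym_le_liminf_add (u v : ℕ → ℝ≥0∞) :
    liminf u atTop + liminf v atTop ≤ liminf (fun N => u N + v N) atTop := by
  rw [liminf_eq_iSup_iInf_of_nat (u := v), ENNReal.add_iSup]
  refine iSup_le fun n => ?_
  rw [← liminf_add_const atTop u _ (by isBoundedDefault) (by isBoundedDefault)]
  refine liminf_le_liminf ?_
  filter_upwards [eventually_ge_atTop n] with i hi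
  exact add_le_add le_rfl (iInf₂_le (f := fun i (_ : i ≥ n) => v i) i hi)

theorem asym_tendsto_div {x y : ℕ → ℕ} {r : ℝ} (hy : ∀ N, 0 < N → 0 < y N)
    (h : Tendsto (fun N => (x N : ℝ) / y N) atTop (nhds r)) :
    Tendsto (fun N => (x N : ℝ≥0∞) / y N) atTop (nhds (ENNReal.ofReal r)) := by
  refine (ENNReal.tendsto_ofReal h).congr' ?_
  filter_upwards [eventually_gt_atTop 0] with N hN
  rw [ENNReal.ofReal_div_of_pos (by exact_mod_cast hy N hN), ENNReal.ofReal_natCast,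
    ENNReal.ofReal_natCast]

theorem asym_tendsto_bn (d : ℕ) {q : ℕ} (hq : 0 < q) (c : ℕ) :
    Tendsto (fun N => (Bn d (q * N + c) : ℝ≥0∞) / Bn d N) atTop (nhds ((q : ℝ≥0∞) ^ d)) := by
  have := asym_tendsto_div (fun _ => bn_pos) (tendsto_bn_div d q c hq)
  rwa [ENNReal.ofReal_pow (Nat.cast_nonneg q), ENNReal.ofReal_natCast] at this

theorem asym_split (d : ℕ) (a : ℕ → ℝ≥0∞) {φ : ℕ → ℕ} (hφ : ∀ N, N ≤ φ N) :
    (fun N => a (φ N) / Bn d N) =ᶠ[atTop]
      (fun N => (Bn d (φ N) : ℝ≥0∞) / Bn d N) * fun N => a (φ N) / Bn d (φ N) := by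
  filter_upwards [eventually_gt_atTop 0] with N hN
  have h1 : (Bn d (φ N) : ℝ≥0∞) ≠ 0 := by exact_mod_cast (bn_pos (hN.trans_le (hφ N))).ne'
  rw [Pi.mul_apply, mul_comm, div_eq_mul_inv (Bn d (φ N) : ℝ≥0∞), ← mul_assoc,
    ENNReal.div_mul_cancel h1 (ENNReal.natCast_ne_top _), div_eq_mul_inv]

theorem asym_ne_top (h : lsup d a = 0) : ∀ᶠ N in atTop, a N ≠ ⊤ := by
  filter_upwards [eventually_lt_of_limsup_lt (h.trans_lt ENNReal.zero_lt_top)] with N hN h1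
  rw [h1, ENNReal.top_div_of_ne_top (ENNReal.natCast_ne_top _)] at hN
  exact hN.false

theorem asym_ex {x : ℝ≥0∞} (h : x ≠ ⊤) : ∃ u : ℝ≥0, (u : ℝ≥0∞) = x := ⟨_, ENNReal.coe_toNNReal h⟩

theorem asym_core {Q b b' Δ ρ k ν u1 u2 u3 e v1 v2 : ℝ≥0} (hb : 0 < b) (hb' : 0 < b') (hΔ : 0 < Δ)
    (hν : ρ * Δ ≤ ρ * ν + k) (h2 : ν * u1 ≤ u2 + e)
    (h : Q * b * ((v1 / Δ - v2) / b') ≤ u1 + u3 - u2 / Δ) :
    Q * ρ / b' * v1 ≤ (k * u1 + (ρ * Δ * u3 + ρ * e)) / b + Q * ρ * Δ * v2 / b' := by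
  have h3 : v1 ≤ (v1 / Δ - v2 + v2) * Δ := (div_le_iff₀ hΔ).1 le_tsub_add
  have h4 : ρ * Δ * (u1 + u3 - u2 / Δ) ≤ k * u1 + (ρ * Δ * u3 + ρ * e) := by
    rw [mul_tsub, tsub_le_iff_right, mul_assoc ρ Δ (u2 / Δ), mul_div_cancel₀ _ hΔ.ne']
    calc ρ * Δ * (u1 + u3) = ρ * Δ * u1 + ρ * Δ * u3 := by ring
      _ ≤ (ρ * ν + k) * u1 + ρ * Δ * u3 := by gcongr
      _ = ρ * (ν * u1) + k * u1 + ρ * Δ * u3 := by ring
      _ ≤ ρ * (u2 + e) + k * u1 + ρ * Δ * u3 := by gcongr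
      _ = _ := by ring
  calc Q * ρ / b' * v1 ≤ Q * ρ / b' * ((v1 / Δ - v2 + v2) * Δ) := by gcongr
    _ = ρ * Δ * (Q * b * ((v1 / Δ - v2) / b')) / b + Q * ρ * Δ * v2 / b' := by field_simp
    _ ≤ ρ * Δ * (u1 + u3 - u2 / Δ) / b + Q * ρ * Δ * v2 / b' := by gcongr
    _ ≤ _ := by gcongr

theorem lsup_mono (h : ∀ᶠ N in atTop, a N ≤ b N) : lsup d a ≤ lsup d b := by
  exact limsup_le_limsup (h.mono fun N hN => ENNReal.div_le_div_right hN _)

theorem linf_mono (h : ∀ᶠ N in atTop, a N ≤ b N) : linf d a ≤ linf d b := by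
  exact liminf_le_liminf (h.mono fun N hN => ENNReal.div_le_div_right hN _)

theorem linf_le_lsup (d : ℕ) (a : ℕ → ℝ≥0∞) : linf d a ≤ lsup d a := by
  exact liminf_le_limsup

theorem lsup_zero (d : ℕ) : lsup d (fun _ => 0) = 0 := by
  simp [lsup]

theorem lsup_add_le (d : ℕ) (a b : ℕ → ℝ≥0∞) :
    lsup d (fun N => a N + b N) ≤ lsup d a + lsup d b := by
  simpa only [lsup, ENNReal.add_div] using asym_limsup_add_le _ _

theorem le_linf_add (d : ℕ) (a b : ℕ → ℝ≥0∞) :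
    linf d a + linf d b ≤ linf d (fun N => a N + b N) := by
  simpa only [linf, ENNReal.add_div] using asym_le_liminf_add _ _

theorem linf_add_le (d : ℕ) (a b : ℕ → ℝ≥0∞) :
    linf d (fun N => a N + b N) ≤ linf d a + lsup d b := by
  simpa only [linf, lsup, ENNReal.add_div] using asym_liminf_add_le _ _

theorem lsup_const_mul (d : ℕ) (a : ℕ → ℝ≥0∞) {c : ℝ≥0∞} (hc : c ≠ ⊤) :
    lsup d (fun N => c * a N) = c * lsup d a := by
  simpa only [lsup, mul_div_assoc] using ENNReal.limsup_const_mul_of_ne_top hc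

theorem linf_const_mul (d : ℕ) (a : ℕ → ℝ≥0∞) {c : ℝ≥0∞} (hc : c ≠ ⊤) :
    linf d (fun N => c * a N) = c * linf d a := by
  simpa only [linf, mul_div_assoc] using ENNReal.liminf_const_mul_of_ne_top hc

/-- error terms -/
theorem lsup_err {e : ℕ} {f : ℕ → ℝ≥0∞} (C a c : ℕ) {u : ℝ≥0∞} (hu : u ≠ ⊤)
    (h : ∀ N, f N ≤ ((C * (a * N + c + 1) ^ e : ℕ) : ℝ≥0∞) * u) : lsup (e + 1) f = 0 := by
  have h1 := asym_tendsto_div (fun _ => bn_pos) (tendsto_err e C a c)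
  rw [ENNReal.ofReal_zero] at h1
  refine le_antisymm ((lsup_mono (Eventually.of_forall fun N => (h N).trans_eq
    (mul_comm _ _))).trans_eq ?_) zero_le
  rw [lsup_const_mul _ _ hu, lsup, h1.limsup_eq, mul_zero]

theorem lsup_le_of_le_add {err : ℕ → ℝ≥0∞} (h : ∀ᶠ N in atTop, a N ≤ b N + err N)
    (herr : lsup d err = 0) : lsup d a ≤ lsup d b := by
  exact (lsup_mono h).trans ((lsup_add_le d b err).trans_eq (by rw [herr, add_zero]))

theorem linf_le_of_le_add {err : ℕ → ℝ≥0∞} (h : ∀ᶠ N in atTop, a N ≤ b N + err N)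
    (herr : lsup d err = 0) : linf d a ≤ linf d b := by
  exact (linf_mono h).trans ((linf_add_le d b err).trans_eq (by rw [herr, add_zero]))

theorem lsup_comp_le (d : ℕ) (a : ℕ → ℝ≥0∞) {q : ℕ} (hq : 0 < q) (c : ℕ) :
    lsup d (fun N => a (q * N + c)) ≤ (q : ℝ≥0∞) ^ d * lsup d a := by
  have hφ : ∀ N, N ≤ q * N + c := fun N => (Nat.le_mul_of_pos_left N hq).trans (Nat.le_add_right _ c)
  have h1 := (asym_tendsto_bn d hq c).limsup_eq
  rw [lsup, limsup_congr (asym_split d a hφ)]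
  refine (ENNReal.limsup_mul_le' (Or.inl ?_) (Or.inl ?_)).trans ?_
  · rw [h1]
    exact pow_ne_zero _ (by exact_mod_cast hq.ne')
  · rw [h1]
    exact ENNReal.pow_ne_top (ENNReal.natCast_ne_top _)
  · rw [h1]
    exact mul_le_mul_right ((tendsto_atTop_mono hφ tendsto_id).limsup_comp_le_limsup
      (u := fun N => a N / Bn d N)) _

theorem lsup_shift (d : ℕ) (a : ℕ → ℝ≥0∞) (c : ℕ) :
    lsup d (fun N => a (N + c)) = lsup d a := by
  have h0 := asym_tendsto_bn d one_pos c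
  simp only [one_mul, Nat.cast_one, one_pow] at h0
  have h1 : limsup (fun N => a (N + c) / Bn d (N + c)) atTop = lsup d a :=
    limsup_nat_add (fun N => a N / Bn d N) c
  rw [lsup, limsup_congr (asym_split d a fun N => Nat.le_add_right N c), ← h1]
  refine le_antisymm ((ENNReal.limsup_mul_le' (Or.inl ?_) (Or.inl ?_)).trans_eq ?_) ?_
  · simp [h0.limsup_eq]
  · simp [h0.limsup_eq]
  · rw [h0.limsup_eq, one_mul]
  · rw [mul_comm]
    exact le_trans (by rw [h0.liminf_eq, mul_one]) ENNReal.le_limsup_mul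

theorem linf_shift (d : ℕ) (a : ℕ → ℝ≥0∞) (c : ℕ) :
    linf d (fun N => a (N + c)) = linf d a := by
  have h0 := asym_tendsto_bn d one_pos c
  simp only [one_mul, Nat.cast_one, one_pow] at h0
  have h1 : liminf (fun N => a (N + c) / Bn d (N + c)) atTop = linf d a :=
    liminf_nat_add (fun N => a N / Bn d N) c
  rw [linf, liminf_congr (asym_split d a fun N => Nat.le_add_right N c), ← h1]
  refine le_antisymm ((ENNReal.liminf_mul_le (Or.inl ?_) (Or.inl ?_)).trans_eq ?_) ?_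
  · simp [h0.limsup_eq]
  · simp [h0.limsup_eq]
  · rw [h0.limsup_eq, one_mul]
  · exact le_trans (by rw [h0.liminf_eq, one_mul]) ENNReal.le_liminf_mul

theorem le_of_forall_pow_mul_le (d t : ℕ) {α β : ℝ≥0∞}
    (h : ∀ q' : ℕ, 1 ≤ q' → (q' : ℝ≥0∞) ^ d * α ≤ ((q' + t : ℕ) : ℝ≥0∞) ^ d * β) : α ≤ β := by
  have h0 := asym_tendsto_div (x := fun N => (1 * N + t) ^ d) (y := fun N => N ^ d) (r := 1)
    (fun N hN => pow_pos hN d) (by
      simpa only [Nat.cast_one, one_pow, div_pow, Nat.cast_pow] using (hsBasic_tendsto_lin 1 t).pow d)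
  have h1 := ENNReal.Tendsto.mul_const (b := β) h0 (Or.inl (by simp))
  rw [ENNReal.ofReal_one, one_mul] at h1
  refine ge_of_tendsto h1 ?_
  filter_upwards [eventually_ge_atTop 1] with N hN
  have h2 : (N : ℝ≥0∞) ^ d ≠ 0 := pow_ne_zero _ (by exact_mod_cast (by omega : N ≠ 0))
  rw [one_mul, Nat.cast_pow, Nat.cast_pow, ENNReal.mul_comm_div, ← mul_div_assoc,
    ENNReal.le_div_iff_mul_le (Or.inl h2) (Or.inl (ENNReal.pow_ne_top (ENNReal.natCast_ne_top _))),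
    mul_comm]
  exact h N hN

/-- dimension zero -/
theorem lsup_zero_le_linf_zero (hb : Monotone b) (h : ∀ N, ∃ N', a N ≤ b N') :
    lsup 0 a ≤ linf 0 b := by
  simp only [lsup, linf, Bn, Nat.choose_zero_right, Nat.cast_one, div_one]
  refine limsup_le_of_le (h := Eventually.of_forall fun N => ?_)
  obtain ⟨N', h1⟩ := h N
  exact le_liminf_of_le (h := (eventually_ge_atTop N').mono fun M hM => h1.trans (hb hM))

/-- The limit of the window inequalities. -/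
theorem asym_final {d Q Δ ρ k ν : ℕ} (hΔ : 0 < Δ) (hρ : 0 < ρ) (hν : ρ * Δ ≤ ρ * ν + k)
    {U1 U2 U3 V1 V2 err : ℕ → ℝ≥0∞} (hU1 : ∀ N, U1 N ≠ ⊤) (hU3 : lsup d U3 = 0)
    (hV2 : lsup d V2 = 0) (herr : lsup d err = 0) (hU2 : ∀ N, ν * U1 N ≤ U2 N + err N)
    (h : ∀ N N' : ℕ, 0 < N' → ∀ u1 u2 u3 v1 v2 : ℝ≥0, U1 N ≤ u1 → U3 N ≤ u3 →
      (u2 : ℝ≥0∞) ≤ U2 N → (v1 : ℝ≥0∞) ≤ V1 N' → V2 N' ≤ v2 →
      (Q : ℝ≥0) * Bn d N * ((v1 / Δ - v2) / Bn d N') ≤ u1 + u3 - u2 / Δ) :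
    (Q : ℝ≥0∞) * ρ * lsup d V1 ≤ k * linf d U1 := by
  have hc : ∀ x y : ℕ, (x : ℝ≥0∞) * y ≠ ⊤ := fun x y =>
    ENNReal.mul_ne_top (ENNReal.natCast_ne_top _) (ENNReal.natCast_ne_top _)
  have key : ∀ᶠ N in atTop, (Q : ℝ≥0∞) * ρ * lsup d V1 ≤
      (k * U1 N + (ρ * Δ * U3 N + ρ * err N)) / Bn d N := by
    filter_upwards [eventually_gt_atTop 0, asym_ne_top hU3, asym_ne_top herr] with N hN h3 he
    have h4 : ∀ᶠ N' in atTop, Q * ρ * V1 N' / Bn d N' ≤
        (k * U1 N + (ρ * Δ * U3 N + ρ * err N)) / Bn d N + Q * ρ * Δ * V2 N' / Bn d N' := by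
      filter_upwards [eventually_gt_atTop 0, asym_ne_top hV2] with N' hN' h5
      have hm : min (U2 N) (ν * U1 N) ≠ ⊤ :=
        ne_top_of_le_ne_top (ENNReal.mul_ne_top (ENNReal.natCast_ne_top _) (hU1 N)) (min_le_right _ _)
      obtain ⟨u1, e1⟩ := asym_ex (hU1 N)
      obtain ⟨u2, e2⟩ := asym_ex hm
      obtain ⟨u3, e3⟩ := asym_ex h3
      obtain ⟨e, e4⟩ := asym_ex he
      obtain ⟨v2, e5⟩ := asym_ex h5
      have h6 : (ν : ℝ≥0) * u1 ≤ u2 + e := by
        rw [← ENNReal.coe_le_coe]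
        push_cast
        rw [e1, e2, e4, ← min_add_add_right]
        exact le_min (hU2 N) le_self_add
      have b1 : (0 : ℝ≥0) < Bn d N := by exact_mod_cast bn_pos hN
      have b2 : (0 : ℝ≥0) < Bn d N' := by exact_mod_cast bn_pos hN'
      rw [ENNReal.mul_div_right_comm]
      refine ENNReal.mul_le_of_forall_lt fun x hx y hy => ?_
      lift y to ℝ≥0 using hy.ne_top
      have h7 := asym_core (ρ := ρ) (k := k) b1 b2 (by exact_mod_cast hΔ) (by exact_mod_cast hν) h6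
        (h N N' hN' u1 u2 u3 y v2 e1.ge e3.ge (e2.le.trans (min_le_left _ _)) hy.le e5.ge)
      rw [← ENNReal.coe_le_coe] at h7
      push_cast [ENNReal.coe_div b1.ne', ENNReal.coe_div b2.ne'] at h7
      rw [e1, e3, e4, e5] at h7
      exact (mul_le_mul_left hx.le _).trans h7
    rw [← lsup_const_mul _ _ (hc _ _)]
    refine (limsup_le_limsup h4).trans ((asym_limsup_add_le _ _).trans_eq ?_)
    have h5 := lsup_const_mul d V2 (ENNReal.mul_ne_top (hc Q ρ) (ENNReal.natCast_ne_top Δ))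
    rw [hV2, mul_zero, lsup] at h5
    rw [h5, add_zero, limsup_const]
  refine (le_liminf_of_le (h := key)).trans ((linf_add_le d _ _).trans ?_)
  rw [linf_const_mul _ _ (ENNReal.natCast_ne_top _)]
  refine (add_le_add le_rfl (lsup_add_le d _ _)).trans_eq ?_
  rw [lsup_const_mul _ _ (hc _ _), lsup_const_mul _ _ (ENNReal.natCast_ne_top _), hU3, herr,
    mul_zero, mul_zero, add_zero, add_zero]

/-- translation to the real form -/
theorem low_of_lsup_le_linf {a b : ℕ → ℕ∞} (ha : ∀ N, a N ≠ ⊤) (hb : ∀ N, b N ≠ ⊤)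
    (h : lsup d (fun N => (a N : ℝ≥0∞)) ≤ linf d (fun N => (b N : ℝ≥0∞))) (e : ℝ)
    (he : ∀ ε > 0, ∀ᶠ N in atTop, (e - ε) * Bn d N ≤ ((a N).toNat : ℝ)) :
    ∀ ε > 0, ∀ᶠ N in atTop, (e - ε) * Bn d N ≤ ((b N).toNat : ℝ) := by
  intro ε hε
  have hcast : ∀ x : ℕ∞, x ≠ ⊤ → (x : ℝ≥0∞) = ENNReal.ofReal (x.toNat : ℝ) := by
    intro x hx
    lift x to ℕ using hx
    simp
  rcases le_or_gt (e - ε) 0 with h0 | h0
  · exact Eventually.of_forall fun N =>
      (mul_nonpos_of_nonpos_of_nonneg h0 (Nat.cast_nonneg _)).trans (Nat.cast_nonneg _)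
  have h1 : ENNReal.ofReal (e - ε / 2) ≤ linf d (fun N => (a N : ℝ≥0∞)) := by
    refine le_liminf_of_le (h := ?_)
    filter_upwards [eventually_gt_atTop 0, he (ε / 2) (by positivity)] with N hN h2
    have b1 : (0 : ℝ) < Bn d N := by exact_mod_cast bn_pos hN
    rw [hcast _ (ha N), ← ENNReal.ofReal_natCast (Bn d N), ← ENNReal.ofReal_div_of_pos b1]
    exact ENNReal.ofReal_le_ofReal ((le_div_iff₀ b1).2 h2)
  have h2 : ENNReal.ofReal (e - ε) < linf d (fun N => (b N : ℝ≥0∞)) :=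
    ((ENNReal.ofReal_lt_ofReal_iff (by linarith)).2 (by linarith)).trans_le
      (h1.trans ((linf_le_lsup _ _).trans h))
  filter_upwards [eventually_gt_atTop 0, eventually_lt_of_lt_liminf h2] with N hN h3
  have b1 : (0 : ℝ) < Bn d N := by exact_mod_cast bn_pos hN
  rw [hcast _ (hb N), ← ENNReal.ofReal_natCast (Bn d N), ← ENNReal.ofReal_div_of_pos b1] at h3
  exact (le_div_iff₀ b1).1 ((ENNReal.ofReal_lt_ofReal_iff_of_nonneg h0.le).1 h3).le

end Crest.Agent.R183
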