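import Crest.Agent.R183.Defs

/-!
# Coefficient rings of complete local rings
-/

set_option autoImplicit false

open IsLocalRing

namespace Crest.Agent.R183

section aux

variable {R : Type} [CommRing R] {p : ℕ} [Fact p.Prime] (I : Ideal R)

theorem cohen_ghost_mem (hp : (p : R) ∈ I) {x : WittVector p R} (n : ℕ)
    (hx : ∀ i, x.coeff i ∈ I) : WittVector.ghostComponent n x ∈ I ^ (n + 1) := by
  rw [WittVector.ghostComponent_apply, aeval_wittPolynomial]
  refine Ideal.sum_mem _ fun i hi => ?_
  simp only [Finset.mem_range] at hi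
  have h1 : (p : R) ^ i ∈ I ^ i := Ideal.pow_mem_pow hp i
  have h2 : x.coeff i ^ p ^ (n - i) ∈ I ^ (n - i + 1) := by
    refine Ideal.pow_le_pow_right ?_ (Ideal.pow_mem_pow (hx i) _)
    exact Nat.succ_le_of_lt (Nat.lt_pow_self (Nat.Prime.one_lt Fact.out))
  have h3 := Ideal.mul_mem_mul h1 h2
  rw [← pow_add, show i + (n - i + 1) = n + 1 by omega] at h3
  exact h3

theorem cohen_ker_le (hp : (p : R) ∈ I) (n : ℕ) :
    RingHom.ker (WittVector.map (p := p) (Ideal.Quotient.mk I)) ≤
    RingHom.ker ((Ideal.Quotient.mk (I ^ (n + 1))).comp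
      (WittVector.ghostComponent (p := p) n)) := by
  intro x hx
  rw [RingHom.mem_ker, WittVector.map_eq_zero_iff] at hx
  rw [RingHom.mem_ker, RingHom.comp_apply, Ideal.Quotient.eq_zero_iff_mem]
  exact cohen_ghost_mem I hp n fun i => Ideal.Quotient.eq_zero_iff_mem.mp (hx i)

/-- the `n`-th ghost component `W(R/I) → R/I^(n+1)` -/
noncomputable def cohenGh (hp : (p : R) ∈ I) (n : ℕ) :
    WittVector p (R ⧸ I) →+* R ⧸ I ^ (n + 1) :=
  RingHom.liftOfSurjective (WittVector.map (Ideal.Quotient.mk I))
    (WittVector.map_surjective _ Ideal.Quotient.mk_surjective)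
    ⟨(Ideal.Quotient.mk (I ^ (n + 1))).comp (WittVector.ghostComponent n), cohen_ker_le I hp n⟩

theorem cohenGh_map (hp : (p : R) ∈ I) (n : ℕ) (x : WittVector p R) :
    cohenGh I hp n (WittVector.map (Ideal.Quotient.mk I) x) =
      Ideal.Quotient.mk (I ^ (n + 1)) (WittVector.ghostComponent n x) :=
  RingHom.liftOfSurjective_comp_apply ..

theorem cohenGh_teichmuller (hp : (p : R) ∈ I) (n : ℕ) (y : R) :
    cohenGh I hp n (WittVector.teichmuller p (Ideal.Quotient.mk I y)) =
      Ideal.Quotient.mk (I ^ (n + 1)) (y ^ p ^ n) := by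
  rw [← WittVector.map_teichmuller, cohenGh_map, WittVector.ghostComponent_teichmuller]

variable [CharP (R ⧸ I) p] [PerfectRing (R ⧸ I) p]

/-- the approximations `W(R/I) → R/I^(n+1)` -/
noncomputable def cohenTheta (n : ℕ) : WittVector p (R ⧸ I) →+* R ⧸ I ^ (n + 1) :=
  (cohenGh I (I.natCast_mem_of_charP_quotient p) n).comp
    (WittVector.map ((iterateFrobeniusEquiv (R ⧸ I) p n).symm : R ⧸ I →+* R ⧸ I))

theorem cohenTheta_teichmuller (n : ℕ) (y : R) :
    cohenTheta I n (WittVector.teichmuller p (Ideal.Quotient.mk I (y ^ p ^ n))) =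
      Ideal.Quotient.mk (I ^ (n + 1)) (y ^ p ^ n) := by
  rw [cohenTheta, RingHom.comp_apply, WittVector.map_teichmuller, ← cohenGh_teichmuller I
    (I.natCast_mem_of_charP_quotient p)]
  congr 2
  rw [RingHom.coe_coe, RingEquiv.symm_apply_eq, map_pow]
  rfl

theorem cohenTheta_compat (n : ℕ) :
    (Ideal.Quotient.factorPowSucc I (n + 1)).comp (cohenTheta (p := p) I (n + 1)) =
      cohenTheta I n := by
  apply WittVector.eq_of_apply_teichmuller_eq
  · refine ⟨n + 1, ?_⟩
    rw [← map_natCast (Ideal.Quotient.mk (I ^ (n + 1))), ← map_pow,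
      Ideal.Quotient.eq_zero_iff_mem]
    exact Ideal.pow_mem_pow (I.natCast_mem_of_charP_quotient p) _
  · intro a
    obtain ⟨b, rfl⟩ := (iterateFrobeniusEquiv (R ⧸ I) p (n + 1)).surjective a
    obtain ⟨y, rfl⟩ := Ideal.Quotient.mk_surjective b
    have h : iterateFrobeniusEquiv (R ⧸ I) p (n + 1) (Ideal.Quotient.mk I y) =
        Ideal.Quotient.mk I (y ^ p ^ (n + 1)) := by
      rw [map_pow]; rfl
    rw [h, RingHom.comp_apply, cohenTheta_teichmuller]
    have h2 : y ^ p ^ (n + 1) = (y ^ p) ^ p ^ n := by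
      rw [← pow_mul, pow_succ']
    rw [h2, cohenTheta_teichmuller]
    rfl

theorem cohen_exists_witt_hom [IsAdicComplete I R] :
    ∃ φ : WittVector p (R ⧸ I) →+* R, ∀ w, Ideal.Quotient.mk I (φ w) = w.coeff 0 := by
  let φ : WittVector p (R ⧸ I) →+* R :=
    IsAdicComplete.StrictMono.liftRingHom I Order.succ_strictMono (cohenTheta I)
      (cohenTheta_compat I _)
  refine ⟨φ, fun w => ?_⟩
  have h : Ideal.Quotient.mk (I ^ (0 + 1)) (φ w) = cohenTheta I 0 w :=
    IsAdicComplete.StrictMono.mk_liftRingHom I Order.succ_strictMono (cohenTheta I)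
      (cohenTheta_compat I _) w
  obtain ⟨x, rfl⟩ := WittVector.map_surjective (p := p) (Ideal.Quotient.mk I)
    Ideal.Quotient.mk_surjective w
  have h0 : WittVector.map (p := p)
      ((iterateFrobeniusEquiv (R ⧸ I) p 0).symm : R ⧸ I →+* R ⧸ I)
      (WittVector.map (Ideal.Quotient.mk I) x) = WittVector.map (Ideal.Quotient.mk I) x := by
    ext n
    rw [WittVector.map_coeff, RingHom.coe_coe, RingEquiv.symm_apply_eq]
    simp
  rw [cohenTheta, RingHom.comp_apply, h0, cohenGh_map, Ideal.Quotient.eq, zero_add, pow_one] at h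
  rw [WittVector.map_coeff, Ideal.Quotient.eq]
  simpa [WittVector.ghostComponent_apply] using h

end aux

/-- Witt vectors of the perfect residue field map to a complete local ring. -/
theorem exists_witt_hom (B : Type) [CommRing B] [IsLocalRing B]
    [IsAdicComplete (maximalIdeal B) B] (p : ℕ) [Fact p.Prime] [CharP (ResidueField B) p]
    [PerfectRing (ResidueField B) p] :
    ∃ φ : WittVector p (ResidueField B) →+* B, ∀ w, residue B (φ w) = w.coeff 0 := by
  have : CharP (B ⧸ maximalIdeal B) p := ‹CharP (ResidueField B) p›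
  have : PerfectRing (B ⧸ maximalIdeal B) p := ‹PerfectRing (ResidueField B) p›
  exact cohen_exists_witt_hom (p := p) (maximalIdeal B)

/-- coefficient field in equal characteristic `p` -/
theorem exists_coeffField_charP (B : Type) [CommRing B] [IsLocalRing B]
    [IsAdicComplete (maximalIdeal B) B] (p : ℕ) [Fact p.Prime] [CharP (ResidueField B) p]
    [PerfectRing (ResidueField B) p] (hp : (p : B) = 0) :
    ∃ s : ResidueField B →+* B, ∀ a, residue B (s a) = a := by
  obtain ⟨φ, hφ⟩ := exists_witt_hom B p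
  have hker : RingHom.ker (WittVector.constantCoeff (p := p) (R := ResidueField B)) ≤
      RingHom.ker φ := by
    rw [WittVector.ker_constantCoeff, Ideal.span_le, Set.singleton_subset_iff]
    simp [hp]
  refine ⟨RingHom.liftOfSurjective _ (WittVector.constantCoeff_surjective p) ⟨φ, hker⟩,
    fun a => ?_⟩
  obtain ⟨w, rfl⟩ := WittVector.constantCoeff_surjective p a
  rw [RingHom.liftOfSurjective_comp_apply]
  exact hφ w

theorem cohen_formallySmooth (k L : Type) [Field k] [CharZero k] [Field L] [Algebra k L] :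
    Algebra.FormallySmooth k L := by
  obtain ⟨s, hs⟩ := exists_isTranscendenceBasis k L
  have := hs.isAlgebraic_field
  have : CharZero (IntermediateField.adjoin k (Set.range ((↑) : s → L))) :=
    charZero_of_injective_algebraMap (algebraMap k _).injective
  exact Algebra.FormallySmooth.of_algebraicIndependent_of_isSeparable hs.1

/-- coefficient field in characteristic zero, over any subfield -/
theorem exists_coeffField_over (k B : Type) [Field k] [CharZero k] [CommRing B] [IsLocalRing B]
    [IsAdicComplete (maximalIdeal B) B] (φ : k →+* B) :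
    ∃ s : ResidueField B →+* B, (∀ a, residue B (s a) = a) ∧
      ∀ c : k, s (residue B (φ c)) = φ c := by
  let _ : Algebra k B := φ.toAlgebra
  have h : Algebra.FormallySmooth k (B ⧸ maximalIdeal B) :=
    cohen_formallySmooth k (ResidueField B)
  obtain ⟨g, hg⟩ := Algebra.FormallySmooth.exists_mkₐ_comp_eq_of_isAdicComplete
    (R := k) (A := B ⧸ maximalIdeal B) (I := maximalIdeal B) (AlgHom.id k _)
  refine ⟨g.toRingHom, fun a => congr($hg a), fun c => g.commutes c⟩

theorem exists_coeffField_charZero (B : Type) [CommRing B] [IsLocalRing B]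
    [IsAdicComplete (maximalIdeal B) B] [CharZero (ResidueField B)] :
    ∃ s : ResidueField B →+* B, ∀ a, residue B (s a) = a := by
  have hu : ∀ n : nonZeroDivisors ℤ, IsUnit (algebraMap ℤ B n) := by
    rintro ⟨n, hn⟩
    rw [← residue_ne_zero_iff_isUnit]
    simpa using nonZeroDivisors.ne_zero hn
  obtain ⟨s, hs, -⟩ := exists_coeffField_over ℚ B (IsLocalization.lift (M := nonZeroDivisors ℤ) hu)
  exact ⟨s, hs⟩

section witt

variable (p : ℕ) [Fact p.Prime] (K : Type) [Field K] [CharP K p] [PerfectRing K p]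

theorem maximalIdeal_wittVector :
    maximalIdeal (WittVector p K) = Ideal.span {(p : WittVector p K)} :=
  (WittVector.irreducible p).maximalIdeal_eq

theorem isAdicComplete_wittVector :
    IsAdicComplete (maximalIdeal (WittVector p K)) (WittVector p K) := by
  rw [maximalIdeal_wittVector]
  infer_instance

end witt

end Crest.Agent.R183
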