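import Crest.Agent.R183.Defs

/-!
# Complete rings: Nakayama, evaluation of power series, Noetherianity, windows
-/

set_option autoImplicit false

open IsLocalRing

namespace Crest.Agent.R183

theorem Complete_mem_smul_top {B : Type} [CommRing B] (I : Ideal B) {x : B} :
    x ∈ (I • ⊤ : Submodule B B) ↔ x ∈ I := by
  rw [smul_eq_mul, Ideal.mul_top]

theorem Complete_smodEq {B : Type} [CommRing B] (I : Ideal B) {x y : B} :
    x ≡ y [SMOD (I • ⊤ : Submodule B B)] ↔ x - y ∈ I := by
  rw [SModEq.sub_mem, Complete_mem_smul_top]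

theorem Complete_mem_smul_pi {B : Type} [CommRing B] (I : Ideal B) {n : ℕ} {x : Fin n → B} :
    x ∈ (I • ⊤ : Submodule B (Fin n → B)) ↔ ∀ i, x i ∈ I := by
  constructor
  · intro h i
    induction h using Submodule.smul_induction_on' with
    | smul r hr y _ => exact I.mul_mem_right _ hr
    | add y _ z _ hy hz => exact I.add_mem hy hz
  · intro h
    rw [pi_eq_sum_univ' x]
    exact Submodule.sum_mem _ fun i _ => Submodule.smul_mem_smul (h i) Submodule.mem_top

theorem Complete_prec_pi {B : Type} [CommRing B] (I : Ideal B) [h : IsPrecomplete I B] (n : ℕ) :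
    IsPrecomplete I (Fin n → B) := by
  refine ⟨fun f hf => ?_⟩
  have : ∀ i, ∃ L : B, ∀ m, f m i ≡ L [SMOD (I ^ m • ⊤ : Submodule B B)] := fun i =>
    h.prec fun {a b} hab => (Complete_smodEq _).2
      ((Complete_mem_smul_pi _).1 (SModEq.sub_mem.1 (hf hab)) i)
  choose L hL using this
  exact ⟨L, fun m => SModEq.sub_mem.2 ((Complete_mem_smul_pi _).2 fun i =>
    (Complete_smodEq _).1 (hL i m))⟩

theorem Complete_prec_of_surjective {B : Type} [CommRing B] (I : Ideal B) {M N : Type}
    [AddCommGroup M] [Module B M] [AddCommGroup N] [Module B N] [IsPrecomplete I M]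
    (f : M →ₗ[B] N) (hf : Function.Surjective f) : IsPrecomplete I N := by
  rw [← AdicCompletion.of_surjective_iff]
  intro y
  obtain ⟨x', rfl⟩ := AdicCompletion.map_surjective I hf y
  obtain ⟨x, rfl⟩ := AdicCompletion.of_surjective I M x'
  exact ⟨f x, (AdicCompletion.map_of I f x).symm⟩

/-- complete Nakayama -/
theorem span_eq_top_of_complete {B : Type} [CommRing B] (I : Ideal B) [IsPrecomplete I B]
    {M : Type} [AddCommGroup M] [Module B M] [IsHausdorff I M] {n : ℕ} (v : Fin n → M)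
    (hv : Submodule.span B (Set.range v) ⊔ (I • ⊤ : Submodule B M) = ⊤) :
    Submodule.span B (Set.range v) = ⊤ := by
  have := Complete_prec_pi I n
  rw [← Fintype.range_linearCombination] at hv ⊢
  rw [LinearMap.range_eq_top]
  refine surjective_of_mkQ_comp_surjective (I := I) ?_
  rw [← LinearMap.range_eq_top, LinearMap.range_comp, Submodule.map_mkQ_eq_top, sup_comm, hv]

theorem finite_of_complete {B : Type} [CommRing B] (I : Ideal B) [IsPrecomplete I B]
    (M : Type) [AddCommGroup M] [Module B M] [IsHausdorff I M]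
    [Module.Finite B (M ⧸ (I • ⊤ : Submodule B M))] : Module.Finite B M := by
  obtain ⟨n, s, hs⟩ := Module.Finite.exists_fin (R := B) (M := M ⧸ (I • ⊤ : Submodule B M))
  choose v hv using fun i => (I • ⊤ : Submodule B M).mkQ_surjective (s i)
  have h : Submodule.span B (Set.range v) = ⊤ := by
    refine span_eq_top_of_complete I v ?_
    rw [sup_comm, ← Submodule.map_mkQ_eq_top, Submodule.map_span, ← Set.range_comp, ← hs]
    congr 2
    exact funext hv
  exact ⟨h ▸ Submodule.fg_span (Set.finite_range v)⟩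

theorem Complete_lift {B B' : Type} [CommRing B] [CommRing B'] (I : Ideal B)
    (J : Ideal B') [IsAdicComplete J B'] (φ : B →+* B') (h : I.map φ ≤ J) :
    ∃ Φ : AdicCompletion I B →+* B', ∀ b, Φ (algebraMap B _ b) = φ b := by
  have hle : ∀ n : ℕ, I ^ n ≤ (J ^ n).comap φ := fun n => by
    rw [← Ideal.map_le_iff_le_comap, Ideal.map_pow]
    exact Ideal.pow_right_mono h n
  let f : ∀ n : ℕ, AdicCompletion I B →+* B' ⧸ J ^ n := fun n =>
    (Ideal.quotientMap (J ^ n) φ (hle n)).comp (AdicCompletion.evalₐ I n).toRingHom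
  have hf : ∀ {m n : ℕ} (hmn : m ≤ n), (Ideal.Quotient.factorPow J hmn).comp (f n) = f m := by
    intro m n hmn
    refine RingHom.ext fun x => ?_
    induction x using AdicCompletion.induction_on with
    | h a =>
      have h1 : a n - a m ∈ I ^ m := (Complete_smodEq _).1 (a.2 hmn).symm
      simp only [f, RingHom.comp_apply, AlgHom.toRingHom_eq_coe, RingHom.coe_coe,
        AdicCompletion.evalₐ_mk, Ideal.quotientMap_mk, Ideal.Quotient.factor_mk]
      rw [Ideal.Quotient.mk_eq_mk_iff_sub_mem, ← map_sub]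
      exact hle m h1
  refine ⟨IsAdicComplete.liftRingHom J f hf, fun b => ?_⟩
  rw [IsHausdorff.eq_iff_smodEq (I := J)]
  intro n
  rw [Complete_smodEq, ← Ideal.Quotient.mk_eq_mk_iff_sub_mem, IsAdicComplete.mk_liftRingHom]
  simp only [f, RingHom.comp_apply, AlgHom.toRingHom_eq_coe, RingHom.coe_coe, AlgHom.commutes,
    Ideal.Quotient.algebraMap_eq, Ideal.quotientMap_mk]

/-- evaluation of power series in a complete ring -/
theorem exists_eval {Λ B σ : Type} [CommRing Λ] [CommRing B] [Finite σ] (J : Ideal B)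
    [IsAdicComplete J B] (φ : Λ →+* B) (u : σ → B) (hu : ∀ i, u i ∈ J) :
    ∃ Φ : MvPowerSeries σ Λ →+* B, (∀ a, Φ (MvPowerSeries.C a) = φ a) ∧
      ∀ i, Φ (MvPowerSeries.X i) = u i := by
  obtain ⟨Φ, hΦ⟩ := Complete_lift (MvPolynomial.idealOfVars σ Λ) J (MvPolynomial.eval₂Hom φ u) (by
    rw [Ideal.map_span, Ideal.span_le]
    rintro _ ⟨_, ⟨i, rfl⟩, rfl⟩
    simpa using hu i)
  have key : ∀ p : MvPolynomial σ Λ,
      Φ (MvPowerSeries.toAdicCompletion σ Λ p) = MvPolynomial.eval₂Hom φ u p := fun p => by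
    rw [MvPowerSeries.toAdicCompletion_coe, ← hΦ]
    rfl
  refine ⟨Φ.comp (MvPowerSeries.toAdicCompletion σ Λ).toRingHom, fun a => ?_, fun i => ?_⟩
  · simpa using key (MvPolynomial.C a)
  · simpa using key (MvPolynomial.X i)

/-- a ring complete for a finitely generated ideal `J` such that a Noetherian ring surjects onto
`B / J` is Noetherian -/
theorem isNoetherianRing_of_complete {Λ B : Type} [CommRing Λ] [CommRing B] [IsNoetherianRing Λ]
    (J : Ideal B) (hJ : J.FG) [IsAdicComplete J B] (φ : Λ →+* B)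
    (hφ : ∀ b : B, ∃ a, b - φ a ∈ J) : IsNoetherianRing B := by
  obtain ⟨r, u, hu⟩ := Submodule.fg_iff_exists_fin_generating_family.1 hJ
  obtain ⟨Φ, hC, hX⟩ := exists_eval J φ u fun i => hu ▸ Submodule.subset_span ⟨i, rfl⟩
  have hmap : (Ideal.span (Set.range (MvPowerSeries.X : Fin r → MvPowerSeries (Fin r) Λ))).map Φ =
      J := by
    rw [Ideal.map_span, ← Set.range_comp, ← hu]
    congr 2
    exact funext hX
  refine isNoetherianRing_of_surjective (MvPowerSeries (Fin r) Λ) B Φ ?_
  refine surjective_of_mk_map_comp_surjective (I := Ideal.span (Set.range MvPowerSeries.X)) Φ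
    (haus := hmap ▸ inferInstance) fun y => ?_
  obtain ⟨b, rfl⟩ := Ideal.Quotient.mk_surjective y
  obtain ⟨a, ha⟩ := hφ b
  refine ⟨MvPowerSeries.C a, ?_⟩
  rw [RingHom.comp_apply, hC, eq_comm, Ideal.Quotient.mk_eq_mk_iff_sub_mem, hmap]
  exact ha

theorem isNoetherianRing_adicCompletion (B : Type) [CommRing B] [IsLocalRing B]
    [IsNoetherianRing B] : IsNoetherianRing (AdicCompletion (maximalIdeal B) B) := by
  have fg : (maximalIdeal B).FG := Ideal.fg_of_isNoetherianRing _
  have := AdicCompletion.isAdicComplete_self _ fg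
  refine isNoetherianRing_of_complete
    ((maximalIdeal B).map (algebraMap B (AdicCompletion (maximalIdeal B) B))) (fg.map _)
    (algebraMap B _) fun b => ?_
  obtain ⟨a, ha⟩ := Ideal.Quotient.mk_surjective (AdicCompletion.evalOneₐ _ b)
  refine ⟨a, ?_⟩
  rw [← AdicCompletion.ker_evalOneₐ_eq_map _ fg, RingHom.mem_ker, map_sub, sub_eq_zero]
  simp only [AlgHom.toRingHom_eq_coe, RingHom.coe_coe, AlgHom.commutes,
    Ideal.Quotient.algebraMap_eq, ha]

theorem isAdicComplete_quotient (B : Type) [CommRing B] [IsLocalRing B] [IsNoetherianRing B]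
    [IsAdicComplete (maximalIdeal B) B] (I : Ideal B) [IsLocalRing (B ⧸ I)] :
    IsAdicComplete (maximalIdeal (B ⧸ I)) (B ⧸ I) := by
  have h1 : IsPrecomplete (maximalIdeal (B ⧸ I)) (B ⧸ I) := by
    rw [← map_maximalIdeal_of_surjective (algebraMap B (B ⧸ I)) Ideal.Quotient.mk_surjective,
      IsPrecomplete.map_algebraMap_iff]
    exact Complete_prec_of_surjective _ I.mkQ I.mkQ_surjective
  exact {}

/-- completeness only depends on the topology -/
theorem isAdicComplete_of_pow_le {B : Type} [CommRing B] (I J : Ideal B) [IsAdicComplete I B]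
    (h₁ : ∃ c : ℕ, I ^ c ≤ J) (h₂ : ∃ c : ℕ, J ^ c ≤ I) : IsAdicComplete J B := by
  obtain ⟨c, hc⟩ := h₁
  obtain ⟨d, hd⟩ := h₂
  have e1 : ∀ n, I ^ (c * n) ≤ J ^ n := fun n => by
    rw [pow_mul]; exact Ideal.pow_right_mono hc n
  have e2 : ∀ n, J ^ ((d + 1) * n) ≤ I ^ n := fun n => by
    rw [pow_mul]
    exact Ideal.pow_right_mono ((Ideal.pow_le_pow_right d.le_succ).trans hd) n
  have h1 : IsHausdorff J B := ⟨fun x hx => IsHausdorff.haus' (I := I) x fun n =>
    (Complete_smodEq _).2 (e2 n ((Complete_smodEq _).1 (hx _)))⟩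
  have h2 : IsPrecomplete J B := ⟨fun f hf => by
    obtain ⟨L, hL⟩ := IsPrecomplete.prec' (I := I) (fun n => f ((d + 1) * n)) fun {m n} hmn =>
      (Complete_smodEq _).2 (e2 m ((Complete_smodEq _).1 (hf (Nat.mul_le_mul_left _ hmn))))
    refine ⟨L, fun n => (hf ((Nat.le_add_left n (c * n)).trans (Nat.le_mul_of_pos_left _ d.succ_pos))).trans ?_⟩
    exact (Complete_smodEq _).2 (e1 n (Ideal.pow_le_pow_right (Nat.le_add_right _ n)
      ((Complete_smodEq _).1 (hL (c * n + n)))))⟩
  exact {}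

/-- a ring hom to a complete local ring extends to the completion -/
theorem exists_lift_adicCompletion {B B' : Type} [CommRing B] [CommRing B'] (I : Ideal B)
    (J : Ideal B') [IsAdicComplete J B'] (φ : B →+* B') (h : I.map φ ≤ J) :
    ∃ Φ : AdicCompletion I B →+* B', ∀ b, Φ (algebraMap B _ b) = φ b :=
  Complete_lift I J φ h

section powerSeries

variable (Λ : Type) [CommRing Λ]

section box

variable {Λ} {σ : Type}

theorem Complete_poly_mem (K : Ideal Λ) (b : ℕ) {p : MvPolynomial σ Λ}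
    (h : ∀ m : σ →₀ ℕ, (∀ i, m i < b) → p.coeff m ∈ K) :
    p ∈ K.map MvPolynomial.C ⊔ sp fun i => (MvPolynomial.X i : MvPolynomial σ Λ) ^ b := by
  rw [p.as_sum]
  refine Ideal.sum_mem _ fun m _ => ?_
  by_cases hm : ∀ i, m i < b
  · refine Ideal.mem_sup_left ?_
    rw [← mul_one (p.coeff m), ← MvPolynomial.C_mul_monomial]
    exact Ideal.mul_mem_right _ _ (Ideal.mem_map_of_mem _ (h m hm))
  · obtain ⟨i, hi⟩ := not_forall.1 hm
    have hle : Finsupp.single i b ≤ m := Finsupp.single_le_iff.2 (not_lt.1 hi)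
    refine Ideal.mem_sup_right ?_
    rw [← add_tsub_cancel_of_le hle, MvPolynomial.monomial_single_add]
    exact Ideal.mul_mem_right _ _ (Ideal.subset_span ⟨i, rfl⟩)

theorem Complete_ps_mem_X [Finite σ] (b : ℕ) {a : MvPowerSeries σ Λ}
    (h : ∀ m : σ →₀ ℕ, (∀ i, m i < b) → MvPowerSeries.coeff m a = 0) :
    a ∈ sp fun i => (MvPowerSeries.X i : MvPowerSeries σ Λ) ^ b := by
  classical
  have := Fintype.ofFinite σ
  have hc : ∀ m : σ →₀ ℕ, ∃ o : Option σ, (o = none → ∀ i, m i < b) ∧ ∀ i, o = some i → b ≤ m i := by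
    intro m
    by_cases hm : ∀ i, m i < b
    · exact ⟨none, fun _ => hm, fun i hi => by cases hi⟩
    · obtain ⟨i, hi⟩ := not_forall.1 hm
      exact ⟨some i, fun h => (by cases h), fun j hj => (by cases hj; exact not_lt.1 hi)⟩
  choose c hc0 hc1 using hc
  let q : σ → MvPowerSeries σ Λ := fun i m => if c m = some i then MvPowerSeries.coeff m a else 0
  have hq : ∀ i m, MvPowerSeries.coeff m (q i) =
      if c m = some i then MvPowerSeries.coeff m a else 0 := fun _ _ => rfl
  have ha : a = ∑ i, q i := by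
    ext m
    rw [map_sum]
    simp only [hq]
    rcases hm : c m with _ | j
    · simpa using h m (hc0 m hm)
    · simp
  rw [ha]
  refine Ideal.sum_mem _ fun i _ => ?_
  have : (MvPowerSeries.X i : MvPowerSeries σ Λ) ^ b ∣ q i := by
    rw [MvPowerSeries.X_pow_dvd_iff]
    intro m hm
    rw [hq, if_neg fun e => absurd (hc1 m i e) (not_le.2 hm)]
  exact Ideal.mem_of_dvd _ this (Ideal.subset_span ⟨i, rfl⟩)

theorem Complete_trunc [Finite σ] (b : ℕ) (a : MvPowerSeries σ Λ) :
    ∃ p : MvPolynomial σ Λ, ∀ m : σ →₀ ℕ, (∀ i, m i < b) → p.coeff m = MvPowerSeries.coeff m a := by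
  classical
  refine ⟨MvPowerSeries.trunc' Λ (Finsupp.equivFunOnFinite.symm fun _ => b) a, fun m hm => ?_⟩
  rw [MvPowerSeries.coeff_trunc', if_pos]
  exact fun i => (hm i).le

theorem Complete_map_coe (K : Ideal Λ) (b : ℕ) :
    (K.map MvPolynomial.C ⊔ sp fun i => (MvPolynomial.X i : MvPolynomial σ Λ) ^ b).map
      (MvPolynomial.coeToMvPowerSeries.ringHom : MvPolynomial σ Λ →+* MvPowerSeries σ Λ) =
    K.map MvPowerSeries.C ⊔ sp fun i => (MvPowerSeries.X i : MvPowerSeries σ Λ) ^ b := by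
  rw [Ideal.map_sup, Ideal.map_map, Ideal.map_span, ← Set.range_comp]
  congr 2
  · ext1 a
    simp
  · congr 1
    funext i
    simp

theorem Complete_ps_mem [Finite σ] (K : Ideal Λ) (b : ℕ) {a : MvPowerSeries σ Λ} :
    a ∈ K.map MvPowerSeries.C ⊔ sp (fun i => (MvPowerSeries.X i : MvPowerSeries σ Λ) ^ b) ↔
      ∀ m : σ →₀ ℕ, (∀ i, m i < b) → MvPowerSeries.coeff m a ∈ K := by
  classical
  constructor
  · let F : Ideal (MvPowerSeries σ Λ) :=
      { carrier := {a | ∀ m : σ →₀ ℕ, (∀ i, m i < b) → MvPowerSeries.coeff m a ∈ K}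
        add_mem' := fun {x y} hx hy m hm => by
          rw [map_add]; exact K.add_mem (hx m hm) (hy m hm)
        zero_mem' := fun m _ => by simp
        smul_mem' := fun c x hx m hm => by
          rw [smul_eq_mul, MvPowerSeries.coeff_mul]
          refine K.sum_mem fun p hp => K.mul_mem_left _ (hx _ fun i => lt_of_le_of_lt ?_ (hm i))
          rw [← Finset.HasAntidiagonal.mem_antidiagonal.1 hp]
          exact Nat.le_add_left _ _ }
    have hle : K.map MvPowerSeries.C ⊔
        sp (fun i => (MvPowerSeries.X i : MvPowerSeries σ Λ) ^ b) ≤ F := by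
      refine sup_le (Ideal.map_le_iff_le_comap.2 fun k hk m _ => ?_) (Ideal.span_le.2 ?_)
      · rw [MvPowerSeries.coeff_C]
        split_ifs
        · exact hk
        · exact K.zero_mem
      · rintro _ ⟨i, rfl⟩ m hm
        rw [MvPowerSeries.X_pow_dvd_iff.1 dvd_rfl m (hm i)]
        exact K.zero_mem
    exact fun h => hle h
  · intro h
    obtain ⟨p, hp⟩ := Complete_trunc b a
    have h1 : a - p ∈ sp fun i => (MvPowerSeries.X i : MvPowerSeries σ Λ) ^ b :=
      Complete_ps_mem_X b fun m hm => by rw [map_sub, MvPolynomial.coeff_coe, hp m hm, sub_self]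
    have h2 := Ideal.mem_map_of_mem
      (MvPolynomial.coeToMvPowerSeries.ringHom : MvPolynomial σ Λ →+* MvPowerSeries σ Λ)
      (Complete_poly_mem K b (p := p) fun m hm => hp m hm ▸ h m hm)
    rw [Complete_map_coe] at h2
    simpa using Ideal.add_mem _ (Ideal.mem_sup_right h1) h2

theorem Complete_win [Finite σ] {ι : Type} (x₀ : ι → MvPolynomial σ Λ) (K : ℕ → Ideal Λ)
    (hK : ∀ b, sp (fun i => x₀ i ^ b) =
      (K b).map MvPolynomial.C ⊔ sp fun i => (MvPolynomial.X i : MvPolynomial σ Λ) ^ b) :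
    WinIso (MvPolynomial.coeToMvPowerSeries.ringHom : MvPolynomial σ Λ →+* MvPowerSeries σ Λ)
      x₀ := by
  intro b
  have e : sp (fun i => (MvPolynomial.coeToMvPowerSeries.ringHom :
      MvPolynomial σ Λ →+* MvPowerSeries σ Λ) (x₀ i) ^ b) =
      (K b).map MvPowerSeries.C ⊔ sp fun i => (MvPowerSeries.X i : MvPowerSeries σ Λ) ^ b := by
    rw [← Complete_map_coe, ← hK, Ideal.map_span, ← Set.range_comp]
    congr 2
    funext i
    simp
  rw [e, hK]
  refine ⟨fun a => ?_, fun p hp => ?_⟩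
  · obtain ⟨p, hp⟩ := Complete_trunc b a
    refine ⟨p, Ideal.mem_sup_right (Complete_ps_mem_X b fun m hm => ?_)⟩
    rw [map_sub, MvPolynomial.coeToMvPowerSeries.ringHom_apply, MvPolynomial.coeff_coe, hp m hm,
      sub_self]
  · exact Complete_poly_mem _ b fun m hm => (Complete_ps_mem _ b).1 hp m hm

end box

theorem winIso_X (σ : Type) [Fintype σ] :
    WinIso (MvPolynomial.coeToMvPowerSeries.ringHom : MvPolynomial σ Λ →+* MvPowerSeries σ Λ)
      MvPolynomial.X :=
  Complete_win _ (fun _ => ⊥) fun b => by rw [Ideal.map_bot, bot_sup_eq]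

theorem winIso_cons (e : ℕ) (p : Λ) :
    WinIso (MvPolynomial.coeToMvPowerSeries.ringHom :
        MvPolynomial (Fin e) Λ →+* MvPowerSeries (Fin e) Λ)
      (Fin.cons (MvPolynomial.C p) MvPolynomial.X : Fin (e + 1) → MvPolynomial (Fin e) Λ) := by
  refine Complete_win _ (fun b => Ideal.span {p ^ b}) fun b => ?_
  rw [Ideal.map_span, Set.image_singleton, ← Ideal.span_insert, ← Fin.range_cons]
  congr 2
  funext i
  refine Fin.cases ?_ (fun j => ?_) i <;> simp

theorem Complete_mem_max [IsLocalRing Λ] {σ : Type} {a : MvPowerSeries σ Λ} :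
    a ∈ maximalIdeal (MvPowerSeries σ Λ) ↔ MvPowerSeries.coeff 0 a ∈ maximalIdeal Λ := by
  rw [mem_maximalIdeal, mem_maximalIdeal, mem_nonunits_iff, mem_nonunits_iff,
    MvPowerSeries.isUnit_iff_constantCoeff, MvPowerSeries.coeff_zero_eq_constantCoeff]

theorem maximalIdeal_mvPowerSeries [IsLocalRing Λ] (σ : Type) [Finite σ] :
    maximalIdeal (MvPowerSeries σ Λ) =
      (maximalIdeal Λ).map MvPowerSeries.C ⊔ sp (MvPowerSeries.X : σ → MvPowerSeries σ Λ) := by
  ext a
  have h := Complete_ps_mem (maximalIdeal Λ) 1 (a := a)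
  simp only [pow_one] at h
  rw [Complete_mem_max, h]
  refine ⟨fun h0 m hm => ?_, fun h0 => h0 0 fun _ => Nat.zero_lt_one⟩
  obtain rfl : m = 0 := Finsupp.ext fun i => Nat.lt_one_iff.1 (hm i)
  exact h0

theorem Complete_coeff_mem_pow [IsLocalRing Λ] {σ : Type} (n : ℕ) {a : MvPowerSeries σ Λ}
    (ha : a ∈ maximalIdeal (MvPowerSeries σ Λ) ^ n) (m : σ →₀ ℕ) :
    MvPowerSeries.coeff m a ∈ maximalIdeal Λ ^ (n - m.degree) := by
  classical
  induction n generalizing a m with
  | zero => simp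
  | succ n ih =>
    rw [pow_succ'] at ha
    induction ha using Submodule.mul_induction_on' with
    | mem_mul_mem x hx y hy =>
      rw [MvPowerSeries.coeff_mul]
      refine Ideal.sum_mem _ fun p hp => ?_
      have hp' := Finset.HasAntidiagonal.mem_antidiagonal.1 hp
      have hd : p.1.degree + p.2.degree = m.degree := by rw [← hp', map_add]
      have h2 := ih hy p.2
      by_cases h0 : p.1 = 0
      · have h1 : MvPowerSeries.coeff p.1 x ∈ maximalIdeal Λ := h0 ▸ (Complete_mem_max Λ).1 hx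
        have h3 := Ideal.mul_mem_mul h1 h2
        rw [← pow_succ'] at h3
        exact Ideal.pow_le_pow_right (by omega) h3
      · have : p.1.degree ≠ 0 := fun h => h0 ((Finsupp.degree_eq_zero_iff _).1 h)
        exact Ideal.mul_mem_left _ _ (Ideal.pow_le_pow_right (by omega) h2)
    | add x _ y _ hx hy => rw [map_add]; exact Ideal.add_mem _ hx hy

theorem Complete_mem_pow [IsLocalRing Λ] {σ : Type} [Finite σ] (n : ℕ) {a : MvPowerSeries σ Λ}
    (h : ∀ m : σ →₀ ℕ, (∀ i, m i < n) → MvPowerSeries.coeff m a ∈ maximalIdeal Λ ^ n) :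
    a ∈ maximalIdeal (MvPowerSeries σ Λ) ^ n := by
  refine (sup_le ?_ (Ideal.span_le.2 ?_) : _ ≤ maximalIdeal (MvPowerSeries σ Λ) ^ n)
    ((Complete_ps_mem (maximalIdeal Λ ^ n) n).2 h)
  · rw [Ideal.map_pow, maximalIdeal_mvPowerSeries]
    exact Ideal.pow_right_mono le_sup_left n
  · rintro _ ⟨i, rfl⟩
    refine Ideal.pow_mem_pow ?_ n
    rw [maximalIdeal_mvPowerSeries]
    exact Ideal.mem_sup_right (Ideal.subset_span ⟨i, rfl⟩)

set_option linter.unusedVariables false in
theorem isAdicComplete_mvPowerSeries [IsLocalRing Λ] (hfg : (maximalIdeal Λ).FG)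
    [IsAdicComplete (maximalIdeal Λ) Λ] (σ : Type) [Finite σ] :
    IsAdicComplete (maximalIdeal (MvPowerSeries σ Λ)) (MvPowerSeries σ Λ) := by
  have := Fintype.ofFinite σ
  have key : ∀ (n : ℕ) (m : σ →₀ ℕ) {x y : MvPowerSeries σ Λ},
      x ≡ y [SMOD (maximalIdeal (MvPowerSeries σ Λ) ^ (n + m.degree) • ⊤ :
        Submodule (MvPowerSeries σ Λ) (MvPowerSeries σ Λ))] →
      MvPowerSeries.coeff m x ≡ MvPowerSeries.coeff m y
        [SMOD (maximalIdeal Λ ^ n • ⊤ : Submodule Λ Λ)] := by
    intro n m x y h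
    have := Complete_coeff_mem_pow Λ _ ((Complete_smodEq _).1 h) m
    rw [Nat.add_sub_cancel, map_sub] at this
    exact (Complete_smodEq _).2 this
  have h1 : IsHausdorff (maximalIdeal (MvPowerSeries σ Λ)) (MvPowerSeries σ Λ) := ⟨fun x hx => by
    ext m
    exact IsHausdorff.haus' (I := maximalIdeal Λ) _ fun n => key n m (hx _)⟩
  have h2 : IsPrecomplete (maximalIdeal (MvPowerSeries σ Λ)) (MvPowerSeries σ Λ) := ⟨fun f hf => by
    have : ∀ m : σ →₀ ℕ, ∃ L : Λ, ∀ n, MvPowerSeries.coeff m (f (n + m.degree)) ≡ L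
        [SMOD (maximalIdeal Λ ^ n • ⊤ : Submodule Λ Λ)] := fun m =>
      IsPrecomplete.prec' _ fun {a b} hab => key a m (hf (Nat.add_le_add_right hab _))
    choose L hL using this
    refine ⟨L, fun n => (hf (Nat.le_add_right n (Fintype.card σ * n))).trans ?_⟩
    refine (Complete_smodEq _).2 (Complete_mem_pow Λ n fun m hm => ?_)
    have hd : m.degree ≤ Fintype.card σ * n := by
      rw [Finsupp.degree_eq_sum, ← Finset.card_univ, ← smul_eq_mul]
      exact Finset.sum_le_card_nsmul _ _ _ fun i _ => (hm i).le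
    rw [map_sub]
    exact (Complete_smodEq _).1
      ((key n m (hf (Nat.add_le_add_left hd n))).symm.trans (hL m n))⟩
  exact {}

end powerSeries

end Crest.Agent.R183
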