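import Crest.Agent.R183.Defs

/-!
# Length functions: basic API, the `sz` calculus, constructions, dévissage
-/

set_option autoImplicit false

open scoped ENNReal NNReal TensorProduct

namespace Crest.Agent.R183

namespace LF

section basic

variable {B : Type} [CommRing B] (μ : LF B)
  {M N P : Type} [AddCommGroup M] [Module B M] [AddCommGroup N] [Module B N]
  [AddCommGroup P] [Module B P]

theorem val_eq_ker_add_range (f : M →ₗ[B] N) :
    μ.val M = μ.val (LinearMap.ker f) + μ.val (LinearMap.range f) := by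
  rw [μ.add (LinearMap.ker f), μ.congr f.quotKerEquivRange]

theorem val_top : μ.val (⊤ : Submodule B M) = μ.val M :=
  μ.congr Submodule.topEquiv

theorem val_bot : μ.val (⊥ : Submodule B M) = 0 :=
  μ.zero _

theorem val_eq_add_of_exact (f : M →ₗ[B] N) (g : N →ₗ[B] P) (hf : Function.Injective f)
    (hg : Function.Surjective g) (h : Function.Exact f g) :
    μ.val N = μ.val M + μ.val P := by
  rw [μ.val_eq_ker_add_range g, LinearMap.exact_iff.mp h,
    ← μ.congr (LinearEquiv.ofInjective f hf), LinearMap.range_eq_top.mpr hg, μ.val_top]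

theorem le_of_injective (f : M →ₗ[B] N) (hf : Function.Injective f) : μ.val M ≤ μ.val N := by
  rw [μ.add (LinearMap.range f), ← μ.congr (LinearEquiv.ofInjective f hf)]
  exact le_self_add

theorem le_of_surjective (f : M →ₗ[B] N) (hf : Function.Surjective f) : μ.val N ≤ μ.val M := by
  rw [μ.val_eq_ker_add_range f, LinearMap.range_eq_top.mpr hf, μ.val_top]
  exact le_add_self

theorem LFval_range_le (f : M →ₗ[B] N) : μ.val (LinearMap.range f) ≤ μ.val M :=
  μ.le_of_surjective f.rangeRestrict f.surjective_rangeRestrict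

theorem LFval_sub_le (A : Submodule B M) : μ.val A ≤ μ.val M :=
  μ.le_of_injective A.subtype A.subtype_injective

theorem LFval_quot_le (A : Submodule B M) : μ.val (M ⧸ A) ≤ μ.val M :=
  μ.le_of_surjective A.mkQ A.mkQ_surjective

theorem le_add_of_exact (f : M →ₗ[B] N) (g : N →ₗ[B] P) (h : Function.Exact f g) :
    μ.val N ≤ μ.val M + μ.val P := by
  rw [μ.val_eq_ker_add_range g, LinearMap.exact_iff.mp h]
  exact add_le_add (μ.LFval_range_le f) (μ.LFval_sub_le _)

theorem val_prod : μ.val (M × N) = μ.val M + μ.val N :=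
  μ.val_eq_add_of_exact _ _ LinearMap.inl_injective LinearMap.snd_surjective .inl_snd

theorem LFval_pi_aux : ∀ {ι : Type} [Fintype ι] (Ms : ι → Type) [∀ i, AddCommGroup (Ms i)]
    [∀ i, Module B (Ms i)], μ.val (∀ i, Ms i) = ∑ i, μ.val (Ms i) := by
  apply Fintype.induction_empty_option
  · intro α β _ e IH M _ _
    let _ : Fintype α := .ofEquiv β e.symm
    rw [← μ.congr (LinearEquiv.piCongrLeft B M e), IH, e.sum_comp (fun i => μ.val (M i))]
  · intro M _ _
    simp [μ.zero]
  · intro ι _ IH M _ _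
    rw [μ.congr (LinearEquiv.piOptionEquivProd _), μ.val_prod, IH, add_comm,
      Fintype.sum_option, add_comm]

theorem val_pi_dep {ι : Type} [Fintype ι] (Ms : ι → Type) [∀ i, AddCommGroup (Ms i)]
    [∀ i, Module B (Ms i)] : μ.val (∀ i, Ms i) = ∑ i, μ.val (Ms i) :=
  μ.LFval_pi_aux Ms

theorem val_pi (ι : Type) [Fintype ι] : μ.val (ι → M) = Fintype.card ι * μ.val M := by
  rw [μ.val_pi_dep (fun _ : ι => M)]
  simp

theorem val_mono {A A' : Submodule B M} (h : A ≤ A') : μ.val A ≤ μ.val A' :=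
  μ.le_of_injective (Submodule.inclusion h) (Submodule.inclusion_injective h)

theorem quot_anti {A A' : Submodule B M} (h : A ≤ A') : μ.val (M ⧸ A') ≤ μ.val (M ⧸ A) :=
  μ.le_of_surjective (Submodule.factor h) (Submodule.factor_surjective h)

theorem LFval_map_le (f : M →ₗ[B] N) (A : Submodule B M) : μ.val (A.map f) ≤ μ.val A := by
  refine μ.le_of_surjective (f.submoduleMap A) ?_
  exact LinearMap.submoduleMap_surjective f A

/-- submodularity -/
theorem quot_add_quot_le (A A' : Submodule B M) :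
    μ.val (M ⧸ A) + μ.val (M ⧸ A') ≤ μ.val M + μ.val (M ⧸ (A ⊔ A')) := by
  rw [μ.add (A'.map A.mkQ), μ.congr (Submodule.quotientQuotientEquivQuotientSup A A'),
    μ.add A']
  have := μ.LFval_map_le A.mkQ A'
  calc μ.val (A'.map A.mkQ) + μ.val (M ⧸ (A ⊔ A')) + μ.val (M ⧸ A')
      ≤ μ.val A' + μ.val (M ⧸ (A ⊔ A')) + μ.val (M ⧸ A') := by gcongr
    _ = _ := by ring

/-- kernel and cokernel of an endomorphism of a module of finite size have the same size -/
theorem val_ker_eq_val_coker (f : M →ₗ[B] M) (h : μ.val M ≠ ⊤) :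
    μ.val (LinearMap.ker f) = μ.val (M ⧸ LinearMap.range f) := by
  have h1 := μ.val_eq_ker_add_range f
  have h2 := μ.add (LinearMap.range f)
  have h3 : μ.val (LinearMap.range f) ≠ ⊤ := ne_top_of_le_ne_top h (μ.LFval_sub_le _)
  rw [h1, add_comm] at h2
  exact (ENNReal.add_right_inj h3).mp h2

/-- The surjection `(B ⧸ J)^n → M` attached to generators of a module killed by `J`. -/
theorem LFexists_surj (J : Ideal B) {n : ℕ} (v : Fin n → M)
    (hv : Submodule.span B (Set.range v) = ⊤) (hJ : ∀ a ∈ J, ∀ x : M, a • x = 0) :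
    ∃ f : (Fin n → B ⧸ J) →ₗ[B] M, Function.Surjective f := by
  let g : Fin n → ((B ⧸ J) →ₗ[B] M) := fun i =>
    Submodule.liftQ J (LinearMap.toSpanSingleton B M (v i)) (fun a ha => by
      simpa using hJ a ha (v i))
  refine ⟨∑ i, (g i) ∘ₗ LinearMap.proj i, ?_⟩
  rw [← LinearMap.range_eq_top, eq_top_iff, ← hv, Submodule.span_le]
  rintro _ ⟨i, rfl⟩
  refine ⟨Pi.single i (Submodule.Quotient.mk 1), ?_⟩
  rw [LinearMap.sum_apply, Finset.sum_eq_single i]
  · simp only [LinearMap.comp_apply, LinearMap.proj_apply, Pi.single_eq_same, g,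
      Submodule.liftQ_apply, LinearMap.toSpanSingleton_apply, one_smul]
  · intro j _ hj
    simp [Pi.single_eq_of_ne hj]
  · simp

/-- A module generated by `n` elements and killed by `J`. -/
theorem val_le_of_span (J : Ideal B) {n : ℕ} (v : Fin n → M)
    (hv : Submodule.span B (Set.range v) = ⊤) (hJ : ∀ a ∈ J, ∀ x : M, a • x = 0) :
    μ.val M ≤ n * μ.val (B ⧸ J) := by
  obtain ⟨f, hf⟩ := LFexists_surj J v hv hJ
  have := μ.le_of_surjective f hf
  rwa [μ.val_pi, Fintype.card_fin] at this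

theorem null_one : μ.Null 1 := by
  intro M _ _ h
  have : Subsingleton M := ⟨fun a b => by rw [← one_smul B a, ← one_smul B b, h, h]⟩
  exact μ.zero M

theorem Null.mul {μ : LF B} {γ γ' : B} (h : μ.Null γ) (h' : μ.Null γ') : μ.Null (γ * γ') := by
  intro M _ _ hM
  rw [μ.val_eq_ker_add_range (LinearMap.lsmul B M γ'), h' _ _, h _ _, add_zero]
  · rintro ⟨_, x, rfl⟩
    ext
    simpa [smul_smul] using hM x
  · rintro ⟨x, hx⟩
    ext
    simpa using hx

theorem Null.pow {μ : LF B} {γ : B} (h : μ.Null γ) (c : ℕ) : μ.Null (γ ^ c) := by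
  induction c with
  | zero => simpa using μ.null_one
  | succ c ih => rw [pow_succ]; exact ih.mul h

end basic

section sz

variable {B : Type} [CommRing B] (μ : LF B)
  {M N : Type} [AddCommGroup M] [Module B M] [AddCommGroup N] [Module B N]

theorem sz_eq_quot (P Q : Submodule B M) : μ.sz P Q = μ.val (P ⧸ Q.comap P.subtype) := by
  have h1 : Q.comap P.subtype = LinearMap.ker (Q.mkQ ∘ₗ P.subtype) := by
    rw [LinearMap.ker_comp, Submodule.ker_mkQ]
  have h2 : LinearMap.range (Q.mkQ ∘ₗ P.subtype) = P.map Q.mkQ := by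
    rw [LinearMap.range_comp, Submodule.range_subtype]
  rw [μ.congr (Submodule.quotEquivOfEq _ _ h1), μ.congr (LinearMap.quotKerEquivRange _), h2]
  rfl

theorem sz_top (Q : Submodule B M) : μ.sz ⊤ Q = μ.val (M ⧸ Q) := by
  unfold sz
  rw [Submodule.map_top, Submodule.range_mkQ, μ.val_top]

theorem sz_bot (P : Submodule B M) : μ.sz P ⊥ = μ.val P := by
  rw [sz_eq_quot]
  refine μ.congr (Submodule.quotEquivOfEqBot _ ?_)
  rw [Submodule.comap_bot, Submodule.ker_subtype]

theorem sz_eq_zero_of_le {P Q : Submodule B M} (h : P ≤ Q) : μ.sz P Q = 0 := by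
  unfold sz
  have : P.map Q.mkQ = ⊥ := by
    rw [eq_bot_iff, Submodule.map_le_iff_le_comap, Submodule.comap_bot, Submodule.ker_mkQ]
    exact h
  rw [this, μ.val_bot]

theorem LFsz_congr {P Q Q' : Submodule B M} (h : P ⊓ Q = P ⊓ Q') : μ.sz P Q = μ.sz P Q' := by
  rw [sz_eq_quot, sz_eq_quot]
  refine μ.congr (Submodule.quotEquivOfEq _ _ ?_)
  ext ⟨x, hx⟩
  have := SetLike.ext_iff.mp h x
  simpa [hx] using this

theorem sz_mono {P P' Q Q' : Submodule B M} (hP : P ≤ P') (hQ : Q' ≤ Q) :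
    μ.sz P Q ≤ μ.sz P' Q' := by
  calc μ.sz P Q ≤ μ.sz P Q' := by
        rw [sz_eq_quot, sz_eq_quot]
        exact μ.quot_anti (Submodule.comap_mono hQ)
    _ ≤ μ.sz P' Q' := μ.val_mono (Submodule.map_mono hP)

theorem sz_sup_left (P Q : Submodule B M) : μ.sz (P ⊔ Q) Q = μ.sz P Q := by
  unfold sz
  rw [Submodule.map_sup, Submodule.mkQ_map_self, sup_bot_eq]

theorem sz_inf_right (P Q : Submodule B M) : μ.sz P (P ⊓ Q) = μ.sz P Q :=
  μ.LFsz_congr (by rw [← inf_assoc, inf_idem])

theorem sz_map_eq (f : M →ₗ[B] N) (P : Submodule B M) (Q : Submodule B N) :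
    μ.sz (P.map f) Q = μ.sz P (Q.comap f) := by
  have h1 : (Q.comap f).comap P.subtype = LinearMap.ker (Q.mkQ ∘ₗ f ∘ₗ P.subtype) := by
    rw [LinearMap.ker_comp, Submodule.ker_mkQ, Submodule.comap_comp]
  have h2 : LinearMap.range (Q.mkQ ∘ₗ f ∘ₗ P.subtype) = (P.map f).map Q.mkQ := by
    rw [LinearMap.range_comp, LinearMap.range_comp, Submodule.range_subtype]
  rw [μ.sz_eq_quot P, μ.congr (Submodule.quotEquivOfEq _ _ h1),
    μ.congr (LinearMap.quotKerEquivRange _), h2]
  rfl

theorem sz_tower_right (P : Submodule B M) {Q Q' : Submodule B M} (h : Q ≤ Q') :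
    μ.sz P Q = μ.sz P Q' + μ.sz (P ⊓ Q') Q := by
  rw [μ.sz_eq_quot P Q, μ.add ((Q'.comap P.subtype).map (Q.comap P.subtype).mkQ),
    μ.congr (Submodule.quotientQuotientEquivQuotient _ _ (Submodule.comap_mono h)),
    ← μ.sz_eq_quot, add_comm]
  congr 1
  change μ.sz (Q'.comap P.subtype) (Q.comap P.subtype) = _
  rw [← μ.sz_map_eq, Submodule.map_comap_subtype]

theorem sz_tower_left {P P' : Submodule B M} (h : P' ≤ P) (Q : Submodule B M) :
    μ.sz P Q = μ.sz P' Q + μ.sz P (P' ⊔ Q) := by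
  rw [μ.sz_tower_right P (le_sup_right : Q ≤ P' ⊔ Q), add_comm]
  congr 1
  rw [← μ.sz_sup_left (P ⊓ (P' ⊔ Q)), ← μ.sz_sup_left P']
  congr 1
  apply le_antisymm
  · exact sup_le inf_le_right le_sup_right
  · exact sup_le_sup_right (le_inf h le_sup_left) _

theorem sz_triangle (P Q R : Submodule B M) : μ.sz P R ≤ μ.sz P Q + μ.sz Q R := by
  rw [μ.sz_tower_right P (le_sup_right : R ≤ Q ⊔ R), ← μ.sz_sup_left Q R]
  exact add_le_add (μ.sz_mono le_rfl le_sup_left) (μ.sz_mono inf_le_right le_rfl)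

theorem sz_sup_le (P P' Q : Submodule B M) : μ.sz (P ⊔ P') Q ≤ μ.sz P Q + μ.sz P' Q := by
  rw [μ.sz_tower_left (le_sup_left : P ≤ P ⊔ P') Q]
  gcongr
  calc μ.sz (P ⊔ P') (P ⊔ Q) ≤ μ.sz (P' ⊔ (P ⊔ Q)) (P ⊔ Q) :=
        μ.sz_mono (sup_le (le_sup_of_le_right le_sup_left) le_sup_left) le_rfl
    _ = μ.sz P' (P ⊔ Q) := μ.sz_sup_left _ _
    _ ≤ μ.sz P' Q := μ.sz_mono le_rfl le_sup_right

theorem sz_inf_le (P Q Q' : Submodule B M) : μ.sz P (Q ⊓ Q') ≤ μ.sz P Q + μ.sz P Q' := by
  rw [μ.sz_tower_right P (inf_le_left : Q ⊓ Q' ≤ Q)]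
  gcongr
  calc μ.sz (P ⊓ Q) (Q ⊓ Q') = μ.sz (P ⊓ Q) Q' := by
        apply μ.LFsz_congr
        rw [← inf_assoc, inf_assoc P Q Q, inf_idem]
    _ ≤ μ.sz P Q' := μ.sz_mono inf_le_left le_rfl

theorem sz_map_le (f : M →ₗ[B] N) (P Q : Submodule B M) :
    μ.sz (P.map f) (Q.map f) ≤ μ.sz P Q := by
  rw [μ.sz_map_eq]
  exact μ.sz_mono le_rfl (Submodule.le_comap_map f Q)

theorem sz_comap_le (f : M →ₗ[B] N) (P Q : Submodule B N) :
    μ.sz (P.comap f) (Q.comap f) ≤ μ.sz P Q := by
  rw [← μ.sz_map_eq]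
  exact μ.sz_mono (Submodule.map_comap_le f P) le_rfl

theorem sz_eq_zero_of_smul {γ : B} (h : μ.Null γ) {P Q : Submodule B M}
    (hP : ∀ x ∈ P, γ • x ∈ Q) : μ.sz P Q = 0 := by
  refine h _ ?_
  rintro ⟨_, x, hx, rfl⟩
  apply Subtype.ext
  change γ • Q.mkQ x = 0
  rw [← map_smul, Submodule.mkQ_apply, Submodule.Quotient.mk_eq_zero]
  exact hP x hx

/-- modular law up to null sets: if `P ≲ E ⊔ Q` and `E ≤ P` then `P ≲ E ⊔ (P ⊓ Q)`. -/
theorem sz_modular {P E : Submodule B M} (Q : Submodule B M) (hE : E ≤ P) :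
    μ.sz P (E ⊔ (P ⊓ Q)) = μ.sz P (E ⊔ Q) := by
  apply μ.LFsz_congr
  have : E ⊔ (P ⊓ Q) = P ⊓ (E ⊔ Q) := by
    rw [inf_comm P Q, ← sup_inf_assoc_of_le Q hE, inf_comm]
  rw [this, ← inf_assoc, inf_idem]

theorem sz_le_of_null_left {P P' : Submodule B M} (h : μ.sz P P' = 0) (Q : Submodule B M) :
    μ.sz P Q ≤ μ.sz P' Q := by
  have := μ.sz_triangle P P' Q
  rwa [h, zero_add] at this

theorem sz_le_of_null_right (P : Submodule B M) {Q Q' : Submodule B M} (h : μ.sz Q Q' = 0) :
    μ.sz P Q' ≤ μ.sz P Q := by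
  have := μ.sz_triangle P Q Q'
  rwa [h, add_zero] at this

theorem sz_pi {ι : Type} [Fintype ι] (P Q : ι → Submodule B M) :
    μ.sz (Submodule.pi Set.univ P) (Submodule.pi Set.univ Q) = ∑ i, μ.sz (P i) (Q i) := by
  classical
  unfold sz
  rw [← μ.val_pi_dep (fun i => (P i).map (Q i).mkQ)]
  let f : (Submodule.pi Set.univ P : Submodule B (ι → M)) →ₗ[B] ∀ i, (P i).map (Q i).mkQ :=
    LinearMap.pi fun i => LinearMap.codRestrict _
      ((Q i).mkQ ∘ₗ LinearMap.proj i ∘ₗ (Submodule.pi Set.univ P).subtype)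
      (fun x => ⟨x.1 i, x.2 i (Set.mem_univ i), rfl⟩)
  have hf : Function.Surjective f := by
    intro y
    choose x hx hx' using fun i => (y i).2
    exact ⟨⟨x, fun i _ => hx i⟩, funext fun i => Subtype.ext (hx' i)⟩
  have hk : (Submodule.pi Set.univ Q).comap (Submodule.pi Set.univ P).subtype =
      LinearMap.ker f := by
    ext x
    simp only [Submodule.mem_comap, Submodule.mem_pi, Set.mem_univ, forall_true_left,
      LinearMap.mem_ker, funext_iff, Subtype.ext_iff]
    refine forall_congr' fun i => ?_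
    exact (Submodule.Quotient.mk_eq_zero (Q i)).symm
  have := μ.sz_eq_quot (Submodule.pi Set.univ P) (Submodule.pi Set.univ Q)
  unfold sz at this
  rw [this, μ.congr (Submodule.quotEquivOfEq _ _ hk), μ.congr (f.quotKerEquivOfSurjective hf)]

end sz

section basic2

variable {B : Type} [CommRing B] (μ : LF B)
  {M N P : Type} [AddCommGroup M] [Module B M] [AddCommGroup N] [Module B N]
  [AddCommGroup P] [Module B P]

theorem LFrange_lsmul_sub (a : B) (A : Submodule B M) :
    μ.val (LinearMap.range (LinearMap.lsmul B A a)) = μ.val (A.map (LinearMap.lsmul B M a)) := by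
  rw [μ.congr (Submodule.equivMapOfInjective A.subtype A.subtype_injective _)]
  have : (LinearMap.range (LinearMap.lsmul B A a)).map A.subtype =
      A.map (LinearMap.lsmul B M a) := by
    ext x
    constructor
    · rintro ⟨_, ⟨y, rfl⟩, rfl⟩
      exact ⟨y.1, y.2, rfl⟩
    · rintro ⟨y, hy, rfl⟩
      exact ⟨_, ⟨⟨y, hy⟩, rfl⟩, rfl⟩
  rw [this]

theorem LFrange_lsmul_quot (a : B) (A : Submodule B M) :
    μ.val (LinearMap.range (LinearMap.lsmul B (M ⧸ A) a)) =
      μ.sz (LinearMap.range (LinearMap.lsmul B M a)) A := by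
  unfold sz
  have : LinearMap.range (LinearMap.lsmul B (M ⧸ A) a) =
      (LinearMap.range (LinearMap.lsmul B M a)).map A.mkQ := by
    ext x
    constructor
    · rintro ⟨y, rfl⟩
      obtain ⟨y, rfl⟩ := A.mkQ_surjective y
      exact ⟨_, ⟨y, rfl⟩, rfl⟩
    · rintro ⟨_, ⟨y, rfl⟩, rfl⟩
      exact ⟨A.mkQ y, rfl⟩
  rw [this]

/-- `μ(a b M) ≤ μ(a A) + μ(b (M / A))`. -/
theorem val_range_lsmul_mul_le (a b : B) (A : Submodule B M) :
    μ.val (LinearMap.range (LinearMap.lsmul B M (a * b))) ≤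
      μ.val (LinearMap.range (LinearMap.lsmul B A a)) +
        μ.val (LinearMap.range (LinearMap.lsmul B (M ⧸ A) b)) := by
  rw [LFrange_lsmul_sub, LFrange_lsmul_quot, ← μ.sz_bot, ← μ.sz_bot (A.map _), add_comm]
  refine (μ.sz_triangle _ (A.map (LinearMap.lsmul B M a)) _).trans ?_
  gcongr
  refine le_trans (μ.sz_mono ?_ le_rfl) (μ.sz_map_le (LinearMap.lsmul B M a) _ A)
  rintro _ ⟨x, rfl⟩
  exact ⟨b • x, ⟨x, rfl⟩, by simp [smul_smul, mul_comm]⟩

/-- `μ(a A) + μ(a (M / A)) ≤ μ(a M)`. -/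
theorem add_le_val_range_lsmul (a : B) (A : Submodule B M) :
    μ.val (LinearMap.range (LinearMap.lsmul B A a)) +
        μ.val (LinearMap.range (LinearMap.lsmul B (M ⧸ A) a)) ≤
      μ.val (LinearMap.range (LinearMap.lsmul B M a)) := by
  rw [LFrange_lsmul_sub, LFrange_lsmul_quot, ← μ.sz_bot (LinearMap.range _),
    μ.sz_tower_right _ (bot_le : ⊥ ≤ A), add_comm, μ.sz_bot]
  gcongr
  apply μ.val_mono
  rintro _ ⟨x, hx, rfl⟩
  exact ⟨⟨x, rfl⟩, A.smul_mem a hx⟩

theorem val_range_lsmul_le_of_surjective (a : B) (f : M →ₗ[B] N) (hf : Function.Surjective f) :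
    μ.val (LinearMap.range (LinearMap.lsmul B N a)) ≤
      μ.val (LinearMap.range (LinearMap.lsmul B M a)) := by
  refine le_trans (μ.val_mono ?_) (μ.LFval_map_le f _)
  rintro _ ⟨y, rfl⟩
  obtain ⟨x, rfl⟩ := hf y
  exact ⟨a • x, ⟨x, rfl⟩, by simp⟩

theorem val_range_lsmul_le_of_dvd {a b : B} (h : a ∣ b) :
    μ.val (LinearMap.range (LinearMap.lsmul B M b)) ≤
      μ.val (LinearMap.range (LinearMap.lsmul B M a)) := by
  obtain ⟨c, rfl⟩ := h
  apply μ.val_mono
  rintro _ ⟨x, rfl⟩
  exact ⟨c • x, by simp [smul_smul, mul_comm]⟩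

end basic2


section constructions

/-- Restriction of scalars along a ring hom `f : S →+* D`. -/
noncomputable def comap {S D : Type} [CommRing S] [CommRing D] (μ : LF S) (f : S →+* D) :
    LF D where
  val M _ _ := @LF.val S _ μ M _ (Module.compHom M f)
  congr := by
    intro M N _ _ _ _ e
    let _ := Module.compHom M f
    let _ := Module.compHom N f
    exact μ.congr { e.toAddEquiv with map_smul' := fun s x => e.map_smul (f s) x }
  add := by
    intro M _ _ P
    let _ := Module.compHom M f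
    let _ := Module.compHom P f
    let _ := Module.compHom (M ⧸ P) f
    let i : P →ₗ[S] M := { P.subtype.toAddMonoidHom with map_smul' := fun _ _ => rfl }
    let q : M →ₗ[S] (M ⧸ P) := { P.mkQ.toAddMonoidHom with map_smul' := fun _ _ => rfl }
    exact μ.val_eq_add_of_exact i q P.subtype_injective P.mkQ_surjective
      (LinearMap.exact_subtype_mkQ P)
  zero := by
    intro M _ _ _
    let _ := Module.compHom M f
    exact μ.zero M

theorem comap_val {S D : Type} [CommRing S] [CommRing D] (μ : LF S) (f : S →+* D)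
    (M : Type) [AddCommGroup M] [Module D M] [Module S M]
    (h : ∀ (s : S) (x : M), s • x = f s • x) : (μ.comap f).val M = μ.val M := by
  rename_i inst
  have : inst = Module.compHom M f := Module.ext' _ _ h
  subst this
  rfl

theorem comap_algebraMap_val {S D : Type} [CommRing S] [CommRing D] [Algebra S D] (μ : LF S)
    (M : Type) [AddCommGroup M] [Module D M] [Module S M] [IsScalarTower S D M] :
    (μ.comap (algebraMap S D)).val M = μ.val M :=
  μ.comap_val _ M fun s x => (algebraMap_smul D s x).symm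

/-- Scaling of a length function by a constant. -/
noncomputable def smul {B : Type} [CommRing B] (c : ℝ≥0∞) (μ : LF B) : LF B where
  val M _ _ := c * μ.val M
  congr := by
    intro M N _ _ _ _ e
    rw [μ.congr e]
  add := by
    intro M _ _ P
    rw [μ.add P, mul_add]
  zero := by
    intro M _ _ _
    rw [μ.zero M, mul_zero]

/-- The usual length. -/
noncomputable def length (B : Type) [CommRing B] : LF B where
  val M _ _ := (Module.length B M : ℝ≥0∞)
  congr := by
    intro M N _ _ _ _ e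
    rw [e.length_eq]
  add := by
    intro M _ _ P
    rw [Module.length_eq_add_of_exact P.subtype P.mkQ P.subtype_injective P.mkQ_surjective
      (LinearMap.exact_subtype_mkQ P), ENat.toENNReal_add]
  zero := by
    intro M _ _ _
    rw [Module.length_eq_zero, ENat.toENNReal_zero]

theorem length_val (B : Type) [CommRing B] (M : Type) [AddCommGroup M] [Module B M] :
    (length B).val M = (Module.length B M : ℝ≥0∞) := rfl

end constructions

section devissage

/-- A simple module killed by a power of a maximal ideal `𝔫` is `T ⧸ 𝔫`. -/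
theorem LFsimple_equiv {T : Type} [CommRing T] (𝔫 : Ideal T) [h𝔫 : 𝔫.IsMaximal] (G : Type)
    [AddCommGroup G] [Module T G] [hs : IsSimpleModule T G]
    (hG : ∃ c : ℕ, ∀ a ∈ 𝔫 ^ c, ∀ x : G, a • x = 0) : Nonempty (G ≃ₗ[T] T ⧸ 𝔫) := by
  obtain ⟨I, hI, ⟨e⟩⟩ := isSimpleModule_iff_quot_maximal.mp hs
  obtain ⟨c, hc⟩ := hG
  have h1 : 𝔫 ^ c ≤ I := by
    intro a ha
    have := congrArg e (hc a ha (e.symm (Submodule.Quotient.mk 1)))
    rw [map_smul, e.apply_symm_apply, map_zero, ← Submodule.Quotient.mk_smul,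
      Submodule.Quotient.mk_eq_zero, smul_eq_mul, mul_one] at this
    exact this
  have h2 : 𝔫 = I := h𝔫.eq_of_le hI.ne_top (Ideal.IsPrime.le_of_pow_le (hP := hI.isPrime) h1)
  subst h2
  exact ⟨e⟩

theorem LFkill_sub {T : Type} [CommRing T] {I : Ideal T} {G : Type} [AddCommGroup G] [Module T G]
    (N : Submodule T G) (h : ∀ a ∈ I, ∀ x : G, a • x = 0) : ∀ a ∈ I, ∀ x : N, a • x = 0 :=
  fun a ha x => Subtype.ext (h a ha x.1)

theorem LFkill_quot {T : Type} [CommRing T] {I : Ideal T} {G : Type} [AddCommGroup G]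
    [Module T G] (N : Submodule T G) (h : ∀ a ∈ I, ∀ x : G, a • x = 0) :
    ∀ a ∈ I, ∀ x : G ⧸ N, a • x = 0 := by
  intro a ha x
  obtain ⟨x, rfl⟩ := N.mkQ_surjective x
  rw [← map_smul, h a ha, map_zero]

theorem LFlength_step {T : Type} [CommRing T] {G : Type} [AddCommGroup G] [Module T G]
    (N : Submodule T G) [IsSimpleModule T (G ⧸ N)] :
    (Module.length T G : ℝ≥0∞) = Module.length T N + 1 := by
  rw [Module.length_eq_add_of_exact N.subtype N.mkQ N.subtype_injective N.mkQ_surjective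
      (LinearMap.exact_subtype_mkQ N), Module.length_eq_one T (G ⧸ N), ENat.toENNReal_add,
      ENat.toENNReal_one]

/-- Dévissage for a length function on `T`-modules. -/
theorem LFval_eq_length_mul {T : Type} [CommRing T] (μ : LF T) (𝔫 : Ideal T) [𝔫.IsMaximal]
    (G : Type) [AddCommGroup G] [Module T G]
    (hG : ∃ c : ℕ, ∀ a ∈ 𝔫 ^ c, ∀ x : G, a • x = 0) (hlen : Module.length T G ≠ ⊤) :
    μ.val G = (Module.length T G : ℝ≥0∞) * μ.val (T ⧸ 𝔫) := by
  obtain ⟨c, hc⟩ := hG
  have hfl := Module.length_ne_top_iff.mp hlen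
  clear hlen
  induction hfl with
  | of_subsingleton => rw [μ.zero, Module.length_eq_zero, ENat.toENNReal_zero, zero_mul]
  | @of_simple_quotient M _ _ N _ _ ih =>
    obtain ⟨e⟩ := LFsimple_equiv 𝔫 (M ⧸ N) ⟨c, LFkill_quot N hc⟩
    rw [μ.add N, ih (LFkill_sub N hc), μ.congr e, LFlength_step N, add_mul, one_mul]

variable {T S : Type} [CommRing T] [CommRing S] [Algebra T S] (μ : LF S)

/-- `E ⊗ (T ⧸ I) = E / I E`, `S`-linearly. -/
noncomputable def LFtensorQuot (I : Ideal T) (E : Type) [AddCommGroup E] [Module S E]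
    [Module T E] [IsScalarTower T S E] :
    (E ⧸ (I.map (algebraMap T S) • ⊤ : Submodule S E)) ≃ₗ[S] E ⊗[T] (T ⧸ I) where
  __ := LinearEquiv.symm <| TensorProduct.tensorQuotEquivQuotSMul E I ≪≫ₗ
    Submodule.quotEquivOfEq _ _ (by
      rw [Ideal.smul_restrictScalars, Submodule.restrictScalars_top])
    ≪≫ₗ Submodule.Quotient.restrictScalarsEquiv T (I.map (algebraMap T S) • ⊤ : Submodule S E)
  map_smul' := by
    rintro _ ⟨_⟩
    congr

/-- Upper bound by right exactness: for a `T`-module `G` killed by a power of the maximal ideal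
`𝔫` and an `S`-module `E`, `μ(E ⊗ G) ≤ ℓ(G) μ(E / 𝔫 E)`. -/
theorem val_tensor_le (𝔫 : Ideal T) [𝔫.IsMaximal] (E : Type) [AddCommGroup E] [Module S E]
    [Module T E] [IsScalarTower T S E] (G : Type) [AddCommGroup G] [Module T G]
    (hG : ∃ c : ℕ, ∀ a ∈ 𝔫 ^ c, ∀ x : G, a • x = 0) (hlen : Module.length T G ≠ ⊤) :
    μ.val (E ⊗[T] G) ≤ (Module.length T G : ℝ≥0∞) *
      μ.val (E ⧸ (𝔫.map (algebraMap T S) • ⊤ : Submodule S E)) := by
  obtain ⟨c, hc⟩ := hG
  have hfl := Module.length_ne_top_iff.mp hlen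
  clear hlen
  induction hfl with
  | of_subsingleton => rw [μ.zero]; exact zero_le
  | @of_simple_quotient M _ _ N _ _ ih =>
    obtain ⟨e⟩ := LFsimple_equiv 𝔫 (M ⧸ N) ⟨c, LFkill_quot N hc⟩
    have h1 := μ.le_add_of_exact (TensorProduct.AlgebraTensorModule.lTensor S E N.subtype)
      (TensorProduct.AlgebraTensorModule.lTensor S E N.mkQ)
      (lTensor_exact E (LinearMap.exact_subtype_mkQ N) N.mkQ_surjective)
    rw [μ.congr (TensorProduct.AlgebraTensorModule.congr (LinearEquiv.refl S E) e),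
      ← μ.congr (LFtensorQuot 𝔫 E)] at h1
    rw [LFlength_step N, add_mul, one_mul]
    exact h1.trans (add_le_add (ih (LFkill_sub N hc)) le_rfl)

/-- Equality when `E ⊗ -` is exact on modules killed by `P` and `G` is killed by `P`. -/
theorem val_tensor_eq (𝔫 : Ideal T) [𝔫.IsMaximal] (P : Ideal T) (E : Type) [AddCommGroup E]
    [Module S E] [Module T E] [IsScalarTower T S E] (hE : FlatMod P E)
    (G : Type) [AddCommGroup G] [Module T G] (hP : ∀ π ∈ P, ∀ x : G, π • x = 0)
    (hG : ∃ c : ℕ, ∀ a ∈ 𝔫 ^ c, ∀ x : G, a • x = 0) (hlen : Module.length T G ≠ ⊤) :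
    μ.val (E ⊗[T] G) = (Module.length T G : ℝ≥0∞) *
      μ.val (E ⧸ (𝔫.map (algebraMap T S) • ⊤ : Submodule S E)) := by
  obtain ⟨c, hc⟩ := hG
  have hfl := Module.length_ne_top_iff.mp hlen
  clear hlen
  induction hfl with
  | of_subsingleton => rw [μ.zero, Module.length_eq_zero, ENat.toENNReal_zero, zero_mul]
  | @of_simple_quotient M _ _ N _ _ ih =>
    obtain ⟨e⟩ := LFsimple_equiv 𝔫 (M ⧸ N) ⟨c, LFkill_quot N hc⟩
    have h1 := μ.val_eq_add_of_exact (TensorProduct.AlgebraTensorModule.lTensor S E N.subtype)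
      (TensorProduct.AlgebraTensorModule.lTensor S E N.mkQ)
      (hE _ _ N.subtype hP N.subtype_injective)
      (LinearMap.lTensor_surjective E N.mkQ_surjective)
      (lTensor_exact E (LinearMap.exact_subtype_mkQ N) N.mkQ_surjective)
    rw [μ.congr (TensorProduct.AlgebraTensorModule.congr (LinearEquiv.refl S E) e),
      ← μ.congr (LFtensorQuot 𝔫 E)] at h1
    rw [LFlength_step N, add_mul, one_mul, h1, ih (LFkill_sub N hP) (LFkill_sub N hc)]

theorem LFkill_quot_ideal {T : Type} [CommRing T] {I J : Ideal T} (h : I ≤ J) :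
    ∀ a ∈ I, ∀ x : T ⧸ J, a • x = 0 := by
  intro a ha x
  obtain ⟨x, rfl⟩ := Submodule.Quotient.mk_surjective J x
  rw [← Submodule.Quotient.mk_smul, Submodule.Quotient.mk_eq_zero]
  exact J.mul_mem_right x (h ha)

/-- `μ(S / J S) ≤ ℓ(T / J) μ(S / 𝔫 S)`. -/
theorem val_quot_map_le (𝔫 : Ideal T) [𝔫.IsMaximal] (J : Ideal T) (hJ : ∃ c : ℕ, 𝔫 ^ c ≤ J)
    (hlen : Module.length T (T ⧸ J) ≠ ⊤) :
    μ.val (S ⧸ J.map (algebraMap T S)) ≤ (Module.length T (T ⧸ J) : ℝ≥0∞) *
      μ.val (S ⧸ 𝔫.map (algebraMap T S)) := by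
  obtain ⟨c, hc⟩ := hJ
  have h := μ.val_tensor_le 𝔫 S (T ⧸ J) ⟨c, LFkill_quot_ideal hc⟩ hlen
  rw [← μ.congr (Ideal.qoutMapEquivTensorQout S (I := J)),
    μ.congr (Submodule.quotEquivOfEq (𝔫.map (algebraMap T S) • ⊤ : Submodule S S)
      (𝔫.map (algebraMap T S)) (by simp))] at h
  exact h

end devissage

end LF

/-- Lengths over `A` and over `T` agree on modules killed by a power of a maximal ideal `𝔫` of
`T` whose residue field is hit by `A`. -/
theorem length_eq_of_residue_surj {A T : Type} [CommRing A] [CommRing T] [Algebra A T]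
    (𝔫 : Ideal T) [𝔫.IsMaximal] (hs : ∀ t : T, ∃ a : A, t - algebraMap A T a ∈ 𝔫)
    (M : Type) [AddCommGroup M] [Module T M] [Module A M] [IsScalarTower A T M]
    (hM : ∃ c : ℕ, ∀ a ∈ 𝔫 ^ c, ∀ x : M, a • x = 0) :
    Module.length A M = Module.length T M := by
  by_cases hlen : Module.length T M = ⊤
  · rw [hlen, eq_top_iff, ← hlen, ← WithBot.coe_le_coe, Module.coe_length, Module.coe_length]
    exact Order.krullDim_le_of_orderEmbedding (Submodule.restrictScalarsEmbedding A T M)
  · have h := ((LF.length A).comap (algebraMap A T)).LFval_eq_length_mul 𝔫 M hM hlen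
    rw [LF.comap_algebraMap_val, LF.comap_algebraMap_val, LF.length_val, LF.length_val] at h
    have h1 : Module.length A (T ⧸ 𝔫) = 1 := by
      have hsurj : Function.Surjective (algebraMap A (T ⧸ 𝔫)) := by
        intro y
        obtain ⟨t, rfl⟩ := Ideal.Quotient.mk_surjective y
        obtain ⟨a, ha⟩ := hs t
        refine ⟨a, ?_⟩
        rw [IsScalarTower.algebraMap_apply A T (T ⧸ 𝔫), Ideal.Quotient.algebraMap_eq, eq_comm,
          Ideal.Quotient.eq]
        exact ha
      let _ := Ideal.Quotient.field 𝔫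
      rw [Module.length_eq_of_surjective hsurj]
      exact Module.length_eq_one _ _
    rw [h1, ENat.toENNReal_one, mul_one] at h
    exact ENat.toENNReal_inj.mp h

theorem LFlength_quot_max {T : Type} [CommRing T] (𝔫 : Ideal T) [h : 𝔫.IsMaximal] :
    Module.length T (T ⧸ 𝔫) = 1 :=
  Module.length_eq_one_iff.mpr (isSimpleModule_iff_quot_maximal.mpr ⟨𝔫, h, ⟨.refl _ _⟩⟩)

/-- A finitely generated module killed by a power of a finitely generated maximal ideal has
finite length. -/
theorem length_ne_top_of_pow {T : Type} [CommRing T] (𝔫 : Ideal T) [𝔫.IsMaximal] (hfg : 𝔫.FG)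
    (M : Type) [AddCommGroup M] [Module T M] [Module.Finite T M]
    (hM : ∃ c : ℕ, ∀ a ∈ 𝔫 ^ c, ∀ x : M, a • x = 0) : Module.length T M ≠ ⊤ := by
  obtain ⟨c, hc⟩ := hM
  induction c generalizing M with
  | zero =>
    have : Subsingleton M := ⟨fun a b => by
      rw [← one_smul T a, ← one_smul T b, hc 1 (by simp), hc 1 (by simp)]⟩
    rw [Module.length_eq_zero]
    exact ENat.zero_ne_top
  | succ c ih =>
    let N : Submodule T M := 𝔫 • ⊤
    have hN : N.FG := Submodule.FG.smul hfg Module.Finite.fg_top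
    have : Module.Finite T N := Module.Finite.iff_fg.mpr hN
    have h1 : Module.length T N ≠ ⊤ := by
      refine ih N ?_
      rintro a ha ⟨x, hx⟩
      apply Subtype.ext
      change a • x = 0
      refine Submodule.smul_induction_on (p := fun x => a • x = 0) hx ?_ ?_
      · intro r hr y _
        rw [smul_smul]
        exact hc _ (by rw [pow_succ]; exact Ideal.mul_mem_mul ha hr) y
      · intro y z hy hz
        rw [smul_add, hy, hz, add_zero]
    have h2 : Module.length T (M ⧸ N) ≠ ⊤ := by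
      obtain ⟨n, v, hv⟩ := Module.Finite.exists_fin (R := T) (M := M ⧸ N)
      obtain ⟨f, hf⟩ := LF.LFexists_surj 𝔫 v hv (by
        intro a ha x
        obtain ⟨x, rfl⟩ := N.mkQ_surjective x
        rw [← map_smul, Submodule.mkQ_apply, Submodule.Quotient.mk_eq_zero]
        exact Submodule.smul_mem_smul ha Submodule.mem_top)
      refine ne_top_of_le_ne_top ?_ (Module.length_le_of_surjective f hf)
      rw [Module.length_pi_of_fintype]
      simp [LFlength_quot_max]
    rw [Module.length_eq_add_of_exact N.subtype N.mkQ N.subtype_injective N.mkQ_surjective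
      (LinearMap.exact_subtype_mkQ N)]
    exact WithTop.add_ne_top.mpr ⟨h1, h2⟩

/-- A module of length `≤ n` is generated by `n` elements. -/
theorem LFexists_span_of_length {T : Type} [CommRing T] (n : ℕ) (M : Type) [AddCommGroup M]
    [Module T M] (hn : Module.length T M ≤ n) :
    ∃ v : Fin n → M, Submodule.span T (Set.range v) = ⊤ := by
  induction n generalizing M with
  | zero =>
    have : Subsingleton M := Module.length_eq_zero_iff.mp (by simpa using hn)
    exact ⟨fun _ => 0, Subsingleton.elim _ _⟩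
  | succ n ih =>
    rcases subsingleton_or_nontrivial M with hM | hM
    · exact ⟨fun _ => 0, Subsingleton.elim _ _⟩
    obtain ⟨x, hx⟩ := exists_ne (0 : M)
    have hlen : Module.length T M ≠ ⊤ := ne_top_of_le_ne_top (ENat.natCast_ne_top _) hn
    obtain ⟨_, _⟩ :=
      isFiniteLength_iff_isNoetherian_isArtinian.mp (Module.length_ne_top_iff.mp hlen)
    have h1 := Submodule.length_quotient_lt (T ∙ x) (by simpa using hx)
    have h2 : Module.length T (M ⧸ (T ∙ x)) ≤ n := by
      have := h1.trans_le hn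
      rw [Nat.cast_succ] at this
      exact Order.le_of_lt_add_one this
    obtain ⟨w, hw⟩ := ih _ h2
    choose w' hw' using fun i => (T ∙ x).mkQ_surjective (w i)
    refine ⟨Fin.cons x w', ?_⟩
    rw [Fin.range_cons, Submodule.span_insert, eq_top_iff]
    intro y _
    have h3 : (T ∙ x).mkQ y ∈ (Submodule.span T (Set.range w')).map (T ∙ x).mkQ := by
      rw [Submodule.map_span, ← Set.range_comp]
      have : (T ∙ x).mkQ ∘ w' = w := funext hw'
      rw [this, hw]
      exact Submodule.mem_top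
    rw [← Submodule.mem_comap, Submodule.comap_map_mkQ] at h3
    exact h3

/-- Nilpotent Nakayama with a count: `M` is generated by `ℓ(M / 𝔫 M)` elements. -/
theorem exists_span_of_length_le {T : Type} [CommRing T] (𝔫 : Ideal T) [𝔫.IsMaximal]
    (M : Type) [AddCommGroup M] [Module T M]
    (hM : ∃ c : ℕ, ∀ a ∈ 𝔫 ^ c, ∀ x : M, a • x = 0) {n : ℕ}
    (hn : Module.length T (M ⧸ (𝔫 • ⊤ : Submodule T M)) ≤ n) :
    ∃ v : Fin n → M, Submodule.span T (Set.range v) = ⊤ := by
  obtain ⟨c, hc⟩ := hM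
  obtain ⟨w, hw⟩ := LFexists_span_of_length n _ hn
  choose v hv using fun i => (𝔫 • ⊤ : Submodule T M).mkQ_surjective (w i)
  refine ⟨v, ?_⟩
  obtain ⟨N, hN⟩ : ∃ N, N = Submodule.span T (Set.range v) := ⟨_, rfl⟩
  rw [← hN]
  have h1 : (⊤ : Submodule T M) ≤ 𝔫 • ⊤ ⊔ N := by
    intro y _
    have h3 : (𝔫 • ⊤ : Submodule T M).mkQ y ∈ N.map (𝔫 • ⊤ : Submodule T M).mkQ := by
      rw [hN, Submodule.map_span, ← Set.range_comp]
      have : (𝔫 • ⊤ : Submodule T M).mkQ ∘ v = w := funext hv
      rw [this, hw]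
      exact Submodule.mem_top
    rw [← Submodule.mem_comap, Submodule.comap_map_mkQ] at h3
    exact h3
  have h2 : ∀ k : ℕ, (⊤ : Submodule T M) ≤ 𝔫 ^ k • ⊤ ⊔ N := by
    intro k
    induction k with
    | zero => simp
    | succ k ih =>
      refine ih.trans (sup_le ?_ le_sup_right)
      calc (𝔫 ^ k • ⊤ : Submodule T M) ≤ 𝔫 ^ k • (𝔫 • ⊤ ⊔ N) := Submodule.smul_mono le_rfl h1
        _ = 𝔫 ^ (k + 1) • ⊤ ⊔ 𝔫 ^ k • N := by
          rw [Submodule.smul_sup, ← Submodule.mul_smul, ← pow_succ]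
        _ ≤ _ := sup_le_sup_left Submodule.smul_le_right _
  have h3 : (𝔫 ^ c • ⊤ : Submodule T M) = ⊥ := by
    rw [eq_bot_iff, Submodule.smul_le]
    intro a ha x _
    exact hc a ha x
  have := h2 c
  rwa [h3, bot_sup_eq, top_le_iff] at this

/-- Freeness by counting lengths: if `M` is killed by `J ⊇ 𝔫^c` and
`ℓ(T / J) ℓ(M / 𝔫 M) ≤ ℓ(M)`, then `M` is free over `T ⧸ J`. -/
theorem exists_equiv_of_length {T : Type} [CommRing T] (𝔫 : Ideal T) [𝔫.IsMaximal]
    (J : Ideal T) (hJ : ∃ c : ℕ, 𝔫 ^ c ≤ J) (hT : Module.length T (T ⧸ J) ≠ ⊤)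
    (M : Type) [AddCommGroup M] [Module T M] (hM : ∀ a ∈ J, ∀ x : M, a • x = 0) {n : ℕ}
    (hn : Module.length T (M ⧸ (𝔫 • ⊤ : Submodule T M)) = n)
    (hl : Module.length T (T ⧸ J) * n ≤ Module.length T M) :
    Nonempty (M ≃ₗ[T] (Fin n → T ⧸ J)) := by
  obtain ⟨c, hc⟩ := hJ
  obtain ⟨v, hv⟩ := exists_span_of_length_le 𝔫 M ⟨c, fun a ha => hM a (hc ha)⟩ hn.le
  obtain ⟨f, hf⟩ := LF.LFexists_surj J v hv hM
  have h1 : Module.length T (Fin n → T ⧸ J) = Module.length T (T ⧸ J) * n := by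
    rw [Module.length_pi_of_fintype]
    simp [mul_comm]
  have h2 := Module.length_eq_add_of_exact (LinearMap.ker f).subtype f
    (Submodule.subtype_injective _) hf (LinearMap.exact_subtype_ker_map f)
  have h3 : Module.length T (T ⧸ J) * n ≠ ⊤ := WithTop.mul_ne_top hT (ENat.natCast_ne_top n)
  have h4 : Module.length T M ≠ ⊤ :=
    ne_top_of_le_ne_top (h1 ▸ h3) (Module.length_le_of_surjective f hf)
  have h5 : Module.length T (LinearMap.ker f) = 0 := by
    have : Module.length T (LinearMap.ker f) + Module.length T M ≤ 0 + Module.length T M := by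
      rw [← h2, h1, zero_add]
      exact hl
    exact le_antisymm ((ENat.add_le_add_iff_right h4).mp this) zero_le
  have h6 : LinearMap.ker f = ⊥ := by
    rw [Module.length_eq_zero_iff] at h5
    exact Submodule.subsingleton_iff_eq_bot.mp h5
  exact ⟨(LinearEquiv.ofBijective f ⟨LinearMap.ker_eq_bot.mp h6, hf⟩).symm⟩

theorem flatMod_of_flat {T : Type} [CommRing T] (P : Ideal T) (S : Type) [AddCommGroup S]
    [Module T S] [Module.Flat T S] : FlatMod P S :=
  fun _ _ _ _ _ _ f _ hf => Module.Flat.lTensor_preserves_injective_linearMap f hf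

/-- A surjection with kernel inside `P S` becomes bijective after tensoring with a module
killed by `P`. -/
theorem LFrTensor_injective {T : Type} [CommRing T] (P : Ideal T) {S S₂ : Type} [AddCommGroup S]
    [Module T S] [AddCommGroup S₂] [Module T S₂] (g : S →ₗ[T] S₂) (hg : Function.Surjective g)
    (hk : LinearMap.ker g ≤ P • ⊤) (V : Type) [AddCommGroup V] [Module T V]
    (hV : ∀ π ∈ P, ∀ v : V, π • v = 0) : Function.Injective (g.rTensor V) := by
  have h1 := rTensor_exact V (LinearMap.exact_subtype_ker_map g) hg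
  rw [← LinearMap.ker_eq_bot, LinearMap.exact_iff.mp h1, LinearMap.range_eq_bot]
  apply TensorProduct.ext'
  rintro ⟨x, hx⟩ v
  change x ⊗ₜ[T] v = 0
  refine Submodule.smul_induction_on (p := fun x => x ⊗ₜ[T] v = 0) (hk hx) ?_ ?_
  · intro r hr y _
    rw [TensorProduct.smul_tmul, hV r hr, TensorProduct.tmul_zero]
  · intro y z hy hz
    rw [TensorProduct.add_tmul, hy, hz, add_zero]

theorem LFflatMod_of_surjective {T : Type} [CommRing T] {P : Ideal T} {S S₂ : Type}
    [AddCommGroup S] [Module T S] [AddCommGroup S₂] [Module T S₂] (h : FlatMod P S)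
    (g : S →ₗ[T] S₂) (hg : Function.Surjective g) (hk : LinearMap.ker g ≤ P • ⊤) :
    FlatMod P S₂ := by
  intro V' V _ _ _ _ f hV hf
  rw [injective_iff_map_eq_zero]
  intro x hx
  obtain ⟨x, rfl⟩ := LinearMap.rTensor_surjective V' hg x
  have h1 : f.lTensor S₂ (g.rTensor V' x) = g.rTensor V (f.lTensor S x) := by
    rw [← LinearMap.comp_apply, ← LinearMap.comp_apply, LinearMap.lTensor_comp_rTensor,
      LinearMap.rTensor_comp_lTensor]
  rw [h1] at hx
  have h2 := (injective_iff_map_eq_zero _).mp (LFrTensor_injective P g hg hk V hV) _ hx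
  rw [(injective_iff_map_eq_zero _).mp (h V' V f hV hf) _ h2, map_zero]

theorem flatMod_of_equiv {T : Type} [CommRing T] (P : Ideal T) (S : Type) [AddCommGroup S]
    [Module T S] {ι : Type} [Fintype ι] (e : S ≃ₗ[T] (ι → T ⧸ P)) : FlatMod P S := by
  classical
  let q : (ι → T) →ₗ[T] (ι → T ⧸ P) :=
    LinearMap.pi fun i => Submodule.mkQ P ∘ₗ LinearMap.proj i
  have hq : Function.Surjective q := by
    intro y
    choose x hx using fun i => Submodule.mkQ_surjective P (y i)
    exact ⟨x, funext hx⟩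
  refine LFflatMod_of_surjective (flatMod_of_flat P (ι → T)) (e.symm.toLinearMap ∘ₗ q)
    (e.symm.surjective.comp hq) ?_
  intro x hx
  rw [LinearMap.mem_ker, LinearMap.comp_apply, LinearEquiv.coe_coe,
    LinearEquiv.map_eq_zero_iff] at hx
  rw [pi_eq_sum_univ' x]
  refine Submodule.sum_mem _ fun i _ => Submodule.smul_mem_smul ?_ Submodule.mem_top
  exact (Submodule.Quotient.mk_eq_zero P).mp (congrFun hx i)

/-- If `R'` is a quotient of `T` and `S'` is flat over `R'`, then `S' / P S'` is flat over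
`T / P` for every `P` containing the kernel. -/
theorem flatMod_quot {T R' S' : Type} [CommRing T] [CommRing R'] [CommRing S'] [Algebra T R']
    [Algebra R' S'] [Algebra T S'] [IsScalarTower T R' S'] [Module.Flat R' S']
    (hs : Function.Surjective (algebraMap T R')) (P : Ideal T)
    (hP : RingHom.ker (algebraMap T R') ≤ P) :
    FlatMod P (S' ⧸ P.map (algebraMap T S')) := by
  have h1 : FlatMod P R' := by
    refine LFflatMod_of_surjective (flatMod_of_flat P T) (Algebra.linearMap T R') hs ?_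
    intro x hx
    have : x ∈ P := hP hx
    simpa using this
  have h2 : FlatMod P S' := by
    intro V' V _ _ _ _ f hV hf
    have h3 : Function.Injective (TensorProduct.AlgebraTensorModule.lTensor R' R' f) :=
      h1 V' V f hV hf
    have h4 := Module.Flat.lTensor_preserves_injective_linearMap (M := S') _ h3
    have h5 := TensorProduct.AlgebraTensorModule.lTensor_comp_cancelBaseChange T R' R'
      (M := S') f
    have h6 : Function.Injective ((TensorProduct.AlgebraTensorModule.lTensor R' S' f) ∘ₗ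
        (TensorProduct.AlgebraTensorModule.cancelBaseChange T R' R' S' V').toLinearMap) := by
      rw [h5]
      exact (TensorProduct.AlgebraTensorModule.cancelBaseChange T R' R' S' V).injective.comp h4
    exact Function.Injective.of_comp_right h6
      (TensorProduct.AlgebraTensorModule.cancelBaseChange T R' R' S' V').surjective
  let g : S' →ₗ[T] (S' ⧸ P.map (algebraMap T S')) :=
    (Ideal.Quotient.mkₐ T (P.map (algebraMap T S'))).toLinearMap
  have hg : Function.Surjective g := Ideal.Quotient.mk_surjective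
  refine LFflatMod_of_surjective h2 g hg ?_
  intro x hx
  rw [Ideal.smul_top_eq_map]
  exact Ideal.Quotient.eq_zero_iff_mem.mp hx

end Crest.Agent.R183
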