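import Crest.Agent.R183.Defs

/-!
# Transfer lemmas for `SL`, `WR`, `QR`
-/

set_option autoImplicit false

open scoped ENNReal NNReal TensorProduct

namespace Crest.Agent.R183

variable {B : Type} [CommRing B] {ι : Type} [Fintype ι]
  {V V' : Type} [AddCommGroup V] [Module B V] [AddCommGroup V'] [Module B V']

namespace SLT

/-- The common shape of `SL` and `WR`. -/
def Imp (a : B) (J J' : Ideal B) (γ : B) (V : Type) [AddCommGroup V] [Module B V] : Prop :=
  ∀ x : V, a • x ∈ (J • ⊤ : Submodule B V) → γ • x ∈ (J' • ⊤ : Submodule B V)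

theorem map_mem (J : Ideal B) (f : V →ₗ[B] V') {x : V} (hx : x ∈ (J • ⊤ : Submodule B V)) :
    f x ∈ (J • ⊤ : Submodule B V') := by
  have := Submodule.mem_map_of_mem (f := f) hx
  rw [Submodule.map_smul''] at this
  exact Submodule.smul_mono le_rfl le_top this

theorem Imp.retract {a γ : B} {J J' : Ideal B} (h : Imp a J J' γ V) (ψ : V' →ₗ[B] V)
    (φ : V →ₗ[B] V') (w : B) (hw : ∀ x, φ (ψ x) = w • x) : Imp a J J' (w * γ) V' := by
  intro x hx
  have h1 := map_mem J ψ hx
  rw [map_smul] at h1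
  have h2 := map_mem J' φ (h _ h1)
  rwa [map_smul, hw, smul_smul, mul_comm] at h2

theorem Imp.of_equiv {a γ : B} {J J' : Ideal B} (h : Imp a J J' γ V) (e : V ≃ₗ[B] V') :
    Imp a J J' γ V' := by
  have := h.retract e.symm.toLinearMap e.toLinearMap 1 (fun x => by simp)
  rwa [one_mul] at this

theorem Imp.finsupp {a γ : B} {J J' : Ideal B} (h : Imp a J J' γ V) (κ : Type) :
    Imp a J J' γ (κ →₀ V) := by
  intro x hx
  have h1 : ∀ k, (γ • x) k ∈ (J' • ⊤ : Submodule B V) := fun k =>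
    h (x k) (map_mem J (Finsupp.lapply k) hx)
  rw [← Finsupp.sum_single (γ • x), Finsupp.sum]
  exact Submodule.sum_mem _ fun k _ => map_mem J' (Finsupp.lsingle k) (h1 k)

theorem Imp.pi {a γ : B} {J J' : Ideal B} (h : Imp a J J' γ V) (κ : Type) [Fintype κ] :
    Imp a J J' γ (κ → V) :=
  (h.finsupp κ).of_equiv (Finsupp.linearEquivFunOnFinite B V κ)

theorem mem_map_smul {B' : Type} [CommRing B'] [Algebra B B'] [Module B' V]
    [IsScalarTower B B' V] (J : Ideal B) (x : V) :
    x ∈ (J.map (algebraMap B B') • ⊤ : Submodule B' V) ↔ x ∈ (J • ⊤ : Submodule B V) := by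
  rw [← Submodule.restrictScalars_mem B, Submodule.restrictScalars_map_smul_eq,
    Submodule.restrictScalars_top]

theorem imp_algebraMap_iff {B' : Type} [CommRing B'] [Algebra B B'] [Module B' V]
    [IsScalarTower B B' V] (a γ : B) (J J' : Ideal B) :
    Imp (algebraMap B B' a) (J.map (algebraMap B B')) (J'.map (algebraMap B B'))
      (algebraMap B B' γ) V ↔ Imp a J J' γ V := by
  simp only [Imp, mem_map_smul, algebraMap_smul]

theorem mon_map {B' : Type} [CommRing B'] (φ : B →+* B') (u : ι → B) (α : ι → ℕ) :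
    mon (fun i => φ (u i)) α = φ (mon u α) := by
  simp [mon, map_prod]

theorem monI_map' {B' : Type} [CommRing B'] (φ : B →+* B') (u : ι → B) (I : Set (ι → ℕ)) :
    monI (fun i => φ (u i)) I = (monI u I).map φ := by
  unfold monI
  rw [Ideal.map_span, Set.image_image]
  simp only [mon_map]

omit [Fintype ι] in
theorem sp_map' {B' : Type} [CommRing B'] (φ : B →+* B') (u : ι → B) :
    sp (fun i => φ (u i)) = (sp u).map φ := by
  unfold sp
  rw [Ideal.map_span, ← Set.range_comp]
  rfl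

theorem monI_mono' (u : ι → B) {I I' : Set (ι → ℕ)} (h : I ⊆ I') : monI u I ≤ monI u I' :=
  Ideal.span_mono (Set.image_mono h)

theorem mon_mem (u : ι → B) {I : Set (ι → ℕ)} {α : ι → ℕ} (h : α ∈ I) : mon u α ∈ monI u I :=
  Ideal.subset_span ⟨α, h, rfl⟩

theorem mon_single [DecidableEq ι] (u : ι → B) (i : ι) (b : ℕ) :
    mon u (Pi.single i b) = u i ^ b := by
  unfold mon
  rw [Finset.prod_eq_single i]
  · simp
  · intro j _ hj
    simp [hj]
  · simp

theorem mon_sum {κ : Type} [Fintype κ] (u : ι → B) (w : κ → B) (α : ι ⊕ κ → ℕ) :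
    mon (Sum.elim u w) α = mon u (fun i => α (Sum.inl i)) * mon w (fun k => α (Sum.inr k)) := by
  simp [mon, Fintype.prod_sum_type]

omit [Fintype ι] in
theorem sp_sum {κ : Type} (u : ι → B) (w : κ → B) : sp (Sum.elim u w) = sp u ⊔ sp w := by
  unfold sp
  rw [Set.Sum.elim_range, Ideal.span_union]

theorem mem_quot_iff (J : Ideal B) (P : Submodule B V) (x : V) :
    P.mkQ x ∈ (J • ⊤ : Submodule B (V ⧸ P)) ↔ x ∈ (J • ⊤ : Submodule B V) ⊔ P := by
  have : (J • ⊤ : Submodule B (V ⧸ P)) = (J • ⊤ : Submodule B V).map P.mkQ := by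
    rw [Submodule.map_smul'', Submodule.map_top, Submodule.range_mkQ]
  rw [this, ← Submodule.mem_comap, Submodule.comap_map_mkQ, sup_comm]

section tensor

variable {T : Type} [CommRing T] [Algebra T B] [Module T V] [IsScalarTower T B V]
  (S : Type) [AddCommGroup S] [Module T S]

theorem rTensor_smul (a : B) (x : V ⊗[T] S) :
    ((LinearMap.lsmul B V a).restrictScalars T).rTensor S x = a • x := by
  induction x using TensorProduct.induction_on with
  | zero => simp
  | tmul v s => simp [TensorProduct.smul_tmul']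
  | add x y hx hy => rw [map_add, hx, hy, smul_add]

theorem mem_iff_rTensor (J : Ideal B) (y : V ⊗[T] S) :
    y ∈ (J • ⊤ : Submodule B (V ⊗[T] S)) ↔
      ((J • ⊤ : Submodule B V).restrictScalars T).mkQ.rTensor S y = 0 := by
  constructor
  · intro hy
    refine Submodule.smul_induction_on hy (fun j hj z _ => ?_)
      (fun x y hx hy => by rw [map_add, hx, hy, add_zero])
    induction z using TensorProduct.induction_on with
    | zero => simp
    | tmul v s =>
      rw [TensorProduct.smul_tmul', LinearMap.rTensor_tmul, Submodule.mkQ_apply,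
        (Submodule.Quotient.mk_eq_zero _).2, TensorProduct.zero_tmul]
      rw [Submodule.restrictScalars_mem]
      exact Submodule.smul_mem_smul hj Submodule.mem_top
    | add x y hx hy => rw [smul_add, map_add, hx trivial, hy trivial, add_zero]
  · intro hy
    rw [← LinearMap.mem_ker, rTensor_mkQ] at hy
    obtain ⟨z, rfl⟩ := hy
    induction z using TensorProduct.induction_on with
    | zero => simp
    | tmul v s =>
      rw [LinearMap.rTensor_tmul]
      exact map_mem J ((TensorProduct.AlgebraTensorModule.mk T B V S).flip s) v.2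
    | add x y hx hy => rw [map_add]; exact Submodule.add_mem _ hx hy

theorem Imp.tensor (P : Ideal T) (hS : FlatMod P S) (hV : ∀ π ∈ P, ∀ v : V, π • v = 0)
    {a γ : B} {J J' : Ideal B} (h : Imp a J J' γ V) : Imp a J J' γ (V ⊗[T] S) := by
  intro x hx
  rw [mem_iff_rTensor, ← rTensor_smul, ← LinearMap.rTensor_comp_apply] at hx ⊢
  set F := ((J • ⊤ : Submodule B V).restrictScalars T).mkQ ∘ₗ
    (LinearMap.lsmul B V a).restrictScalars T with hF
  set G := ((J' • ⊤ : Submodule B V).restrictScalars T).mkQ ∘ₗ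
    (LinearMap.lsmul B V γ).restrictScalars T with hG
  have hle : LinearMap.ker F ≤ LinearMap.ker G := by
    intro v hv
    rw [LinearMap.mem_ker] at hv ⊢
    exact (Submodule.Quotient.mk_eq_zero _).2 (h v ((Submodule.Quotient.mk_eq_zero _).1 hv))
  have hinj : Function.Injective (((LinearMap.ker F).liftQ F le_rfl).rTensor S) := by
    rw [← LinearMap.lTensor_inj_iff_rTensor_inj]
    refine hS _ _ _ (fun π hπ v => ?_) ?_
    · obtain ⟨v, rfl⟩ := Submodule.mkQ_surjective _ v
      rw [← map_smul, hV π hπ, map_zero]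
    · rw [← LinearMap.ker_eq_bot]
      exact Submodule.ker_liftQ_eq_bot _ _ _ le_rfl
  have h1 : (LinearMap.ker F).mkQ.rTensor S x = 0 := by
    apply hinj
    rw [map_zero, ← LinearMap.rTensor_comp_apply, Submodule.liftQ_mkQ, hx]
  rw [← Submodule.liftQ_mkQ (LinearMap.ker F) G hle, LinearMap.rTensor_comp_apply, h1, map_zero]

end tensor

end SLT

open SLT

theorem SL.of_equiv {u : ι → B} {I : Set (ι → ℕ)} {γ : B} (h : SL u V I γ) (e : V ≃ₗ[B] V') :
    SL u V' I γ :=
  fun I' h1 h2 α hα => Imp.of_equiv (h I' h1 h2 α hα) e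

omit [Fintype ι] in
theorem WR.of_equiv [DecidableEq ι] {g : ι → B} {γ : B} (h : WR g V γ) (e : V ≃ₗ[B] V') :
    WR g V' γ :=
  fun j => Imp.of_equiv (h j) e

theorem SL.pi {u : ι → B} {I : Set (ι → ℕ)} {γ : B} (h : SL u V I γ) (κ : Type) [Fintype κ] :
    SL u (κ → V) I γ :=
  fun I' h1 h2 α hα => Imp.pi (h I' h1 h2 α hα) κ

omit [Fintype ι] in
theorem WR.pi [DecidableEq ι] {g : ι → B} {γ : B} (h : WR g V γ) (κ : Type) [Fintype κ] :
    WR g (κ → V) γ :=
  fun j => Imp.pi (h j) κ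

theorem SL.finsupp {u : ι → B} {I : Set (ι → ℕ)} {γ : B} (h : SL u V I γ) (κ : Type) :
    SL u (κ →₀ V) I γ :=
  fun I' h1 h2 α hα => Imp.finsupp (h I' h1 h2 α hα) κ

omit [Fintype ι] in
theorem WR.finsupp [DecidableEq ι] {g : ι → B} {γ : B} (h : WR g V γ) (κ : Type) :
    WR g (κ →₀ V) γ :=
  fun j => Imp.finsupp (h j) κ

/-- change of the acting ring -/
theorem sl_algebraMap_iff {B' : Type} [CommRing B'] [Algebra B B'] [Module B' V]
    [IsScalarTower B B' V] (u : ι → B) (I : Set (ι → ℕ)) (γ : B) :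
    SL (fun i => algebraMap B B' (u i)) V I (algebraMap B B' γ) ↔ SL u V I γ := by
  refine forall_congr' fun I' => forall_congr' fun _ => forall_congr' fun _ =>
    forall_congr' fun α => forall_congr' fun _ => ?_
  rw [monI_map', sp_map', mon_map]
  exact imp_algebraMap_iff _ _ _ _

omit [Fintype ι] in
theorem wr_algebraMap_iff [DecidableEq ι] {B' : Type} [CommRing B'] [Algebra B B'] [Module B' V]
    [IsScalarTower B B' V] (g : ι → B) (γ : B) :
    WR (fun i => algebraMap B B' (g i)) V (algebraMap B B' γ) ↔ WR g V γ := by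
  refine forall_congr' fun j => ?_
  have e : Function.update (fun i => algebraMap B B' (g i)) j (algebraMap B B' (g j) ^ 2) =
      fun i => algebraMap B B' (Function.update g j (g j ^ 2) i) := by
    funext i
    by_cases h : i = j
    · subst h; simp
    · simp [h]
  rw [e, sp_map', sp_map']
  exact imp_algebraMap_iff _ _ _ _

/-- passing to a quotient by a submodule which is almost inside the window -/
theorem SL.quot {u : ι → B} {I : Set (ι → ℕ)} {γ : B} (h : SL u V I γ) (P : Submodule B V)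
    (γ' : B) (hP : ∀ x ∈ P, γ' • x ∈ (monI u I • ⊤ : Submodule B V)) :
    SL u (V ⧸ P) I (γ' * γ) := by
  intro I' h1 h2 α hα x hx
  obtain ⟨x, rfl⟩ := P.mkQ_surjective x
  rw [← map_smul, mem_quot_iff, Submodule.mem_sup] at hx
  obtain ⟨y, hy, p, hp, e⟩ := hx
  have h3 : mon u α • γ' • x ∈ (monI u I' • ⊤ : Submodule B V) := by
    rw [smul_comm, ← e, smul_add]
    exact Submodule.add_mem _ (Submodule.smul_mem _ _ hy)
      (Submodule.smul_mono (monI_mono' u h2) le_rfl (hP p hp))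
  have h4 := map_mem _ P.mkQ (h I' h1 h2 α hα _ h3)
  rwa [smul_smul, mul_comm, map_smul] at h4

/-- retracts up to `w` -/
theorem SL.retract {u : ι → B} {I : Set (ι → ℕ)} {γ : B} (h : SL u V I γ) (ψ : V' →ₗ[B] V)
    (φ : V →ₗ[B] V') (w : B) (hw : ∀ x, φ (ψ x) = w • x) : SL u V' I (w * γ) :=
  fun I' h1 h2 α hα => Imp.retract (h I' h1 h2 α hα) ψ φ w hw

omit [Fintype ι] in
theorem WR.retract [DecidableEq ι] {g : ι → B} {γ : B} (h : WR g V γ) (ψ : V' →ₗ[B] V)
    (φ : V →ₗ[B] V') (w : B) (hw : ∀ x, φ (ψ x) = w • x) : WR g V' (w * γ) :=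
  fun j => Imp.retract (h j) ψ φ w hw

/-- killing part of the sequence -/
theorem SL.quot_sum {κ : Type} [Fintype κ] {u : ι → B} {w : κ → B} {I : Set (ι ⊕ κ → ℕ)} {γ : B}
    (h : SL (Sum.elim u w) V I γ) (I₁ : Set (ι → ℕ))
    (hI : ∀ α ∈ I, (fun i => α (Sum.inl i)) ∈ I₁ ∨ ∃ k, α (Sum.inr k) ≠ 0) :
    SL u (V ⧸ (sp w • ⊤ : Submodule B V)) I₁ γ := by
  classical
  intro I' h1 h2 α hα x hx
  obtain ⟨x, rfl⟩ := Submodule.mkQ_surjective _ x
  rw [← map_smul, mem_quot_iff] at hx ⊢
  rw [← Submodule.sup_smul] at hx ⊢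
  rw [← sp_sum]
  set I'' : Set (ι ⊕ κ → ℕ) := {β | (fun i => β (Sum.inl i)) ∈ I' ∨ ∃ k, β (Sum.inr k) ≠ 0}
    with hI''
  have hup : IsUpperSet I'' := by
    rintro β β' hβ (h3 | ⟨k, hk⟩)
    · exact Or.inl (h1 (fun i => hβ (Sum.inl i)) h3)
    · exact Or.inr ⟨k, fun h0 => hk (Nat.le_zero.1 (h0 ▸ hβ (Sum.inr k)))⟩
  have hmon : ∀ β : ι → ℕ, mon (Sum.elim u w) (Sum.elim β 0) = mon u β := by
    intro β
    rw [mon_sum]
    simp [mon]
  refine h I'' hup (fun β hβ => (hI β hβ).imp (fun h3 => h2 h3) id) (Sum.elim α 0) ?_ x ?_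
  · rintro (h3 | ⟨k, hk⟩)
    · exact hα h3
    · exact hk rfl
  · rw [hmon]
    refine Submodule.smul_mono (sup_le ?_ ?_) le_rfl hx
    · refine Ideal.span_le.2 ?_
      rintro _ ⟨β, hβ, rfl⟩
      rw [← hmon]
      exact mon_mem _ (Or.inl hβ)
    · refine Ideal.span_le.2 ?_
      rintro _ ⟨k, rfl⟩
      have := mon_mem (Sum.elim u w) (I := I'') (α := Pi.single (Sum.inr k) 1)
        (Or.inr ⟨k, by simp⟩)
      rwa [mon_single, pow_one] at this

/-- reindexing -/
theorem SL.reindex {κ : Type} [Fintype κ] (e : κ ≃ ι) {u : ι → B} {I : Set (ι → ℕ)} {γ : B}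
    (h : SL u V I γ) : SL (fun k => u (e k)) V {α | (fun i => α (e.symm i)) ∈ I} γ := by
  intro I' h1 h2 α hα x hx
  have hmon : ∀ β : κ → ℕ, mon (fun k => u (e k)) β = mon u (fun i => β (e.symm i)) := by
    intro β
    unfold mon
    rw [← e.prod_comp]
    simp
  have hsp : sp (fun k => u (e k)) = sp u := by
    unfold sp
    rw [show (fun k => u (e k)) = u ∘ e from rfl, e.surjective.range_comp]
  rw [hsp]
  refine h {β | (fun k => β (e k)) ∈ I'} (fun β β' hβ h3 => h1 (fun k => hβ (e k)) h3)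
    (fun β hβ => h2 (by simpa using hβ)) (fun i => α (e.symm i)) (by simpa using hα) x ?_
  rw [← hmon]
  refine Submodule.smul_mono (Ideal.span_le.2 ?_) le_rfl hx
  rintro _ ⟨β, hβ, rfl⟩
  rw [hmon]
  exact mon_mem _ (by simpa using hβ)

/-- flat base change: `V` is a module over the `T`-algebra `B` killed by `P`, and `S` is flat
over `T / P`. -/
theorem SL.tensor {T : Type} [CommRing T] [Algebra T B] [Module T V] [IsScalarTower T B V]
    (P : Ideal T) (S : Type) [AddCommGroup S] [Module T S] (hS : FlatMod P S)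
    (hV : ∀ π ∈ P, ∀ v : V, π • v = 0) {u : ι → B} {I : Set (ι → ℕ)} {γ : B}
    (h : SL u V I γ) : SL u (V ⊗[T] S) I γ :=
  fun I' h1 h2 α hα => Imp.tensor S P hS hV (h I' h1 h2 α hα)

omit [Fintype ι] in
theorem WR.tensor [DecidableEq ι] {T : Type} [CommRing T] [Algebra T B] [Module T V]
    [IsScalarTower T B V] (P : Ideal T) (S : Type) [AddCommGroup S] [Module T S]
    (hS : FlatMod P S) (hV : ∀ π ∈ P, ∀ v : V, π • v = 0) {g : ι → B} {γ : B}
    (h : WR g V γ) : WR g (V ⊗[T] S) γ :=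
  fun j => Imp.tensor S P hS hV (h j)

/-- the empty sequence -/
theorem qr_of_isEmpty [IsEmpty ι] (u : ι → B) : QR u V := by
  intro I' _ _ α hα x hx
  have e : I' = ∅ := Set.eq_empty_of_forall_notMem fun β hβ => hα (Subsingleton.elim β α ▸ hβ)
  have e' : mon u α = 1 := by simp [mon]
  rw [e, e', monI, Set.image_empty, Ideal.span_empty, Submodule.bot_smul, Submodule.mem_bot] at hx
  rw [hx]
  exact Submodule.zero_mem _

/-- a single regular element -/
theorem qr_of_unique [Unique ι] (u : ι → B) (hu : IsSMulRegular V (u default)) : QR u V := by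
  intro I' h1 _ α hα x hx
  have hmon : ∀ β : ι → ℕ, mon u β = u default ^ β default := fun β => by simp [mon]
  have hle : monI u I' ≤ Ideal.span {u default ^ (α default + 1)} := by
    refine Ideal.span_le.2 ?_
    rintro _ ⟨β, hβ, rfl⟩
    have : α default + 1 ≤ β default := by
      by_contra hc
      refine hα (h1 (fun i => ?_) hβ)
      rw [Subsingleton.elim i default]
      exact Nat.le_of_lt_succ (not_le.1 hc)
    rw [hmon]
    exact Ideal.mem_span_singleton.2 (pow_dvd_pow _ this)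
  have h2 := Submodule.smul_mono hle le_rfl hx
  rw [Submodule.ideal_span_singleton_smul, Submodule.mem_smul_pointwise_iff_exists] at h2
  obtain ⟨y, -, hy⟩ := h2
  rw [hmon, pow_succ, mul_smul] at hy
  rw [one_smul, ← hu.pow (α default) hy]
  exact Submodule.smul_mem_smul (Ideal.subset_span ⟨default, rfl⟩) Submodule.mem_top

namespace SLT

open MvPolynomial

theorem mon_X (τ : Type) [Fintype τ] (δ : τ →₀ ℕ) :
    mon (X : τ → MvPolynomial τ B) δ = monomial δ 1 := by
  rw [monomial_eq, C_1, one_mul, Finsupp.prod_fintype _ _ (by simp)]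
  rfl

theorem mon_CX (u : ι → B) (τ : Type) [Fintype τ] (a : ι → ℕ) (δ : τ →₀ ℕ) :
    mon (Sum.elim (fun i => C (u i)) X : ι ⊕ τ → MvPolynomial τ B) (Sum.elim a δ) =
      monomial δ (mon u a) := by
  rw [mon_sum]
  change mon (fun i => (C : B →+* MvPolynomial τ B) (u i)) a * mon X δ = _
  rw [mon_map, mon_X, C_mul_monomial, mul_one]

omit [Fintype ι] in
theorem exists_elim {τ : Type} [Fintype τ] (α : ι ⊕ τ → ℕ) :
    ∃ (a : ι → ℕ) (δ : τ →₀ ℕ), α = Sum.elim a δ :=
  ⟨fun i => α (Sum.inl i), Finsupp.equivFunOnFinite.symm fun k => α (Sum.inr k), by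
    funext i; cases i <;> rfl⟩

theorem coeff_mem (u : ι → B) (τ : Type) [Fintype τ] {I : Set (ι ⊕ τ → ℕ)} (hI : IsUpperSet I)
    {g : MvPolynomial τ B}
    (hg : g ∈ monI (Sum.elim (fun i => C (u i)) X : ι ⊕ τ → MvPolynomial τ B) I) (δ : τ →₀ ℕ) :
    coeff δ g ∈ monI u {a | Sum.elim a δ ∈ I} := by
  classical
  induction hg using Submodule.span_induction generalizing δ with
  | mem g hg =>
    obtain ⟨β, hβ, rfl⟩ := hg
    obtain ⟨a, d, rfl⟩ := exists_elim β
    rw [mon_CX, coeff_monomial]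
    split_ifs with h
    · subst h; exact mon_mem _ hβ
    · exact Ideal.zero_mem _
  | zero => exact Ideal.zero_mem _
  | add f g _ _ hf hg => rw [coeff_add]; exact Ideal.add_mem _ (hf δ) (hg δ)
  | smul f g _ hg =>
    rw [smul_eq_mul, coeff_mul]
    refine Ideal.sum_mem _ fun p hp => Ideal.mul_mem_left _ _ (monI_mono' u ?_ (hg p.2))
    intro a ha
    refine hI (fun i => ?_) ha
    rw [← Finset.HasAntidiagonal.mem_antidiagonal.1 hp]
    cases i with
    | inl i => exact le_rfl
    | inr k => simp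

theorem sub_C_mem (τ : Type) (f : MvPolynomial τ B) :
    f - C (coeff 0 f) ∈ sp (X : τ → MvPolynomial τ B) := by
  rw [← constantCoeff_eq]
  induction f using MvPolynomial.induction_on with
  | C a => simp
  | add p q hp hq =>
    rw [map_add, map_add, add_sub_add_comm]
    exact Ideal.add_mem _ hp hq
  | mul_X p n _ =>
    rw [map_mul, constantCoeff_X, mul_zero, map_zero, sub_zero]
    exact Ideal.mul_mem_left _ _ (Ideal.subset_span ⟨n, rfl⟩)

theorem mem_smul_top (J : Ideal B) (x : B) : x ∈ (J • ⊤ : Submodule B B) ↔ x ∈ J := by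
  rw [smul_eq_mul, Ideal.mul_top]

end SLT

/-- adjoining variables -/
theorem QR.mvPolynomial {u : ι → B} (h : QR u B) (τ : Type) [Fintype τ] :
    QR (Sum.elim (fun i => MvPolynomial.C (u i)) MvPolynomial.X : ι ⊕ τ → MvPolynomial τ B)
      (MvPolynomial τ B) := by
  intro I' h1 _ α hα f hf
  obtain ⟨a, δ, rfl⟩ := exists_elim α
  rw [mem_smul_top, mon_CX, smul_eq_mul] at hf
  have h2 := coeff_mem u τ h1 hf (δ + 0)
  rw [MvPolynomial.coeff_monomial_mul, add_zero] at h2
  have h3 := h {a | Sum.elim a δ ∈ I'}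
    (fun b b' hb hb' => h1 (fun i => by cases i; exacts [hb _, le_rfl]) hb')
    (Set.empty_subset _) a hα (MvPolynomial.coeff 0 f) ((mem_smul_top _ _).2 h2)
  rw [mem_smul_top, one_smul] at h3 ⊢
  rw [sp_sum, ← add_sub_cancel (MvPolynomial.C (MvPolynomial.coeff 0 f)) f]
  refine Submodule.add_mem_sup ?_ (sub_C_mem τ f)
  rw [sp_map' (MvPolynomial.C : B →+* MvPolynomial τ B)]
  exact Ideal.mem_map_of_mem _ h3

theorem qr_X (τ : Type) [Fintype τ] :
    QR (MvPolynomial.X : τ → MvPolynomial τ B) (MvPolynomial τ B) :=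
  SL.reindex (Equiv.emptySum Empty τ).symm
    ((qr_of_isEmpty (V := B) (Empty.elim : Empty → B)).mvPolynomial τ)

theorem qr_cons (e : ℕ) (p : B) (hp : p ∈ nonZeroDivisors B) :
    QR (Fin.cons (MvPolynomial.C p) MvPolynomial.X : Fin (e + 1) → MvPolynomial (Fin e) B)
      (MvPolynomial (Fin e) B) := by
  have h1 : QR (fun _ : Unit => p) B :=
    qr_of_unique _ (isSMulRegular_iff_right_eq_zero_of_smul.2 fun x hx =>
      (mem_nonZeroDivisors_iff_left.1 hp) x hx)
  let ε : Fin (e + 1) ≃ Unit ⊕ Fin e :=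
    { toFun := Fin.cons (Sum.inl ()) Sum.inr
      invFun := Sum.elim (fun _ => 0) Fin.succ
      left_inv := fun i => by refine Fin.cases rfl (fun j => rfl) i
      right_inv := fun i => by cases i <;> rfl }
  have h2 := SL.reindex ε (h1.mvPolynomial (Fin e))
  have e1 : (fun k => (Sum.elim (fun _ : Unit => MvPolynomial.C p) MvPolynomial.X :
      Unit ⊕ Fin e → MvPolynomial (Fin e) B) (ε k)) =
      Fin.cons (MvPolynomial.C p) MvPolynomial.X := by
    funext k
    refine Fin.cases rfl (fun j => rfl) k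
  rw [e1] at h2
  exact h2

/-- quasi-regularity only depends on the windows -/
theorem QR.of_winIso {A₀ A : Type} [CommRing A₀] [CommRing A] (φ : A₀ →+* A) (x₀ : ι → A₀)
    (hφ : WinIso φ x₀) (h : QR x₀ A₀) : QR (fun i => φ (x₀ i)) A := by
  classical
  intro I' h1 _ α hα a ha
  rw [mem_smul_top, smul_eq_mul] at ha ⊢
  obtain ⟨hs, hi⟩ := hφ (∑ i, α i + 1)
  set b := ∑ i, α i + 1 with hb
  set I'' : Set (ι → ℕ) := I' ∪ boxGE fun _ => b with hI''
  have hup : IsUpperSet I'' := h1.union fun β β' hβ ⟨i, hi⟩ => ⟨i, le_trans hi (hβ i)⟩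
  have hα' : α ∉ I'' := by
    rintro (h2 | ⟨i, h2⟩)
    · exact hα h2
    · have := Finset.single_le_sum (f := α) (fun _ _ => Nat.zero_le _) (Finset.mem_univ i)
      simp only at h2
      omega
  have hbox : sp (fun i => x₀ i ^ b) ≤ monI x₀ I'' := by
    refine Ideal.span_le.2 ?_
    rintro _ ⟨i, rfl⟩
    have := mon_mem x₀ (I := I'') (α := Pi.single i b) (Or.inr ⟨i, by simp⟩)
    rwa [mon_single] at this
  have key : ∀ y ∈ monI (fun i => φ (x₀ i)) I', ∃ y₀ ∈ monI x₀ I'',
      y - φ y₀ ∈ sp (fun i => φ (x₀ i) ^ b) := by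
    intro y hy
    induction hy using Submodule.span_induction with
    | mem y hy =>
      obtain ⟨β, hβ, rfl⟩ := hy
      exact ⟨mon x₀ β, mon_mem _ (Or.inl hβ), by rw [mon_map, sub_self]; exact Ideal.zero_mem _⟩
    | zero => exact ⟨0, Ideal.zero_mem _, by simp⟩
    | add y z _ _ hy hz =>
      obtain ⟨y₀, hy₀, hy⟩ := hy
      obtain ⟨z₀, hz₀, hz⟩ := hz
      refine ⟨y₀ + z₀, Ideal.add_mem _ hy₀ hz₀, ?_⟩
      rw [map_add, add_sub_add_comm]
      exact Ideal.add_mem _ hy hz
    | smul r y _ hy =>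
      obtain ⟨y₀, hy₀, hy⟩ := hy
      obtain ⟨r₀, hr⟩ := hs r
      refine ⟨r₀ * y₀, Ideal.mul_mem_left _ _ hy₀, ?_⟩
      have : r • y - φ (r₀ * y₀) = r * (y - φ y₀) + (r - φ r₀) * φ y₀ := by
        rw [map_mul, smul_eq_mul]; ring
      rw [this]
      exact Ideal.add_mem _ (Ideal.mul_mem_left _ _ hy) (Ideal.mul_mem_right _ _ hr)
  obtain ⟨a₀, ha₀⟩ := hs a
  obtain ⟨y₀, hy₀, hy⟩ := key _ ha
  have h2 : φ (mon x₀ α * a₀ - y₀) ∈ sp (fun i => φ (x₀ i) ^ b) := by
    have : φ (mon x₀ α * a₀ - y₀) = (mon (fun i => φ (x₀ i)) α * a - φ y₀) -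
        mon (fun i => φ (x₀ i)) α * (a - φ a₀) := by
      rw [map_sub, map_mul, mon_map]; ring
    rw [this]
    exact Ideal.sub_mem _ hy (Ideal.mul_mem_left _ _ ha₀)
  have h3 : mon x₀ α * a₀ ∈ monI x₀ I'' := by
    have := Ideal.add_mem _ (hbox (hi _ h2)) hy₀
    rwa [sub_add_cancel] at this
  have h4 := h I'' hup (Set.empty_subset _) α hα' a₀ ((mem_smul_top _ _).2 h3)
  rw [mem_smul_top, one_smul] at h4
  rw [one_mul, ← add_sub_cancel (φ a₀) a]
  refine Ideal.add_mem _ ?_ (Ideal.span_le.2 ?_ ha₀)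
  · rw [sp_map']
    exact Ideal.mem_map_of_mem _ h4
  · rintro _ ⟨i, rfl⟩
    exact Ideal.pow_mem_of_mem (sp fun i => φ (x₀ i))
      (Ideal.subset_span (Set.mem_range_self i)) b (by omega)

end Crest.Agent.R183
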