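import Crest.Agent.R183.Koszul
import Crest.Agent.R183.LF
import Crest.Agent.R183.SLTransfer

/-!
# Window quasi-regularity `SL`: regularity transfer, colon ideals, lengths
-/

set_option autoImplicit false

open scoped ENNReal NNReal TensorProduct

namespace Crest.Agent.R183

section basic

variable {B : Type} [CommRing B] {ι : Type} [Fintype ι]

theorem mon_add (u : ι → B) (α β : ι → ℕ) : mon u (α + β) = mon u α * mon u β := by
  simp [mon, pow_add, Finset.prod_mul_distrib]

theorem SL_mon_zero (u : ι → B) : mon u 0 = 1 := by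
  simp [mon]

theorem SL_mon_single [DecidableEq ι] (u : ι → B) (i : ι) (n : ℕ) :
    mon u (Pi.single i n) = u i ^ n := by
  rw [mon, Finset.prod_eq_single i (fun j _ h => by simp [h]) (by simp), Pi.single_eq_same]

theorem SL_mon_mem_monI (u : ι → B) {I : Set (ι → ℕ)} {α : ι → ℕ} (h : α ∈ I) :
    mon u α ∈ monI u I := Ideal.subset_span ⟨α, h, rfl⟩

theorem SL_mon_mem_sp_pow (u : ι → B) (α : ι → ℕ) : mon u α ∈ sp u ^ ∑ i, α i := by
  rw [← Finset.prod_pow_eq_pow_sum]
  exact Ideal.prod_mem_prod fun i _ => Ideal.pow_mem_pow (Ideal.subset_span (Set.mem_range_self i)) _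

theorem isUpperSet_degGE (N : ℕ) : IsUpperSet (degGE ι N) :=
  fun _ _ hab ha => le_trans ha (Finset.sum_le_sum fun i _ => hab i)

omit [Fintype ι] in
theorem isUpperSet_boxGE (b : ι → ℕ) : IsUpperSet (boxGE b) :=
  fun _ _ hab ⟨i, hi⟩ => ⟨i, hi.trans (hab i)⟩

theorem monI_degGE (u : ι → B) (N : ℕ) : monI u (degGE ι N) = sp u ^ N := by
  classical
  refine le_antisymm (Ideal.span_le.2 ?_) ?_
  · rintro _ ⟨α, hα, rfl⟩
    exact Ideal.pow_le_pow_right hα (SL_mon_mem_sp_pow u α)
  · induction N with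
    | zero =>
      rw [pow_zero, Ideal.one_eq_top, top_le_iff, Ideal.eq_top_iff_one, ← SL_mon_zero u]
      exact SL_mon_mem_monI u (Nat.zero_le _)
    | succ N ih =>
      rw [pow_succ]
      refine (Ideal.mul_mono_left ih).trans ?_
      rw [monI, Ideal.span_mul_span, Ideal.span_le]
      rintro _ ⟨_, ⟨α, hα, rfl⟩, _, ⟨i, rfl⟩, rfl⟩
      have h := SL_mon_mem_monI u (I := degGE ι (N + 1)) (α := α + Pi.single i 1) (by
        simpa [degGE, Finset.sum_add_distrib] using hα)
      rwa [mon_add, SL_mon_single, pow_one] at h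

theorem monI_boxGE (u : ι → B) (b : ι → ℕ) : monI u (boxGE b) = sp (fun i => u i ^ b i) := by
  classical
  refine le_antisymm (Ideal.span_le.2 ?_) (Ideal.span_le.2 ?_)
  · rintro _ ⟨α, ⟨i, hi⟩, rfl⟩
    exact Ideal.mem_of_dvd _ ((pow_dvd_pow _ hi).trans
      (Finset.dvd_prod_of_mem (fun i => u i ^ α i) (Finset.mem_univ i)))
      (Ideal.subset_span ⟨i, rfl⟩)
  · rintro _ ⟨i, rfl⟩
    have h := SL_mon_mem_monI u (I := boxGE b) (α := Pi.single i (b i)) ⟨i, by simp⟩
    rwa [SL_mon_single] at h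

theorem monI_mono (u : ι → B) {I I' : Set (ι → ℕ)} (h : I ⊆ I') : monI u I ≤ monI u I' :=
  Ideal.span_mono (Set.image_mono h)

theorem monI_union (u : ι → B) (I I' : Set (ι → ℕ)) :
    monI u (I ∪ I') = monI u I ⊔ monI u I' := by
  rw [monI, Set.image_union, Ideal.span_union, monI, monI]

theorem monI_map {B' : Type} [CommRing B'] (φ : B →+* B') (u : ι → B) (I : Set (ι → ℕ)) :
    (monI u I).map φ = monI (fun i => φ (u i)) I := by
  rw [monI, Ideal.map_span, Set.image_image, monI]
  congr 1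
  exact Set.image_congr' fun α => by simp [mon]

omit [Fintype ι] in
theorem sp_map {B' : Type} [CommRing B'] (φ : B →+* B') (u : ι → B) :
    (sp u).map φ = sp (fun i => φ (u i)) := by
  rw [Ideal.map_span, ← Set.range_comp]
  rfl

theorem finite_compl_degGE (N : ℕ) : (degGE ι N)ᶜ.Finite := by
  classical
  exact (Set.finite_Iic fun _ : ι => N).subset fun α hα i =>
    (Finset.single_le_sum (fun j _ => Nat.zero_le (α j)) (Finset.mem_univ i)).trans
      (not_le.1 (show ¬ N ≤ ∑ i, α i from hα)).le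

theorem ncard_compl_degGE (N : ℕ) (h : 0 < Fintype.card ι) :
    (degGE ι N)ᶜ.ncard = Bn (Fintype.card ι) N := by
  classical
  have e : (degGE ι N)ᶜ =
      ↑((Finset.range N).biUnion fun n => Finset.piAntidiag (Finset.univ : Finset ι) n) := by
    ext α
    simp [degGE]
  have hc : ∀ n : ℕ, (Finset.piAntidiag (Finset.univ : Finset ι) n).card =
      (Fintype.card ι).multichoose n := fun n => by
    rw [← Finset.card_univ, ← Finset.card_finsuppAntidiag_nat_eq_multichoose]
    exact Finset.card_equiv Finsupp.equivFunOnFinite.symm fun α => by simp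
  rw [e, Set.ncard_coe_finset, Finset.card_biUnion]
  · simp only [hc, Bn]
    cases N with
    | zero => rw [Finset.sum_range_zero, Nat.choose_eq_zero_of_lt (by omega)]
    | succ N =>
      rw [Nat.sum_range_multichoose]
      congr 1
      omega
  · intro m _ n _ hmn
    refine Finset.disjoint_left.2 fun α h1 h2 => hmn ?_
    rw [← (Finset.mem_piAntidiag.1 h1).1, (Finset.mem_piAntidiag.1 h2).1]

theorem finite_compl_boxGE (b : ι → ℕ) : (boxGE b)ᶜ.Finite := by
  classical
  exact (Set.finite_Iic b).subset fun _ hα i => (not_le.1 fun h => hα ⟨i, h⟩).le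

theorem ncard_compl_boxGE (b : ι → ℕ) : (boxGE b)ᶜ.ncard = ∏ i, b i := by
  classical
  have e : (boxGE b)ᶜ = ↑(Fintype.piFinset fun i => Finset.range (b i)) := by
    ext α
    simp [boxGE]
  rw [e, Set.ncard_coe_finset, Fintype.card_piFinset]
  simp

/-- `(u)^{n b} ⊆ (u_i^b)` for `n` elements -/
theorem sp_pow_le_sp_pow (u : ι → B) (b : ℕ) :
    sp u ^ (Fintype.card ι * b + 1) ≤ sp (fun i => u i ^ b) := by
  rw [← monI_degGE, ← monI_boxGE u fun _ => b]
  refine monI_mono u fun α hα => ?_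
  by_contra h
  have h1 : ∑ i, α i ≤ Fintype.card ι * b :=
    Finset.sum_le_card_nsmul _ _ b fun i _ => (not_le.1 fun h' => h ⟨i, h'⟩).le
  exact absurd (le_trans hα h1) (by omega)

omit [Fintype ι] in
theorem sp_pow_le_pow (u : ι → B) (b : ℕ) : sp (fun i => u i ^ b) ≤ sp u ^ b := by
  rw [Ideal.span_le]
  rintro _ ⟨i, rfl⟩
  exact Ideal.pow_mem_pow (Ideal.subset_span (Set.mem_range_self i)) _

variable {V : Type} [AddCommGroup V] [Module B V]

theorem SL.mono {u : ι → B} {I I₂ : Set (ι → ℕ)} {γ : B} (h : SL u V I γ) (hI : I ⊆ I₂)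
    (γ' : B) : SL u V I₂ (γ' * γ) := fun I' h1 h2 α hα x hx => by
  rw [mul_smul]
  exact Submodule.smul_mem _ _ (h I' h1 (hI.trans h2) α hα x hx)

theorem WR.mul [DecidableEq ι] {g : ι → B} {γ : B} (h : WR g V γ) (γ' : B) :
    WR g V (γ' * γ) := fun j x hx => by
  rw [mul_smul]
  exact Submodule.smul_mem _ _ (h j x hx)

omit [Fintype ι] in
theorem SL_span_le {S : Set B} {P : Submodule B V} (h : ∀ s ∈ S, ∀ x, s • x ∈ P) :
    (Ideal.span S • ⊤ : Submodule B V) ≤ P := by
  refine Submodule.smul_le.2 fun r hr x _ => ?_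
  induction hr using Submodule.span_induction with
  | mem s hs => exact h s hs x
  | zero => simp
  | add a b _ _ ha hb => simpa only [add_smul] using P.add_mem ha hb
  | smul a b _ hb => simpa only [smul_eq_mul, mul_smul] using P.smul_mem a hb

theorem SL_monI_le {u : ι → B} {I : Set (ι → ℕ)} {P : Submodule B V}
    (h : ∀ α ∈ I, ∀ x, mon u α • x ∈ P) : (monI u I • ⊤ : Submodule B V) ≤ P :=
  SL_span_le fun _ ⟨α, hα, e⟩ x => e ▸ h α hα x

theorem SL_smul_mem (u : ι → B) {I : Set (ι → ℕ)} {α : ι → ℕ} (h : α ∈ I) (x : V) :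
    mon u α • x ∈ (monI u I • ⊤ : Submodule B V) :=
  Submodule.smul_mem_smul (SL_mon_mem_monI u h) Submodule.mem_top

theorem SL_shift {u : ι → B} {I J : Set (ι → ℕ)} {β : ι → ℕ} (h : ∀ α ∈ I, α + β ∈ J) {x : V}
    (hx : x ∈ (monI u I • ⊤ : Submodule B V)) : mon u β • x ∈ (monI u J • ⊤ : Submodule B V) :=
  SL_monI_le (P := Submodule.comap (LinearMap.lsmul B V (mon u β)) (monI u J • ⊤)) (fun α hα y => by
    rw [Submodule.mem_comap, LinearMap.lsmul_apply, ← mul_smul, ← mon_add, add_comm]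
    exact SL_smul_mem u (h α hα) y) hx

theorem SL_shift_sp {u : ι → B} {J : Set (ι → ℕ)} {β : ι → ℕ} (h : ∀ α, β < α → α ∈ J) {x : V}
    (hx : x ∈ (sp u • ⊤ : Submodule B V)) : mon u β • x ∈ (monI u J • ⊤ : Submodule B V) := by
  rw [← pow_one (sp u), ← monI_degGE] at hx
  refine SL_shift (fun α hα => h _ (lt_add_of_pos_left _ (pos_of_ne_zero ?_))) hx
  rintro rfl
  simp [degGE] at hα

theorem SL_insert (u : ι → B) (I : Set (ι → ℕ)) (a : ι → ℕ) :
    (monI u (insert a I) • ⊤ : Submodule B V) =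
      LinearMap.range (LinearMap.lsmul B V (mon u a)) ⊔ monI u I • ⊤ := by
  refine le_antisymm (SL_monI_le ?_) (sup_le ?_
    (Submodule.smul_mono_left (monI_mono u (Set.subset_insert _ _))))
  · rintro α (rfl | hα) x
    · exact Submodule.mem_sup_left ⟨x, rfl⟩
    · exact Submodule.mem_sup_right (SL_smul_mem u hα x)
  · rintro _ ⟨x, rfl⟩
    exact SL_smul_mem u (Set.mem_insert _ _) x

theorem SL_univ (u : ι → B) : (monI u Set.univ • ⊤ : Submodule B V) = ⊤ :=
  top_le_iff.1 fun x _ => by simpa [SL_mon_zero] using SL_smul_mem u (Set.mem_univ 0) x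

theorem SL_mem_sp_smul {g : ι → B} {N : Submodule B V} {x : V} (hx : x ∈ sp g • N) :
    ∃ y : ι → V, (∀ i, y i ∈ N) ∧ x = ∑ i, g i • y i := by
  refine Submodule.smul_induction_on hx (fun r hr n hn => ?_) ?_
  · obtain ⟨c, rfl⟩ := Ideal.mem_span_range_iff_exists_fun.1 hr
    exact ⟨fun i => c i • n, fun i => N.smul_mem _ hn, by
      simp only [Finset.sum_smul, mul_comm (c _), mul_smul]⟩
  · rintro _ _ ⟨y, hy, rfl⟩ ⟨y', hy', rfl⟩
    exact ⟨y + y', fun i => N.add_mem (hy i) (hy' i), by simp [Finset.sum_add_distrib]⟩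

/-- colon ideals: `u^β x ∈ I'(u) V` implies `γ^c x ∈ (I' : β)(u) V`, where `c` is the number of
exponents outside `(I' : β)`. -/
theorem SL.colon {u : ι → B} {I : Set (ι → ℕ)} {γ : B} (h : SL u V I γ) {I' : Set (ι → ℕ)}
    (hI' : IsUpperSet I') (hII' : I ⊆ I') (β : ι → ℕ) (hfin : {α | α + β ∉ I'}.Finite) (x : V)
    (hx : mon u β • x ∈ (monI u I' • ⊤ : Submodule B V)) :
    γ ^ {α | α + β ∉ I'}.ncard • x ∈ (monI u {α | α + β ∈ I'} • ⊤ : Submodule B V) := by
  have key : ∀ (n : ℕ) (J : Set (ι → ℕ)), IsUpperSet J → {α | α + β ∈ I'} ⊆ J →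
      (J ∩ {α | α + β ∉ I'}).ncard = n → ∀ x : V, x ∈ (monI u J • ⊤ : Submodule B V) →
      mon u β • x ∈ (monI u I' • ⊤ : Submodule B V) →
      γ ^ n • x ∈ (monI u {α | α + β ∈ I'} • ⊤ : Submodule B V) := by
    intro n
    induction n with
    | zero =>
      intro J _ _ hn x hx _
      rw [Set.ncard_eq_zero (hfin.inter_of_right _)] at hn
      rw [pow_zero, one_smul]
      refine Submodule.smul_mono_left (monI_mono u fun α hα => ?_) hx
      by_contra h1
      exact hn.subset ⟨hα, h1⟩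
    | succ n ih =>
      intro J hJ hJ0 hn x hx hx'
      obtain ⟨a, ha⟩ := (hfin.inter_of_right J).exists_minimal
        (Set.nonempty_of_ncard_ne_zero (by omega))
      have hup : IsUpperSet (J \ {a}) := by
        rintro d e hde ⟨hd, hda⟩
        refine ⟨hJ hde hd, ?_⟩
        rintro rfl
        exact hda (le_antisymm hde (ha.2 ⟨hd, fun h' =>
          ha.1.2 (hI' (add_le_add_left hde β) h')⟩ hde))
      rw [← Set.insert_sdiff_self_of_mem ha.1.1, SL_insert] at hx
      obtain ⟨_, ⟨x₁, rfl⟩, y, hy, rfl⟩ := Submodule.mem_sup.1 hx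
      rw [LinearMap.lsmul_apply] at hx' ⊢
      have h1 := h (I' ∪ {d | ∃ e ∈ J \ {a}, e + β ≤ d})
        (hI'.union fun d d' hd ⟨e, he, h'⟩ => ⟨e, he, h'.trans hd⟩)
        (hII'.trans Set.subset_union_left) (a + β) (by
          rintro (h' | ⟨e, he, h'⟩)
          · exact ha.1.2 h'
          · exact (hup (le_of_add_le_add_right h') he).2 rfl) x₁ (by
          have h2 := Submodule.sub_mem _
            (Submodule.smul_mono_left (monI_mono u Set.subset_union_left) hx')
            (SL_shift (J := I' ∪ {d | ∃ e ∈ J \ {a}, e + β ≤ d}) (β := β)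
              (fun e he => Or.inr ⟨e, he, le_rfl⟩) hy)
          rwa [smul_add, add_sub_cancel_right, ← mul_smul, ← mon_add, add_comm] at h2)
      rw [pow_succ, mul_smul]
      refine ih _ hup (fun d hd => ⟨hJ0 hd, fun e => ha.1.2 (e ▸ hd)⟩) ?_ _ ?_ ?_
      · rw [Set.sdiff_inter_right_comm, Set.ncard_sdiff_singleton_of_mem ha.1, hn]
        rfl
      · rw [smul_add, smul_comm]
        exact Submodule.add_mem _ (SL_shift_sp (J := J \ {a})
          (fun d hd => ⟨hJ hd.le ha.1.1, hd.ne'⟩) h1)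
          (Submodule.smul_mem _ _ hy)
      · rw [smul_comm]
        exact Submodule.smul_mem _ _ hx'
  exact key _ Set.univ isUpperSet_univ (Set.subset_univ _) (by rw [Set.univ_inter]) x
    (by rw [SL_univ]; trivial) hx

/-- powers of a window quasi-regular sequence are weakly regular -/
theorem SL.wr [DecidableEq ι] {u : ι → B} {I : Set (ι → ℕ)} {γ : B} (h : SL u V I γ)
    (b : ι → ℕ) (hb : ∀ j, I ⊆ boxGE (Function.update b j (2 * b j))) :
    WR (fun i => u i ^ b i) V (γ ^ ∏ i, b i) := by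
  intro j x hx
  have e1 : (Function.update (fun i => u i ^ b i) j ((u j ^ b j) ^ 2)) =
      fun i => u i ^ Function.update b j (2 * b j) i := by
    funext i
    rcases eq_or_ne i j with rfl | hi
    · simp [← pow_mul, mul_comm]
    · simp [hi]
  have e2 : {α | α + Pi.single j (b j) ∈ boxGE (Function.update b j (2 * b j))} = boxGE b := by
    ext α
    refine exists_congr fun i => ?_
    rcases eq_or_ne i j with rfl | hi
    · simp only [Function.update_self, Pi.add_apply, Pi.single_eq_same]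
      omega
    · simp [hi]
  have e3 : {α | α + Pi.single j (b j) ∉ boxGE (Function.update b j (2 * b j))} = (boxGE b)ᶜ := by
    rw [← e2]
    rfl
  have h1 := h.colon (isUpperSet_boxGE _) (hb j) (Pi.single j (b j))
    (e3 ▸ finite_compl_boxGE b) x (by rwa [SL_mon_single, monI_boxGE, ← e1])
  rwa [e2, e3, ncard_compl_boxGE, monI_boxGE] at h1

theorem degGE_subset_boxGE [DecidableEq ι] (b : ℕ) (j : ι) :
    degGE ι ((Fintype.card ι + 1) * b) ⊆ boxGE (Function.update (fun _ => b) j (2 * b)) := by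
  intro α hα
  by_contra h
  have h1 := Finset.sum_lt_sum_of_nonempty (f := α) ⟨j, Finset.mem_univ j⟩
    fun i _ => not_le.1 fun h' => h ⟨i, h'⟩
  have h2 : Function.update (fun _ : ι => b) j (2 * b) = (fun _ => b) + Pi.single j b := by
    funext i
    rcases eq_or_ne i j with rfl | hi
    · simp [two_mul]
    · simp [hi]
  simp only [h2, Pi.add_apply, Finset.sum_add_distrib, Finset.sum_const, Finset.card_univ,
    smul_eq_mul, Finset.sum_pi_single', Finset.mem_univ, if_true] at h1
  have h3 : (Fintype.card ι + 1) * b ≤ ∑ i, α i := hα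
  rw [add_mul, one_mul] at h3
  omega

/-- One step of the monomial filtration. -/
theorem SL_step (u : ι → B) {I' : Set (ι → ℕ)} (hI' : IsUpperSet I') (hfin : I'ᶜ.Finite) {n : ℕ}
    (hn : I'ᶜ.ncard = n + 1) : ∃ a ∉ I', IsUpperSet (insert a I') ∧ (insert a I')ᶜ.ncard = n ∧
      ∃ f : (V ⧸ (sp u • ⊤ : Submodule B V)) →ₗ[B] (V ⧸ (monI u I' • ⊤ : Submodule B V)),
        (∀ x, f (Submodule.Quotient.mk x) = Submodule.Quotient.mk (mon u a • x)) ∧
        Nonempty (((V ⧸ (monI u I' • ⊤ : Submodule B V)) ⧸ LinearMap.range f) ≃ₗ[B]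
          (V ⧸ (monI u (insert a I') • ⊤ : Submodule B V))) := by
  obtain ⟨a, ha⟩ := hfin.exists_maximal (Set.nonempty_of_ncard_ne_zero (by omega))
  have h1 : ∀ d, a < d → d ∈ I' := fun d hd => by
    by_contra h
    exact hd.not_ge (ha.2 h hd.le)
  refine ⟨a, ha.1, ?_, ?_, Submodule.mapQ _ _ (LinearMap.lsmul B V (mon u a))
    fun x hx => SL_shift_sp h1 hx, fun x => rfl, ⟨(Submodule.quotEquivOfEq _ _ ?_).trans
      (Submodule.quotientQuotientEquivQuotient _ _
        (Submodule.smul_mono_left (monI_mono u (Set.subset_insert _ _))))⟩⟩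
  · rintro d e hde (rfl | hd)
    · exact hde.eq_or_lt.imp Eq.symm (h1 e)
    · exact Or.inr (hI' hde hd)
  · rw [Set.insert_eq, Set.union_comm, Set.compl_union, ← Set.sdiff_eq,
      Set.ncard_sdiff_singleton_of_mem ha.1, hn]
    rfl
  · rw [SL_insert, Submodule.map_sup, Submodule.mkQ_map_self, sup_bot_eq, Submodule.range_mapQ]

theorem SL_subsingleton (u : ι → B) {I' : Set (ι → ℕ)} (hfin : I'ᶜ.Finite) (hn : I'ᶜ.ncard = 0) :
    Subsingleton (V ⧸ (monI u I' • ⊤ : Submodule B V)) := by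
  rw [Set.ncard_eq_zero hfin, Set.compl_empty_iff] at hn
  rw [hn, SL_univ]
  infer_instance

/-- upper bound for lengths, with powers of `γ` -/
theorem val_lsmul_monI_le (μ : LF B) (u : ι → B) {I' : Set (ι → ℕ)} (hI' : IsUpperSet I')
    (hfin : I'ᶜ.Finite) (γ : B) (a : ℕ) :
    μ.val (LinearMap.range (LinearMap.lsmul B (V ⧸ (monI u I' • ⊤ : Submodule B V))
        (γ ^ (I'ᶜ.ncard * a)))) ≤
      I'ᶜ.ncard * μ.val (LinearMap.range
        (LinearMap.lsmul B (V ⧸ (sp u • ⊤ : Submodule B V)) (γ ^ a))) := by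
  generalize hn : I'ᶜ.ncard = n
  induction n generalizing I' with
  | zero =>
    have := SL_subsingleton (V := V) u hfin hn
    rw [μ.zero]
    exact zero_le
  | succ n ih =>
    obtain ⟨d, -, h1, h2, f, -, ⟨e⟩⟩ := SL_step (V := V) u hI' hfin hn
    rw [add_mul, one_mul, pow_add, mul_comm (γ ^ _), Nat.cast_succ, add_mul, one_mul, add_comm]
    exact (μ.val_range_lsmul_mul_le _ _ (LinearMap.range f)).trans (add_le_add
      (μ.val_range_lsmul_le_of_surjective _ _ f.surjective_rangeRestrict)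
      ((μ.val_range_lsmul_le_of_surjective _ e.symm.toLinearMap e.symm.surjective).trans
        (ih h1 (hfin.subset (Set.compl_subset_compl.2 (Set.subset_insert _ _))) h2)))

theorem val_monI_le (μ : LF B) (u : ι → B) {I' : Set (ι → ℕ)} (hI' : IsUpperSet I')
    (hfin : I'ᶜ.Finite) :
    μ.val (V ⧸ (monI u I' • ⊤ : Submodule B V)) ≤
      I'ᶜ.ncard * μ.val (V ⧸ (sp u • ⊤ : Submodule B V)) := by
  have h := val_lsmul_monI_le (V := V) μ u hI' hfin 1 0
  have e : ∀ (M : Type) [AddCommGroup M] [Module B M],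
      LinearMap.range (LinearMap.lsmul B M 1) = ⊤ := fun M _ _ =>
    top_le_iff.1 fun x _ => ⟨x, one_smul B x⟩
  rwa [one_pow, one_pow, e, e, μ.val_top, μ.val_top] at h

theorem SL.val_monI {u : ι → B} {I : Set (ι → ℕ)} {γ : B} (h : SL u V I γ) (μ : LF B)
    (hμ : μ.Null γ) {I' : Set (ι → ℕ)} (hI' : IsUpperSet I') (hII' : I ⊆ I')
    (hfin : I'ᶜ.Finite) :
    μ.val (V ⧸ (monI u I' • ⊤ : Submodule B V)) =
      I'ᶜ.ncard * μ.val (V ⧸ (sp u • ⊤ : Submodule B V)) := by
  generalize hn : I'ᶜ.ncard = n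
  induction n generalizing I' with
  | zero =>
    have := SL_subsingleton (V := V) u hfin hn
    rw [μ.zero, Nat.cast_zero, zero_mul]
  | succ n ih =>
    obtain ⟨d, hd, h1, h2, f, hf, ⟨e⟩⟩ := SL_step (V := V) u hI' hfin hn
    have h3 : μ.val (LinearMap.ker f) = 0 := hμ _ fun ⟨x, hx⟩ => Subtype.ext (by
      obtain ⟨x, rfl⟩ := Submodule.Quotient.mk_surjective _ x
      rw [LinearMap.mem_ker, hf, Submodule.Quotient.mk_eq_zero] at hx
      exact (Submodule.Quotient.mk_eq_zero _).2 (h I' hI' hII' d hd x hx))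
    rw [μ.add (LinearMap.range f), μ.congr e, ih h1 (hII'.trans (Set.subset_insert _ _))
      (hfin.subset (Set.compl_subset_compl.2 (Set.subset_insert _ _))) h2, Nat.cast_succ, add_mul,
      one_mul, add_comm]
    congr 1
    rw [μ.val_eq_ker_add_range f, h3, zero_add]

end basic

open MvPolynomial Classical in
/-- Coefficients on `V[U]`. -/
theorem SL_model (ι : Type) [Fintype ι] (B : Type) [CommRing B] (V : Type)
    [AddCommGroup V] [Module B V] :
    ∃ co : (ι → ℕ) → (MvPolynomial ι B ⊗[B] V) →ₗ[B] V,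
      (∀ d s z, co d (mon (X : ι → MvPolynomial ι B) s • z) =
        if s ≤ d then co (d - s) z else 0) ∧
      (∀ d v, co d (1 ⊗ₜ v) = if d = 0 then v else 0) ∧
      ∀ S : Set (ι → ℕ), IsUpperSet S → ∃ K : Submodule (MvPolynomial ι B)
        (MvPolynomial ι B ⊗[B] V), ∀ z, z ∈ K ↔ ∀ d ∉ S, co d z = 0 := by
  have hm : ∀ s : ι →₀ ℕ, mon (X : ι → MvPolynomial ι B) s = monomial s 1 := fun s => by
    rw [monomial_eq, C_1, one_mul, Finsupp.prod_fintype _ _ fun _ => pow_zero _, mon]
  obtain ⟨co, hco⟩ : ∃ co : (ι → ℕ) → (MvPolynomial ι B ⊗[B] V) →ₗ[B] V, ∀ (d : ι →₀ ℕ) p v,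
      co d (p ⊗ₜ v) = coeff d p • v :=
    ⟨fun d => TensorProduct.lift ((LinearMap.lsmul B V).comp
      (lcoeff B (Finsupp.equivFunOnFinite.symm d))), fun d p v => by simp [lcoeff]⟩
  have h1 : ∀ d s z, co d (mon (X : ι → MvPolynomial ι B) s • z) =
      if s ≤ d then co (d - s) z else 0 := by
    intro d s z
    obtain ⟨d, rfl⟩ := Finsupp.equivFunOnFinite.surjective d
    obtain ⟨s, rfl⟩ := Finsupp.equivFunOnFinite.surjective s
    change co d (mon X ⇑s • z) = if ⇑s ≤ ⇑d then co (⇑d - ⇑s) z else 0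
    induction z with
    | zero => simp
    | tmul p v =>
      rw [TensorProduct.smul_tmul', hco, smul_eq_mul, hm, coeff_monomial_mul', ← Finsupp.coe_tsub,
        hco]
      by_cases h : s ≤ d <;> simp [h]
    | add x y hx hy =>
      rw [smul_add, map_add, hx, hy]
      split_ifs <;> simp
  refine ⟨co, h1, fun d v => ?_, fun S hS => ⟨⟨⟨⟨{z | ∀ d ∉ S, co d z = 0},
    fun ha hb d hd => by rw [map_add, ha d hd, hb d hd, add_zero]⟩, fun d _ => map_zero _⟩,
    fun p z hz d hd => ?_⟩, fun _ => Iff.rfl⟩⟩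
  · obtain ⟨d, rfl⟩ := Finsupp.equivFunOnFinite.surjective d
    change co d _ = if ⇑d = 0 then v else 0
    rw [hco, coeff_one]
    simp [eq_comm]
  · induction p using MvPolynomial.induction_on' with
    | monomial s a =>
      rw [← mul_one a, ← C_mul_monomial, ← hm, mul_smul, ← algebraMap_eq, algebraMap_smul,
        map_smul, h1]
      split_ifs
      · rw [hz _ fun h => hd (hS tsub_le_self h), smul_zero]
      · exact smul_zero _
    | add p q hp hq => rw [add_smul, map_add, hp, hq, add_zero]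

/-- **Regularity transfer**: if `g` is weakly regular on `V` up to `γ` and `γ g_r ∈ I(u)`, where
`u` has as many elements as `g`, then `u` is quasi-regular on `V` in the window `I`, up to a power
of `γ` depending only on the index types. -/
theorem sl_of_wr (ι κ : Type) [Fintype ι] [Fintype κ] [DecidableEq κ]
    (hcard : Fintype.card ι = Fintype.card κ) : ∃ c : ℕ,
    ∀ {B : Type} [CommRing B] {V : Type} [AddCommGroup V] [Module B V] (u : ι → B) (g : κ → B)
      (γ : B) (I : Set (ι → ℕ)), WR g V γ → (∀ r, γ * g r ∈ monI u I) →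
      SL u V I (γ ^ c) := by
  classical
  obtain ⟨c, hc⟩ := rt_module κ
  refine ⟨c, fun {B} _ {V} _ _ u g γ I hg hI I' hI' hII' α hα x hx => ?_⟩
  obtain ⟨co, hco, hco1, hK⟩ := SL_model ι B V
  set S : Set (ι → ℕ) := I' ∪ {β | ¬ β ≤ α} with hS
  have hSup : IsUpperSet S := hI'.union fun a b hab ha hb => ha (hab.trans hb)
  have hSle : ∀ d ∉ S, d ≤ α := fun d hd => not_not.1 fun h => hd (Or.inr h)
  have hαS : α ∉ S := fun h => h.elim hα fun h => h le_rfl
  have hS1 : IsUpperSet (insert α S) := by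
    rintro d e hde (rfl | hd)
    · exact hde.eq_or_lt.imp Eq.symm fun h => Or.inr h.not_ge
    · exact Or.inr (hSup hde hd)
  obtain ⟨K, hK0⟩ := hK S hSup
  obtain ⟨K₁, hK1⟩ := hK _ hS1
  have hle : K ≤ K₁ := fun z hz =>
    (hK1 z).2 fun d hd => (hK0 z).1 hz d fun h => hd (Or.inr h)
  let B' := MvPolynomial ι B
  let X : ι → B' := MvPolynomial.X
  let f : ι → B' := fun i => X i - algebraMap B B' (u i)
  have hmon : ∀ s d v, co d (mon X s • (1 : B') ⊗ₜ[B] v) = if d = s then v else 0 := by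
    intro s d v
    rw [hco, hco1]
    by_cases h : d = s
    · simp [h]
    · rw [if_neg h]
      split_ifs with h1 h2
      · exact absurd (le_antisymm (tsub_eq_zero_iff_le.1 h2) h1) h
      · rfl
      · rfl
  have hf : ∀ s, mon X s - algebraMap B B' (mon u s) ∈ sp f := fun s => by
    rw [← Ideal.Quotient.eq]
    simp only [mon, map_prod, map_pow]
    refine Finset.prod_congr rfl fun i _ => ?_
    rw [Ideal.Quotient.eq.2 (Ideal.subset_span (Set.mem_range_self i) : f i ∈ sp f)]
  have star : ∀ b ∈ monI u S, ∃ a ∈ sp f, ∀ z : (B' ⊗[B] V) ⧸ K, algebraMap B B' b • z = a • z := by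
    intro b hb
    induction hb using Submodule.span_induction with
    | mem _ hs =>
      obtain ⟨s, hs, rfl⟩ := hs
      refine ⟨_, neg_mem (hf s), fun z => ?_⟩
      obtain ⟨z, rfl⟩ := Submodule.Quotient.mk_surjective _ z
      rw [neg_sub, sub_smul, eq_comm, sub_eq_self, ← Submodule.Quotient.mk_smul,
        Submodule.Quotient.mk_eq_zero, hK0]
      intro d hd
      rw [hco, if_neg fun h => hd (hSup h hs)]
    | zero => exact ⟨0, zero_mem _, fun z => by rw [map_zero]⟩
    | add a b _ _ ha hb =>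
      obtain ⟨a', ha', ha⟩ := ha
      obtain ⟨b', hb', hb⟩ := hb
      exact ⟨_, add_mem ha' hb', fun z => by rw [map_add, add_smul, add_smul, ha, hb]⟩
    | smul a b _ hb =>
      obtain ⟨b', hb', hb⟩ := hb
      exact ⟨_, Ideal.mul_mem_left _ (algebraMap B B' a) hb', fun z => by
        rw [smul_eq_mul, map_mul, mul_smul, mul_smul, hb]⟩
  obtain ⟨t, ht⟩ : ∃ t : ((B' ⊗[B] V) ⧸ K) →ₗ[B] V,
      ∀ z, t (Submodule.Quotient.mk z) = co α z :=
    ⟨((K.restrictScalars B).liftQ (co α) fun z hz => (hK0 z).1 hz α hαS).comp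
      (Submodule.Quotient.restrictScalarsEquiv B K).symm.toLinearMap, fun z => rfl⟩
  obtain ⟨s, hs⟩ : ∃ s : V →ₗ[B] ((B' ⊗[B] V) ⧸ K),
      ∀ v, s v = Submodule.Quotient.mk (mon X α • (1 : B') ⊗ₜ[B] v) :=
    ⟨((K.mkQ.comp (LinearMap.lsmul B' _ (mon X α))).restrictScalars B).comp
      (TensorProduct.mk B B' V 1), fun v => rfl⟩
  have hsW : ∀ v, s v ∈ K₁.map K.mkQ := fun v =>
    ⟨_, (hK1 _).2 fun d hd => by
      rw [hmon, if_neg fun h => hd (Or.inl h)], (hs v).symm⟩
  have hts : ∀ v, t (s v) = v := fun v => by rw [hs, ht, hmon, if_pos rfl]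
  have hst : ∀ w ∈ K₁.map K.mkQ, s (t w) = w := by
    rintro _ ⟨z, hz, rfl⟩
    rw [Submodule.mkQ_apply, ht, hs, Submodule.Quotient.eq, hK0]
    intro d hd
    rw [map_sub, hmon]
    split_ifs with h
    · rw [h, sub_self]
    · rw [(hK1 z).1 hz d fun h' => h'.elim h hd, sub_self]
  have hX : ∀ i, ∀ w ∈ K₁.map K.mkQ, X i • w = 0 := by
    rintro i _ ⟨z, hz, rfl⟩
    rw [Submodule.mkQ_apply, ← Submodule.Quotient.mk_smul, Submodule.Quotient.mk_eq_zero, hK0,
      ← pow_one (X i), ← SL_mon_single]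
    intro d hd
    rw [hco]
    split_ifs with h
    · refine (hK1 z).1 hz _ ?_
      rintro (h' | h')
      · have h1 := congrFun h' i
        have h2 : d i ≤ α i := hSle d hd i
        have h3 := h i
        simp only [Pi.sub_apply, Pi.single_eq_same] at h1 h3
        omega
      · exact hd (hSup tsub_le_self h')
    · rfl
  have e := Fintype.equivOfCardEq hcard
  have hsp : sp (fun r => f (e.symm r)) = sp f :=
    congrArg Ideal.span (e.symm.surjective.range_comp f)
  have hIS : monI u I ≤ monI u S := monI_mono u (hII'.trans Set.subset_union_left)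
  have key := hc (K₁.map K.mkQ) (fun r => f (e.symm r)) (fun r => algebraMap B B' (g r))
    (algebraMap B B' γ) ?_ (fun r => ?_) ?_ (s x) ⟨hsW x, ?_⟩
  · rw [hsp] at key
    obtain ⟨y, hy, h1⟩ := SL_mem_sp_smul key
    have h2 := congrArg t h1
    rw [← map_pow, algebraMap_smul, map_smul, hts, map_sum] at h2
    rw [h2]
    refine Submodule.sum_mem _ fun i _ => ?_
    rw [sub_smul, hX i _ (hy i), zero_sub, map_neg, algebraMap_smul, map_smul]
    exact neg_mem (Submodule.smul_mem_smul (Ideal.subset_span (Set.mem_range_self i)) trivial)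
  · have hfin : (insert α S)ᶜ.Finite :=
      (Set.finite_Iic α).subset fun d hd => hSle d fun h => hd (Or.inr h)
    have := hfin.fintype
    let φ : (B' ⊗[B] V) →ₗ[B] (↥(insert α S)ᶜ → V) := LinearMap.pi fun d => co d
    have h1 : Function.Surjective φ := fun v =>
      ⟨∑ d : ↥(insert α S)ᶜ, mon X d • (1 : B') ⊗ₜ[B] v d, funext fun d => by
        simp only [φ, LinearMap.pi_apply, map_sum, hmon, Subtype.coe_inj, Finset.sum_ite_eq,
          Finset.mem_univ, if_true]⟩
    have h2 : LinearMap.ker φ = K₁.restrictScalars B := by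
      ext z
      simp only [φ, LinearMap.mem_ker, funext_iff, LinearMap.pi_apply, Pi.zero_apply,
        Submodule.restrictScalars_mem, hK1, Subtype.forall, Set.mem_compl_iff]
    exact ((wr_algebraMap_iff g γ).2 ((hg.pi _).of_equiv
      ((φ.quotKerEquivOfSurjective h1).symm.trans ((Submodule.quotEquivOfEq _ _ h2).trans
        (Submodule.Quotient.restrictScalarsEquiv B K₁))))).of_equiv
      (Submodule.quotientQuotientEquivQuotient K K₁ hle).symm
  · obtain ⟨a, ha, h1⟩ := star _ (hIS (hI r))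
    refine ⟨a, hsp ▸ ha, fun z => ?_⟩
    rw [← map_mul, sub_smul, h1, sub_self]
    exact zero_mem _
  · rintro w ⟨hw, hw'⟩
    obtain ⟨y, -, h1⟩ := SL_mem_sp_smul hw'
    rw [← hst w hw, h1, map_sum, map_sum, Finset.smul_sum, hsp]
    refine Submodule.sum_mem _ fun r _ => ?_
    obtain ⟨a, ha, h2⟩ := star _ (hIS (hI r))
    rw [algebraMap_smul B' (g r), map_smul, map_smul, ← algebraMap_smul B' (g r), ← mul_smul,
      ← map_mul, h2]
    exact Submodule.smul_mem_smul ha (hsW _)
  · rw [hsp, hs, Submodule.Quotient.mk_smul,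
      ← sub_add_cancel (mon X α) (algebraMap B B' (mon u α)), add_smul]
    refine Submodule.add_mem _ (Submodule.smul_mem_smul (hf α) trivial) ?_
    rw [← Submodule.Quotient.mk_smul, algebraMap_smul, ← TensorProduct.tmul_smul]
    refine Submodule.smul_induction_on
      (p := fun v => Submodule.Quotient.mk ((1 : B') ⊗ₜ[B] v) ∈
        (sp f • ⊤ : Submodule B' ((B' ⊗[B] V) ⧸ K))) hx (fun b hb v _ => ?_) fun v w hv hw => ?_
    · obtain ⟨a, ha, h1⟩ := star b (monI_mono u Set.subset_union_left hb)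
      rw [TensorProduct.tmul_smul, ← algebraMap_smul B' b, Submodule.Quotient.mk_smul, h1]
      exact Submodule.smul_mem_smul ha trivial
    · rw [TensorProduct.tmul_add, Submodule.Quotient.mk_add]
      exact Submodule.add_mem _ hv hw

end Crest.Agent.R183
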