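import Crest.Agent.R183.Koszul

/-!
# Existence and transfer of the operators `σ` with `d σ d ≡ d`
-/

set_option autoImplicit false

open scoped TensorProduct
open IsLocalRing

namespace Crest.Agent.R183

variable {ι : Type} [Fintype ι] [LinearOrder ι]

theorem sig_free {R M : Type} [CommRing R] [IsLocalRing R] [AddCommGroup M] [Module R M]
    [Module.Flat R M] {c : ℕ} (hc : maximalIdeal R ^ c = ⊥) : Module.Free R M := by
  let w := Module.Free.chooseBasis (ResidueField R) (ResidueField R ⊗[R] M)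
  have hsurj := TensorProduct.mk_surjective R M (ResidueField R) Ideal.Quotient.mk_surjective
  obtain ⟨v, hv⟩ := hsurj.comp_left w
  replace hv : TensorProduct.mk R (ResidueField R) M 1 ∘ v = w := hv
  refine .of_basis (Module.Basis.mk (Module.IsLocalRing.linearIndependent_of_flat v
    (hv ▸ w.linearIndependent)) ?_)
  have h1 : (Submodule.span R (Set.range v)).map (TensorProduct.mk R (ResidueField R) M 1) = ⊤ := by
    rw [Submodule.map_span, ← Set.range_comp, hv,
      ← Submodule.restrictScalars_span R (ResidueField R) Ideal.Quotient.mk_surjective,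
      w.span_eq, Submodule.restrictScalars_top]
  have h2 : Submodule.span R (Set.range v) ⊔ maximalIdeal R • ⊤ = ⊤ := by
    have h3 : LinearMap.ker (TensorProduct.mk R (ResidueField R) M 1) = maximalIdeal R • ⊤ :=
      LinearMap.ker_tensorProductMk _
    rw [← h3, ← Submodule.comap_map_eq, h1, Submodule.comap_top]
  have h3 : ∀ j : ℕ, ⊤ ≤ Submodule.span R (Set.range v) ⊔ maximalIdeal R ^ j • ⊤ := by
    intro j
    induction j with
    | zero => simp
    | succ j ih =>
      refine ih.trans (sup_le le_sup_left ?_)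
      conv_lhs => rw [← h2, Submodule.smul_sup, ← Submodule.mul_smul, ← pow_succ]
      exact sup_le_sup_right Submodule.smul_le_right _
  simpa [hc] using h3 c

theorem sig_exists_inv {k V : Type} [Field k] [AddCommGroup V] [Module k V] (d : V →ₗ[k] V) :
    ∃ σ : V →ₗ[k] V, ∀ x, d (σ (d x)) = d x := by
  obtain ⟨g, hg⟩ := d.rangeRestrict.exists_rightInverse_of_surjective d.range_rangeRestrict
  obtain ⟨σ, hσ⟩ := g.exists_extend
  refine ⟨σ, fun x => ?_⟩
  have h1 : σ (d x) = g ⟨d x, x, rfl⟩ := LinearMap.congr_fun hσ ⟨d x, x, rfl⟩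
  rw [h1]
  exact congrArg Subtype.val (LinearMap.congr_fun hg ⟨d x, x, rfl⟩)

theorem sig_of_free {R D : Type} [CommRing R] [IsLocalRing R] [CommRing D] [Algebra R D]
    [Module.Free R D] (y : ι → D) : HasSig (maximalIdeal R) y := by
  obtain ⟨σ₀, h₀⟩ := sig_exists_inv (((kd y D).restrictScalars R).baseChange (ResidueField R))
  have hsurj := TensorProduct.mk_surjective R (Finset ι → D) (ResidueField R)
    Ideal.Quotient.mk_surjective
  obtain ⟨σ, hσ⟩ := Module.projective_lifting_property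
    (TensorProduct.mk R (ResidueField R) (Finset ι → D) 1)
    (σ₀.restrictScalars R ∘ₗ TensorProduct.mk R (ResidueField R) (Finset ι → D) 1) hsurj
  refine ⟨σ, fun x => ?_⟩
  have h3 : LinearMap.ker (TensorProduct.mk R (ResidueField R) (Finset ι → D) 1) =
      maximalIdeal R • ⊤ := LinearMap.ker_tensorProductMk _
  have h4 : ∀ z, (1 : ResidueField R) ⊗ₜ[R] σ z = σ₀ (1 ⊗ₜ[R] z) := fun z =>
    LinearMap.congr_fun hσ z
  have h5 := h₀ (1 ⊗ₜ[R] x)
  rw [LinearMap.baseChange_tmul, ← h4, LinearMap.baseChange_tmul] at h5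
  rw [← h3, LinearMap.mem_ker, map_sub, sub_eq_zero]
  exact h5

theorem sig_descend {R M N P : Type} [CommRing R] [AddCommGroup M] [Module R M] [AddCommGroup N]
    [Module R N] [AddCommGroup P] [Module R P] (f : M →ₗ[R] N) (hf : Function.Surjective f)
    (g : M →ₗ[R] P) (h : LinearMap.ker f ≤ LinearMap.ker g) :
    ∃ s : N →ₗ[R] P, ∀ x, s (f x) = g x := by
  refine ⟨(LinearMap.ker f).liftQ g h ∘ₗ (f.quotKerEquivOfSurjective hf).symm.toLinearMap,
    fun x => ?_⟩
  have h1 : (f.quotKerEquivOfSurjective hf).symm (f x) = Submodule.Quotient.mk x := by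
    rw [LinearEquiv.symm_apply_eq]
    rfl
  rw [LinearMap.comp_apply, LinearEquiv.coe_coe, h1, Submodule.liftQ_apply]

theorem sig_map_mem {R M N : Type} [CommRing R] [AddCommGroup M] [Module R M] [AddCommGroup N]
    [Module R N] (f : M →ₗ[R] N) {J : Ideal R} {x : M} (hx : x ∈ (J • ⊤ : Submodule R M)) :
    f x ∈ (J • ⊤ : Submodule R N) := by
  have h1 := Submodule.mem_map_of_mem (f := f) hx
  rw [Submodule.map_smul''] at h1
  exact Submodule.smul_mono le_rfl le_top h1

theorem sig_mem_iff {R R' M : Type} [CommRing R] [CommRing R'] [Algebra R R'] [AddCommGroup M]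
    [Module R M] [Module R' M] [IsScalarTower R R' M] (J : Ideal R) (x : M) :
    x ∈ (J.map (algebraMap R R') • ⊤ : Submodule R' M) ↔ x ∈ (J • ⊤ : Submodule R M) := by
  rw [← Submodule.restrictScalars_mem R, Ideal.smul_restrictScalars, Submodule.restrictScalars_top]

theorem HasSig.mono {R₀ D : Type} [CommRing R₀] [CommRing D] [Algebra R₀ D] {𝔪 𝔪' : Ideal R₀}
    {y : ι → D} (h : HasSig 𝔪 y) (hm : 𝔪 ≤ 𝔪') : HasSig 𝔪' y := by
  obtain ⟨σ, hσ⟩ := h
  exact ⟨σ, fun x => Submodule.smul_mono_left hm (hσ x)⟩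

/-- base change followed by a quotient by an ideal of the new base -/
theorem HasSig.transfer {R₀ R₀' D D' : Type} [CommRing R₀] [CommRing R₀'] [CommRing D]
    [CommRing D'] [Algebra R₀ R₀'] [Algebra R₀ D] [Algebra R₀' D'] [Algebra R₀ D']
    [IsScalarTower R₀ R₀' D'] (g : D →ₐ[R₀] D') (J : Ideal R₀')
    (hs : Function.Surjective (LinearMap.liftBaseChange R₀' g.toLinearMap))
    (hk : LinearMap.ker (LinearMap.liftBaseChange R₀' g.toLinearMap) = J • ⊤)
    {𝔪 : Ideal R₀} {y : ι → D} (h : HasSig 𝔪 y) :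
    HasSig (𝔪.map (algebraMap R₀ R₀')) (fun i => g (y i)) := by
  classical
  obtain ⟨σ, hσ⟩ := h
  let G : (Finset ι → D) →ₗ[R₀] (Finset ι → D') := g.toLinearMap.compLeft (Finset ι)
  let L : R₀' ⊗[R₀] (Finset ι → D) →ₗ[R₀'] (Finset ι → D') :=
    (LinearMap.liftBaseChange R₀' g.toLinearMap).compLeft (Finset ι) ∘ₗ
      (TensorProduct.piRight R₀ R₀' R₀' fun _ : Finset ι => D).toLinearMap
  have hL : ∀ (a : R₀') (x : Finset ι → D), L (a ⊗ₜ x) = a • G x := fun a x => by
    funext S
    simp [L, G]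
  have hLs : Function.Surjective L :=
    (hs.comp_left (α := Finset ι)).comp (TensorProduct.piRight R₀ R₀' R₀' _).surjective
  have hLk : LinearMap.ker L = J • ⊤ := by
    have h1 : LinearMap.ker ((LinearMap.liftBaseChange R₀' g.toLinearMap).compLeft (Finset ι)) =
        J • ⊤ := by
      have h2 : KK ι (⊤ : Submodule R₀' (R₀' ⊗[R₀] D)) = ⊤ := Submodule.pi_top _
      rw [← h2, ← KK_smul, ← hk]
      ext x
      simp [funext_iff, Submodule.mem_pi]
    refine le_antisymm (fun z hz => ?_) fun z hz => ?_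
    · have h3 : TensorProduct.piRight R₀ R₀' R₀' (fun _ : Finset ι => D) z ∈
          (J • ⊤ : Submodule R₀' _) := h1 ▸ hz
      have h4 := sig_map_mem
        (TensorProduct.piRight R₀ R₀' R₀' fun _ : Finset ι => D).symm.toLinearMap h3
      rwa [LinearEquiv.coe_coe, LinearEquiv.symm_apply_apply] at h4
    · have h3 := sig_map_mem
        (TensorProduct.piRight R₀ R₀' R₀' fun _ : Finset ι => D).toLinearMap hz
      rw [← h1] at h3
      exact h3
  obtain ⟨σ', hσ'⟩ := sig_descend L hLs (L ∘ₗ σ.baseChange R₀') fun z hz => by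
    rw [hLk] at hz
    have h3 := sig_map_mem (σ.baseChange R₀') hz
    rw [← hLk] at h3
    exact h3
  have hG : ∀ x, σ' (G x) = G (σ x) := fun x => by
    have h3 := hσ' (1 ⊗ₜ x)
    rwa [hL, LinearMap.comp_apply, LinearMap.baseChange_tmul, hL, one_smul, one_smul] at h3
  have hd : ∀ x, kd (fun i => g (y i)) D' (G x) = G (kd y D x) := fun x =>
    kd_comp y (fun i => g (y i)) (g : D →+* D').toAddMonoidHom (fun i v => map_mul g _ _) x
  refine ⟨σ', fun x' => ?_⟩
  obtain ⟨z, rfl⟩ := hLs x'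
  induction z with
  | zero => simp
  | tmul a x =>
    have h3 : ∀ u, kd (fun i => g (y i)) D' (a • u) = a • kd (fun i => g (y i)) D' u := fun u =>
      (kd (fun i => g (y i)) D').map_smul_of_tower a u
    rw [hL, h3, map_smul, h3, ← smul_sub, hd, hG, hd, ← map_sub]
    exact Submodule.smul_mem _ _ ((sig_mem_iff _ _).2 (sig_map_mem G (hσ x)))
  | add z z' hz hz' =>
    rw [map_add, map_add, map_add, map_add, add_sub_add_comm]
    exact Submodule.add_mem _ hz hz'

theorem HasSig.baseChange {R₀ D : Type} (R₀' : Type) [CommRing R₀] [CommRing R₀'] [CommRing D]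
    [Algebra R₀ R₀'] [Algebra R₀ D] {𝔪 : Ideal R₀} {y : ι → D} (h : HasSig 𝔪 y) :
    HasSig (𝔪.map (algebraMap R₀ R₀')) (fun i => (1 : R₀') ⊗ₜ[R₀] y i) := by
  have h1 : LinearMap.liftBaseChange R₀'
      (Algebra.TensorProduct.includeRight : D →ₐ[R₀] R₀' ⊗[R₀] D).toLinearMap = LinearMap.id := by
    ext x
    simp
  exact h.transfer (Algebra.TensorProduct.includeRight : D →ₐ[R₀] R₀' ⊗[R₀] D) ⊥
    (by rw [h1]; exact Function.surjective_id) (by rw [h1]; simp)

theorem HasSig.quot {R₀ D D' : Type} [CommRing R₀] [CommRing D] [CommRing D'] [Algebra R₀ D]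
    [Algebra R₀ D'] (g : D →ₐ[R₀] D') (hs : Function.Surjective g) (J : Ideal R₀)
    (hk : RingHom.ker g = J.map (algebraMap R₀ D)) {𝔪 : Ideal R₀} {y : ι → D} (h : HasSig 𝔪 y) :
    HasSig 𝔪 (fun i => g (y i)) := by
  have h1 : LinearMap.liftBaseChange R₀ g.toLinearMap =
      g.toLinearMap ∘ₗ (TensorProduct.lid R₀ D).toLinearMap := by
    ext x
    simp
  have h2 : ∀ x : D, g x = 0 ↔ x ∈ (J • ⊤ : Submodule R₀ D) := fun x => by
    rw [Ideal.smul_top_eq_map, Submodule.restrictScalars_mem, ← hk, RingHom.mem_ker]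
  have h3 := h.transfer (R₀' := R₀) g J
    (by rw [h1]; exact hs.comp (TensorProduct.lid R₀ D).surjective) (by
      rw [h1]
      refine le_antisymm (fun z hz => ?_) fun z hz => ?_
      · simpa using sig_map_mem (TensorProduct.lid R₀ D).symm.toLinearMap ((h2 _).1 hz)
      · exact (h2 _).2 (sig_map_mem (TensorProduct.lid R₀ D).toLinearMap hz))
  exact h3.mono (by simp)

/-- restriction of the base along a surjection -/
theorem HasSig.restrict {T R₀ D : Type} [CommRing T] [CommRing R₀] [CommRing D] [Algebra T R₀]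
    [Algebra R₀ D] [Algebra T D] [IsScalarTower T R₀ D] {𝔪 : Ideal T} {y : ι → D}
    (h : HasSig (𝔪.map (algebraMap T R₀)) y) : HasSig 𝔪 y := by
  obtain ⟨σ, hσ⟩ := h
  exact ⟨σ.restrictScalars T, fun x => (sig_mem_iff _ _).1 (hσ x)⟩

theorem hasSig_of_flat (R S : Type) [CommRing R] [IsLocalRing R] [CommRing S] [Algebra R S]
    [Module.Flat R S] (y : ι → S) (c : ℕ) :
    HasSig (maximalIdeal R)
      (fun i => Ideal.Quotient.mk ((maximalIdeal R ^ c).map (algebraMap R S)) (y i)) := by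
  rcases Nat.eq_zero_or_pos c with rfl | hc
  · have : Subsingleton (S ⧸ (maximalIdeal R ^ 0).map (algebraMap R S)) :=
      Ideal.Quotient.subsingleton_iff.2 (by simp [Ideal.map_top])
    exact ⟨0, fun x => by rw [Subsingleton.elim (_ - _) 0]; exact Submodule.zero_mem _⟩
  have : Nontrivial (R ⧸ maximalIdeal R ^ c) := Ideal.Quotient.nontrivial_iff.2 fun h =>
    (maximalIdeal.isMaximal R).ne_top (top_le_iff.1 (h.ge.trans (Ideal.pow_le_self hc.ne')))
  have : IsLocalRing (R ⧸ maximalIdeal R ^ c) :=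
    IsLocalRing.of_surjective' (Ideal.Quotient.mk _) Ideal.Quotient.mk_surjective
  have h1 : (maximalIdeal R).map (algebraMap R (R ⧸ maximalIdeal R ^ c)) =
      maximalIdeal (R ⧸ maximalIdeal R ^ c) :=
    map_maximalIdeal_of_surjective _ Ideal.Quotient.mk_surjective
  have : Module.Flat (R ⧸ maximalIdeal R ^ c) (S ⧸ (maximalIdeal R ^ c).map (algebraMap R S)) :=
    Module.Flat.of_linearEquiv
      (Algebra.TensorProduct.quotIdealMapEquivQuotTensor S (maximalIdeal R ^ c)).toLinearEquiv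
  have : Module.Free (R ⧸ maximalIdeal R ^ c) (S ⧸ (maximalIdeal R ^ c).map (algebraMap R S)) :=
    sig_free (c := c) (by
      rw [← h1, ← Ideal.map_pow]
      exact Ideal.map_quotient_self _)
  refine HasSig.restrict (R₀ := R ⧸ maximalIdeal R ^ c) ?_
  rw [h1]
  exact sig_of_free _

/-- `D / (y, 𝔪)` is flat over `T / (P + 𝔪)` -/
theorem HasSig.flatMod {T D : Type} [CommRing T] [CommRing D] [Algebra T D] {𝔪 : Ideal T}
    {y : ι → D} (h : HasSig 𝔪 y) {P : Ideal T} (hP : FlatMod P D) :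
    FlatMod (P ⊔ 𝔪) (D ⧸ (sp y ⊔ 𝔪.map (algebraMap T D))) := by
  classical
  obtain ⟨σ, hσ⟩ := h
  intro V' V _ _ _ _ f hV hf
  let e : D →ₗ[T] D := LinearMap.id - LinearMap.proj ∅ ∘ₗ (kd y D).restrictScalars T ∘ₗ σ ∘ₗ
    LinearMap.single T (fun _ : Finset ι => D) ∅
  have he : ∀ x, e x = x - kd y D (σ (Pi.single ∅ x)) ∅ := fun x => rfl
  let π : D →ₗ[T] D ⧸ (sp y ⊔ 𝔪.map (algebraMap T D)) :=
    (Ideal.Quotient.mkₐ T (sp y ⊔ 𝔪.map (algebraMap T D))).toLinearMap
  have hπ : ∀ x, π x = 0 ↔ x ∈ sp y ⊔ 𝔪.map (algebraMap T D) := fun x =>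
    Ideal.Quotient.eq_zero_iff_mem
  have hπs : Function.Surjective π := Ideal.Quotient.mk_surjective
  have hm : ∀ x : D, x ∈ 𝔪.map (algebraMap T D) ↔ x ∈ (𝔪 • ⊤ : Submodule T D) := fun x => by
    rw [Ideal.smul_top_eq_map, Submodule.restrictScalars_mem]
  have h1 : ∀ x, π (e x) = π x := fun x => by
    have h2 := kd_empty_mem y (σ (Pi.single ∅ x))
    rw [smul_eq_mul, Ideal.mul_top] at h2
    rw [he, map_sub, (hπ _).2 (Ideal.mem_sup_left h2), sub_zero]
  have h2 : ∀ a ∈ sp y, e a ∈ (𝔪 • ⊤ : Submodule T D) := fun a ha => by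
    obtain ⟨v, rfl⟩ := Ideal.mem_span_range_iff_exists_fun.1 ha
    rw [map_sum]
    refine Submodule.sum_mem _ fun i _ => ?_
    have h3 := sig_map_mem (LinearMap.proj (R := T) (φ := fun _ : Finset ι => D) ∅)
      (hσ (Pi.single {i} (v i)))
    rw [kd_single_empty, smul_eq_mul, mul_comm] at h3
    rw [he, ← neg_sub]
    refine Submodule.neg_mem _ ?_
    simpa using h3
  obtain ⟨s, hs⟩ := sig_descend π hπs ((𝔪 • ⊤ : Submodule T D).mkQ ∘ₗ e) fun x hx => by
    obtain ⟨a, ha, b, hb, rfl⟩ := Submodule.mem_sup.1 ((hπ x).1 hx)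
    rw [LinearMap.mem_ker, LinearMap.comp_apply, Submodule.mkQ_apply,
      Submodule.Quotient.mk_eq_zero, map_add]
    exact Submodule.add_mem _ (h2 a ha) (sig_map_mem e ((hm b).1 hb))
  obtain ⟨p, hp⟩ := sig_descend (𝔪 • ⊤ : Submodule T D).mkQ (Submodule.mkQ_surjective _) π
    fun x hx => by
      rw [Submodule.ker_mkQ] at hx
      exact (hπ x).2 (Ideal.mem_sup_right ((hm x).2 hx))
  have hps : p ∘ₗ s = LinearMap.id := by
    refine LinearMap.ext fun q => ?_
    obtain ⟨x, rfl⟩ := hπs q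
    rw [LinearMap.comp_apply, hs, LinearMap.comp_apply, hp, h1, LinearMap.id_apply]
  have h3 : Function.Injective (f.lTensor D) :=
    hP V' V f (fun π hπ => hV π (Ideal.mem_sup_left hπ)) hf
  have h4 : Function.Injective ((𝔪 • ⊤ : Submodule T D).mkQ.rTensor V) := by
    rw [← LinearMap.ker_eq_bot, rTensor_mkQ, LinearMap.range_eq_bot]
    refine TensorProduct.ext' ?_
    rintro ⟨x, hx⟩ v
    change x ⊗ₜ[T] v = 0
    refine Submodule.smul_induction_on hx (fun r hr n _ => ?_) fun a b ha hb => ?_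
    · rw [TensorProduct.smul_tmul, hV r (Ideal.mem_sup_right hr), TensorProduct.tmul_zero]
    · rw [TensorProduct.add_tmul, ha, hb, add_zero]
  have h5 : Function.Injective (f.lTensor (D ⧸ (𝔪 • ⊤ : Submodule T D))) := by
    refine (injective_iff_map_eq_zero _).2 fun z hz => ?_
    obtain ⟨z, rfl⟩ := LinearMap.rTensor_surjective V' (𝔪 • ⊤ : Submodule T D).mkQ_surjective z
    rw [← LinearMap.comp_apply, LinearMap.lTensor_comp_rTensor, ← LinearMap.rTensor_comp_lTensor,
      LinearMap.comp_apply] at hz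
    rw [(injective_iff_map_eq_zero _).1 h3 z ((injective_iff_map_eq_zero _).1 h4 _ hz), map_zero]
  refine (injective_iff_map_eq_zero _).2 fun z hz => ?_
  have h6 : s.rTensor V' z = 0 := by
    refine (injective_iff_map_eq_zero _).1 h5 _ ?_
    rw [← LinearMap.comp_apply, LinearMap.lTensor_comp_rTensor, ← LinearMap.rTensor_comp_lTensor,
      LinearMap.comp_apply, hz, map_zero]
  have h7 : p.rTensor V' (s.rTensor V' z) = z := by
    rw [← LinearMap.comp_apply, ← LinearMap.rTensor_comp, hps, LinearMap.rTensor_id,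
      LinearMap.id_apply]
  rw [← h7, h6, map_zero]

end Crest.Agent.R183
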