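import Crest.Agent.R183.WDefs
import Crest.Agent.R183.Sig
import Crest.Agent.R183.SL

/-!
# Window data only depend on the windows
-/

set_option autoImplicit false

namespace Crest.Agent.R183

namespace TruncAux

open scoped TensorProduct

section modules

variable {T₀ T : Type} [CommRing T₀] [CommRing T] [Algebra T₀ T]

theorem length_eq (M : Type) [AddCommGroup M] [Module T M] [Module T₀ M] [IsScalarTower T₀ T M]
    (h : ∀ t : T, ∃ t₀ : T₀, ∀ x : M, t • x = t₀ • x) :
    Module.length T₀ M = Module.length T M := by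
  apply WithBot.coe_injective
  rw [Module.coe_length, Module.coe_length]
  refine (Order.krullDim_eq_of_orderIso
    (RelIso.ofSurjective (Submodule.restrictScalarsEmbedding T₀ T M) fun N => ?_)).symm
  refine ⟨{ N with smul_mem' := fun t x hx => ?_ }, rfl⟩
  obtain ⟨t₀, ht⟩ := h t
  rw [ht]
  exact N.smul_mem t₀ hx

theorem smul_eq {P : Ideal T} {M : Type} [AddCommGroup M] [Module T M] [Module T₀ M]
    [IsScalarTower T₀ T M] (hM : ∀ π ∈ P, ∀ x : M, π • x = 0) {t : T} {t₀ : T₀}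
    (h : t - algebraMap T₀ T t₀ ∈ P) (x : M) : t • x = t₀ • x := by
  have := hM _ h x
  rwa [sub_smul, algebraMap_smul, sub_eq_zero] at this

theorem exists_equiv {P : Ideal T} (hs : ∀ t : T, ∃ t₀, t - algebraMap T₀ T t₀ ∈ P) :
    Nonempty ((T₀ ⧸ P.comap (algebraMap T₀ T)) ≃ₗ[T₀] (T ⧸ P)) := by
  let g : T₀ →ₗ[T₀] T ⧸ P := (P.mkQ.restrictScalars T₀) ∘ₗ Algebra.linearMap T₀ T
  have hg : Function.Surjective g := by
    intro y
    obtain ⟨t, rfl⟩ := P.mkQ_surjective y
    obtain ⟨t₀, h⟩ := hs t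
    exact ⟨t₀, ((Submodule.Quotient.eq P).2 h).symm⟩
  have hk : P.comap (algebraMap T₀ T) = LinearMap.ker g := by
    ext x
    exact (Submodule.Quotient.mk_eq_zero P).symm
  exact ⟨Submodule.quotEquivOfEq _ _ hk ≪≫ₗ g.quotKerEquivOfSurjective hg⟩

theorem length_quot {P : Ideal T} (hs : ∀ t : T, ∃ t₀, t - algebraMap T₀ T t₀ ∈ P) :
    Module.length T₀ (T₀ ⧸ P.comap (algebraMap T₀ T)) = Module.length T (T ⧸ P) := by
  obtain ⟨e⟩ := exists_equiv hs
  rw [e.length_eq]
  refine length_eq _ fun t => ?_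
  obtain ⟨t₀, h⟩ := hs t
  refine ⟨t₀, smul_eq (fun π hπ x => ?_) h⟩
  obtain ⟨x, rfl⟩ := Ideal.Quotient.mk_surjective x
  exact Ideal.Quotient.eq_zero_iff_mem.2 (P.mul_mem_right x hπ)

theorem exists_module {P : Ideal T} (hs : ∀ t : T, ∃ t₀, t - algebraMap T₀ T t₀ ∈ P)
    (V : Type) [AddCommGroup V] [Module T₀ V]
    (hV : ∀ π ∈ P.comap (algebraMap T₀ T), ∀ v : V, π • v = 0) :
    ∃ _ : Module T V, ∀ t t₀, t - algebraMap T₀ T t₀ ∈ P → ∀ v : V, t • v = t₀ • v := by
  have hb : Function.Bijective (Ideal.quotientMap P (algebraMap T₀ T) le_rfl) := by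
    refine ⟨Ideal.quotientMap_injective, fun y => ?_⟩
    obtain ⟨t, rfl⟩ := Ideal.Quotient.mk_surjective y
    obtain ⟨t₀, h⟩ := hs t
    exact ⟨Ideal.Quotient.mk _ t₀, (Ideal.Quotient.eq.2 h).symm⟩
  let e := RingEquiv.ofBijective _ hb
  have hT : Module.IsTorsionBySet T₀ V (P.comap (algebraMap T₀ T)) := fun v π => hV π.1 π.2 v
  let _ := hT.module
  refine ⟨Module.compHom V (e.symm.toRingHom.comp (Ideal.Quotient.mk P)), fun t t₀ h v => ?_⟩
  have h1 : e.symm (Ideal.Quotient.mk P t) = Ideal.Quotient.mk _ t₀ := by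
    rw [RingEquiv.symm_apply_eq]
    exact Ideal.Quotient.eq.2 h
  show e.symm (Ideal.Quotient.mk P t) • v = _
  rw [h1]
  rfl

theorem flatMod {P : Ideal T} (hs : ∀ t : T, ∃ t₀, t - algebraMap T₀ T t₀ ∈ P)
    (S : Type) [AddCommGroup S] [Module T S] [Module T₀ S] [IsScalarTower T₀ T S]
    (hS : ∀ π ∈ P, ∀ x : S, π • x = 0) (h : FlatMod P S) :
    FlatMod (P.comap (algebraMap T₀ T)) S := by
  intro V' V _ _ _ _ f hV hf
  obtain ⟨_, h1⟩ := exists_module hs V hV
  obtain ⟨_, h2⟩ := exists_module hs V' fun π hπ v => hf (by rw [map_smul, hV π hπ, map_zero])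
  have tower : ∀ (U : Type) [AddCommGroup U] [Module T₀ U] [Module T U],
      (∀ t t₀, t - algebraMap T₀ T t₀ ∈ P → ∀ v : U, t • v = t₀ • v) → IsScalarTower T₀ T U :=
    fun U _ _ _ hU => IsScalarTower.of_algebraMap_smul fun t₀ v => hU _ t₀ (by simp) v
  have compat : ∀ (U : Type) [AddCommGroup U] [Module T₀ U] [Module T U],
      (∀ t t₀, t - algebraMap T₀ T t₀ ∈ P → ∀ v : U, t • v = t₀ • v) →
      TensorProduct.CompatibleSMul T₀ T S U := fun U _ _ _ hU => ⟨fun t s v => by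
        obtain ⟨t₀, ht⟩ := hs t
        rw [smul_eq hS ht, hU t t₀ ht, TensorProduct.smul_tmul]⟩
  have := tower V h1
  have := tower V' h2
  have := compat V h1
  have := compat V' h2
  let f' : V' →ₗ[T] V :=
    { f with
      map_smul' := fun t v => by
        obtain ⟨t₀, ht⟩ := hs t
        show f (t • v) = t • f v
        rw [h1 t t₀ ht, h2 t t₀ ht, map_smul] }
  have h3 := h V' V f' (fun π hπ v => by rw [h1 π 0 (by simpa using hπ), zero_smul]) hf
  let e := TensorProduct.equivOfCompatibleSMul T₀ T T₀ S V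
  let e' := TensorProduct.equivOfCompatibleSMul T₀ T T₀ S V'
  have h4 : ∀ x, f.lTensor S (e' x) = e (f'.lTensor S x) := by
    intro x
    induction x with
    | zero => simp
    | tmul s v => rfl
    | add x y hx hy => simp only [map_add, hx, hy]
  refine Function.Injective.of_comp_right (g := e') ?_ e'.surjective
  rw [show f.lTensor S ∘ e' = e ∘ f'.lTensor S from funext h4]
  exact e.injective.comp h3

theorem finFree {P : Ideal T} (hs : ∀ t : T, ∃ t₀, t - algebraMap T₀ T t₀ ∈ P)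
    (S : Type) [CommRing S] [Algebra T S] [Algebra T₀ S] [IsScalarTower T₀ T S]
    (hS : ∀ π ∈ P, algebraMap T S π = 0) (μ : LF S)
    (h : (∃ ν : ℕ, Nonempty (S ≃ₗ[T] (Fin ν → T ⧸ P))) ∧
      ∀ (M : Type) [AddCommGroup M] [Module S M] [Module T M] [IsScalarTower T S M],
        μ.val M = Module.length T M) :
    (∃ ν : ℕ, Nonempty (S ≃ₗ[T₀] (Fin ν → T₀ ⧸ P.comap (algebraMap T₀ T)))) ∧
      ∀ (M : Type) [AddCommGroup M] [Module S M] [Module T₀ M] [IsScalarTower T₀ S M],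
        μ.val M = Module.length T₀ M := by
  obtain ⟨⟨ν, ⟨e⟩⟩, h2⟩ := h
  obtain ⟨e'⟩ := exists_equiv hs
  refine ⟨⟨ν, ⟨e.restrictScalars T₀ ≪≫ₗ LinearEquiv.piCongrRight fun _ => e'.symm⟩⟩,
    fun M _ _ _ _ => ?_⟩
  let _ : Module T M := Module.compHom M (algebraMap T S)
  have h3 : ∀ (t : T) (x : M), t • x = algebraMap T S t • x := fun _ _ => rfl
  have : IsScalarTower T S M := IsScalarTower.of_algebraMap_smul fun t x => (h3 t x).symm
  have : IsScalarTower T₀ T M := IsScalarTower.of_algebraMap_smul fun t x => by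
    rw [h3, ← IsScalarTower.algebraMap_apply, algebraMap_smul]
  rw [h2 M, length_eq (T₀ := T₀) (T := T) M fun t => ?_]
  obtain ⟨t₀, ht⟩ := hs t
  exact ⟨t₀, smul_eq (fun π hπ x => by rw [h3, hS π hπ, zero_smul]) ht⟩

theorem hasSig {ι : Type} [Fintype ι] [LinearOrder ι] {S : Type} [CommRing S] [Algebra T S]
    [Algebra T₀ S] [IsScalarTower T₀ T S] {W 𝔪 : Ideal T} {𝔪₀ : Ideal T₀} {y : ι → S}
    (hS : ∀ π ∈ W, algebraMap T S π = 0) (hm : 𝔪 ≤ 𝔪₀.map (algebraMap T₀ T) ⊔ W)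
    (h : HasSig 𝔪 y) : HasSig 𝔪₀ y := by
  refine HasSig.restrict (R₀ := T) ?_
  obtain ⟨σ, hσ⟩ := h.mono hm
  refine ⟨σ, fun x => ?_⟩
  have h1 : (W • ⊤ : Submodule T (Finset ι → S)) ≤ ⊥ := Submodule.smul_le.2 fun π hπ v _ => by
    rw [← algebraMap_smul S, hS π hπ, zero_smul]
    exact zero_mem _
  have h2 := hσ x
  rw [Submodule.sup_smul] at h2
  exact sup_le le_rfl (h1.trans bot_le) h2

end modules

section rel

variable {T₀ T : Type} [CommRing T₀] [CommRing T]

theorem map_sp {ι : Type} (f : T₀ →+* T) (u : ι → T₀) : (sp u).map f = sp fun i => f (u i) := by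
  rw [Ideal.map_span, ← Set.range_comp]
  rfl

/-- `f` induces `T₀ / W₀ ≃ T / W`. -/
structure Iso (f : T₀ →+* T) (W₀ : Ideal T₀) (W : Ideal T) : Prop where
  surj : ∀ t, ∃ t₀, t - f t₀ ∈ W
  comap : W.comap f = W₀

/-- corresponding ideals -/
def Rel (f : T₀ →+* T) (W : Ideal T) (I₀ : Ideal T₀) (I : Ideal T) : Prop :=
  I₀.map ((Ideal.Quotient.mk W).comp f) = I.map (Ideal.Quotient.mk W)

variable {f : T₀ →+* T} {W₀ I₀ J₀ : Ideal T₀} {W I J : Ideal T}

theorem Rel.sup (h : Rel f W I₀ I) (h' : Rel f W J₀ J) : Rel f W (I₀ ⊔ J₀) (I ⊔ J) := by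
  unfold Rel at *
  rw [Ideal.map_sup, Ideal.map_sup, h, h']

theorem Rel.mul (h : Rel f W I₀ I) (h' : Rel f W J₀ J) : Rel f W (I₀ * J₀) (I * J) := by
  unfold Rel at *
  rw [Ideal.map_mul, Ideal.map_mul, h, h']

theorem Rel.pow (h : Rel f W I₀ I) (n : ℕ) : Rel f W (I₀ ^ n) (I ^ n) := by
  unfold Rel at *
  rw [Ideal.map_pow, Ideal.map_pow, h]

theorem rel_sp {ι : Type} {u₀ : ι → T₀} {u : ι → T} (h : ∀ i, u i - f (u₀ i) ∈ W) :
    Rel f W (sp u₀) (sp u) := by
  rw [Rel, map_sp, map_sp]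
  congr 2
  funext i
  exact (Ideal.Quotient.eq.2 (h i)).symm

theorem rel_span {c₀ : T₀} {c : T} (h : c - f c₀ ∈ W) :
    Rel f W (Ideal.span {c₀}) (Ideal.span {c}) := by
  rw [Rel, Ideal.map_span, Ideal.map_span, Set.image_singleton, Set.image_singleton]
  congr 2
  exact (Ideal.Quotient.eq.2 h).symm

theorem Iso.surjective (h : Iso f W₀ W) :
    Function.Surjective ((Ideal.Quotient.mk W).comp f) := by
  intro y
  obtain ⟨t, rfl⟩ := Ideal.Quotient.mk_surjective y
  obtain ⟨t₀, ht⟩ := h.surj t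
  exact ⟨t₀, (Ideal.Quotient.eq.2 ht).symm⟩

theorem comap_map_mk (W I : Ideal T) :
    (I.map (Ideal.Quotient.mk W)).comap (Ideal.Quotient.mk W) = I ⊔ W := by
  rw [Ideal.comap_map_of_surjective _ Ideal.Quotient.mk_surjective, ← RingHom.ker_eq_comap_bot,
    Ideal.mk_ker]

theorem Iso.rel_comap (h : Iso f W₀ W) (hJ : W ≤ J) : Rel f W (J.comap f) J := by
  have : J.comap f = (J.map (Ideal.Quotient.mk W)).comap ((Ideal.Quotient.mk W).comp f) := by
    rw [← Ideal.comap_comap, comap_map_mk, sup_eq_left.2 hJ]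
  rw [Rel, this, Ideal.map_comap_of_surjective _ h.surjective]

theorem Iso.comap_sup (h : Iso f W₀ W) (hI : Rel f W I₀ I) : (I ⊔ W).comap f = I₀ ⊔ W₀ := by
  rw [← comap_map_mk, Ideal.comap_comap, ← hI, Ideal.comap_map_of_surjective _ h.surjective,
    ← Ideal.comap_comap, ← RingHom.ker_eq_comap_bot, Ideal.mk_ker, h.comap]

theorem Iso.le (h : Iso f W₀ W) (hI : Rel f W I₀ I) (hJ : Rel f W J₀ J) (hle : I ≤ J ⊔ W) :
    I₀ ≤ J₀ ⊔ W₀ := by
  rw [← h.comap_sup hJ]
  exact le_sup_left.trans ((h.comap_sup hI).ge.trans (Ideal.comap_mono (sup_le hle le_sup_right)))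

theorem Iso.mem (h : Iso f W₀ W) (hI : Rel f W I₀ I) {x : T₀} (hx : f x ∈ I ⊔ W) :
    x ∈ I₀ ⊔ W₀ := by
  rw [← h.comap_sup hI]
  exact hx

theorem Iso.length (h : Iso f W₀ W) (hI : Rel f W I₀ I) :
    Module.length T₀ (T₀ ⧸ (I₀ ⊔ W₀)) = Module.length T (T ⧸ (I ⊔ W)) := by
  let _ := f.toAlgebra
  rw [← h.comap_sup hI]
  exact length_quot fun t => (h.surj t).imp fun t₀ ht => Ideal.mem_sup_right ht

theorem Rel.map_eq (hI : Rel f W I₀ I) {S : Type} [CommRing S] (ψ : T →+* S)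
    (hψ : ∀ π ∈ W, ψ π = 0) : I₀.map (ψ.comp f) = I.map ψ := by
  have h1 : ψ = (Ideal.Quotient.lift W ψ hψ).comp (Ideal.Quotient.mk W) := by
    ext t
    simp
  rw [h1, RingHom.comp_assoc, ← Ideal.map_map, hI, Ideal.map_map]

theorem Rel.le_map_sup (hI : Rel f W I₀ I) : I ≤ I₀.map f ⊔ W := by
  rw [← comap_map_mk, Ideal.map_map, hI]
  exact Ideal.le_comap_map

theorem apply_eq {S : Type} [CommRing S] (ψ : T →+* S) (hψ : ∀ π ∈ W, ψ π = 0) {a b : T}
    (h : a - b ∈ W) : ψ a = ψ b := by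
  have := hψ _ h
  rwa [map_sub, sub_eq_zero] at this

open MvPolynomial in
theorem exists_poly {τ : Type} (hs : ∀ t, ∃ t₀, t - f t₀ ∈ W) (t : MvPolynomial τ T) :
    ∃ t₀ : MvPolynomial τ T₀, t - MvPolynomial.map f t₀ ∈ W.map (C : T →+* MvPolynomial τ T) := by
  induction t using MvPolynomial.induction_on' with
  | monomial u a =>
    obtain ⟨a₀, ha⟩ := hs a
    refine ⟨monomial u a₀, ?_⟩
    rw [map_monomial, ← map_sub, ← mul_one (a - f a₀), ← C_mul_monomial]
    exact Ideal.mul_mem_right _ _ (Ideal.mem_map_of_mem _ ha)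
  | add p q hp hq =>
    obtain ⟨p₀, hp⟩ := hp
    obtain ⟨q₀, hq⟩ := hq
    refine ⟨p₀ + q₀, ?_⟩
    rw [map_add, add_sub_add_comm]
    exact add_mem hp hq

end rel

section win

open MvPolynomial

variable {d : ℕ} (s : ℕ) {A₀ A : Type} [CommRing A₀] [CommRing A]

theorem pow_mem_win (x : Fin d → A) (b : ℕ) (i : Fin d ⊕ Tau d s) : sig s x i ^ b ∈ win s x b :=
  Ideal.subset_span ⟨i, rfl⟩

theorem map_C_le_win (x : Fin d → A) (b : ℕ) :
    (sp fun i => x i ^ b).map (C : A →+* TT d s A) ≤ win s x b := by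
  rw [map_sp, Ideal.span_le]
  rintro _ ⟨i, rfl⟩
  simpa [sig] using pow_mem_win s x b (Sum.inl i)

theorem mem_win_iff (x : Fin d → A) (b : ℕ) (t : TT d s A) :
    t ∈ win s x b ↔ ∀ u : Tau d s →₀ ℕ, (∀ j, u j < b) → coeff u t ∈ sp fun i => x i ^ b := by
  classical
  constructor
  · intro ht
    induction ht using Submodule.span_induction with
    | mem t ht =>
      obtain ⟨i | j, rfl⟩ := ht
      · intro u _
        simp only [sig, Sum.elim_inl, ← map_pow, coeff_C]
        split_ifs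
        · exact Ideal.subset_span ⟨i, rfl⟩
        · exact zero_mem _
      · intro u hu
        simp only [sig, Sum.elim_inr, coeff_X_pow]
        split_ifs with h
        · have := hu j
          rw [← h] at this
          simp at this
        · exact zero_mem _
    | zero => intro u _; simp
    | add p q _ _ hp hq =>
      intro u hu
      rw [coeff_add]
      exact add_mem (hp u hu) (hq u hu)
    | smul p q _ hq =>
      intro u hu
      rw [smul_eq_mul, coeff_mul]
      refine Submodule.sum_mem _ fun v hv => Ideal.mul_mem_left _ _ (hq _ fun j => ?_)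
      have h1 := hu j
      rw [← Finset.HasAntidiagonal.mem_antidiagonal.1 hv, Finsupp.add_apply] at h1
      omega
  · intro h
    rw [t.as_sum]
    refine Submodule.sum_mem _ fun u _ => ?_
    by_cases hu : ∀ j, u j < b
    · rw [← mul_one (coeff u t), ← C_mul_monomial]
      exact Ideal.mul_mem_right _ _ (map_C_le_win s x b (Ideal.mem_map_of_mem _ (h u hu)))
    · push Not at hu
      obtain ⟨j, hj⟩ := hu
      have h1 : u = Finsupp.single j b + (u - Finsupp.single j b) :=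
        (add_tsub_cancel_of_le (Finsupp.single_le_iff.2 hj)).symm
      rw [h1, monomial_single_add]
      exact Ideal.mul_mem_right _ _ (pow_mem_win s x b (Sum.inr j))

theorem map_sig (φ : A₀ →+* A) (x₀ : Fin d → A₀) (i : Fin d ⊕ Tau d s) :
    MvPolynomial.map φ (sig s x₀ i) = sig s (fun i => φ (x₀ i)) i := by
  rcases i with i | j <;> simp [sig]

theorem iso_base {φ : A₀ →+* A} {x₀ : Fin d → A₀} (hφ : WinIso φ x₀) (b : ℕ) :
    Iso φ (sp fun i => x₀ i ^ b) (sp fun i => φ (x₀ i) ^ b) := by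
  refine ⟨(hφ b).1, le_antisymm (hφ b).2 ?_⟩
  rw [← Ideal.map_le_iff_le_comap, map_sp]
  simp

theorem iso_win {φ : A₀ →+* A} {x₀ : Fin d → A₀} (hφ : WinIso φ x₀) (b : ℕ) :
    Iso (MvPolynomial.map φ) (win s x₀ b) (win s (fun i => φ (x₀ i)) b) := by
  refine ⟨fun t => (exists_poly (hφ b).1 t).imp fun t₀ ht => map_C_le_win s _ b ht, ?_⟩
  ext t
  rw [Ideal.mem_comap, mem_win_iff, mem_win_iff]
  refine forall₂_congr fun u _ => ?_
  rw [coeff_map, ← (iso_base hφ b).comap, Ideal.mem_comap]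

theorem sp_pow_le (x : Fin d → A) {a b : ℕ} (h : a ≤ b) :
    (sp fun i => x i ^ b) ≤ sp fun i => x i ^ a := by
  rw [Ideal.span_le]
  rintro _ ⟨i, rfl⟩
  obtain ⟨c, rfl⟩ := Nat.exists_eq_add_of_le h
  simp only [pow_add]
  exact Ideal.mul_mem_right _ _ (Ideal.subset_span ⟨i, rfl⟩)

theorem win_le_sp (x : Fin d → A) {b : ℕ} (hb : (Fin d ⊕ Tau d s) → b ≠ 0) :
    win s x b ≤ sp (sig s x) := by
  rw [win, Ideal.span_le]
  rintro _ ⟨i, rfl⟩
  exact Ideal.pow_mem_of_mem _ (Ideal.subset_span (Set.mem_range_self i)) b (Nat.pos_of_ne_zero (hb i))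

theorem map_win_le (x : Fin d → A) (b : ℕ) {S : Type} [CommRing S] (ψ : TT d s A →+* S)
    (hψ : ∀ π ∈ win s x b, ψ π = 0) {t : TT d s A} (ht : t ∈ win s x b) :
    MvPolynomial.map (ψ.comp C) t ∈ sp fun j => (X j : MvPolynomial (Tau d s) S) ^ b := by
  refine (?_ : (win s x b).map (MvPolynomial.map (ψ.comp C)) ≤ _) (Ideal.mem_map_of_mem _ ht)
  rw [win, map_sp, Ideal.span_le]
  rintro _ ⟨i | j, rfl⟩
  · have := hψ _ (pow_mem_win s x b (Sum.inl i))
    simp only [sig, Sum.elim_inl, ← map_pow] at this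
    simp only [sig, Sum.elim_inl, ← map_pow, map_C, RingHom.comp_apply, this, map_zero]
    exact zero_mem _
  · simp only [sig, Sum.elim_inr, map_pow, map_X]
    exact Ideal.subset_span ⟨j, rfl⟩

end win

theorem sup_congr {R ι : Type} [CommRing R] {u v : ι → R} {W : Ideal R} (h : ∀ i, u i - v i ∈ W)
    (B K : Ideal R) : sp u ⊔ B ⊔ K ⊔ W = sp v ⊔ B ⊔ K ⊔ W := by
  have h1 : sp u ⊔ W = sp v ⊔ W := by
    have h2 : Rel (RingHom.id R) W (sp v) (sp u) := rel_sp h
    rw [← comap_map_mk, ← comap_map_mk, ← h2, RingHom.comp_id]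
  rw [sup_right_comm _ K, sup_right_comm _ B, h1, sup_right_comm _ W, sup_right_comm _ W]

end TruncAux

open MvPolynomial TruncAux in
theorem exists_wd_of_winIso {d : ℕ} {A₀ A : Type} [CommRing A₀] [CommRing A] (φ : A₀ →+* A)
    (x₀ : Fin d → A₀) (hφ : WinIso φ x₀) {p : Par} {b : ℕ}
    (W : WD d p A (fun i => φ (x₀ i)) b) :
    ∃ W₀ : WD d p A₀ x₀ b, W.FinFree → W₀.FinFree := by
  have hI := iso_win p.s hφ b
  set f : TT d p.s A₀ →+* TT d p.s A := MvPolynomial.map φ with hf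
  set ψ := algebraMap (TT d p.s A) W.S with hψdef
  have hψ : ∀ π ∈ win p.s (fun i => φ (x₀ i)) b, ψ π = 0 := fun π hπ => W.PS π (W.winP hπ)
  choose g hg using hI.surj
  obtain ⟨ε₀, hε₀⟩ := exists_poly hI.surj W.ε
  obtain ⟨w₀, hw₀⟩ := (hφ b).1 W.w
  obtain ⟨w₀', hw₀'⟩ := (hφ (max b (p.a * p.N'))).1 W.w'
  have hC : ∀ a, f (C a) = C (φ a) := fun a => map_C φ a
  have hσ : ∀ i, f (sig p.s x₀ i) = sig p.s (fun i => φ (x₀ i)) i := map_sig p.s φ x₀
  have hCw : C W.w - f (C w₀) ∈ win p.s (fun i => φ (x₀ i)) b := by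
    rw [hC, ← map_sub]
    exact map_C_le_win p.s _ b (Ideal.mem_map_of_mem _ hw₀)
  have hCw' : C W.w' - f (C w₀') ∈ win p.s (fun i => φ (x₀ i)) b := by
    rw [hC, ← map_sub]
    exact map_C_le_win p.s _ b (Ideal.mem_map_of_mem _ (sp_pow_le _ (le_max_left _ _) hw₀'))
  have hb : (Fin d ⊕ Tau d p.s) → b ≠ 0 := by
    rintro i rfl
    have h1 := hψ _ (pow_mem_win p.s _ 0 i)
    rw [pow_zero, map_one] at h1
    have : Subsingleton W.S := subsingleton_of_zero_eq_one h1.symm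
    have h2 := W.b0
    rw [W.μ.zero] at h2
    exact absurd h2 (by simp)
  have hWP : win p.s x₀ b ≤ W.P.comap f := hI.comap.ge.trans (Ideal.comap_mono W.winP)
  have rσ : Rel f (win p.s (fun i => φ (x₀ i)) b) (sp (sig p.s x₀))
      (sp (sig p.s fun i => φ (x₀ i))) := rel_sp fun i => by rw [hσ, sub_self]; exact zero_mem _
  have rz : Rel f (win p.s (fun i => φ (x₀ i)) b) (sp (zz d p.s A₀)) (sp (zz d p.s A)) :=
    rel_sp fun i => by simp [zz, hf]
  have rx : Rel f (win p.s (fun i => φ (x₀ i)) b) (sp fun k => (C (x₀ k) : TT d p.s A₀))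
      (sp fun k => (C (φ (x₀ k)) : TT d p.s A)) :=
    rel_sp fun i => by rw [hC, sub_self]; exact zero_mem _
  have rH : Rel f (win p.s (fun i => φ (x₀ i)) b) (sp fun j => g (W.H j)) (sp W.H) :=
    rel_sp fun j => hg _
  have rm : Rel f (win p.s (fun i => φ (x₀ i)) b) (sp fun j => g (W.mg j)) (sp W.mg) :=
    rel_sp fun j => hg _
  have rP : Rel f (win p.s (fun i => φ (x₀ i)) b) (W.P.comap f) W.P := hI.rel_comap W.winP
  have hgσ : ∀ t ∈ sp (sig p.s fun i => φ (x₀ i)), g t ∈ sp (sig p.s x₀) := by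
    intro t ht
    refine sup_le le_rfl (win_le_sp p.s x₀ hb) (hI.mem rσ ?_)
    rw [← sub_sub_cancel t (f (g t))]
    exact sub_mem (Ideal.mem_sup_left ht) (Ideal.mem_sup_right (hg t))
  have hsP : ∀ t, ∃ t₀, t - f t₀ ∈ W.P := fun t => ⟨g t, W.winP (hg t)⟩
  let aT : Algebra (TT d p.s A₀) (TT d p.s A) := f.toAlgebra
  let aS : Algebra (TT d p.s A₀) W.S := (ψ.comp f).toAlgebra
  have tower : IsScalarTower (TT d p.s A₀) (TT d p.s A) W.S := IsScalarTower.of_algebraMap_eq' rfl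
  refine ⟨{ H := fun j => g (W.H j)
            c := g W.c
            P := W.P.comap f
            mg := fun i => g (W.mg i)
            winP := hWP
            HP := fun j => ?_
            Hσ := fun j => hgσ _ (W.Hσ j)
            cσ := hgσ _ W.cσ
            hz := fun i => hI.mem (rz.sup rH) (by rw [map_pow, hσ]; exact W.hz i)
            hx := fun i => hI.mem (rx.sup rH) (by rw [map_pow, hσ]; exact W.hx i)
            hc := hI.le ((rel_span (hg _)).mul (rP.pow _)) rH W.hc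
            hm := (hI.le (rm.pow _) (((rz.pow _).mul (rm.pow _)).sup rP)
              (W.hm.trans le_sup_left)).trans (sup_le le_rfl (hWP.trans le_sup_right))
            w := w₀
            w' := w₀'
            ε := ε₀
            S := W.S
            cS := W.cS
            aS := aS
            y := W.y
            μ := W.μ
            hε := ?_
            PS := fun π hπ => W.PS _ hπ
            flat := flatMod hsP W.S (fun π hπ x => by
              rw [Algebra.smul_def, W.PS π hπ, zero_mul]) W.flat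
            hsig := hasSig hψ rm.le_map_sup W.hsig
            hy := fun i => ?_
            hΔ := (hI.length (rx.sup rH)).trans_le W.hΔ
            b0 := ?_
            hub := ?_
            hu1 := W.hu1
            hu3 := ?_
            hu2 := ?_
            hv1 := ?_
            hv2 := ?_ }, fun hfin => finFree hsP W.S W.PS W.μ hfin⟩
  · rw [Ideal.mem_comap, ← sub_sub_cancel (W.H j) (f (g (W.H j)))]
    exact sub_mem (W.HP j) (W.winP (hg _))
  · have h1 : f (aeval (fun j => (X j : TT d p.s A₀)) ε₀) =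
        aeval (fun j => (X j : TT d p.s A)) (MvPolynomial.map f ε₀) := by
      rw [aeval_def, aeval_def, eval₂_map, eval₂_comp_left]
      congr 1
      funext j
      simp [hf]
    have h2 : aeval (fun j => (X j : TT d p.s A)) (W.ε - MvPolynomial.map f ε₀) ∈
        win p.s (fun i => φ (x₀ i)) b := by
      have h3 := Ideal.mem_map_of_mem
        (aeval (R := TT d p.s A) (fun j => (X j : TT d p.s A))).toRingHom hε₀
      rw [Ideal.map_map] at h3
      have h4 : (aeval (R := TT d p.s A) (fun j => (X j : TT d p.s A))).toRingHom.comp C =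
          RingHom.id _ := RingHom.ext fun t => by simp
      rwa [h4, Ideal.map_id] at h3
    rw [Ideal.mem_comap, map_sub, h1]
    have h5 := add_mem (sub_mem W.hε (W.winP h2)) (W.winP hCw)
    rw [map_sub] at h5
    convert h5 using 1
    ring
  · show ψ (f _) ^ p.a ∈ _
    rw [hσ]
    exact W.hy i
  · have h1 := (rm.sup rσ).map_eq ψ hψ
    exact W.b0.trans_eq (by rw [← h1]; rfl)
  · have h1 := rσ.map_eq ψ hψ
    exact le_of_eq_of_le (by rw [← h1]; rfl) W.hub
  · have h1 := apply_eq ψ hψ hCw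
    exact le_of_eq_of_le (by rw [h1]; rfl) W.hu3
  · have h1 : MvPolynomial.map ψ W.ε = MvPolynomial.map (ψ.comp f) ε₀ := by
      rw [← MvPolynomial.map_map]
      refine apply_eq _ (fun π hπ => ?_) hε₀
      have h2 := Ideal.mem_map_of_mem (MvPolynomial.map (σ := Tau d p.s) ψ) hπ
      rw [Ideal.map_map] at h2
      refine (?_ : _ ≤ (⊥ : Ideal _)) h2
      rw [Ideal.map_le_iff_le_comap]
      intro t ht
      simp [hψ t ht]
    have h2 : ∀ j, MvPolynomial.map (ψ.comp C) (W.H j) -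
        MvPolynomial.map ((ψ.comp f).comp C) (g (W.H j)) ∈
          sp fun j => (X j : MvPolynomial (Tau d p.s) W.S) ^ b := by
      intro j
      have h3 : (ψ.comp f).comp C = (ψ.comp C).comp φ := RingHom.ext fun a => congrArg ψ (hC a)
      rw [h3, ← MvPolynomial.map_map φ, ← map_sub]
      exact map_win_le p.s _ b ψ hψ (hg _)
    exact W.hu2.trans_eq (by rw [sup_congr h2, h1]; rfl)
  · refine W.hv1.trans_eq ?_
    rw [hI.length ((rH.sup (rel_span (c := C W.w' - W.c) ?_)).sup (rz.pow _))]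
    rw [map_sub, sub_sub_sub_comm]
    exact sub_mem hCw' (hg _)
  · refine le_of_eq_of_le ?_ W.hv2
    rw [(iso_base hφ _).length (rel_span (sp_pow_le _ (le_max_right _ _) hw₀'))]

theorem WIProp.of_winIso {d : ℕ} {A₀ A : Type} [CommRing A₀] [CommRing A] (φ : A₀ →+* A)
    (x₀ : Fin d → A₀) (hφ : WinIso φ x₀) {fin : Prop} (h : WIProp d A₀ x₀ fin) :
    WIProp d A (fun i => φ (x₀ i)) fin := by
  intro p q' h1 h2 h3 h4 h5 hW
  refine h p q' h1 h2 h3 h4 h5 fun b₀ => ?_
  obtain ⟨b, hb, W, hf⟩ := hW b₀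
  obtain ⟨W₀, h₀⟩ := exists_wd_of_winIso φ x₀ hφ W
  exact ⟨b, hb, W₀, fun hfin => h₀ (hf hfin)⟩

theorem WIProp.mono {d : ℕ} {A : Type} [CommRing A] {x' : Fin d → A} {fin fin' : Prop}
    (h : WIProp d A x' fin) (hf : fin → fin') : WIProp d A x' fin' := by
  intro p q' h1 h2 h3 h4 h5 hW
  refine h p q' h1 h2 h3 h4 h5 fun b₀ => ?_
  obtain ⟨b, hb, W, hf'⟩ := hW b₀
  exact ⟨b, hb, W, fun hfin => hf' (hf hfin)⟩

end Crest.Agent.R183
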