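import Crest.Agent.R183.WDefs
import Crest.Agent.R183.SL

/-!
# Covers in equal characteristic `ℓ`
-/

set_option autoImplicit false

open MvPolynomial
open scoped TensorProduct

namespace Crest.Agent.R183

namespace CoverEq

/-! ### the Frobenius makes a polynomial ring over a perfect field free over itself -/

/-- `T` is free of finite positive rank over its `Q`-th powers -/
def FF (T : Type) [CommRing T] (Q : ℕ) : Prop :=
  ∃ (ρ : ℕ) (v : Fin ρ → T), 0 < ρ ∧ Function.Bijective fun f : Fin ρ → T => ∑ i, f i ^ Q * v i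

theorem FF.congr {T T' : Type} [CommRing T] [CommRing T'] {Q : ℕ} (h : FF T Q) (e : T ≃+* T') :
    FF T' Q := by
  obtain ⟨ρ, v, hρ, hv⟩ := h
  refine ⟨ρ, fun i => e (v i), hρ, ?_⟩
  have : (fun f : Fin ρ → T' => ∑ i, f i ^ Q * e (v i)) =
      e ∘ (fun f : Fin ρ → T => ∑ i, f i ^ Q * v i) ∘ fun f i => e.symm (f i) := by
    funext f
    simp [map_sum]
  rw [this]
  exact e.bijective.comp (hv.comp (Equiv.piCongrRight fun _ => e.symm.toEquiv).bijective)

theorem FF.of_fintype {T : Type} [CommRing T] {Q : ℕ} {I : Type} [Fintype I] [Nonempty I] (v : I → T)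
    (hv : Function.Bijective fun f : I → T => ∑ i, f i ^ Q * v i) : FF T Q := by
  let e := (Fintype.equivFin I).symm
  refine ⟨Fintype.card I, fun i => v (e i), Fintype.card_pos, ?_⟩
  have : (fun f : Fin (Fintype.card I) → T => ∑ i, f i ^ Q * v (e i)) =
      (fun f : I → T => ∑ i, f i ^ Q * v i) ∘ fun f i => f (e.symm i) := by
    funext f
    simp only [Function.comp]
    rw [← Equiv.sum_comp e]
    simp
  rw [this]
  exact hv.comp (Equiv.arrowCongr e (Equiv.refl T)).bijective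

theorem ff_mv (ι κ : Type) [Fintype ι] [Field κ] (ℓ : ℕ) [Fact ℓ.Prime] [CharP κ ℓ]
    [PerfectRing κ ℓ] (e : ℕ) : FF (MvPolynomial ι κ) (ℓ ^ e) := by
  classical
  have hQ : 0 < ℓ ^ e := pow_pos (Fact.out : ℓ.Prime).pos e
  have : Nonempty (Fin (ℓ ^ e)) := ⟨⟨0, hQ⟩⟩
  let b : (ι → Fin (ℓ ^ e)) → ι →₀ ℕ := fun β => Finsupp.equivFunOnFinite.symm fun i => (β i : ℕ)
  have hb : ∀ β i, b β i = (β i : ℕ) := fun β i => rfl
  let L : ((ι → Fin (ℓ ^ e)) → MvPolynomial ι κ) →+ MvPolynomial ι κ :=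
    { toFun := fun f => ∑ β, f β ^ ℓ ^ e * monomial (b β) 1
      map_zero' := by simp [zero_pow hQ.ne']
      map_add' := fun f g => by
        simp only [Pi.add_apply, add_pow_expChar_pow, add_mul, Finset.sum_add_distrib] }
  refine FF.of_fintype (fun β => monomial (b β) 1) (show Function.Bijective L from ⟨?_, ?_⟩)
  · rw [injective_iff_map_eq_zero]
    intro f hf
    funext β
    ext γ
    have h1 := congrArg (coeff (ℓ ^ e • γ + b β)) hf
    change coeff _ (∑ β, f β ^ ℓ ^ e * monomial (b β) 1) = 0 at h1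
    rw [coeff_sum, Finset.sum_eq_single β _ (by simp), coeff_mul_monomial, mul_one,
      ← map_iterateFrobenius_expand ℓ, coeff_map, coeff_expand_smul _ hQ.ne'] at h1
    · simpa using h1
    · intro β' _ hne
      rw [coeff_mul_monomial']
      split_ifs with hle
      · obtain ⟨i, hi⟩ := Function.ne_iff.1 hne
        rw [← map_iterateFrobenius_expand ℓ, coeff_map, coeff_expand_of_not_dvd _ (i := i), map_zero,
          zero_mul]
        intro hd
        apply hi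
        have h2 := hle i
        simp only [Finsupp.tsub_apply, Finsupp.add_apply, Finsupp.smul_apply, smul_eq_mul, hb] at hd h2
        have h3 := (Nat.modEq_iff_dvd' h2).2 hd
        rw [Nat.ModEq, Nat.mul_add_mod, Nat.mod_eq_of_lt (β i).2, Nat.mod_eq_of_lt (β' i).2] at h3
        exact Fin.ext h3
      · rfl
  · rw [← AddMonoidHom.range_eq_top, eq_top_iff]
    intro f _
    induction f using MvPolynomial.induction_on' with
    | monomial α c =>
      obtain ⟨c', rfl⟩ := (bijective_iterateFrobenius κ ℓ e).2 c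
      let β : ι → Fin (ℓ ^ e) := fun i => ⟨α i % ℓ ^ e, Nat.mod_lt _ hQ⟩
      refine ⟨Pi.single β (monomial (α.mapRange (· / ℓ ^ e) (by simp)) c'), ?_⟩
      change ∑ β', _ ^ ℓ ^ e * monomial (b β') 1 = _
      rw [Finset.sum_eq_single β (fun β' _ h => by simp [h, zero_pow hQ.ne']) (by simp), Pi.single_eq_same,
        monomial_pow, monomial_mul, mul_one, iterateFrobenius_def]
      congr 2
      ext i
      simp [hb, β, Nat.div_add_mod]
    | add p q hp hq => exact add_mem (hp trivial) (hq trivial)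

/-- type synonym carrying the Frobenius algebra structure -/
def Fr (T : Type) : Type := T

instance (T : Type) [CommRing T] : CommRing (Fr T) := inferInstanceAs (CommRing T)

theorem exists_root {T : Type} [CommRing T] (ℓ e : ℕ) [ExpChar T ℓ] (h : FF T (ℓ ^ e))
    (I : Ideal T) : ∃ (E : Type) (_ : CommRing E) (_ : Algebra T E) (ρ : ℕ) (ψ : T →+* E), 0 < ρ ∧
      Nonempty (E ≃ₗ[T] (Fin ρ → T ⧸ I)) ∧ ∀ f, ψ f ^ ℓ ^ e = algebraMap T E f := by
  obtain ⟨ρ, v, hρ, hv⟩ := h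
  let _ : Algebra T (Fr T) := RingHom.toAlgebra (S := Fr T) (iterateFrobenius T ℓ e)
  let L : (Fin ρ → T) →ₗ[T] Fr T :=
    { toFun := fun f => (∑ i, f i ^ ℓ ^ e * v i : T)
      map_add' := fun f g => by
        change (∑ i, (f i + g i) ^ ℓ ^ e * v i : T) = ∑ i, f i ^ ℓ ^ e * v i + ∑ i, g i ^ ℓ ^ e * v i
        simp only [add_pow_expChar_pow, add_mul, Finset.sum_add_distrib]
      map_smul' := fun c f => by
        change (∑ i, (c * f i) ^ ℓ ^ e * v i : T) = c ^ ℓ ^ e * ∑ i, f i ^ ℓ ^ e * v i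
        simp only [mul_pow, Finset.mul_sum, mul_assoc] }
  let ψ : Fr T →ₐ[T] (T ⧸ I) ⊗[T] Fr T := Algebra.TensorProduct.includeRight
  refine ⟨(T ⧸ I) ⊗[T] Fr T, inferInstance, inferInstance, ρ, ψ.toRingHom, hρ,
    ⟨((LinearEquiv.ofBijective L hv).symm.lTensor (T ⧸ I)).trans
      (TensorProduct.piScalarRight T T (T ⧸ I) (Fin ρ))⟩, fun f => ?_⟩
  rw [← ψ.commutes f]
  exact (map_pow ψ (f : Fr T) _).symm

/-! ### the weighted filtration -/

section filt

variable {T : Type} [CommRing T] {ι τ : Type} [Fintype ι] (σ : ι → T) (wt : ι → ℕ) (H : τ → T)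

/-- the weighted filtration modulo `H` -/
def fil (j : ℕ) : Ideal T := monI σ {β | j ≤ ∑ i, wt i * β i} ⊔ sp H

variable {σ wt H}

theorem fil_anti {j k : ℕ} (h : j ≤ k) : fil σ wt H k ≤ fil σ wt H j :=
  sup_le_sup_right (monI_mono σ fun _ hβ => h.trans hβ) _

theorem fil_zero : fil σ wt H 0 = ⊤ := by
  rw [Ideal.eq_top_iff_one, ← SL_mon_zero σ]
  exact Ideal.mem_sup_left (SL_mon_mem_monI σ (Nat.zero_le _))

theorem fil_mul (j k : ℕ) : fil σ wt H j * fil σ wt H k ≤ fil σ wt H (j + k) := by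
  rw [fil, fil, Ideal.sup_mul, Ideal.mul_sup]
  refine sup_le (sup_le ?_ (Ideal.mul_le_right.trans le_sup_right))
    (Ideal.mul_le_left.trans le_sup_right)
  refine le_trans ?_ le_sup_left
  rw [monI, monI, Ideal.span_mul_span', Ideal.span_le]
  rintro _ ⟨_, ⟨α, hα, rfl⟩, _, ⟨β, hβ, rfl⟩, rfl⟩
  beta_reduce
  rw [← mon_add]
  refine SL_mon_mem_monI σ ?_
  simp only [Set.mem_ofPred_eq, Pi.add_apply, mul_add, Finset.sum_add_distrib] at hα hβ ⊢
  omega

theorem fil_mul_mem {j k : ℕ} {x y : T} (hx : x ∈ fil σ wt H j) (hy : y ∈ fil σ wt H k) :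
    x * y ∈ fil σ wt H (j + k) := fil_mul j k (Ideal.mul_mem_mul hx hy)

theorem fil_pow {j : ℕ} {I : Ideal T} (h : I ≤ fil σ wt H j) (n : ℕ) : I ^ n ≤ fil σ wt H (j * n) := by
  induction n with
  | zero => simp [fil_zero]
  | succ n ih =>
    rw [pow_succ, Nat.mul_succ]
    exact (Ideal.mul_mono ih h).trans (fil_mul _ _)

theorem fil_pow_mem {j : ℕ} {x : T} (h : x ∈ fil σ wt H j) (n : ℕ) : x ^ n ∈ fil σ wt H (j * n) :=
  fil_pow le_rfl n (Ideal.pow_mem_pow h n)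

theorem pow_mem_fil (i : ι) (n : ℕ) : σ i ^ n ∈ fil σ wt H (wt i * n) := by
  classical
  rw [← SL_mon_single]
  refine Ideal.mem_sup_left (SL_mon_mem_monI σ ?_)
  have := Finset.single_le_sum (f := fun j => wt j * (Pi.single i n : ι → ℕ) j)
    (fun _ _ => Nat.zero_le _) (Finset.mem_univ i)
  simpa using this

theorem c_pow {c π : T} {b mm k i l : ℕ} (h : c * π ^ mm ∈ fil σ wt H b) (hk : l ≤ k)
    (hi : mm * l ≤ i) : c ^ k * π ^ i ∈ fil σ wt H (b * l) := by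
  obtain ⟨k, rfl⟩ := Nat.exists_eq_add_of_le hk
  obtain ⟨i, rfl⟩ := Nat.exists_eq_add_of_le hi
  have : c ^ (l + k) * π ^ (mm * l + i) = (c * π ^ mm) ^ l * (c ^ k * π ^ i) := by ring
  rw [this]
  exact Ideal.mul_mem_right _ _ (fil_pow_mem h l)

theorem c_add_pow {c π ζ : T} {b mm k A J D : ℕ} (hmm : 0 < mm) (h : c * π ^ mm ∈ fil σ wt H b)
    (hζ : ζ ∈ fil σ wt H A) (h1 : D ≤ b * k) (h2 : A * mm ≤ b) (h3 : D + A * mm ≤ A * J) :
    c ^ k * (π + ζ) ^ J ∈ fil σ wt H D := by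
  rw [add_pow, Finset.mul_sum]
  refine Ideal.sum_mem _ fun i hi => ?_
  have hiJ : i ≤ J := Nat.lt_succ_iff.1 (Finset.mem_range.1 hi)
  rw [← mul_assoc, ← mul_assoc]
  refine Ideal.mul_mem_right _ _ ?_
  rcases le_total k (i / mm) with hk | hk
  · exact Ideal.mul_mem_right _ _ (fil_anti h1 (c_pow h le_rfl
      ((Nat.mul_le_mul_left mm hk).trans (Nat.mul_div_le i mm))))
  · refine fil_anti ?_ (fil_mul_mem (c_pow h hk (Nat.mul_div_le i mm)) (fil_pow_mem hζ (J - i)))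
    obtain ⟨r, rfl⟩ := Nat.exists_eq_add_of_le hiJ
    rw [Nat.add_sub_cancel_left]
    have a1 : i < mm * (i / mm + 1) := Nat.lt_mul_div_succ i hmm
    have a2 := Nat.mul_le_mul_left A a1.le
    have a3 := Nat.mul_le_mul_right (i / mm) h2
    nlinarith

theorem map_fil {E : Type} [CommRing E] (ψ : T →+* E) (Z : Ideal E) {D t : ℕ} (hD : 0 < D)
    (h : ∀ i n, ψ (σ i) ^ n ∈ (Z ⊔ sp fun j => ψ (H j)) ^ (wt i * n / D)) {x : T}
    (hx : x ∈ fil σ wt H (D * (t + Fintype.card ι))) : ψ x ∈ Z ^ t ⊔ sp fun j => ψ (H j) := by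
  have h1 : (Z ⊔ sp fun j => ψ (H j)) ^ t ≤ Z ^ t ⊔ sp fun j => ψ (H j) := by
    clear hx
    induction t with
    | zero => simp
    | succ t ih =>
      rw [pow_succ, pow_succ]
      refine (Ideal.mul_mono_left ih).trans ?_
      rw [Ideal.sup_mul, Ideal.mul_sup]
      exact sup_le (sup_le le_sup_left (Ideal.mul_le_right.trans le_sup_right))
        (Ideal.mul_le_left.trans le_sup_right)
  refine Ideal.mem_comap.1 ((show fil σ wt H _ ≤ Ideal.comap ψ _ from ?_) hx)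
  rw [← Ideal.map_le_iff_le_comap, fil, Ideal.map_sup, sp_map, monI_map]
  refine sup_le (Ideal.span_le.2 ?_) le_sup_right
  rintro _ ⟨β, hβ, rfl⟩
  refine h1 (Ideal.pow_le_pow_right (n := ∑ i, wt i * β i / D) ?_ ?_)
  · have h2 : ∑ i, wt i * β i ≤ ∑ i, D * (wt i * β i / D + 1) :=
      Finset.sum_le_sum fun i _ => (Nat.lt_mul_div_succ _ hD).le
    rw [← Finset.mul_sum, Finset.sum_add_distrib, Finset.sum_const, Finset.card_univ, smul_eq_mul,
      mul_one] at h2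
    have := Nat.le_of_mul_le_mul_left (le_trans hβ h2) hD
    omega
  · rw [← Finset.prod_pow_eq_pow_sum]
    exact Ideal.prod_mem_prod fun i _ => h i (β i)

end filt

theorem red_pow {T : Type} [CommRing T] {m Z P : Ideal T} {r : ℕ}
    (h : m ^ (r + 1) ≤ Z * m ^ r ⊔ P) (j : ℕ) : m ^ (r + j) ≤ Z ^ j * m ^ r ⊔ P := by
  induction j with
  | zero => simp
  | succ j ih =>
    rw [← add_assoc, pow_succ]
    refine (Ideal.mul_mono_left ih).trans ?_
    rw [Ideal.sup_mul, mul_assoc, ← pow_succ]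
    refine sup_le ((Ideal.mul_mono_right h).trans ?_) (Ideal.mul_le_left.trans le_sup_right)
    rw [Ideal.mul_sup, ← mul_assoc, ← pow_succ]
    exact sup_le_sup_left Ideal.mul_le_right _

end CoverEq

open CoverEq

theorem CoverEq.of_root {d : ℕ} {p : Par} {n N₀ q' : ℕ} (hq : q' + 2 * d + p.s + 1 ≤ p.q) (ha : 0 < p.a)
    {A : Type} [CommRing A] {x' : Fin d → A} {b : ℕ} (W : TD d p A x' b)
    (hb1 : 2 * (n + p.mm + 1) * p.a * (N₀ + 2 * d + p.s + p.q) ≤ b)
    (hb2 : p.a * p.q * (p.q * p.r₀ + 1) * (p.mm + 1) ≤ b) {Q : ℕ} (hQ1 : n + p.mm + 1 ≤ Q)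
    (hQ2 : (p.r₀ + (p.q * p.r₀ + 1)) *
      (p.q * (p.q * p.r₀ + 1) * (p.mm + 1) + p.q * (p.r₀ + (p.q * p.r₀ + 1))) ≤ Q)
    {E : Type} [CommRing E] [Algebra (TT d p.s A) E] {ρ : ℕ} (ψ : TT d p.s A →+* E) (hρ : 0 < ρ)
    (free : Nonempty (E ≃ₗ[TT d p.s A] (Fin ρ → TT d p.s A ⧸ win p.s x' b)))
    (hψ : ∀ f, ψ f ^ Q = algebraMap (TT d p.s A) E f) : Nonempty (Cover W n N₀ q') := by
  have hQ : 0 < Q := by omega
  let wt : Fin d ⊕ Tau d p.s → ℕ := Sum.elim (fun _ => 1) (Sum.elim (fun _ => p.a) fun _ => 1)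
  have hwt : ∀ i, 1 ≤ wt i := by
    rintro (i | i | i)
    exacts [le_rfl, ha, le_rfl]
  have hwin : win p.s x' b ≤ fil (sig p.s x') wt W.H b := by
    refine Ideal.span_le.2 ?_
    rintro _ ⟨i, rfl⟩
    exact fil_anti (Nat.le_mul_of_pos_left b (hwt i)) (pow_mem_fil i b)
  have hz : sp (zz d p.s A) ≤ fil (sig p.s x') wt W.H p.a := by
    refine Ideal.span_le.2 ?_
    rintro _ ⟨k, rfl⟩
    have := pow_mem_fil (σ := sig p.s x') (wt := wt) (H := W.H) (Sum.inr (Sum.inl k)) 1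
    rwa [pow_one, mul_one] at this
  have hc : ∀ π ∈ W.P, W.c * π ^ (p.mm + 1) ∈ fil (sig p.s x') wt W.H b := fun π hπ => by
    rw [pow_succ, ← mul_assoc]
    refine Ideal.mul_mem_right _ _ (sup_le le_sup_right hwin (W.hc ?_))
    exact Ideal.mul_mem_mul (Ideal.mem_span_singleton_self _) (Ideal.pow_mem_pow hπ _)
  have hkill : ∀ f ∈ win p.s x' b, algebraMap (TT d p.s A) E f = 0 := fun f hf => by
    obtain ⟨e⟩ := free
    rw [Algebra.algebraMap_eq_smul_one, ← e.map_eq_zero_iff, map_smul]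
    funext i
    obtain ⟨y, hy⟩ := Ideal.Quotient.mk_surjective (e 1 i)
    rw [Pi.smul_apply, ← hy, Pi.zero_apply]
    exact Ideal.Quotient.eq_zero_iff_mem.2 (Ideal.mul_mem_right _ _ hf)
  set Z : Ideal E := sp (fun k => algebraMap (TT d p.s A) E (zz d p.s A k)) with hZ
  have hpow : ∀ (x : E) (I : Ideal E) (D m : ℕ), x ^ D ∈ I → x ^ m ∈ I ^ (m / D) := fun x I D m h => by
    rw [← Nat.div_add_mod m D, pow_add, pow_mul]
    refine Ideal.mul_mem_right _ _ ?_
    rcases Nat.eq_zero_or_pos D with rfl | hD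
    · simp
    · rw [Nat.div_add_mod]
      exact Ideal.pow_mem_pow h _
  have hσ : ∀ i, ψ (sig p.s x' i) ^ (p.a * Q) ∈ Z ⊔ sp fun j => ψ (W.H j) := fun i => by
    rw [pow_mul, ← map_pow, hψ]
    refine Ideal.mem_comap.1 ((show _ ≤ Ideal.comap (algebraMap (TT d p.s A) E) _ from
      sup_le (sup_le ?_ ?_) ?_) (W.hz i))
    · rw [← Ideal.map_le_iff_le_comap, sp_map]
      exact le_sup_left
    · refine Ideal.span_le.2 ?_
      rintro _ ⟨j, rfl⟩
      refine Ideal.mem_comap.2 (Ideal.mem_sup_right ?_)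
      rw [← hψ]
      exact Ideal.pow_mem_of_mem _ (Ideal.subset_span (Set.mem_range_self j)) _ hQ
    · intro f hf
      rw [Ideal.mem_comap, hkill f hf]
      exact zero_mem _
  have key : ∀ (t : ℕ) (x : TT d p.s A),
      x ∈ fil (sig p.s x') wt W.H (p.a * Q * (t + 2 * d + p.s)) → ψ x ∈ Z ^ t ⊔ sp fun j => ψ (W.H j) := by
    intro t x hx
    refine map_fil (σ := sig p.s x') (wt := wt) ψ Z (Nat.mul_pos ha hQ) ?_ ?_
    · rintro (i | i | i) m
      · exact (one_mul m).symm ▸ hpow _ _ _ m (hσ _)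
      · change _ ∈ _ ^ (p.a * m / (p.a * Q))
        rw [Nat.mul_div_mul_left _ _ ha]
        refine hpow _ _ _ m ?_
        rw [hψ]
        exact Ideal.mem_sup_left (Ideal.subset_span ⟨i, rfl⟩)
      · exact (one_mul m).symm ▸ hpow _ _ _ m (hσ _)
    · have : t + Fintype.card (Fin d ⊕ Tau d p.s) = t + 2 * d + p.s := by
        simp only [Fintype.card_sum, Fintype.card_fin]
        ring
      rwa [this]
  obtain ⟨k, hk1, hk2⟩ : ∃ k, (n + p.mm + 1) * k ≤ Q ∧ Q ≤ 2 * (n + p.mm + 1) * k := by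
    refine ⟨Q / (n + p.mm + 1), Nat.mul_div_le _ _, ?_⟩
    have a1 := Nat.lt_mul_div_succ Q (show 0 < n + p.mm + 1 by omega)
    have a2 : 1 ≤ Q / (n + p.mm + 1) := (Nat.one_le_div_iff (by omega)).2 hQ1
    nlinarith
  have hbk : p.a * Q * (N₀ + 2 * d + p.s + p.q) ≤ b * k := by
    calc p.a * Q * (N₀ + 2 * d + p.s + p.q)
        ≤ p.a * (2 * (n + p.mm + 1) * k) * (N₀ + 2 * d + p.s + p.q) := by gcongr
      _ = 2 * (n + p.mm + 1) * p.a * (N₀ + 2 * d + p.s + p.q) * k := by ring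
      _ ≤ b * k := by gcongr
  refine ⟨{ E := E, ρ := ρ, Q := Q, hρ := hρ, hQ := hQ, free := free, w := fun j => ψ (W.H j)
            γ := ψ W.c ^ k, hw := fun j => hψ _, hγ := ?_, hP := fun π hπ => ?_, hmg := fun i => ?_ }⟩
  · rw [← hψ, ← pow_mul]
    exact pow_dvd_pow _ (by nlinarith)
  · rw [← hψ, ← map_pow, ← map_pow, ← map_mul]
    refine key _ _ (fil_anti ?_ (c_pow (hc π hπ) le_rfl (by nlinarith)))
    exact le_trans (Nat.mul_le_mul_left _ (by omega)) hbk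
  · rw [← hψ, ← map_pow, ← map_pow, ← map_mul]
    refine key _ _ ?_
    set j₀ := p.q * p.r₀ + 1 with hj₀
    have h1 := red_pow W.hm j₀ (Ideal.pow_mem_pow (Ideal.subset_span (Set.mem_range_self i)) _)
    obtain ⟨ζ, hζ, π, hπ, h2⟩ := Submodule.mem_sup.1 h1
    have hζ' : ζ ∈ fil (sig p.s x') wt W.H (p.a * p.q * j₀) :=
      fil_pow (fil_pow hz p.q) j₀ (Ideal.mul_le_left hζ)
    have hn0 : 0 < p.r₀ + j₀ := by omega
    rw [← Nat.div_add_mod Q (p.r₀ + j₀), pow_add, pow_mul, ← h2, ← mul_assoc, Nat.div_add_mod,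
      add_comm ζ π]
    refine Ideal.mul_mem_right _ _ (c_add_pow (Nat.succ_pos _) (hc π hπ) hζ'
      (le_trans (Nat.mul_le_mul_left _ (by omega)) hbk) hb2 ?_)
    set J := Q / (p.r₀ + j₀) with hJ
    have a1 : Q < (p.r₀ + j₀) * (J + 1) := Nat.lt_mul_div_succ Q hn0
    have a2 : p.q * j₀ * (p.mm + 1) + p.q * (p.r₀ + j₀) ≤ J :=
      (Nat.le_div_iff_mul_le hn0).2 (by rwa [mul_comm])
    obtain ⟨q, hq'⟩ : ∃ q, p.q = q + 1 := ⟨p.q - 1, by omega⟩
    have a3 : Q * (q' + 2 * d + p.s) ≤ (p.r₀ + j₀) * (J + 1) * q :=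
      Nat.mul_le_mul a1.le (by omega)
    have a4 : Q * (q' + 2 * d + p.s) + p.q * j₀ * (p.mm + 1) ≤ p.q * j₀ * J := by
      rw [hq'] at a2 hj₀ ⊢
      have a5 : q * p.r₀ * J + J ≤ j₀ * J := by rw [hj₀]; nlinarith
      nlinarith
    calc p.a * Q * (q' + 2 * d + p.s) + p.a * p.q * j₀ * (p.mm + 1)
        = p.a * (Q * (q' + 2 * d + p.s) + p.q * j₀ * (p.mm + 1)) := by ring
      _ ≤ p.a * (p.q * j₀ * J) := Nat.mul_le_mul_left _ a4
      _ = p.a * p.q * j₀ * J := by ring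

/-- The depth `b₀` does not depend on the field. -/
theorem cover_eq (d : ℕ) (p : Par) (n N₀ q' : ℕ) (hq : q' + 2 * d + p.s + 1 ≤ p.q) (ha : 0 < p.a) :
    ∃ b₀ : ℕ, ∀ b ≥ b₀, ∀ (κ : Type) [Field κ] (ℓ : ℕ) [Fact ℓ.Prime] [CharP κ ℓ]
      [PerfectRing κ ℓ] (W : TD d p (MvPolynomial (Fin d) κ) X b),
      Nonempty (Cover W n N₀ q') := by
  refine ⟨max (2 * (n + p.mm + 1) * p.a * (N₀ + 2 * d + p.s + p.q))
    (p.a * p.q * (p.q * p.r₀ + 1) * (p.mm + 1)), fun b hb κ _ ℓ _ _ _ W => ?_⟩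
  let e := max (n + p.mm + 1) ((p.r₀ + (p.q * p.r₀ + 1)) *
      (p.q * (p.q * p.r₀ + 1) * (p.mm + 1) + p.q * (p.r₀ + (p.q * p.r₀ + 1))))
  have he : e ≤ ℓ ^ e := (Nat.lt_pow_self (Fact.out : ℓ.Prime).one_lt).le
  obtain ⟨E, _, _, ρ, ψ, hρ, free, hψ⟩ := exists_root ℓ e
    ((ff_mv (Tau d p.s ⊕ Fin d) κ ℓ e).congr (sumRingEquiv κ (Tau d p.s) (Fin d))) (win p.s X b)
  exact CoverEq.of_root hq ha W ((le_max_left _ _).trans hb) ((le_max_right _ _).trans hb)
    ((le_max_left _ _).trans he) ((le_max_right _ _).trans he) ψ hρ free hψ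

end Crest.Agent.R183
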