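import Crest.Agent.R183.MixDefs
import Crest.Agent.R183.SL
import Crest.Agent.R183.SLTransfer

/-!
# Covers in mixed characteristic: abstract lemmas
-/

set_option autoImplicit false

open scoped ENNReal NNRat
open MvPolynomial

namespace Crest.Agent.R183

namespace CoverMixAux

theorem smul_top_self {B : Type} [CommRing B] (J : Ideal B) : (J • ⊤ : Submodule B B) = J := by
  ext x
  exact SLT.mem_smul_top J x

theorem val_quot_smul_top {B : Type} [CommRing B] (μ : LF B) (J : Ideal B) :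
    μ.val (B ⧸ (J • ⊤ : Submodule B B)) = μ.val (B ⧸ J) :=
  μ.congr (Submodule.quotEquivOfEq _ _ (smul_top_self J))

/-- the length of a window of a quasi-regular sequence generating a maximal ideal -/
theorem length_win {T : Type} [CommRing T] {ι : Type} [Fintype ι] {σ : ι → T} (hσ : QR σ T)
    (hmax : (sp σ).IsMaximal) (b : ℕ) :
    Module.length T (T ⧸ sp fun i => σ i ^ b) = (b ^ Fintype.card ι : ℕ) := by
  have h := SL.val_monI hσ (LF.length T) (LF.null_one _) (isUpperSet_boxGE fun _ => b)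
    (Set.empty_subset _) (finite_compl_boxGE _)
  rw [val_quot_smul_top, val_quot_smul_top, monI_boxGE, ncard_compl_boxGE, LF.length_val,
    LF.length_val, LFlength_quot_max (sp σ)] at h
  simp only [Finset.prod_const, Finset.card_univ, ENat.toENNReal_one, mul_one] at h
  exact ENat.toENNReal_inj.1 (by rw [h, ENat.toENNReal_coe])

/-- the special fibre of `F / (u₀, σ^b)` -/
theorem equiv_fibre {T F : Type} [CommRing T] [CommRing F] [Algebra T F] (𝔫 : Ideal T)
    (I₀ I : Ideal F) (h0 : I₀ ≤ I) (h1 : I ≤ I₀ ⊔ 𝔫.map (algebraMap T F)) :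
    Nonempty (((F ⧸ I) ⧸ (𝔫 • ⊤ : Submodule T (F ⧸ I))) ≃ₗ[T]
      (F ⧸ (I₀ ⊔ 𝔫.map (algebraMap T F)))) := by
  let f : (F ⧸ I) →ₗ[T] (F ⧸ (I₀ ⊔ 𝔫.map (algebraMap T F))) :=
    (Ideal.Quotient.factorₐ T h1).toLinearMap
  have hf : Function.Surjective f := Ideal.Quotient.factor_surjective h1
  have hk : (𝔫 • ⊤ : Submodule T (F ⧸ I)) = LinearMap.ker f := by
    ext x
    obtain ⟨y, rfl⟩ := Ideal.Quotient.mk_surjective x
    have e1 : algebraMap T (F ⧸ I) = (Ideal.Quotient.mk I).comp (algebraMap T F) := rfl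
    rw [Ideal.smul_top_eq_map, Submodule.restrictScalars_mem, LinearMap.mem_ker, e1,
      ← Ideal.map_map, Ideal.mem_quotient_iff_mem_sup]
    change _ ↔ Ideal.Quotient.mk _ y = 0
    rw [Ideal.Quotient.eq_zero_iff_mem]
    exact ⟨fun h => (sup_le le_sup_right h1 :) h,
      fun h => (sup_le (h0.trans le_sup_right) le_sup_left :) h⟩
  exact ⟨(Submodule.quotEquivOfEq _ _ hk).trans (f.quotKerEquivOfSurjective hf)⟩

/-- freeness by counting lengths -/
theorem exists_free {T F : Type} [CommRing T] [CommRing F] [Algebra T F] {ι κ τ : Type}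
    [Fintype ι] [Fintype κ] [Fintype τ] {σ : ι → T} (hσ : QR σ T) (hmax : (sp σ).IsMaximal)
    {b : ℕ} (hb : 0 < b) (u₀ : κ → F) (v : τ → F) (hv : QR v F)
    (hcard : Fintype.card (κ ⊕ ι) = Fintype.card τ)
    (hrad : ∀ r, v r ∈ (sp u₀ ⊔ (sp σ).map (algebraMap T F)).radical)
    (hne : sp u₀ ⊔ (sp σ).map (algebraMap T F) ≠ ⊤)
    (hfin : Module.Finite T (F ⧸ (sp u₀ ⊔ (sp σ).map (algebraMap T F)))) :
    ∃ ρ : ℕ, 0 < ρ ∧ Nonempty ((F ⧸ (sp u₀ ⊔ (sp fun i => σ i ^ b).map (algebraMap T F))) ≃ₗ[T]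
      (Fin ρ → T ⧸ sp fun i => σ i ^ b)) := by
  classical
  set u : κ ⊕ ι → F := Sum.elim u₀ fun i => algebraMap T F (σ i) with hu
  set bb : κ ⊕ ι → ℕ := Sum.elim (fun _ => 1) fun _ => b with hbb
  have e1 : sp u = sp u₀ ⊔ (sp σ).map (algebraMap T F) := by
    rw [hu, SLT.sp_sum, sp_map]
  have e2 : monI u (boxGE bb) = sp u₀ ⊔ (sp fun i => σ i ^ b).map (algebraMap T F) := by
    rw [monI_boxGE, sp_map, ← SLT.sp_sum]
    congr 1
    funext i
    cases i <;> simp [hu, hbb]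
  have hle : (sp fun i => σ i ^ b) ≤ sp σ :=
    (sp_pow_le_pow σ b).trans (Ideal.pow_le_self hb.ne')
  have hpow := sp_pow_le_sp_pow σ b
  obtain ⟨c, hc⟩ : ∃ c : ℕ, sp v ^ c ≤ monI u (boxGE bb) := by
    refine Ideal.exists_pow_le_of_le_radical_of_fg ?_ (Submodule.fg_span (Set.finite_range v))
    refine Ideal.span_le.2 ?_
    rintro _ ⟨r, rfl⟩
    refine (Ideal.radical_le_radical_iff.2 ?_) (hrad r)
    rw [e2]
    refine sup_le (le_sup_left.trans Ideal.le_radical) ?_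
    rw [sp_map]
    refine Ideal.span_le.2 ?_
    rintro _ ⟨i, rfl⟩
    exact ⟨b, Ideal.mem_sup_right (by
      rw [← map_pow]
      exact Ideal.mem_map_of_mem _ (Ideal.subset_span ⟨i, rfl⟩))⟩
  have hwr := SL.wr hv (fun _ => c) (fun _ => Set.empty_subset _)
  rw [one_pow] at hwr
  obtain ⟨c', hc'⟩ := sl_of_wr (κ ⊕ ι) τ hcard
  have hsl := hc' u _ 1 (boxGE bb) hwr fun r => by
    rw [one_mul]
    exact hc (Ideal.pow_mem_pow (Ideal.subset_span (Set.mem_range_self r)) c)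
  rw [one_pow] at hsl
  have h := SL.val_monI hsl ((LF.length T).comap (algebraMap T F)) (LF.null_one _)
    (isUpperSet_boxGE bb) subset_rfl (finite_compl_boxGE _)
  rw [val_quot_smul_top, val_quot_smul_top, e1, e2, ncard_compl_boxGE, LF.comap_algebraMap_val,
    LF.comap_algebraMap_val, LF.length_val, LF.length_val] at h
  have e3 : ∏ i, bb i = b ^ Fintype.card ι := by
    simp [hbb, Fintype.prod_sum_type]
  rw [e3] at h
  have hkill : ∀ (J : Ideal T) (a : T), a ∈ J →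
      ∀ x : F ⧸ (sp u₀ ⊔ J.map (algebraMap T F)), a • x = 0 := by
    intro J a ha x
    obtain ⟨y, rfl⟩ := Ideal.Quotient.mk_surjective x
    rw [Algebra.smul_def]
    change Ideal.Quotient.mk _ (algebraMap T F a * y) = 0
    rw [Ideal.Quotient.eq_zero_iff_mem]
    exact Ideal.mul_mem_right _ _ (Ideal.mem_sup_right (Ideal.mem_map_of_mem _ ha))
  have hlen : Module.length T (F ⧸ (sp u₀ ⊔ (sp σ).map (algebraMap T F))) ≠ ⊤ :=
    length_ne_top_of_pow (sp σ) (Submodule.fg_span (Set.finite_range σ)) _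
      ⟨1, fun a ha => hkill _ a (by rwa [pow_one] at ha)⟩
  obtain ⟨ρ, hρ⟩ := ENat.ne_top_iff_exists.1 hlen
  have _ : Nontrivial (F ⧸ (sp u₀ ⊔ (sp σ).map (algebraMap T F))) :=
    Ideal.Quotient.nontrivial_iff.2 hne
  have hpos : 0 < Module.length T (F ⧸ (sp u₀ ⊔ (sp σ).map (algebraMap T F))) :=
    Module.length_pos
  refine ⟨ρ, by rw [← hρ] at hpos; exact_mod_cast hpos, ?_⟩
  obtain ⟨ε⟩ := equiv_fibre (sp σ) (sp u₀) (sp u₀ ⊔ (sp fun i => σ i ^ b).map (algebraMap T F))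
    le_sup_left (sup_le_sup_left (Ideal.map_mono hle) _)
  refine exists_equiv_of_length (sp σ) _ ⟨_, hpow⟩ ?_ _ (hkill _) (ε.length_eq.trans hρ.symm) ?_
  · rw [length_win hσ hmax]
    exact ENat.natCast_ne_top _
  · rw [length_win hσ hmax]
    rw [← hρ] at h
    refine le_of_eq (ENat.toENNReal_inj.1 ?_)
    rw [h]
    simp

/-- a quotient of a polynomial ring in which the variables are nilpotent is finite -/
theorem finite_of_nilpotent {Λ T E τ : Type} [CommRing Λ] [CommRing T] [CommRing E] [Algebra T E]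
    [Finite τ] (φ : MvPolynomial τ Λ →+* E) (hφ : Function.Surjective φ)
    (hX : ∀ i, IsNilpotent (φ (X i))) (hC : ∀ a : Λ, ∃ t : T, algebraMap T E t = φ (C a)) :
    Module.Finite T E := by
  have h1 : Algebra.adjoin T (Set.range fun i => φ (X i)) = ⊤ := by
    refine eq_top_iff.2 fun x _ => ?_
    obtain ⟨f, rfl⟩ := hφ x
    induction f using MvPolynomial.induction_on with
    | C a =>
      obtain ⟨t, ht⟩ := hC a
      rw [← ht]
      exact Subalgebra.algebraMap_mem _ t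
    | add f g hf hg =>
      rw [map_add]
      exact Subalgebra.add_mem _ (hf trivial) (hg trivial)
    | mul_X f i hf =>
      rw [map_mul]
      exact Subalgebra.mul_mem _ (hf trivial) (Algebra.subset_adjoin ⟨i, rfl⟩)
  have h2 : Module.Finite T (Algebra.adjoin T (Set.range fun i => φ (X i))) := by
    refine Algebra.finite_adjoin_of_finite_of_isIntegral (Set.finite_range _) ?_
    rintro _ ⟨i, rfl⟩
    obtain ⟨c, hc⟩ := hX i
    refine IsIntegral.of_pow (Nat.succ_pos c) ?_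
    simp only [pow_succ, hc, zero_mul]
    exact isIntegral_zero
  rw [h1] at h2
  exact Module.Finite.equiv (Subalgebra.topEquiv (R := T) (A := E)).toLinearEquiv

theorem sup_pow_le {E : Type} [CommRing E] (I J : Ideal E) (N : ℕ) : (I ⊔ J) ^ N ≤ I ^ N ⊔ J := by
  induction N with
  | zero => simp
  | succ N ih =>
    rw [pow_succ, pow_succ]
    refine (Ideal.mul_mono_left ih).trans ?_
    rw [Ideal.sup_mul, Ideal.mul_sup]
    refine sup_le (sup_le le_sup_left (le_trans ?_ le_sup_right)) (le_trans ?_ le_sup_right)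
    · exact Ideal.mul_le_inf.trans inf_le_right
    · exact Ideal.mul_le_inf.trans inf_le_left

theorem prod_mem_pow {E ι : Type} [CommRing E] [Fintype ι] (K : Ideal E) (x : ι → E) (m : ι → ℕ)
    (hx : ∀ i, x i ^ m i ∈ K) (β : ι → ℕ) : ∏ i, x i ^ β i ∈ K ^ ∑ i, β i / m i := by
  rw [← Finset.prod_pow_eq_pow_sum]
  refine Ideal.prod_mem_prod fun i _ => ?_
  have h : x i ^ β i = (x i ^ m i) ^ (β i / m i) * x i ^ (β i % m i) := by
    rw [← pow_mul, ← pow_add, Nat.div_add_mod]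
  rw [h]
  exact Ideal.mul_mem_right _ _ (Ideal.pow_mem_pow (hx i) _)

/-- the numerical estimate -/
theorem le_sum_div {e s a Q N : ℕ} (ha : 0 < a) (hQ : 0 < Q) (β : SI e s → ℕ)
    (h : ((a * (N + 2 * (e + 1) + s) * Q : ℕ) : ℚ≥0) ≤ wt a fun i => (β i : ℚ≥0)) :
    N ≤ ∑ i, β i / (Sum.elim (fun _ => a * Q) (Sum.elim (fun _ => Q) fun _ => a * Q) :
      SI e s → ℕ) i := by
  have h1 : a * (N + 2 * (e + 1) + s) * Q ≤ ∑ i : Fin (e + 1), β (Sum.inl i) +
      a * ∑ k : Fin (e + 1), β (Sum.inr (Sum.inl k)) + ∑ j : Fin s, β (Sum.inr (Sum.inr j)) := by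
    simp only [wt] at h
    exact_mod_cast h
  have haQ : 0 < a * Q := Nat.mul_pos ha hQ
  have key : ∀ {n : ℕ} (f : Fin n → ℕ) (c : ℕ), 0 < c → ∑ i, f i ≤ c * (∑ i, f i / c + n) := by
    intro n f c hc
    calc ∑ i, f i ≤ ∑ i, c * (f i / c + 1) :=
          Finset.sum_le_sum fun i _ => (Nat.lt_mul_div_succ _ hc).le
      _ = _ := by rw [← Finset.mul_sum, Finset.sum_add_distrib]; simp
  have h2 := key (fun i => β (Sum.inl i)) _ haQ
  have h3 := Nat.mul_le_mul_left a (key (fun i => β (Sum.inr (Sum.inl i))) _ hQ)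
  have h4 := key (fun i => β (Sum.inr (Sum.inr i))) _ haQ
  simp only [Fintype.sum_sum_type, Sum.elim_inl, Sum.elim_inr]
  generalize ∑ i : Fin (e + 1), β (Sum.inl i) / (a * Q) = j1 at *
  generalize ∑ i : Fin (e + 1), β (Sum.inr (Sum.inl i)) / Q = j2 at *
  generalize ∑ i : Fin s, β (Sum.inr (Sum.inr i)) / (a * Q) = j3 at *
  have h5 : a * Q * (N + 2 * (e + 1) + s) ≤ a * Q * (j1 + (j2 + j3) + 2 * (e + 1) + s) := by
    nlinarith
  have h6 := Nat.le_of_mul_le_mul_left h5 haQ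
  omega

theorem isMaximal_sp_CX {B ι : Type} [CommRing B] (u : ι → B) (hu : (sp u).IsMaximal)
    (τ : Type) :
    (sp (Sum.elim (fun i => C (u i)) X : ι ⊕ τ → MvPolynomial τ B)).IsMaximal := by
  have h1 : sp (Sum.elim (fun i => C (u i)) X : ι ⊕ τ → MvPolynomial τ B) =
      (sp u).comap (constantCoeff : MvPolynomial τ B →+* B) := by
    refine le_antisymm (Ideal.span_le.2 ?_) fun f hf => ?_
    · rintro _ ⟨i, rfl⟩
      cases i with
      | inl i => simpa using Ideal.subset_span (s := Set.range u) ⟨i, rfl⟩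
      | inr i => simp
    · have h2 : sp (X : τ → MvPolynomial τ B) ≤
          sp (Sum.elim (fun i => C (u i)) X : ι ⊕ τ → MvPolynomial τ B) :=
        Ideal.span_mono (by rintro _ ⟨i, rfl⟩; exact ⟨Sum.inr i, rfl⟩)
      have h3 : (sp u).map (C : B →+* MvPolynomial τ B) ≤
          sp (Sum.elim (fun i => C (u i)) X : ι ⊕ τ → MvPolynomial τ B) := by
        rw [Ideal.map_span]
        exact Ideal.span_mono (by rintro _ ⟨_, ⟨i, rfl⟩, rfl⟩; exact ⟨Sum.inl i, rfl⟩)
      have h4 := Ideal.add_mem _ (h2 (SLT.sub_C_mem τ f)) (h3 (Ideal.mem_map_of_mem _ hf))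
      rwa [constantCoeff_eq, sub_add_cancel] at h4
  rw [h1]
  exact Ideal.comap_isMaximal_of_surjective _ fun a => ⟨C a, by simp⟩

theorem isMaximal_sp_xMix (e : ℕ) (Λ : Type) [CommRing Λ] (ℓ : ℕ)
    (hmax : (Ideal.span {(ℓ : Λ)}).IsMaximal) : (sp (xMix e Λ ℓ)).IsMaximal := by
  have h1 : (sp fun _ : Unit => (ℓ : Λ)).IsMaximal := by
    rwa [sp, Set.range_const]
  have h2 := isMaximal_sp_CX _ h1 (Fin e)
  have h3 : Set.range (xMix e Λ ℓ) =
      Set.range (Sum.elim (fun _ : Unit => C (ℓ : Λ)) X : Unit ⊕ Fin e → MvPolynomial (Fin e) Λ) := by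
    rw [xMix, Fin.range_cons, Set.Sum.elim_range, Set.range_const, Set.insert_eq]
  rwa [sp, h3]

/-- from membership statements in `F` to a cover -/
theorem cover_of_data {e : ℕ} {p : Par} {A : Type} [CommRing A] {x' : Fin (e + 1) → A} {b : ℕ}
    (W : TD (e + 1) p A x' b) (n N₀ q' : ℕ) (ha : 0 < p.a) (E : Type) [CommRing E]
    [Algebra (TT (e + 1) p.s A) E] {ρ : ℕ} (hρ : 0 < ρ)
    (free : Nonempty (E ≃ₗ[TT (e + 1) p.s A] (Fin ρ → TT (e + 1) p.s A ⧸ win p.s x' b)))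
    (hwin : ∀ t ∈ win p.s x' b, algebraMap (TT (e + 1) p.s A) E t = 0)
    {Q Q' n' : ℕ} (hQ : 0 < Q) (hQ' : 0 < Q') (hn : n ≤ n') (x : SI e p.s → E)
    (hx : ∀ i, x i ^ Q' = algebraMap (TT (e + 1) p.s A) E (sig p.s x' i))
    (w : Tau (e + 1) p.s → E) (γ : E)
    (hw : ∀ j, w j ^ Q = algebraMap (TT (e + 1) p.s A) E (W.H j))
    (hγ : γ ^ n' = algebraMap (TT (e + 1) p.s A) E W.c) (M : ℕ → Ideal E)
    (hM : ∀ (r : ℕ) (K : Ideal E), (∀ β : SI e p.s → ℕ,
      ((p.a * r * Q' : ℕ) : ℚ≥0) ≤ (wt p.a fun i => (β i : ℚ≥0)) → ∏ i, x i ^ β i ∈ K) → M r ≤ K)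
    (hP : ∀ π ∈ W.P, γ * algebraMap (TT (e + 1) p.s A) E π ∈ sp w ⊔ M (N₀ + 2 * (e + 1) + p.s))
    (hmg : ∀ i, γ * algebraMap (TT (e + 1) p.s A) E (W.mg i) ∈
      sp w ⊔ M (q' + 2 * (e + 1) + p.s)) :
    Nonempty (Cover W n N₀ q') := by
  set z : Fin (e + 1) → E := fun k => algebraMap (TT (e + 1) p.s A) E (zz (e + 1) p.s A k) with hz
  have h1 : ∀ i, x i ^ (p.a * Q') ∈ sp z ⊔ sp w := by
    intro i
    rw [mul_comm, pow_mul, hx, ← map_pow]
    refine (?_ : (sp (zz (e + 1) p.s A) ⊔ sp W.H ⊔ win p.s x' b).map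
      (algebraMap (TT (e + 1) p.s A) E) ≤ sp z ⊔ sp w) (Ideal.mem_map_of_mem _ (W.hz i))
    rw [Ideal.map_sup, Ideal.map_sup, sp_map, sp_map]
    refine sup_le (sup_le_sup_left (Ideal.span_le.2 ?_) _) (Ideal.map_le_iff_le_comap.2 ?_)
    · rintro _ ⟨j, rfl⟩
      simp only [← hw]
      exact Ideal.pow_mem_of_mem (sp w) (Ideal.subset_span (Set.mem_range_self j)) _ hQ
    · intro t ht
      rw [Ideal.mem_comap, hwin t ht]
      exact Ideal.zero_mem _
  have h2 : ∀ N, sp w ⊔ M (N + 2 * (e + 1) + p.s) ≤ sp z ^ N ⊔ sp w := by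
    intro N
    refine sup_le le_sup_right (hM _ _ fun β hβ => sup_pow_le _ _ N ?_)
    refine Ideal.pow_le_pow_right (le_sum_div ha hQ' β hβ) (prod_mem_pow _ x _ (fun i => ?_) β)
    rcases i with i | i | i
    · exact h1 _
    · rw [Sum.elim_inr, Sum.elim_inl, hx]
      exact Ideal.mem_sup_left (Ideal.subset_span ⟨i, rfl⟩)
    · exact h1 _
  exact ⟨{
    E := E
    ρ := ρ
    Q := Q
    hρ := hρ
    hQ := hQ
    free := free
    w := w
    γ := γ
    hw := hw
    hγ := hγ ▸ pow_dvd_pow γ hn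
    hP := fun π hπ => h2 _ (hP π hπ)
    hmg := fun i => h2 _ (hmg i) }⟩

end CoverMixAux

end Crest.Agent.R183
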