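import Crest.Agent.R183.MixDefs

/-!
# Descent to a finite level
-/

set_option autoImplicit false

open scoped NNRat
open MvPolynomial Filter

namespace Crest.Agent.R183

namespace MixDesc

section

variable {Λ : Type} [CommRing Λ] {ι : Type}

/-- division of the exponents by `Q` -/
noncomputable def dv (ι : Type) (Q : ℕ) : (ι →₀ ℕ) →+ (ι → ℚ≥0) where
  toFun β := fun i => (β i : ℚ≥0) / Q
  map_zero' := by
    funext i
    simp
  map_add' β β' := by
    funext i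
    simp [add_div]

theorem dv_apply (Q : ℕ) (β : ι →₀ ℕ) (i : ι) : dv ι Q β i = (β i : ℚ≥0) / Q := rfl

theorem dv_injective {Q : ℕ} (hQ : 0 < Q) : Function.Injective (dv ι Q) := by
  intro β β' h
  ext i
  have h1 := congrFun h i
  rw [dv_apply, dv_apply, div_left_inj' (by exact_mod_cast hQ.ne')] at h1
  exact_mod_cast h1

theorem eventually_dv [Fintype ι] (β : ι → ℚ≥0) :
    ∀ᶠ N : ℕ in atTop, ∃ β₀ : ι →₀ ℕ, dv ι N.factorial β₀ = β := by
  have h1 : ∀ i, ∀ᶠ N : ℕ in atTop, ∃ k : ℕ, (k : ℚ≥0) / N.factorial = β i := by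
    intro i
    filter_upwards [eventually_ge_atTop (β i).den] with N hN
    obtain ⟨c, hc⟩ := Nat.dvd_factorial (β i).den_pos hN
    refine ⟨(β i).num * c, ?_⟩
    have hc0 : (c : ℚ≥0) ≠ 0 := by
      rintro h
      have : c = 0 := by exact_mod_cast h
      exact Nat.factorial_ne_zero N (by rw [hc, this, mul_zero])
    rw [hc]
    push_cast
    rw [mul_div_mul_right _ _ hc0, NNRat.num_div_den]
  filter_upwards [eventually_all.2 h1] with N hN
  choose k hk using hN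
  exact ⟨Finsupp.equivFunOnFinite.symm k, funext hk⟩

variable [DecidableEq ι]

theorem lev_eq (Q : ℕ) : lev Λ ι Q = AddMonoidAlgebra.mapDomainAlgHom Λ Λ (dv ι Q) := by
  refine MvPolynomial.algHom_ext fun i => ?_
  rw [lev, aeval_X, AddMonoidAlgebra.mapDomainAlgHom_apply]
  change _ = AddMonoidAlgebra.mapDomain _ (AddMonoidAlgebra.single (Finsupp.single i 1) 1)
  rw [AddMonoidAlgebra.mapDomain_single]
  refine congrArg (fun g => AddMonoidAlgebra.single g (1 : Λ)) (funext fun j => ?_)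
  rw [dv_apply]
  by_cases h : j = i
  · subst h
    simp
  · simp [h]

theorem lev_monomial (Q : ℕ) (β : ι →₀ ℕ) (c : Λ) :
    lev Λ ι Q (monomial β c) = AddMonoidAlgebra.single (dv ι Q β) c := by
  rw [lev_eq, AddMonoidAlgebra.mapDomainAlgHom_apply]
  exact AddMonoidAlgebra.mapDomain_single

theorem lev_injective {Q : ℕ} (hQ : 0 < Q) : Function.Injective (lev Λ ι Q) := by
  rw [lev_eq]
  exact AddMonoidAlgebra.mapDomain_injective (dv_injective hQ)

theorem lev_X_pow {Q : ℕ} (hQ : 0 < Q) (i : ι) : lev Λ ι Q (X i ^ Q) = qX Λ i 1 := by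
  rw [X_pow_eq_monomial, lev_monomial]
  congr 1
  funext j
  rw [dv_apply]
  by_cases h : j = i
  · subst h
    have : (Q : ℚ≥0) ≠ 0 := by exact_mod_cast hQ.ne'
    simp [this]
  · simp [h]

variable [Fintype ι]

theorem eventually_lev (x : St Λ ι) : ∀ᶠ N : ℕ in atTop, ∃ y, lev Λ ι N.factorial y = x := by
  induction x using AddMonoidAlgebra.induction_linear with
  | zero => exact Eventually.of_forall fun N => ⟨0, map_zero _⟩
  | add x x' hx hx' =>
    filter_upwards [hx, hx'] with N ⟨y, hy⟩ ⟨y', hy'⟩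
    exact ⟨y + y', by rw [map_add, hy, hy']⟩
  | single β c =>
    filter_upwards [eventually_dv β] with N ⟨β₀, h⟩
    exact ⟨monomial β₀ c, by rw [lev_monomial, h]⟩

/-- a preimage at level `N !` -/
noncomputable def down (N : ℕ) (x : St Λ ι) : MvPolynomial ι Λ :=
  Function.invFun (lev Λ ι N.factorial) x

theorem eventually_down (x : St Λ ι) :
    ∀ᶠ N : ℕ in atTop, lev Λ ι N.factorial (down N x) = x :=
  (eventually_lev x).mono fun _ h => Function.invFun_eq h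

/-- the limit of a family of ideals at finite levels -/
def lim (I : ℕ → Ideal (MvPolynomial ι Λ)) : Ideal (St Λ ι) where
  carrier := {x | ∀ᶠ N : ℕ in atTop, ∃ y ∈ I N, lev Λ ι N.factorial y = x}
  zero_mem' := Eventually.of_forall fun N => ⟨0, zero_mem _, map_zero _⟩
  add_mem' := by
    intro x x' hx hx'
    filter_upwards [hx, hx'] with N ⟨y, hyI, hy⟩ ⟨y', hyI', hy'⟩
    exact ⟨y + y', add_mem hyI hyI', by rw [map_add, hy, hy']⟩
  smul_mem' := by
    intro c x hx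
    filter_upwards [hx, eventually_lev c] with N ⟨y, hyI, hy⟩ ⟨c', hc⟩
    exact ⟨c' * y, Ideal.mul_mem_left _ _ hyI, by rw [map_mul, hy, hc, smul_eq_mul]⟩

theorem mem_lim {I : ℕ → Ideal (MvPolynomial ι Λ)} {x : St Λ ι} :
    x ∈ lim I ↔ ∀ᶠ N : ℕ in atTop, ∃ y ∈ I N, lev Λ ι N.factorial y = x := Iff.rfl

theorem lim_mono {I I' : ℕ → Ideal (MvPolynomial ι Λ)} (h : ∀ N, I N ≤ I' N) :
    lim I ≤ lim I' := fun _ hx =>
  (mem_lim.1 hx).mono fun N ⟨y, hyI, hy⟩ => ⟨y, h N hyI, hy⟩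

theorem sup_le_lim {I I' : ℕ → Ideal (MvPolynomial ι Λ)} {J J' : Ideal (St Λ ι)}
    (h : J ≤ lim I) (h' : J' ≤ lim I') : J ⊔ J' ≤ lim fun N => I N ⊔ I' N :=
  sup_le (h.trans (lim_mono fun _ => le_sup_left)) (h'.trans (lim_mono fun _ => le_sup_right))

theorem span_singleton_le_lim {x : St Λ ι} {y : ℕ → MvPolynomial ι Λ}
    (h : ∀ N, lev Λ ι N.factorial (y N) = x) :
    Ideal.span {x} ≤ lim fun N => Ideal.span {y N} := by
  rw [Ideal.span_singleton_le_iff_mem, mem_lim]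
  exact Eventually.of_forall fun N => ⟨y N, Ideal.mem_span_singleton_self _, h N⟩

theorem sp_le_lim {κ : Type} (u : κ → St Λ ι) :
    sp u ≤ lim fun N => sp fun k => down N (u k) := by
  refine Ideal.span_le.2 ?_
  rintro _ ⟨k, rfl⟩
  exact (eventually_down (u k)).mono fun N h => ⟨_, Ideal.subset_span ⟨k, rfl⟩, h⟩

theorem eventually_mem {I : ℕ → Ideal (MvPolynomial ι Λ)} {x : St Λ ι} (hx : x ∈ lim I)
    {y : ℕ → MvPolynomial ι Λ} (hy : ∀ᶠ N : ℕ in atTop, lev Λ ι N.factorial (y N) = x) :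
    ∀ᶠ N : ℕ in atTop, y N ∈ I N := by
  filter_upwards [mem_lim.1 hx, hy] with N ⟨y', hI, h'⟩ h
  rwa [lev_injective (Nat.factorial_pos N) (h.trans h'.symm)]

end

theorem algHom_theta {Λ F F' : Type} [CommRing Λ] [CommRing F] [Algebra Λ F] [CommRing F']
    [Algebra Λ F'] {e s : ℕ} (φ : F →ₐ[Λ] F') (v : SI e s → F)
    (t : TT (e + 1) s (MvPolynomial (Fin e) Λ)) :
    φ (theta (Λ := Λ) v t) = theta (Λ := Λ) (fun i => φ (v i)) t := by
  have h : (φ : F →+* F').comp (theta (Λ := Λ) v) = theta (Λ := Λ) fun i => φ (v i) := by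
    refine MvPolynomial.ringHom_ext' (MvPolynomial.ringHom_ext' ?_ ?_) ?_
    · ext c
      simp [theta]
    · intro i
      simp [theta]
    · intro j
      simp [theta]
  exact RingHom.congr_fun h t

theorem wt_dv {e s : ℕ} {ν : Type} (a : ℕ) {Q : ℕ} (hQ : 0 < Q) (β : SI e s ⊕ ν →₀ ℕ) :
    wt a (fun i => dv _ Q β (Sum.inl i)) * Q = wt a fun i => (β (Sum.inl i) : ℚ≥0) := by
  have : (Q : ℚ≥0) ≠ 0 := by exact_mod_cast hQ.ne'
  simp only [wt, dv_apply, add_mul, mul_assoc, Finset.sum_mul, div_mul_cancel₀ _ this]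

end MixDesc

open MixDesc in
theorem mixFin_of_mixInf (ℓ : ℕ) (Λ : Type) [CommRing Λ] [IsNoetherianRing Λ] {e : ℕ} {p : Par}
    {b : ℕ} (W : TD (e + 1) p (MvPolynomial (Fin e) Λ) (xMix e Λ ℓ) b) (n r₁ r₂ : ℕ)
    (h : MixInf ℓ Λ W n r₁ r₂) : MixFin ℓ Λ W n r₁ r₂ := by
  obtain ⟨ν, hν, hdν, Q, Q₁, n', Dt, w, γ, hQ, hQ₁, hn, hH, hc, hD, hP, hm⟩ := h
  let θ' : ℕ → (TT (e + 1) p.s (MvPolynomial (Fin e) Λ) →+* MvPolynomial (SI e p.s ⊕ ν) Λ) :=
    fun N => theta (Λ := Λ) fun i : SI e p.s =>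
      (X (Sum.inl i) : MvPolynomial (SI e p.s ⊕ ν) Λ) ^ N.factorial
  have hθ : ∀ N t, lev Λ (SI e p.s ⊕ ν) N.factorial (θ' N t) =
      theta (Λ := Λ) (fun i : SI e p.s => qX Λ (Sum.inl i : SI e p.s ⊕ ν) 1) t := by
    intro N t
    simp only [θ', algHom_theta, lev_X_pow (Nat.factorial_pos N)]
  let J' : ℕ → Ideal (MvPolynomial (SI e p.s ⊕ ν) Λ) := fun N =>
    Ideal.span {(ℓ : MvPolynomial (SI e p.s ⊕ ν) Λ) - X (Sum.inl (Sum.inl 0)) ^ N.factorial} ⊔
      sp (fun k => down N (Dt k)) ⊔ Ideal.span {(ℓ : MvPolynomial (SI e p.s ⊕ ν) Λ) ^ b}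
  let M' : ℕ → ℕ → Ideal (MvPolynomial (SI e p.s ⊕ ν) Λ) := fun r N =>
    Ideal.span ((fun β => monomial β 1) ''
      {β | ((p.a * r * N.factorial : ℕ) : ℚ≥0) ≤ wt p.a fun i => (β (Sum.inl i) : ℚ≥0)})
  have hJ : Ideal.span {(ℓ : St Λ (SI e p.s ⊕ ν)) - qX Λ (Sum.inl (Sum.inl 0)) 1} ⊔ sp Dt ⊔
      Ideal.span {(ℓ : St Λ (SI e p.s ⊕ ν)) ^ b} ≤ lim J' :=
    sup_le_lim (sup_le_lim (span_singleton_le_lim fun N => by
      rw [map_sub, map_natCast, lev_X_pow (Nat.factorial_pos N)]) (sp_le_lim Dt))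
      (span_singleton_le_lim fun N => by rw [map_pow, map_natCast])
  have hM : ∀ r : ℕ, Ideal.span (qm Λ '' {β : SI e p.s ⊕ ν → ℚ≥0 |
      ((p.a * r : ℕ) : ℚ≥0) ≤ wt p.a fun i => β (Sum.inl i)}) ≤ lim (M' r) := by
    intro r
    refine Ideal.span_le.2 ?_
    rintro _ ⟨β, hβ, rfl⟩
    refine (eventually_dv β).mono ?_
    rintro N ⟨β₀, rfl⟩
    refine ⟨monomial β₀ 1, Ideal.subset_span ⟨β₀, ?_, rfl⟩, lev_monomial _ _ _⟩
    rw [Set.mem_ofPred_eq, ← wt_dv p.a (Nat.factorial_pos N), Nat.cast_mul]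
    exact mul_le_mul_left hβ _
  have hK : Ideal.span {(ℓ : St Λ (SI e p.s ⊕ ν))} ⊔
      Ideal.span (qm Λ '' {β | ∃ i, β (Sum.inl i) ≠ 0}) ≤
      lim fun _ => Ideal.span {(ℓ : MvPolynomial (SI e p.s ⊕ ν) Λ)} ⊔
        sp (fun i => X (Sum.inl i)) := by
    refine sup_le_lim (span_singleton_le_lim fun N => map_natCast _ _) (Ideal.span_le.2 ?_)
    rintro _ ⟨β, ⟨i, hi⟩, rfl⟩
    refine (eventually_dv β).mono ?_
    rintro N ⟨β₀, rfl⟩
    refine ⟨monomial β₀ 1, ?_, lev_monomial _ _ _⟩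
    have h0 : β₀ (Sum.inl i) ≠ 0 := fun h0 => hi (by rw [dv_apply, h0]; simp)
    exact Ideal.mem_of_dvd _ (X_dvd_monomial.2 (Or.inr h0)) (Ideal.subset_span ⟨i, rfl⟩)
  have hJM : ∀ r : ℕ, _ ≤ lim fun N => J' N ⊔ sp (fun j => down N (w j)) ⊔ M' r N := fun r =>
    sup_le_lim (sup_le_lim hJ (sp_le_lim w)) (hM r)
  have hγθ : ∀ t, ∀ᶠ N : ℕ in atTop, lev Λ (SI e p.s ⊕ ν) N.factorial (down N γ * θ' N t) =
      γ * theta (Λ := Λ) (fun i : SI e p.s => qX Λ (Sum.inl i : SI e p.s ⊕ ν) 1) t := fun t =>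
    (eventually_down γ).mono fun N h => by rw [map_mul, h, hθ]
  obtain ⟨S, hS⟩ := (IsNoetherian.noetherian W.P : W.P.FG)
  have e1 : ∀ᶠ N : ℕ in atTop, ∀ j, θ' N (W.H j) - down N (w j) ^ Q ∈ J' N :=
    eventually_all.2 fun j => eventually_mem (hJ (hH j))
      ((eventually_down (w j)).mono fun N h => by rw [map_sub, map_pow, h, hθ])
  have e2 : ∀ᶠ N : ℕ in atTop, θ' N W.c - down N γ ^ n' ∈ J' N :=
    eventually_mem (hJ hc) ((eventually_down γ).mono fun N h => by rw [map_sub, map_pow, h, hθ])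
  have e3 : ∀ᶠ N : ℕ in atTop, ∀ k : ν,
      (X (Sum.inr k) : MvPolynomial (SI e p.s ⊕ ν) Λ) ^ N.factorial - down N (Dt k) ^ Q₁ ∈
        Ideal.span {(ℓ : MvPolynomial (SI e p.s ⊕ ν) Λ)} ⊔ sp (fun i => X (Sum.inl i)) :=
    eventually_all.2 fun k => eventually_mem (hK (hD k))
      ((eventually_down (Dt k)).mono fun N h => by
        rw [map_sub, lev_X_pow (Nat.factorial_pos N), map_pow, h])
  have e4 : ∀ᶠ N : ℕ in atTop, ∀ π ∈ S,
      down N γ * θ' N π ∈ J' N ⊔ sp (fun j => down N (w j)) ⊔ M' r₁ N :=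
    (eventually_all_finset S).2 fun π hπ =>
      eventually_mem (hJM r₁ (hP π (hS ▸ Submodule.subset_span hπ))) (hγθ π)
  have e5 : ∀ᶠ N : ℕ in atTop, ∀ i,
      down N γ * θ' N (W.mg i) ∈ J' N ⊔ sp (fun j => down N (w j)) ⊔ M' r₂ N :=
    eventually_all.2 fun i => eventually_mem (hJM r₂ (hm i)) (hγθ _)
  obtain ⟨N, h1, h2, h3, h4, h5⟩ := (e1.and (e2.and (e3.and (e4.and e5)))).exists
  refine ⟨ν, hν, N.factorial, Q, Q₁, n', fun k => down N (Dt k), fun j => down N (w j), down N γ,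
    Nat.factorial_pos N, hQ, hQ₁, hn, h1, h2, h3, fun π hπ => ?_, h5⟩
  change down N γ * θ' N π ∈ J' N ⊔ sp (fun j => down N (w j)) ⊔ M' r₁ N
  rw [← hS] at hπ
  induction hπ using Submodule.span_induction with
  | mem π hπ => exact h4 π hπ
  | zero => rw [map_zero, mul_zero]; exact zero_mem _
  | add π π' _ _ h h' => rw [map_add, mul_add]; exact add_mem h h'
  | smul c π _ h =>
    rw [smul_eq_mul, map_mul, mul_left_comm]
    exact Ideal.mul_mem_left _ _ h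

end Crest.Agent.R183
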