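import Crest.Agent.R183.MixInf
import Crest.Agent.R183.MixDesc
import Crest.Agent.R183.Cohen
import Crest.Agent.R183.SLTransfer
import Crest.Agent.R183.CoverMixAux

/-!
# Covers in mixed characteristic
-/

set_option autoImplicit false

namespace Crest.Agent.R183

namespace CoverMixAux

open MvPolynomial
open scoped NNRat

section theta

variable {Λ F : Type} [CommRing Λ] [CommRing F] [Algebra Λ F] {e s : ℕ} (v : SI e s → F)

theorem theta_CC (a : Λ) : theta (Λ := Λ) v (C (C a)) = algebraMap Λ F a := by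
  simp [theta]

theorem theta_sig_zero (ℓ : ℕ) :
    theta (Λ := Λ) v (sig s (xMix e Λ ℓ) (Sum.inl 0)) = (ℓ : F) := by
  simp [theta, sig, xMix]

theorem theta_sig_succ (ℓ : ℕ) (i : Fin e) :
    theta (Λ := Λ) v (sig s (xMix e Λ ℓ) (Sum.inl i.succ)) = v (Sum.inl i.succ) := by
  simp [theta, sig, xMix]

theorem theta_sig_inr (ℓ : ℕ) (j : Tau (e + 1) s) :
    theta (Λ := Λ) v (sig s (xMix e Λ ℓ) (Sum.inr j)) = v (Sum.inr j) := by
  simp [theta, sig]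

theorem theta_sig_sub (ℓ : ℕ) (i : SI e s) :
    theta (Λ := Λ) v (sig s (xMix e Λ ℓ) i) - v i ∈
      Ideal.span {(ℓ : F) - v (Sum.inl 0)} := by
  rcases i with i | j
  · refine Fin.cases ?_ (fun i => ?_) i
    · rw [theta_sig_zero]
      exact Ideal.mem_span_singleton_self _
    · rw [theta_sig_succ, sub_self]
      exact Ideal.zero_mem _
  · rw [theta_sig_inr, sub_self]
    exact Ideal.zero_mem _

end theta

theorem sp_unit_sum {F ν : Type} [CommRing F] (ξ : F) (Dt : ν → F) :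
    sp (Sum.elim (fun _ : Unit => ξ) Dt) = Ideal.span {ξ} ⊔ sp Dt := by
  rw [SLT.sp_sum, sp, Set.range_const]

/-- the freeness of the cover -/
theorem free_mix (ℓ : ℕ) (Λ : Type) [CommRing Λ] (hℓ : (ℓ : Λ) ∈ nonZeroDivisors Λ)
    (hmax : (Ideal.span {(ℓ : Λ)}).IsMaximal) {e s b : ℕ} (hb : 0 < b) (ν : Type) [Fintype ν]
    {Q' Q₁ : ℕ} (hQ' : 0 < Q') (hQ₁ : 0 < Q₁) (Dt : ν → MvPolynomial (SI e s ⊕ ν) Λ)
    (hDt : ∀ k : ν, (X (Sum.inr k) : MvPolynomial (SI e s ⊕ ν) Λ) ^ Q' - Dt k ^ Q₁ ∈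
      Ideal.span {(ℓ : MvPolynomial (SI e s ⊕ ν) Λ)} ⊔ sp (fun i => X (Sum.inl i)))
    [Algebra (TT (e + 1) s (MvPolynomial (Fin e) Λ)) (MvPolynomial (SI e s ⊕ ν) Λ)]
    (hθ : algebraMap (TT (e + 1) s (MvPolynomial (Fin e) Λ)) (MvPolynomial (SI e s ⊕ ν) Λ) =
      theta (Λ := Λ) fun i : SI e s => (X (Sum.inl i) : MvPolynomial (SI e s ⊕ ν) Λ) ^ Q') :
    ∃ ρ : ℕ, 0 < ρ ∧ Nonempty ((MvPolynomial (SI e s ⊕ ν) Λ ⧸
      (sp (Sum.elim (fun _ : Unit => (ℓ : MvPolynomial (SI e s ⊕ ν) Λ) -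
        X (Sum.inl (Sum.inl 0)) ^ Q') Dt) ⊔ (win s (xMix e Λ ℓ) b).map
          (algebraMap (TT (e + 1) s (MvPolynomial (Fin e) Λ)) (MvPolynomial (SI e s ⊕ ν) Λ))))
      ≃ₗ[TT (e + 1) s (MvPolynomial (Fin e) Λ)]
        (Fin ρ → TT (e + 1) s (MvPolynomial (Fin e) Λ) ⧸ win s (xMix e Λ ℓ) b)) := by
  have hσ : QR (sig s (xMix e Λ ℓ)) (TT (e + 1) s (MvPolynomial (Fin e) Λ)) :=
    QR.mvPolynomial (qr_cons e (ℓ : Λ) hℓ) _
  have hm : (sp (sig s (xMix e Λ ℓ))).IsMaximal :=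
    isMaximal_sp_CX _ (isMaximal_sp_xMix e Λ ℓ hmax) _
  have h1 : QR (fun _ : Unit => (ℓ : Λ)) Λ :=
    qr_of_unique _ (isSMulRegular_iff_right_eq_zero_of_smul.2 fun x hx =>
      (mem_nonZeroDivisors_iff_left.1 hℓ) x hx)
  have hv := h1.mvPolynomial (SI e s ⊕ ν)
  set ξ : MvPolynomial (SI e s ⊕ ν) Λ := (ℓ : MvPolynomial (SI e s ⊕ ν) Λ) -
    X (Sum.inl (Sum.inl 0)) ^ Q' with hξ
  set I : Ideal (MvPolynomial (SI e s ⊕ ν) Λ) := sp (Sum.elim (fun _ : Unit => ξ) Dt) ⊔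
    (sp (sig s (xMix e Λ ℓ))).map
      (algebraMap (TT (e + 1) s (MvPolynomial (Fin e) Λ)) (MvPolynomial (SI e s ⊕ ν) Λ)) with hI
  have hξI : Ideal.span {ξ} ≤ I := by
    rw [hI, sp_unit_sum]
    exact le_sup_left.trans le_sup_left
  have hDI : ∀ k, Dt k ∈ I := fun k =>
    Ideal.mem_sup_left (Ideal.subset_span (Set.mem_range_self (Sum.inr k)))
  have hσI : ∀ i, theta (Λ := Λ) (fun i : SI e s => (X (Sum.inl i) :
      MvPolynomial (SI e s ⊕ ν) Λ) ^ Q') (sig s (xMix e Λ ℓ) i) ∈ I := fun i => by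
    rw [← hθ]
    exact Ideal.mem_sup_right (Ideal.mem_map_of_mem _ (Ideal.subset_span (Set.mem_range_self i)))
  have hℓI : (ℓ : MvPolynomial (SI e s ⊕ ν) Λ) ∈ I := by
    have := hσI (Sum.inl 0)
    rwa [theta_sig_zero] at this
  have hX1 : ∀ i, (X (Sum.inl i) : MvPolynomial (SI e s ⊕ ν) Λ) ∈ I.radical := fun i => by
    refine ⟨Q', ?_⟩
    have := Ideal.sub_mem _ (hσI i) (hξI (theta_sig_sub (Λ := Λ) (fun i : SI e s =>
      (X (Sum.inl i) : MvPolynomial (SI e s ⊕ ν) Λ) ^ Q') ℓ i))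
    rwa [sub_sub_cancel] at this
  have hX : ∀ i, (X i : MvPolynomial (SI e s ⊕ ν) Λ) ∈ I.radical := by
    rintro (i | k)
    · exact hX1 i
    · refine Ideal.mem_radical_of_pow_mem (m := Q') ?_
      have h2 : Ideal.span {(ℓ : MvPolynomial (SI e s ⊕ ν) Λ)} ⊔ sp (fun i => X (Sum.inl i)) ≤
          I.radical := by
        refine sup_le ((Ideal.span_singleton_le_iff_mem _).2 (Ideal.le_radical hℓI))
          (Ideal.span_le.2 ?_)
        rintro _ ⟨i, rfl⟩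
        exact hX1 i
      have := Ideal.add_mem _ (h2 (hDt k))
        (Ideal.le_radical (Ideal.pow_mem_of_mem I (hDI k) _ hQ₁))
      rwa [sub_add_cancel] at this
  refine exists_free hσ hm hb _ _ hv (by simp [add_comm, add_left_comm]) ?_ ?_ ?_
  · rintro (_ | i)
    · exact Ideal.le_radical (by simpa using hℓI)
    · exact hX i
  · set 𝔭 : Ideal (MvPolynomial (SI e s ⊕ ν) Λ) :=
      (Ideal.span {(ℓ : Λ)}).comap (constantCoeff : MvPolynomial (SI e s ⊕ ν) Λ →+* Λ) with h𝔭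
    have hp : 𝔭.IsPrime := Ideal.comap_isPrime _ _ (H := hmax.isPrime)
    have a1 : (ℓ : MvPolynomial (SI e s ⊕ ν) Λ) ∈ 𝔭 := by
      rw [h𝔭, Ideal.mem_comap, map_natCast]
      exact Ideal.mem_span_singleton_self _
    have a2 : ∀ i, (X i : MvPolynomial (SI e s ⊕ ν) Λ) ∈ 𝔭 := fun i => by
      rw [h𝔭, Ideal.mem_comap, constantCoeff_X]
      exact Ideal.zero_mem _
    have a3 : ∀ i, (X i : MvPolynomial (SI e s ⊕ ν) Λ) ^ Q' ∈ 𝔭 := fun i =>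
      Ideal.pow_mem_of_mem _ (a2 i) _ hQ'
    have a4 : Ideal.span {ξ} ≤ 𝔭 :=
      (Ideal.span_singleton_le_iff_mem _).2 (Ideal.sub_mem _ a1 (a3 _))
    refine ne_top_of_le_ne_top hp.ne_top ?_
    rw [sp_unit_sum, sp_map]
    refine sup_le (sup_le a4 (Ideal.span_le.2 ?_)) (Ideal.span_le.2 ?_)
    · rintro _ ⟨k, rfl⟩
      refine hp.mem_of_pow_mem Q₁ ?_
      have h2 : Ideal.span {(ℓ : MvPolynomial (SI e s ⊕ ν) Λ)} ⊔ sp (fun i => X (Sum.inl i)) ≤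
          𝔭 := by
        refine sup_le ((Ideal.span_singleton_le_iff_mem _).2 a1) (Ideal.span_le.2 ?_)
        rintro _ ⟨i, rfl⟩
        exact a2 _
      have := Ideal.sub_mem _ (a3 (Sum.inr k)) (h2 (hDt k))
      rwa [sub_sub_cancel] at this
    · rintro _ ⟨i, rfl⟩
      have := Ideal.add_mem _ (a4 (theta_sig_sub (Λ := Λ) (fun i : SI e s => (X (Sum.inl i) :
        MvPolynomial (SI e s ⊕ ν) Λ) ^ Q') ℓ i)) (a3 (Sum.inl i))
      rwa [sub_add_cancel, ← hθ] at this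
  · refine finite_of_nilpotent (Ideal.Quotient.mk I) Ideal.Quotient.mk_surjective (fun i => ?_)
      fun a => ⟨C (C a), ?_⟩
    · obtain ⟨c, hc⟩ := hX i
      exact ⟨c, by rw [← map_pow, Ideal.Quotient.eq_zero_iff_mem]; exact hc⟩
    · rw [← Ideal.Quotient.mk_algebraMap]
      exact congrArg (Ideal.Quotient.mk I) (by rw [hθ, theta_CC, algebraMap_eq])

end CoverMixAux

open CoverMixAux MvPolynomial in
theorem cover_of_mixFin (ℓ : ℕ) (Λ : Type) [CommRing Λ] (hℓ : (ℓ : Λ) ∈ nonZeroDivisors Λ)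
    (hmax : (Ideal.span {(ℓ : Λ)}).IsMaximal) {e : ℕ} {p : Par} {b : ℕ} (ha : 0 < p.a)
    (hb : 0 < b) (W : TD (e + 1) p (MvPolynomial (Fin e) Λ) (xMix e Λ ℓ) b) (n N₀ q' : ℕ)
    (h : MixFin ℓ Λ W n (N₀ + 2 * (e + 1) + p.s) (q' + 2 * (e + 1) + p.s)) :
    Nonempty (Cover W n N₀ q') := by
  obtain ⟨ν, _, Q', Q, Q₁, n', Dt, w, γ, hQ', hQ, hQ₁, hn, hw, hγ, hDt, hP, hmg⟩ := h
  set θ := theta (Λ := Λ) fun i : SI e p.s =>
    (X (Sum.inl i) : MvPolynomial (SI e p.s ⊕ ν) Λ) ^ Q' with hθ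
  let _ : Algebra (TT (e + 1) p.s (MvPolynomial (Fin e) Λ)) (MvPolynomial (SI e p.s ⊕ ν) Λ) :=
    θ.toAlgebra
  have hθ' : algebraMap (TT (e + 1) p.s (MvPolynomial (Fin e) Λ))
    (MvPolynomial (SI e p.s ⊕ ν) Λ) = θ := rfl
  obtain ⟨ρ, hρ, free⟩ := free_mix ℓ Λ hℓ hmax hb ν hQ' hQ₁ Dt hDt hθ'
  rw [sp_unit_sum] at free
  set J : Ideal (MvPolynomial (SI e p.s ⊕ ν) Λ) :=
    Ideal.span {(ℓ : MvPolynomial (SI e p.s ⊕ ν) Λ) - X (Sum.inl (Sum.inl 0)) ^ Q'} ⊔ sp Dt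
    with hJ
  set I : Ideal (MvPolynomial (SI e p.s ⊕ ν) Λ) := J ⊔ (win p.s (xMix e Λ ℓ) b).map
    (algebraMap (TT (e + 1) p.s (MvPolynomial (Fin e) Λ)) (MvPolynomial (SI e p.s ⊕ ν) Λ))
    with hI
  have hπ : ∀ t, algebraMap (TT (e + 1) p.s (MvPolynomial (Fin e) Λ))
    (MvPolynomial (SI e p.s ⊕ ν) Λ ⧸ I) t = Ideal.Quotient.mk I (θ t) := fun t => rfl
  have hJI : J ⊔ Ideal.span {(ℓ : MvPolynomial (SI e p.s ⊕ ν) Λ) ^ b} ≤ I := by
    refine sup_le_sup_left ((Ideal.span_singleton_le_iff_mem _).2 ?_) _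
    rw [← theta_sig_zero (Λ := Λ) (fun i : SI e p.s =>
      (X (Sum.inl i) : MvPolynomial (SI e p.s ⊕ ν) Λ) ^ Q') ℓ, ← map_pow]
    exact Ideal.mem_map_of_mem _ (Ideal.subset_span (Set.mem_range_self (Sum.inl 0)))
  have hmem : ∀ (M : Ideal (MvPolynomial (SI e p.s ⊕ ν) Λ)) (t : _),
      γ * θ t ∈ J ⊔ Ideal.span {(ℓ : MvPolynomial (SI e p.s ⊕ ν) Λ) ^ b} ⊔ sp w ⊔ M →
      Ideal.Quotient.mk I γ * algebraMap (TT (e + 1) p.s (MvPolynomial (Fin e) Λ)) _ t ∈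
        sp (fun j => Ideal.Quotient.mk I (w j)) ⊔ M.map (Ideal.Quotient.mk I) := by
    intro M t ht
    rw [hπ, ← map_mul, ← sp_map, ← Ideal.map_sup, Ideal.mem_quotient_iff_mem_sup]
    refine (sup_le (sup_le (hJI.trans le_sup_right) (le_sup_left.trans le_sup_left))
      (le_sup_right.trans le_sup_left) :) ht
  refine cover_of_data W n N₀ q' ha (MvPolynomial (SI e p.s ⊕ ν) Λ ⧸ I) hρ free (fun t ht => ?_)
    hQ hQ' hn (fun i => Ideal.Quotient.mk I (X (Sum.inl i))) (fun i => ?_)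
    (fun j => Ideal.Quotient.mk I (w j)) (Ideal.Quotient.mk I γ) (fun j => ?_) ?_
    (fun r => (Ideal.span ((fun β => monomial β 1) ''
      {β | ((p.a * r * Q' : ℕ) : NNRat) ≤ wt p.a fun i => (β (Sum.inl i) : NNRat)})).map
        (Ideal.Quotient.mk I)) (fun r K hK => ?_)
    (fun π hπ => hmem _ _ (hP π hπ)) (fun i => hmem _ _ (hmg i))
  · rw [hπ, Ideal.Quotient.eq_zero_iff_mem]
    exact Ideal.mem_sup_right (Ideal.mem_map_of_mem _ ht)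
  · rw [hπ, ← map_pow, eq_comm, Ideal.Quotient.eq]
    exact Ideal.mem_sup_left (Ideal.mem_sup_left (theta_sig_sub (Λ := Λ) (fun i : SI e p.s =>
      (X (Sum.inl i) : MvPolynomial (SI e p.s ⊕ ν) Λ) ^ Q') ℓ i))
  · rw [hπ, ← map_pow, eq_comm, Ideal.Quotient.eq]
    exact hJI (hw j)
  · rw [hπ, ← map_pow, eq_comm, Ideal.Quotient.eq]
    exact hJI hγ
  · rw [Ideal.map_le_iff_le_comap, Ideal.span_le]
    rintro _ ⟨β, hβ, rfl⟩
    have h1 := hK (fun i => β (Sum.inl i)) hβ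
    beta_reduce
    rw [SetLike.mem_coe, Ideal.mem_comap, ← SLT.mon_X, mon, Fintype.prod_sum_type, map_mul,
      map_prod]
    simp only [map_pow]
    exact Ideal.mul_mem_right _ _ h1

theorem cover_mix (ℓ : ℕ) [Fact ℓ.Prime] (K : Type) [Field K] [CharP K ℓ] [PerfectRing K ℓ]
    (e : ℕ) (p : Par) (n N₀ q' : ℕ) (hq : q' + 2 * (e + 1) + p.s + 1 ≤ p.q) (ha : 0 < p.a) :
    ∃ b₀ : ℕ, ∀ b ≥ b₀,
      ∀ W : TD (e + 1) p (MvPolynomial (Fin e) (WittVector ℓ K)) (xMix e (WittVector ℓ K) ℓ) b,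
        Nonempty (Cover W n N₀ q') := by
  obtain ⟨b₀, hb₀⟩ := mixInf ℓ K e p n (N₀ + 2 * (e + 1) + p.s) (q' + 2 * (e + 1) + p.s) ha hq
  refine ⟨b₀ + 1, fun b hb W => ?_⟩
  refine cover_of_mixFin ℓ (WittVector ℓ K)
    (mem_nonZeroDivisors_of_ne_zero (WittVector.p_nonzero ℓ K)) ?_ ha (by omega) W n N₀ q'
    (mixFin_of_mixInf ℓ _ W n _ _ (hb₀ b (by omega) W))
  rw [← maximalIdeal_wittVector]
  infer_instance

end Crest.Agent.R183
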