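import Crest.Agent.R183.Defs

/-!
# Window data, covers, levels
-/

set_option autoImplicit false

open scoped ENNReal NNReal TensorProduct
open MvPolynomial

namespace Crest.Agent.R183

/-- Numerical parameters of a family of window data. -/
structure Par where
  (s r a mm q r₀ N N' Δ : ℕ)
  (u1 u2 u3 v1 v2 ub : ℝ≥0)

/-- The variables: `d` distinguished ones (the `z`) and `s` others. -/
abbrev Tau (d s : ℕ) : Type := Fin d ⊕ Fin s

/-- The polynomial ring `T = A[X]`. -/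
abbrev TT (d s : ℕ) (A : Type) [CommRing A] : Type := MvPolynomial (Tau d s) A

section

variable {d : ℕ} (s : ℕ) {A : Type} [CommRing A]

/-- The sequence `σ = (x', X)` in `T`. -/
noncomputable def sig (x' : Fin d → A) : Fin d ⊕ Tau d s → TT d s A :=
  Sum.elim (fun i => C (x' i)) X

/-- The window ideal `(σ_i ^ b)`. -/
noncomputable def win (x' : Fin d → A) (b : ℕ) : Ideal (TT d s A) := sp (fun i => sig s x' i ^ b)

variable (d A) in
/-- The distinguished variables. -/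
noncomputable def zz : Fin d → TT d s A := fun k => X (Sum.inl k)

end

/-- The part of the window data living in `T`. -/
structure TD (d : ℕ) (p : Par) (A : Type) [CommRing A] (x' : Fin d → A) (b : ℕ) where
  H : Tau d p.s → TT d p.s A
  c : TT d p.s A
  P : Ideal (TT d p.s A)
  mg : Fin p.r → TT d p.s A
  winP : win p.s x' b ≤ P
  HP : ∀ j, H j ∈ P
  Hσ : ∀ j, H j ∈ sp (sig p.s x')
  cσ : c ∈ sp (sig p.s x')
  hz : ∀ i, sig p.s x' i ^ p.a ∈ sp (zz d p.s A) ⊔ sp H ⊔ win p.s x' b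
  hx : ∀ i, sig p.s x' i ^ p.a ∈ sp (fun k => (C (x' k) : TT d p.s A)) ⊔ sp H ⊔ win p.s x' b
  hc : Ideal.span {c} * P ^ p.mm ≤ sp H ⊔ win p.s x' b
  hm : sp mg ^ (p.r₀ + 1) ≤ sp (zz d p.s A) ^ p.q * sp mg ^ p.r₀ ⊔ P

/-- Window data at depth `b`. -/
structure WD (d : ℕ) (p : Par) (A : Type) [CommRing A] (x' : Fin d → A) (b : ℕ)
    extends TD d p A x' b where
  w : A
  w' : A
  ε : MvPolynomial (Tau d p.s) (TT d p.s A)
  S : Type
  [cS : CommRing S]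
  [aS : Algebra (TT d p.s A) S]
  y : Fin d → S
  μ : LF S
  hε : MvPolynomial.aeval (fun j => (X j : TT d p.s A)) ε - C w ∈ P
  PS : ∀ π ∈ P, algebraMap (TT d p.s A) S π = 0
  flat : FlatMod P S
  hsig : HasSig (sp mg) y
  hy : ∀ i, algebraMap (TT d p.s A) S (sig p.s x' i) ^ p.a ∈ sp y
  hΔ : Module.length (TT d p.s A) (TT d p.s A ⧸
    (sp (fun k => (C (x' k) : TT d p.s A)) ⊔ sp H ⊔ win p.s x' b)) ≤ p.Δ
  b0 : 1 ≤ μ.val (S ⧸ (sp y ⊔ (sp mg ⊔ sp (sig p.s x')).map (algebraMap (TT d p.s A) S)))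
  hub : μ.val (S ⧸ (sp (sig p.s x')).map (algebraMap (TT d p.s A) S)) ≤ p.ub
  hu1 : μ.val (S ⧸ sp y ^ p.N) ≤ p.u1
  hu3 : μ.val (S ⧸ (sp y ^ p.N ⊔ Ideal.span {algebraMap (TT d p.s A) S (C w)})) ≤ p.u3
  hu2 : (p.u2 : ℝ≥0∞) ≤ μ.val (MvPolynomial (Tau d p.s) S ⧸
    (sp (fun j => MvPolynomial.map ((algebraMap (TT d p.s A) S).comp C) (H j)) ⊔
      Ideal.span {MvPolynomial.map (algebraMap (TT d p.s A) S) ε} ⊔
      (sp y ^ p.N).map (C : S →+* MvPolynomial (Tau d p.s) S) ⊔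
      sp (fun j => (X j : MvPolynomial (Tau d p.s) S) ^ b)))
  hv1 : (p.v1 : ℝ≥0∞) ≤ Module.length (TT d p.s A) (TT d p.s A ⧸
    (sp H ⊔ Ideal.span {C w' - c} ⊔ sp (zz d p.s A) ^ p.N' ⊔ win p.s x' b))
  hv2 : (Module.length A (A ⧸ (Ideal.span {w'} ⊔ sp (fun k => x' k ^ (p.a * p.N')))) : ℝ≥0∞) ≤
    p.v2

attribute [instance] WD.cS WD.aS

/-- `S` is finite free over `T / P` and `μ` is the length over `T`. -/
def WD.FinFree {d : ℕ} {p : Par} {A : Type} [CommRing A] {x' : Fin d → A} {b : ℕ}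
    (W : WD d p A x' b) : Prop :=
  (∃ ν : ℕ, Nonempty (W.S ≃ₗ[TT d p.s A] (Fin ν → TT d p.s A ⧸ W.P))) ∧
  ∀ (M : Type) [AddCommGroup M] [Module W.S M] [Module (TT d p.s A) M]
    [IsScalarTower (TT d p.s A) W.S M], W.μ.val M = Module.length (TT d p.s A) M

/-- A cover of level `n`: a finite free algebra over the window of `T` with `Q`-th roots `w` of
the `H j` and an `n`-th root `γ` of a divisor of `c` which almost kills `P` and makes `mg` act
through `(z)^{q'}` on the quotient by `w`. -/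
structure Cover {d : ℕ} {p : Par} {A : Type} [CommRing A] {x' : Fin d → A} {b : ℕ}
    (W : TD d p A x' b) (n N₀ q' : ℕ) where
  E : Type
  [cE : CommRing E]
  [aE : Algebra (TT d p.s A) E]
  ρ : ℕ
  Q : ℕ
  hρ : 0 < ρ
  hQ : 0 < Q
  free : Nonempty (E ≃ₗ[TT d p.s A] (Fin ρ → TT d p.s A ⧸ win p.s x' b))
  w : Tau d p.s → E
  γ : E
  hw : ∀ j, w j ^ Q = algebraMap (TT d p.s A) E (W.H j)
  hγ : γ ^ n ∣ algebraMap (TT d p.s A) E W.c
  hP : ∀ π ∈ W.P, γ * algebraMap (TT d p.s A) E π ∈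
    sp (fun k => algebraMap (TT d p.s A) E (zz d p.s A k)) ^ N₀ ⊔ sp w
  hmg : ∀ i, γ * algebraMap (TT d p.s A) E (W.mg i) ∈
    sp (fun k => algebraMap (TT d p.s A) E (zz d p.s A k)) ^ q' ⊔ sp w

attribute [instance] Cover.cE Cover.aE

/-- One level of the family to which the core inequality is applied. -/
structure Level (d r q' a N N₀ n : ℕ) (ub U L : ℝ≥0) where
  R₀ : Type
  D : Type
  [cR : CommRing R₀]
  [cD : CommRing D]
  [aD : Algebra R₀ D]
  z : Fin d → R₀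
  mg : Fin r → R₀
  y : Fin d → D
  γ : D
  μ : LF D
  hSL : SL (fun k => algebraMap R₀ D (z k)) D (degGE (Fin d) N₀) γ
  hm : ∀ i, γ * algebraMap R₀ D (mg i) ∈ sp (fun k => algebraMap R₀ D (z k)) ^ q'
  hz : ∀ k, algebraMap R₀ D (z k) ^ a ∈ sp y
  hsig : HasSig (sp mg) y
  hub : μ.val (D ⧸ (sp (fun k => algebraMap R₀ D (z k)) ⊔
    sp (fun i => algebraMap R₀ D (mg i)))) ≤ ub
  hU : μ.val (D ⧸ sp y ^ N) ≤ U
  hL : (L : ℝ≥0∞) ≤ μ.val (LinearMap.range (LinearMap.lsmul D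
    (D ⧸ (sp y ⊔ sp (fun k => algebraMap R₀ D (z k)) ⊔ sp (fun i => algebraMap R₀ D (mg i))))
    (γ ^ n)))

attribute [instance] Level.cR Level.cD Level.aD

/-- The window inequality for `(A, x')` (assuming finite freeness if `fin` holds). -/
def WIProp (d : ℕ) (A : Type) [CommRing A] (x' : Fin d → A) (fin : Prop) : Prop :=
  ∀ (p : Par) (q' : ℕ), 1 ≤ q' → q' + 2 * d + p.s + 1 ≤ p.q → 0 < p.Δ → 0 < p.N' → 0 < p.a →
    (∀ b₀ : ℕ, ∃ b ≥ b₀, ∃ W : WD d p A x' b, fin → W.FinFree) →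
    (q' : ℝ≥0) ^ d * Bn d p.N * ((p.v1 / p.Δ - p.v2) / Bn d p.N') ≤ p.u1 + p.u3 - p.u2 / p.Δ

/-- The parameters `(p, x')` in mixed characteristic. -/
noncomputable def xMix (e : ℕ) (Λ : Type) [CommRing Λ] (p : ℕ) :
    Fin (e + 1) → MvPolynomial (Fin e) Λ :=
  Fin.cons (C (p : Λ)) X

end Crest.Agent.R183
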