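import Crest.Agent.R183.Core
import Crest.Agent.R183.WDefs

/-!
# The normalized length of a family of levels, and the core inequality for families
-/

set_option autoImplicit false

open scoped ENNReal NNReal TensorProduct
open Filter Topology

namespace Crest.Agent.R183

theorem Family_bc {A B : Type} [CommRing A] [CommRing B] [Algebra A B] [Module.Flat A B]
    (μ : LF B) : ∃ P : LF A, ∀ (J : Ideal A) (c : A),
      P.val (LinearMap.range (LinearMap.lsmul A (A ⧸ J) c)) =
        μ.val (LinearMap.range (LinearMap.lsmul B (B ⧸ J.map (algebraMap A B))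
          (algebraMap A B c))) := by
  refine ⟨⟨fun M _ _ => μ.val (B ⊗[A] M), fun e => μ.congr (e.baseChange A B _ _),
    fun P => ?_, fun M _ _ _ => μ.zero _⟩, fun J c => ?_⟩
  · exact μ.val_eq_add_of_exact (P.subtype.baseChange B) (P.mkQ.baseChange B)
      (Module.Flat.lTensor_preserves_injective_linearMap _ P.injective_subtype)
      (LinearMap.lTensor_surjective B P.mkQ_surjective)
      (lTensor_exact B (LinearMap.exact_subtype_mkQ P) P.mkQ_surjective)
  · set f := LinearMap.lsmul A (A ⧸ J) c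
    have hι : Function.Injective ((LinearMap.range f).subtype.baseChange B) :=
      Module.Flat.lTensor_preserves_injective_linearMap _ (Submodule.injective_subtype _)
    have hπ : Function.Surjective (f.rangeRestrict.baseChange B) :=
      LinearMap.lTensor_surjective B f.surjective_rangeRestrict
    have e : LinearMap.range ((LinearMap.range f).subtype.baseChange B) =
        LinearMap.range (LinearMap.lsmul B (B ⊗[A] (A ⧸ J)) (algebraMap A B c)) := by
      rw [← LinearMap.range_comp_of_range_eq_top _ (LinearMap.range_eq_top.2 hπ),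
        ← LinearMap.baseChange_comp,
        show (LinearMap.range f).subtype ∘ₗ f.rangeRestrict = f from rfl]
      congr 1
      ext
      simp [f]
    have e' := (Algebra.TensorProduct.quotIdealMapEquivTensorQuot B J).toLinearEquiv
    change μ.val (B ⊗[A] LinearMap.range f) = _
    rw [μ.congr (M := B ⊗[A] LinearMap.range f)
      (N := LinearMap.range ((LinearMap.range f).subtype.baseChange B))
      (LinearEquiv.ofInjective _ hι), e]
    exact le_antisymm (μ.val_range_lsmul_le_of_surjective _ e'.toLinearMap e'.surjective)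
      (μ.val_range_lsmul_le_of_surjective _ e'.symm.toLinearMap e'.symm.surjective)

theorem Family_ulim : ∃ l : (ℕ → ℝ≥0∞) → ℝ≥0∞,
    (∀ f g, (∀ᶠ n in atTop, f n ≤ g n) → l f ≤ l g) ∧
    (∀ f g, l (fun n => f n + g n) = l f + l g) ∧ ∀ c, l (fun _ => c) = c := by
  have h : ∀ f : ℕ → ℝ≥0∞, Tendsto f (hyperfilter ℕ) (𝓝 ((hyperfilter ℕ).map f).lim) :=
    fun f => ((hyperfilter ℕ).map f).le_nhds_lim
  refine ⟨fun f => ((hyperfilter ℕ).map f).lim, fun f g hfg => ?_, fun f g => ?_, fun c => ?_⟩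
  · exact le_of_tendsto_of_tendsto (h f) (h g) (hfg.filter_mono Nat.hyperfilter_le_atTop)
  · exact tendsto_nhds_unique (h _) ((h f).add (h g))
  · exact tendsto_nhds_unique (h _) tendsto_const_nhds

theorem Family_range_one {A : Type} [CommRing A] (μ : LF A) (M : Type) [AddCommGroup M]
    [Module A M] : μ.val (LinearMap.range (LinearMap.lsmul A M 1)) = μ.val M := by
  rw [LinearMap.range_eq_top.2 fun x => ⟨x, by simp⟩, μ.val_top]

theorem Family_lim {A : Type} [CommRing A] (P : ℕ → LF A) (γ : A) : ∃ ν : LF A, ν.Null γ ∧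
    ∀ (M : Type) [AddCommGroup M] [Module A M] (c : ℝ≥0∞),
      ((∀ n, (P n).val M ≤ c) → ν.val M ≤ c) ∧
      ((∀ n, c ≤ (P n).val (LinearMap.range (LinearMap.lsmul A M (γ ^ n)))) → c ≤ ν.val M) := by
  obtain ⟨l, lm, la, lc⟩ := Family_ulim
  let v : ℕ → ∀ (M : Type) [AddCommGroup M] [Module A M], ℝ≥0∞ := fun k M _ _ =>
    l fun n => (P n).val (LinearMap.range (LinearMap.lsmul A M (γ ^ (n / 2 ^ k))))
  have vm : ∀ (M : Type) [AddCommGroup M] [Module A M], Monotone fun k => v k M :=
    fun M _ _ k k' h => lm _ _ (.of_forall fun n => (P n).val_range_lsmul_le_of_dvd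
      (pow_dvd_pow _ (Nat.div_le_div_left (Nat.pow_le_pow_right two_pos h) (by positivity))))
  have vs : ∀ (M N : Type) [AddCommGroup M] [Module A M] [AddCommGroup N] [Module A N]
      (e : M ≃ₗ[A] N), ⨆ k, v k N ≤ ⨆ k, v k M := fun M N _ _ _ _ e =>
    iSup_mono fun k => lm _ _ (.of_forall fun n =>
      (P n).val_range_lsmul_le_of_surjective _ e.toLinearMap e.surjective)
  have v0 : ∀ (M : Type) [AddCommGroup M] [Module A M], (∀ x : M, γ • x = 0) → ⨆ k, v k M = 0 := by
    intro M _ _ h
    refine le_antisymm (iSup_le fun k => (lm _ _ ?_).trans_eq (lc 0)) zero_le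
    filter_upwards [eventually_ge_atTop (2 ^ k)] with n hn
    obtain ⟨j, hj⟩ := Nat.exists_eq_succ_of_ne_zero (Nat.div_pos hn (by positivity)).ne'
    rw [LinearMap.range_eq_bot.2 (LinearMap.ext fun x => by simp [hj, pow_succ, mul_smul, h]),
      (P n).val_bot]
  refine ⟨⟨fun M _ _ => ⨆ k, v k M, fun e => le_antisymm (vs _ _ e.symm) (vs _ _ e),
    fun {M} _ _ Q => ?_, fun M _ _ _ => v0 M fun x => Subsingleton.elim _ _⟩, v0,
    fun M _ _ c => ⟨fun h => iSup_le fun k => (lm _ _ (.of_forall fun n => ?_)).trans_eq (lc c),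
      fun h => le_iSup_of_le 0 ((lc c).symm.trans_le (lm _ _ (.of_forall fun n => ?_)))⟩⟩
  · rw [ENNReal.iSup_add_iSup_of_monotone (vm Q) (vm (M ⧸ Q))]
    refine le_antisymm (iSup_le fun k => le_iSup_of_le (k + 1) ?_) (iSup_mono fun k => ?_)
    · refine (lm _ _ (.of_forall fun n => ?_)).trans_eq (la _ _)
      refine le_trans ((P n).val_range_lsmul_le_of_dvd ?_) ((P n).val_range_lsmul_mul_le _ _ Q)
      rw [← pow_add, pow_succ, ← Nat.div_div_eq_div_mul]
      exact pow_dvd_pow _ (by omega)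
    · exact (la _ _).symm.trans_le (lm _ _ (.of_forall fun n => (P n).add_le_val_range_lsmul _ Q))
  · exact ((P n).le_of_injective _ (Submodule.injective_subtype _)).trans (h n)
  · exact (h n).trans ((P n).val_range_lsmul_le_of_dvd (by simp))

/-- The asymptotic length function of a family: `γ n ^ n` is the scale at level `n`. -/
theorem exists_lf_family (D : ℕ → Type) [∀ n, CommRing (D n)] (μ : ∀ n, LF (D n))
    (γ : ∀ n, D n) : ∃ ν : LF (∀ n, D n), ν.Null γ ∧
      ∀ (J : Ideal (∀ n, D n)) (c : ℝ≥0∞),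
        ((∀ n, (μ n).val (D n ⧸ J.map (Pi.evalRingHom D n)) ≤ c) → ν.val ((∀ n, D n) ⧸ J) ≤ c) ∧
        ((∀ n, c ≤ (μ n).val (LinearMap.range (LinearMap.lsmul (D n)
            (D n ⧸ J.map (Pi.evalRingHom D n)) (γ n ^ n)))) → c ≤ ν.val ((∀ n, D n) ⧸ J)) := by
  have key : ∀ n, ∃ P : LF (∀ n, D n), ∀ (J : Ideal (∀ n, D n)) (c : ∀ n, D n),
      P.val (LinearMap.range (LinearMap.lsmul _ ((∀ n, D n) ⧸ J) c)) =
        (μ n).val (LinearMap.range (LinearMap.lsmul (D n) (D n ⧸ J.map (Pi.evalRingHom D n))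
          (c n))) := fun n => by
    let := (Pi.evalRingHom D n).toAlgebra
    have : IsLocalization.Away (Function.update (β := D) 0 n 1) (D n) := by
      apply IsLocalization.away_of_isIdempotentElem_of_mul
      · ext j; by_cases h : j = n <;> aesop
      · intro x y
        constructor
        · intro e; ext j; by_cases h : j = n <;> aesop
        · intro e; simpa using! congr_fun e n
      · exact Function.surjective_eval _
    have := IsLocalization.flat (D n) (Submonoid.powers (Function.update (β := D) 0 n 1))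
    exact Family_bc (μ n)
  choose P hP using key
  obtain ⟨ν, h0, h⟩ := Family_lim P γ
  refine ⟨ν, h0, fun J c => ⟨fun hc => (h _ c).1 fun n => ?_, fun hc => (h _ c).2 fun n => ?_⟩⟩
  · rw [← Family_range_one, hP, Pi.one_apply, Family_range_one]
    exact hc n
  · rw [hP]
    exact hc n

theorem Family_sp_pow {B ι : Type} [CommRing B] (u : ι → B) (q : ℕ) :
    sp u ^ q = sp fun f : Fin q → ι => ∏ j, u (f j) := by
  rw [← Fin.prod_const, Ideal.prod_span]
  congr 1
  ext a
  rw [Set.mem_fintype_prod]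
  refine ⟨fun ⟨g, hg, e⟩ => ?_, fun ⟨f, e⟩ => ⟨_, fun j => ⟨f j, rfl⟩, e⟩⟩
  choose f hf using hg
  exact ⟨f, by simp only [hf, e]⟩

section pi

variable {D : ℕ → Type} [∀ n, CommRing (D n)] {ι : Type} [Fintype ι]

theorem Family_mem_sp {u : ι → ∀ n, D n} {x : ∀ n, D n} (h : ∀ n, x n ∈ sp fun i => u i n) :
    x ∈ sp u := by
  choose c hc using fun n => Ideal.mem_span_range_iff_exists_fun.1 (h n)
  exact Ideal.mem_span_range_iff_exists_fun.2
    ⟨fun i n => c n i, funext fun n => by simpa [Finset.sum_apply] using hc n⟩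

theorem Family_mem_sp_pow {u : ι → ∀ n, D n} {x : ∀ n, D n} {q : ℕ}
    (h : ∀ n, x n ∈ sp (fun i => u i n) ^ q) : x ∈ sp u ^ q := by
  rw [Family_sp_pow]
  refine Family_mem_sp fun n => ?_
  simpa only [Family_sp_pow, Finset.prod_apply] using h n

theorem Family_SL {u : ι → ∀ n, D n} {γ : ∀ n, D n} {I : Set (ι → ℕ)}
    (h : ∀ n, SL (fun i => u i n) (D n) I (γ n)) : SL u (∀ n, D n) I γ := by
  intro I' h1 h2 α hα x hx
  rw [smul_eq_mul, smul_eq_mul, Ideal.mul_top] at hx ⊢
  refine Family_mem_sp fun n => ?_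
  have h3 := Ideal.mem_map_of_mem (Pi.evalRingHom D n) hx
  rw [monI_map] at h3
  have h4 := h n I' h1 h2 α hα (x n) (by
    rw [smul_eq_mul, smul_eq_mul, Ideal.mul_top]
    simpa [mon, Finset.prod_apply] using h3)
  rwa [smul_eq_mul, smul_eq_mul, Ideal.mul_top] at h4

theorem Family_sig [LinearOrder ι] {R : ℕ → Type} [∀ n, CommRing (R n)]
    [∀ n, Algebra (R n) (D n)] {κ : Type} [Fintype κ] {g : κ → ∀ n, R n} {y : ι → ∀ n, D n}
    (h : ∀ n, HasSig (sp fun i => g i n) fun i => y i n) : HasSig (sp g) y := by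
  choose σ hσ using h
  have hk : ∀ (x : Finset ι → ∀ n, D n) (n : ℕ),
      (fun S => kd y (∀ n, D n) x S n) = kd (fun i => y i n) (D n) fun S => x S n :=
    fun x n => funext fun S => by simp [kd, Finset.sum_apply]
  refine ⟨⟨⟨fun x S n => σ n (fun S => x S n) S, fun x x' => ?_⟩, fun c x => ?_⟩, fun x => ?_⟩
  · funext S n
    exact congrFun ((σ n).map_add (fun S => x S n) fun S => x' S n) S
  · funext S n
    exact congrFun ((σ n).map_smul (c n) fun S => x S n) S
  · choose w _ hw using fun n => SL_mem_sp_smul (hσ n fun S => x S n)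
    have e : ∀ t : Finset ι → ∀ n, D n, (∀ n, (fun S => t S n) = ∑ i, g i n • w n i) →
        t ∈ (sp g • ⊤ : Submodule (∀ n, R n) (Finset ι → ∀ n, D n)) := fun t ht => by
      have : t = ∑ i, g i • fun S n => w n i S := by
        funext S n
        simpa [Finset.sum_apply] using congrFun (ht n) S
      rw [this]
      exact Submodule.sum_mem _ fun i _ =>
        Submodule.smul_mem_smul (Ideal.subset_span ⟨i, rfl⟩) Submodule.mem_top
    refine e _ fun n => ?_
    rw [← hw, ← hk x n]
    funext S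
    rw [Pi.sub_apply, Pi.sub_apply, Pi.sub_apply, congrFun (hk _ n) S]
    rfl

end pi

theorem family (m r q' a N : ℕ) (hq : 1 ≤ q') : ∃ N₀ : ℕ, 0 < N₀ ∧ ∀ ub U L : ℝ≥0,
    (∀ n, Nonempty (Level (m + 1) r q' a N N₀ n ub U L)) →
    (q' : ℝ≥0) ^ (m + 1) * Bn (m + 1) N * L ≤ U := by
  refine ⟨(m + 2) * (4 * ((m + 1) * a) + (m + 1) * q' + 3 + a * N), by positivity,
    fun ub U L h => ?_⟩
  have V := fun n => (h n).some
  obtain ⟨ν, h0, hν⟩ := exists_lf_family (fun n => (V n).D) (fun n => (V n).μ) fun n => (V n).γ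
  let z : Fin (m + 1) → ∀ n, (V n).R₀ := fun k n => (V n).z k
  let g : Fin r → ∀ n, (V n).R₀ := fun k n => (V n).mg k
  let y : Fin (m + 1) → ∀ n, (V n).D := fun k n => (V n).y k
  have H : CH z (sp g) y (fun n => (V n).γ) ν q' a
      (4 * ((m + 1) * a) + (m + 1) * q' + 3 + a * N) := by
    refine ⟨hq, h0, Family_SL fun n => (V n).hSL, fun x hx => ?_,
      fun k => Family_mem_sp fun n => (V n).hz k, Family_sig fun n => (V n).hsig,
      ne_top_of_le_ne_top ENNReal.coe_ne_top ((hν _ ub).1 fun n => ?_)⟩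
    · obtain ⟨c, rfl⟩ := Ideal.mem_span_range_iff_exists_fun.1 hx
      rw [map_sum, Finset.mul_sum]
      refine Ideal.sum_mem _ fun i _ => ?_
      rw [map_mul, mul_left_comm _ (algebraMap _ _ (c i))]
      exact Ideal.mul_mem_left _ _ (Family_mem_sp_pow fun n => (V n).hm i)
    · rw [Ideal.map_sup, sp_map, sp_map, sp_map]
      exact (V n).hub
  have h1 := H.core_amp (Nat.le_add_right _ _) N (Nat.le_add_left _ _)
  have h2 := (hν (sp y ^ N) U).1 fun n => by
    rw [Ideal.map_pow, sp_map]
    exact (V n).hU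
  have h3 := (hν (sp y ⊔ sp (zD _ z) ⊔ mD _ (sp g)) L).2 fun n => by
    rw [Ideal.map_sup, Ideal.map_sup, mD, sp_map, sp_map, sp_map, sp_map]
    exact (V n).hL
  exact_mod_cast ((mul_le_mul_right h3 _).trans h1).trans h2

end Crest.Agent.R183
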