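import Crest.Agent.R183.LVReg
import Crest.Agent.R183.Sig

/-!
# The lower bound at a level
-/

set_option autoImplicit false

open scoped ENNReal NNReal TensorProduct
open MvPolynomial

namespace Crest.Agent.R183

theorem LVLow_len_le {A E N : Type} [CommRing A] [CommRing E] [Algebra A E] [AddCommGroup N]
    [Module A N] (K : Ideal E) (g : E →ₗ[A] N) (hg : Function.Surjective g)
    (hK : ∀ x ∈ K, g x = 0) : Module.length A N ≤ Module.length A (E ⧸ K) := by
  rw [← (Submodule.Quotient.restrictScalarsEquiv A K).length_eq]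
  refine Module.length_le_of_surjective ((K.restrictScalars A).liftQ g fun x hx => hK x hx) ?_
  intro y
  obtain ⟨x, rfl⟩ := hg y
  exact ⟨Submodule.Quotient.mk x, rfl⟩

theorem LVLow_free {T E : Type} [CommRing T] [CommRing E] [Algebra T E] (win J : Ideal T)
    (hJ : win ≤ J) {ρ : ℕ} (e : E ≃ₗ[T] (Fin ρ → T ⧸ win)) :
    (ρ : ℝ≥0∞) * Module.length T (T ⧸ J) ≤ Module.length T (E ⧸ J.map (algebraMap T E)) := by
  let g : E →ₗ[T] (Fin ρ → T ⧸ J) := (Submodule.factor hJ).compLeft (Fin ρ) ∘ₗ e.toLinearMap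
  have hg : Function.Surjective g :=
    ((Submodule.factor_surjective hJ).comp_left (α := Fin ρ)).comp e.surjective
  have h := LVLow_len_le (J.map (algebraMap T E)) g hg (fun x hx => by
    have h1 : x ∈ (J • ⊤ : Submodule T E) := by
      rw [Ideal.smul_top_eq_map]
      exact hx
    refine Submodule.smul_induction_on (p := fun x => g x = 0) h1 (fun r hr y _ => ?_)
      (fun a b ha hb => by rw [map_add, ha, hb, add_zero])
    rw [map_smul]
    funext i
    exact LF.LFkill_quot_ideal le_rfl r hr _)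
  rw [Module.length_pi_of_fintype] at h
  simp only [Finset.sum_const, Finset.card_univ, Fintype.card_fin, nsmul_eq_mul] at h
  have h2 := ENat.toENNReal_le.2 h
  rwa [ENat.toENNReal_mul, ENat.toENNReal_coe] at h2

/-- `(E / K) / I ≃ E / (K + I)` -/
noncomputable def LVLow_qq {E : Type} [CommRing E] (K I : Ideal E) :
    ((E ⧸ K) ⧸ (I • ⊤ : Submodule E (E ⧸ K))) ≃ₗ[E] E ⧸ (K ⊔ I) :=
  (Submodule.quotEquivOfEq _ _ (by
    rw [← Submodule.range_mkQ K, ← Submodule.map_top, ← Submodule.map_smul'', smul_eq_mul,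
      Ideal.mul_top])).trans (Submodule.quotientQuotientEquivQuotientSup K I)

theorem LVLow_val_qq {E : Type} [CommRing E] (μ : LF E) (K I : Ideal E) :
    μ.val ((E ⧸ K) ⧸ (I • ⊤ : Submodule E (E ⧸ K))) = μ.val (E ⧸ (K ⊔ I)) :=
  μ.congr (LVLow_qq K I)

theorem LVLow_chain {E : Type} [CommRing E] (μ : LF E) {τ κ : Type} [Fintype τ] [Fintype κ]
    (hκ : 0 < Fintype.card κ) (w : τ → E) (z : κ → E) (Q N' n : ℕ) (a c γ : E)
    (hγ : γ ^ (Bn (Fintype.card κ) N' * (n + 1)) ∣ c) (KG : Ideal E)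
    (hKG : ∀ x ∈ KG, γ * x ∈ sp w ⊔ sp z) :
    μ.val (E ⧸ ((Ideal.span {a - c} ⊔ sp z ^ N') ⊔ sp (fun j => w j ^ Q))) ≤
      (Q : ℝ≥0∞) ^ Fintype.card τ * (Bn (Fintype.card κ) N' *
        μ.val (LinearMap.range (LinearMap.lsmul E (E ⧸ KG) (γ ^ n))) +
        μ.val (E ⧸ (Ideal.span {a} ⊔ (sp w ⊔ sp z ^ N')))) := by
  have h1 := val_monI_le (V := E ⧸ (Ideal.span {a - c} ⊔ sp z ^ N')) μ w
    (isUpperSet_boxGE fun _ => Q) (finite_compl_boxGE _)
  rw [monI_boxGE, ncard_compl_boxGE, LVLow_val_qq, LVLow_val_qq,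
    Finset.prod_const, Finset.card_univ, Nat.cast_pow] at h1
  refine h1.trans (mul_le_mul_right ?_ _)
  have h2 : μ.val (E ⧸ ((Ideal.span {a - c} ⊔ sp z ^ N') ⊔ sp w)) ≤
      μ.val (E ⧸ (Ideal.span {a} ⊔ (sp w ⊔ sp z ^ N'))) +
        μ.val (LinearMap.range (LinearMap.lsmul E (E ⧸ (sp w ⊔ sp z ^ N')) c)) := by
    rw [← μ.sz_top, ← μ.sz_top, μ.LFrange_lsmul_quot]
    refine (μ.sz_triangle _ (Ideal.span {a} ⊔ (sp w ⊔ sp z ^ N')) _).trans (add_le_add le_rfl ?_)
    have hle : (sp w ⊔ sp z ^ N' : Ideal E) ≤ (Ideal.span {a - c} ⊔ sp z ^ N') ⊔ sp w :=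
      sup_le le_sup_right (le_sup_of_le_left le_sup_right)
    refine le_trans ?_ (μ.sz_mono le_rfl hle)
    rw [← μ.sz_sup_left (LinearMap.range _)]
    refine μ.sz_mono (sup_le ?_ (le_sup_of_le_right hle)) le_rfl
    rw [Ideal.span_le, Set.singleton_subset_iff]
    have : a = c + (a - c) := by ring
    rw [SetLike.mem_coe, this]
    refine Submodule.add_mem_sup ⟨1, by simp⟩
      (Ideal.mem_sup_left (Ideal.mem_sup_left ?_))
    rw [← this]
    exact Ideal.mem_span_singleton_self _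
  refine h2.trans ?_
  rw [add_comm]
  refine add_le_add ?_ le_rfl
  have h3 := val_lsmul_monI_le (V := E ⧸ sp w) μ z (isUpperSet_degGE N') (finite_compl_degGE N')
    γ (n + 1)
  rw [monI_degGE, ncard_compl_degGE N' hκ] at h3
  refine (μ.val_range_lsmul_le_of_dvd hγ).trans ((μ.val_range_lsmul_le_of_surjective _
    (LVLow_qq _ _).toLinearMap (LVLow_qq _ _).surjective).trans (h3.trans
      (mul_le_mul_right ?_ _)))
  refine (μ.val_range_lsmul_le_of_surjective _ (LVLow_qq _ _).symm.toLinearMap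
    (LVLow_qq _ _).symm.surjective).trans ?_
  rw [μ.LFrange_lsmul_quot, μ.LFrange_lsmul_quot]
  have h4 : LinearMap.range (LinearMap.lsmul E E (γ ^ (n + 1))) =
      (LinearMap.range (LinearMap.lsmul E E (γ ^ n))).map (LinearMap.lsmul E E γ) := by
    rw [← LinearMap.range_comp]
    congr 1
    ext
    simp [pow_succ']
  rw [h4, μ.sz_map_eq]
  exact μ.sz_mono le_rfl fun x hx => hKG x hx

theorem LVLow_sup_pow {E : Type} [CommRing E] (I J : Ideal E) (n : ℕ) :
    (I ⊔ J) ^ n ≤ I ⊔ J ^ n := by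
  induction n with
  | zero => simp
  | succ n ih =>
    rw [pow_succ, pow_succ]
    refine (Ideal.mul_mono_left ih).trans ?_
    rw [Ideal.sup_mul, Ideal.mul_sup, Ideal.mul_sup]
    exact sup_le (sup_le (le_sup_of_le_left Ideal.mul_le_left) (le_sup_of_le_left Ideal.mul_le_left))
      (sup_le (le_sup_of_le_left Ideal.mul_le_right) le_sup_right)

theorem LVLow_gen {A T E : Type} [CommRing A] [CommRing T] [CommRing E] [Algebra A T]
    [Algebra T E] [Algebra A E] [IsScalarTower A T E] (𝔪 : Ideal A) [𝔪.IsMaximal] (𝔫 : Ideal T)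
    [𝔫.IsMaximal] (hs : ∀ t : T, ∃ a : A, t - algebraMap A T a ∈ 𝔫)
    (hE : ∃ c : ℕ, ∀ t ∈ 𝔫 ^ c, algebraMap T E t = 0) (hm : 𝔪.map (algebraMap A T) ≤ 𝔫)
    (K K₀ : Ideal E) (hK : K₀ ≤ K ⊔ 𝔪.map (algebraMap A E)) (J : Ideal A)
    (hJ : ∀ a ∈ J, algebraMap A E a ∈ K) (hfin : Module.length T (E ⧸ K₀) ≠ ⊤) :
    (Module.length T (E ⧸ K) : ℝ≥0∞) ≤ Module.length T (E ⧸ K₀) * Module.length A (A ⧸ J) := by
  obtain ⟨c, hc⟩ := hE
  have hkill : ∀ (K' : Ideal E), ∀ a ∈ 𝔫 ^ c, ∀ x : E ⧸ K', a • x = 0 := fun K' a ha x => by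
    rw [← algebraMap_smul E a x, hc a ha, zero_smul]
  obtain ⟨r, hr⟩ := ENat.ne_top_iff_exists.1 hfin
  have h1 : Module.length A ((E ⧸ K) ⧸ (𝔪 • ⊤ : Submodule A (E ⧸ K))) ≤ r := by
    rw [hr, ← length_eq_of_residue_surj 𝔫 hs (E ⧸ K₀) ⟨c, hkill K₀⟩]
    refine LVLow_len_le K₀ ((𝔪 • ⊤ : Submodule A (E ⧸ K)).mkQ ∘ₗ
      (Ideal.Quotient.mkₐ A K).toLinearMap)
      ((Submodule.mkQ_surjective _).comp Ideal.Quotient.mk_surjective) fun x hx => ?_
    obtain ⟨k, hk, m, hm', rfl⟩ := Submodule.mem_sup.1 (hK hx)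
    rw [LinearMap.comp_apply, Submodule.mkQ_apply, Submodule.Quotient.mk_eq_zero, map_add]
    refine Submodule.add_mem _ ?_ (sig_map_mem _ ?_)
    · have : (Ideal.Quotient.mkₐ A K).toLinearMap k = 0 := Ideal.Quotient.eq_zero_iff_mem.2 hk
      rw [this]
      exact Submodule.zero_mem _
    · rw [Ideal.smul_top_eq_map]
      exact hm'
  obtain ⟨v, hv⟩ := exists_span_of_length_le 𝔪 (E ⧸ K) ⟨c, fun a ha x => by
    rw [← algebraMap_smul T a x]
    refine hkill K _ (Ideal.pow_right_mono hm c ?_) x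
    rw [← Ideal.map_pow]
    exact Ideal.mem_map_of_mem _ ha⟩ h1
  have h2 := (LF.length A).val_le_of_span J v hv fun a ha x => by
    rw [← algebraMap_smul E a x]
    exact LF.LFkill_quot_ideal le_rfl _ (hJ a ha) x
  rw [LF.length_val, LF.length_val, length_eq_of_residue_surj 𝔫 hs (E ⧸ K) ⟨c, hkill K⟩] at h2
  rw [← hr, ENat.toENNReal_coe]
  exact h2

theorem LVLow_tensor {T S G G' D : Type} [CommRing T] [CommRing S] [CommRing G] [CommRing D]
    [AddCommGroup G'] [Module T G'] [Algebra T S] [Algebra T G] (μ : LF S) (𝔫 : Ideal T)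
    [𝔫.IsMaximal] (P : Ideal T) (IF : Ideal S) (hF : FlatMod P (S ⧸ IF))
    (hP : ∀ π ∈ P, ∀ x : G, π • x = 0) (hG : ∃ c : ℕ, ∀ a ∈ 𝔫 ^ c, ∀ x : G, a • x = 0)
    (hlen : Module.length T G ≠ ⊤) (h0 : 1 ≤ μ.val (S ⧸ (IF ⊔ 𝔫.map (algebraMap T S))))
    (ι : S →+* D) (φ : D →+* (S ⧸ IF) ⊗[T] G) (hφ : Function.Surjective φ)
    (hι : ∀ s, φ (ι s) = Ideal.Quotient.mk IF s ⊗ₜ 1) (I : Ideal D) (hI : ∀ x ∈ I, φ x = 0)
    (g : D) (γ : G) (hg : φ g = 1 ⊗ₜ γ) (j : G' →ₗ[T] G) (hj : Function.Injective j)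
    (hjγ : ∀ x, γ ∣ j x) :
    (Module.length T G' : ℝ≥0∞) ≤
      (μ.comap ι).val (LinearMap.range (LinearMap.lsmul D (D ⧸ I) g)) := by
  obtain ⟨c, hc⟩ := hG
  have h1 := μ.val_tensor_eq 𝔫 P (S ⧸ IF) hF G'
    (fun π hπ x => hj (by rw [map_smul, hP π hπ, map_zero]))
    ⟨c, fun a ha x => hj (by rw [map_smul, hc a ha, map_zero])⟩
    (ne_top_of_le_ne_top hlen (Module.length_le_of_injective j hj))
  rw [LVLow_val_qq] at h1
  refine le_trans (le_mul_of_one_le_right' h0) (h1.symm.le.trans ?_)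
  let _ : Module S (LinearMap.range (LinearMap.lsmul D (D ⧸ I) g)) := Module.compHom _ ι
  rw [μ.comap_val ι _ fun _ _ => rfl]
  let ψ : LinearMap.range (LinearMap.lsmul D (D ⧸ I) g) →ₗ[S] (S ⧸ IF) ⊗[T] G :=
    { toFun := fun x => Ideal.Quotient.lift I φ hI x.1
      map_add' := fun x y => by rw [Submodule.coe_add, map_add]
      map_smul' := fun s x => by
        change Ideal.Quotient.lift I φ hI (Ideal.Quotient.mk I (ι s) * x.1) = _
        rw [map_mul, Ideal.Quotient.lift_mk, hι, RingHom.id_apply]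
        generalize Ideal.Quotient.lift I φ hI x.1 = r
        induction r with
        | zero => rw [mul_zero, smul_zero]
        | add a b ha hb => rw [mul_add, smul_add, ha, hb]
        | tmul a b =>
          rw [Algebra.TensorProduct.tmul_mul_tmul, one_mul, TensorProduct.smul_tmul']
          rfl }
  let L := TensorProduct.AlgebraTensorModule.lTensor S (S ⧸ IF) j
  have hL : Function.Injective L := hF _ _ j hP hj
  refine le_trans (μ.le_of_injective L.rangeRestrict ((LinearMap.injective_rangeRestrict_iff L).2 hL))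
    (le_trans (μ.val_mono ?_) (μ.LFval_range_le ψ))
  rintro _ ⟨x, rfl⟩
  induction x with
  | zero => rw [map_zero]; exact Submodule.zero_mem _
  | add x y hx hy => rw [map_add]; exact Submodule.add_mem _ hx hy
  | tmul f x =>
    obtain ⟨y, hy⟩ := hjγ x
    obtain ⟨u, hu⟩ := hφ (f ⊗ₜ y)
    refine ⟨⟨g • Ideal.Quotient.mk I u, Ideal.Quotient.mk I u, rfl⟩, ?_⟩
    change Ideal.Quotient.lift I φ hI (Ideal.Quotient.mk I g * Ideal.Quotient.mk I u) = f ⊗ₜ j x
    rw [map_mul, Ideal.Quotient.lift_mk, Ideal.Quotient.lift_mk, hg, hu, hy,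
      Algebra.TensorProduct.tmul_mul_tmul, one_mul]

variable {d : ℕ} {p : Par} {A : Type} [CommRing A] {x' : Fin d → A} {b n N₀ q' : ℕ}

/-- the ideal `(z, mg, w, P)` of `E` -/
noncomputable def LVLow_KG {m : ℕ} (W : WD d p A x' b) (V : Cover W.toTD m N₀ q') : Ideal V.E :=
  (sp (fun k => algebraMap (TT d p.s A) V.E (zz d p.s A k)) ⊔
    sp (fun i => algebraMap (TT d p.s A) V.E (W.mg i))) ⊔ CbI W V

theorem LVLow_kill {m : ℕ} {W : TD d p A x' b} (V : Cover W m N₀ q') :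
    ∃ c : ℕ, ∀ t ∈ sp (sig p.s x') ^ c, algebraMap (TT d p.s A) V.E t = 0 := by
  obtain ⟨c, hc⟩ := sp_sig_pow_le_win (x' := x') p.s b
  exact ⟨c, fun t ht => V.win_eq_zero t (hc ht)⟩

theorem LVLow_kill' {m : ℕ} {W : TD d p A x' b} (V : Cover W m N₀ q') (K : Ideal V.E) :
    ∃ c : ℕ, ∀ t ∈ sp (sig p.s x') ^ c, ∀ x : V.E ⧸ K, t • x = 0 := by
  obtain ⟨c, hc⟩ := LVLow_kill V
  exact ⟨c, fun a ha x => by rw [← algebraMap_smul V.E a x, hc a ha, zero_smul]⟩

theorem LVLow_fin {m : ℕ} {W : TD d p A x' b} (V : Cover W m N₀ q') (hmax : (sp x').IsMaximal)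
    (K : Ideal V.E) : Module.length (TT d p.s A) (V.E ⧸ K) ≠ ⊤ := by
  have := isMaximal_sp_sig p.s hmax
  have := V.finite
  have : Module.Finite (TT d p.s A) (V.E ⧸ K) :=
    Module.Finite.of_surjective (Ideal.Quotient.mkₐ (TT d p.s A) K).toLinearMap
      Ideal.Quotient.mk_surjective
  exact length_ne_top_of_pow (sp (sig p.s x')) (Submodule.fg_span (Set.finite_range _)) _
    (LVLow_kill' V K)

theorem LVLow_five {m : ℕ} (W : WD d p A x' b) (V : Cover W.toTD m N₀ q')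
    (hmax : (sp x').IsMaximal) :
    (Module.length (TT d p.s A) (LinearMap.range
      (LinearMap.lsmul V.E (V.E ⧸ LVLow_KG W V) (V.γ ^ n))) : ℝ≥0∞) ≤
      (lamD W V).val (LinearMap.range (LinearMap.lsmul (DD W V)
        (DD W V ⧸ (sp (yD W V) ⊔
          sp (fun k => algebraMap (TT d p.s A) (DD W V) (zz d p.s A k)) ⊔
          sp (fun i => algebraMap (TT d p.s A) (DD W V) (W.mg i)))) (gD W V ^ n))) := by
  have := isMaximal_sp_sig p.s hmax
  let πG : Cb W V →ₐ[TT d p.s A] V.E ⧸ LVLow_KG W V :=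
    Ideal.Quotient.factorₐ (TT d p.s A) (le_sup_right : CbI W V ≤ LVLow_KG W V)
  have hπG : Function.Surjective πG :=
    Ideal.Quotient.factor_surjective (le_sup_right : CbI W V ≤ LVLow_KG W V)
  have hπG' : πG (Cb.mk W V V.γ) = Ideal.Quotient.mk _ V.γ := rfl
  let IF : Ideal W.S := sp W.y ⊔ (sp W.mg).map (algebraMap (TT d p.s A) W.S)
  let φ₁ : Cb W V ⊗[TT d p.s A] W.S →ₐ[TT d p.s A]
      (W.S ⧸ IF) ⊗[TT d p.s A] (V.E ⧸ LVLow_KG W V) :=
    (Algebra.TensorProduct.comm (TT d p.s A) _ _).toAlgHom.comp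
      (Algebra.TensorProduct.map πG (Ideal.Quotient.mkₐ (TT d p.s A) IF))
  have hφ₁ : ∀ c s, φ₁ (c ⊗ₜ s) = Ideal.Quotient.mk IF s ⊗ₜ πG c := fun c s => rfl
  have hφ₁s : Function.Surjective φ₁ :=
    (Algebra.TensorProduct.comm (TT d p.s A) _ _).surjective.comp
      (Algebra.TensorProduct.map_surjective _ _ hπG Ideal.Quotient.mk_surjective)
  let φ : DD W V →ₐ[TT d p.s A] (W.S ⧸ IF) ⊗[TT d p.s A] (V.E ⧸ LVLow_KG W V) :=
    φ₁.comp ((DD.equiv W V).toAlgHom.restrictScalars (TT d p.s A))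
  have hι : ∀ s, φ (DD.inr W V s) = Ideal.Quotient.mk IF s ⊗ₜ 1 := fun s => by
    rw [← map_one πG, ← hφ₁]
    rfl
  have hT : ∀ t : TT d p.s A, algebraMap _ V.E t ∈ LVLow_KG W V →
      φ (algebraMap _ (DD W V) t) = 0 := fun t ht => by
    rw [AlgHom.commutes, Algebra.TensorProduct.algebraMap_apply',
      IsScalarTower.algebraMap_apply _ V.E (V.E ⧸ LVLow_KG W V), Ideal.Quotient.algebraMap_eq,
      Ideal.Quotient.eq_zero_iff_mem.2 ht, TensorProduct.tmul_zero]
  refine LVLow_tensor W.μ (sp (sig p.s x')) (W.P ⊔ sp W.mg) IF (W.hsig.flatMod W.flat) ?_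
    (LVLow_kill' V _) (LVLow_fin V hmax _) ?_ (DD.inr W V).toRingHom φ.toRingHom
    (hφ₁s.comp (DD.equiv W V).surjective) hι _ ?_ (gD W V ^ n) (Ideal.Quotient.mk _ (V.γ ^ n)) ?_
    ((LinearMap.range (LinearMap.lsmul V.E (V.E ⧸ LVLow_KG W V) (V.γ ^ n))).subtype.restrictScalars
      (TT d p.s A)) Subtype.val_injective ?_
  · intro π hπ x
    rw [← algebraMap_smul V.E π x]
    refine LF.LFkill_quot_ideal le_rfl _ ?_ x
    have h1 : (W.P ⊔ sp W.mg).map (algebraMap (TT d p.s A) V.E) ≤ LVLow_KG W V := by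
      rw [Ideal.map_sup, sp_map]
      exact sup_le (le_sup_of_le_right le_sup_right) (le_sup_of_le_left le_sup_right)
    exact h1 (Ideal.mem_map_of_mem _ hπ)
  · refine W.b0.trans (W.μ.quot_anti ?_)
    rw [Ideal.map_sup, ← sup_assoc]
  · have h1 : sp (yD W V) ⊔
          sp (fun k => algebraMap (TT d p.s A) (DD W V) (zz d p.s A k)) ⊔
          sp (fun i => algebraMap (TT d p.s A) (DD W V) (W.mg i)) ≤ RingHom.ker φ.toRingHom := by
      refine sup_le (sup_le ?_ ?_) ?_ <;> rw [Ideal.span_le] <;> rintro _ ⟨i, rfl⟩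
      · change φ (DD.inr W V (W.y i)) = 0
        rw [hι, Ideal.Quotient.eq_zero_iff_mem.2
          (Ideal.mem_sup_left (Ideal.subset_span (Set.mem_range_self i))), TensorProduct.zero_tmul]
      · exact hT _ (Ideal.mem_sup_left (Ideal.mem_sup_left (Ideal.subset_span ⟨i, rfl⟩)))
      · exact hT _ (Ideal.mem_sup_left (Ideal.mem_sup_right (Ideal.subset_span ⟨i, rfl⟩)))
    exact fun x hx => h1 hx
  · have h1 : φ (gD W V) = 1 ⊗ₜ Ideal.Quotient.mk _ V.γ := by
      rw [← hπG', ← map_one (Ideal.Quotient.mk IF), ← hφ₁]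
      rfl
    change φ (gD W V ^ n) = _
    rw [map_pow, h1, Algebra.TensorProduct.tmul_pow, one_pow, map_pow]
  · rintro ⟨_, x, rfl⟩
    exact ⟨x, rfl⟩

theorem LVLow_two {m : ℕ} (W : WD d p A x' b) (V : Cover W.toTD m N₀ q') (hqr : QR x' A)
    (hmax : (sp x').IsMaximal) (hb : 2 * p.a ≤ b) :
    (V.Q : ℝ≥0∞) ^ (d + p.s) * Module.length (TT d p.s A) (V.E ⧸
      (Ideal.span {algebraMap (TT d p.s A) V.E (C W.w')} ⊔ (sp V.w ⊔
        sp (fun k => algebraMap (TT d p.s A) V.E (zz d p.s A k)) ^ p.N'))) ≤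
      V.ρ * p.Δ * p.v2 := by
  have := isMaximal_sp_sig p.s hmax
  let _ : Algebra A V.E := ((algebraMap (TT d p.s A) V.E).comp (algebraMap A _)).toAlgebra
  have : IsScalarTower A (TT d p.s A) V.E := IsScalarTower.of_algebraMap_eq fun _ => rfl
  have hAE : ∀ a : A, algebraMap A V.E a = algebraMap (TT d p.s A) V.E (C a) := fun _ => rfl
  have h1 := LVLow_gen (sp x') (sp (sig p.s x')) (exists_sub_C_mem_sp_sig p.s) (LVLow_kill V)
    (by
      rw [sp_map, Ideal.span_le]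
      rintro _ ⟨i, rfl⟩
      exact Ideal.subset_span ⟨Sum.inl i, rfl⟩)
    (Ideal.span {algebraMap (TT d p.s A) V.E (C W.w')} ⊔ (sp V.w ⊔
        sp (fun k => algebraMap (TT d p.s A) V.E (zz d p.s A k)) ^ p.N'))
    (sp (fun k => algebraMap (TT d p.s A) V.E (C (x' k))) ⊔ sp V.w)
    (by
      rw [sp_map]
      exact sup_le le_sup_right (le_sup_of_le_left (le_sup_of_le_right le_sup_left)))
    (Ideal.span {W.w'} ⊔ sp (fun k => x' k ^ (p.a * p.N'))) (by
      intro a ha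
      rw [← Ideal.mem_comap]
      refine (sup_le ?_ ?_ : _ ≤ Ideal.comap (algebraMap A V.E) _) ha <;> rw [Ideal.span_le]
      · rintro _ rfl
        exact Ideal.mem_sup_left (Ideal.mem_span_singleton_self _)
      · rintro _ ⟨k, rfl⟩
        refine Ideal.mem_sup_right ?_
        have h2 : algebraMap A V.E (x' k) ^ p.a ∈
            sp V.w ⊔ sp (fun k => algebraMap (TT d p.s A) V.E (zz d p.s A k)) := by
          have h3 := Ideal.mem_map_of_mem (algebraMap (TT d p.s A) V.E) (W.hz (Sum.inl k))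
          rw [map_pow, Ideal.map_sup, Ideal.map_sup, sp_map, sp_map] at h3
          refine SetLike.le_def.1 (sup_le (sup_le le_sup_right (le_sup_of_le_left ?_)) ?_) h3
          · rw [Ideal.span_le]
            rintro _ ⟨j, rfl⟩
            change algebraMap _ V.E (W.H j) ∈ _
            rw [← V.hw]
            exact Ideal.pow_mem_of_mem _ (Ideal.subset_span (Set.mem_range_self j)) _ V.hQ
          · rw [Ideal.map_le_iff_le_comap]
            intro t ht
            rw [Ideal.mem_comap, V.win_eq_zero t ht]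
            exact Ideal.zero_mem _
        change algebraMap A V.E (x' k ^ (p.a * p.N')) ∈ _
        rw [map_pow, pow_mul]
        exact LVLow_sup_pow _ _ _ (Ideal.pow_mem_pow h2 _))
    (LVLow_fin V hmax _)
  have h2 := ENat.toENNReal_le.2 ((V.length_le hqr hb).trans (mul_le_mul_right W.hΔ _))
  simp only [ENat.toENNReal_mul, ENat.toENNReal_pow, ENat.toENNReal_coe] at h2
  refine (mul_le_mul_right h1 _).trans ?_
  rw [← mul_assoc]
  exact mul_le_mul' h2 W.hv2

theorem level_lower (hd : 0 < d) (W : WD d p A x' b)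
    (V : Cover W.toTD (Bn d p.N' * (n + 1)) N₀ q') (hqr : QR x' A)
    (hmax : (sp x').IsMaximal) (hb : 2 * p.a ≤ b) (hN₀ : 0 < N₀) (hq' : 0 < q') :
    V.ρ * (p.v1 : ℝ≥0∞) ≤ (V.Q : ℝ≥0∞) ^ (d + p.s) * Bn d p.N' *
      (lamD W V).val (LinearMap.range (LinearMap.lsmul (DD W V)
        (DD W V ⧸ (sp (yD W V) ⊔
          sp (fun k => algebraMap (TT d p.s A) (DD W V) (zz d p.s A k)) ⊔
          sp (fun i => algebraMap (TT d p.s A) (DD W V) (W.mg i)))) (gD W V ^ n))) +
      V.ρ * p.Δ * p.v2 := by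
  obtain ⟨e⟩ := V.free
  have h1 := (mul_le_mul_right W.hv1 (V.ρ : ℝ≥0∞)).trans (LVLow_free _ _ le_sup_right e)
  have h2 := LVLow_chain ((LF.length (TT d p.s A)).comap (algebraMap (TT d p.s A) V.E))
    (κ := Fin d) (by simpa using hd) V.w (fun k => algebraMap (TT d p.s A) V.E (zz d p.s A k))
    V.Q p.N' n (algebraMap (TT d p.s A) V.E (C W.w')) (algebraMap (TT d p.s A) V.E W.c) V.γ
    (by simpa using V.hγ) (LVLow_KG W V) (by
      intro x hx
      have h3 : LVLow_KG W V ≤ Submodule.comap (LinearMap.lsmul V.E V.E V.γ)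
          (sp V.w ⊔ sp (fun k => algebraMap (TT d p.s A) V.E (zz d p.s A k))) := by
        refine sup_le (sup_le ?_ ?_) (sup_le ?_ ?_)
        · exact fun y hy => Ideal.mem_sup_right (Ideal.mul_mem_left _ _ hy)
        · rw [Ideal.span_le]
          rintro _ ⟨i, rfl⟩
          exact SetLike.le_def.1 (sup_le (le_sup_of_le_right (Ideal.pow_le_self hq'.ne'))
            le_sup_left) (V.hmg i)
        · exact fun y hy => Ideal.mem_sup_left (Ideal.mul_mem_left _ _ hy)
        · rw [Ideal.map_le_iff_le_comap]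
          intro π hπ
          exact SetLike.le_def.1 (sup_le (le_sup_of_le_right (Ideal.pow_le_self hN₀.ne'))
            le_sup_left) (V.hP π hπ)
      exact h3 hx)
  rw [LF.comap_algebraMap_val, LF.comap_algebraMap_val, LF.comap_algebraMap_val, LF.length_val,
    LF.length_val, LF.length_val, Fintype.card_sum, Fintype.card_fin, Fintype.card_fin,
    mul_add ((V.Q : ℝ≥0∞) ^ _), ← mul_assoc] at h2
  refine h1.trans (le_trans ?_ (h2.trans (add_le_add
    (mul_le_mul_right (LVLow_five W V hmax) _) (LVLow_two W V hqr hmax hb))))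
  refine ENat.toENNReal_le.2 (LVLow_len_le _ (Ideal.Quotient.mkₐ (TT d p.s A) _).toLinearMap
    Ideal.Quotient.mk_surjective fun x hx => Ideal.Quotient.eq_zero_iff_mem.2
      (SetLike.le_def.1 ?_ hx))
  rw [Ideal.map_sup, Ideal.map_sup, Ideal.map_sup, sp_map, Ideal.map_pow, sp_map, Ideal.map_span,
    Set.image_singleton, map_sub]
  refine sup_le (sup_le (le_sup_of_le_left (le_sup_of_le_left le_sup_right))
    (le_sup_of_le_left le_sup_right)) (le_sup_of_le_left (le_sup_of_le_left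
      (le_sup_of_le_left (le_of_eq ?_))))
  simp only [V.hw]

end Crest.Agent.R183
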