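import Crest.Agent.R183.SpecAux2
import Crest.Agent.R183.WDefs

/-!
# Specialization, part 3: the concrete rings
-/

set_option autoImplicit false

open MvPolynomial

namespace Crest.Agent.R183

theorem specSpMap {R R' ι : Type} [CommRing R] [CommRing R'] (φ : R →+* R') (u : ι → R) :
    (sp u).map φ = sp (fun j => φ (u j)) := by
  rw [sp, Ideal.map_span, ← Set.range_comp]
  rfl

theorem specSingleMap {R R' : Type} [CommRing R] [CommRing R'] (φ : R →+* R') (u : R) :
    (Ideal.span {u}).map φ = Ideal.span {φ u} := by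
  rw [Ideal.map_span, Set.image_singleton]

theorem SpecPO.map_map {T T' S S' : Type} [CommRing T] [CommRing T'] [CommRing S] [CommRing S']
    {φ : T →+* T'} {b : T →+* S} {b' : T' →+* S'} {ψ : S →+* S'} (h : SpecPO φ b b' ψ)
    (I : Ideal T) : (I.map b).map ψ = (I.map φ).map b' := by
  rw [Ideal.map_map, Ideal.map_map]
  congr 1
  ext c
  exact h.comm c

theorem specGenLengthT {L T ι : Type} [CommRing L] [IsDomain L] [CommRing T]
    [Finite ι] (a : L →+* T) (σ : ι → T)
    (hgen : Subring.closure (Set.range a ∪ Set.range σ) = ⊤) (J : Ideal T)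
    (hnil : ∀ j, ∃ n, σ j ^ n ∈ J) :
    ∃ r : ℕ∞, SpecGen L (fun K _ i => ∀ (T' : Type) [CommRing T']
      (k : K →+* T') (φ : T →+* T'), SpecPO i a k φ → ∀ J' : Ideal T', J' = J.map φ →
      Module.length T' (T' ⧸ J') = r) := by
  obtain ⟨r, h⟩ := specGenLength a σ hgen (RingHom.id T) J
    (RingHom.Finite.of_surjective _ Ideal.Quotient.mk_surjective) hnil
  exact ⟨r, h.mono fun K _ i h T' _ k φ h1 J' hJ => h T' T' k φ φ h1 (SpecPO.id φ) J' hJ⟩

theorem specGenLengthS {L T S ι : Type} [CommRing L] [IsDomain L] [CommRing T] [CommRing S]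
    [Algebra T S] [Module.Finite T S] [Finite ι] (a : L →+* T) (σ : ι → T)
    (hgen : Subring.closure (Set.range a ∪ Set.range σ) = ⊤)
    (hnil : ∀ j, IsNilpotent (algebraMap T S (σ j))) (J : Ideal S) :
    ∃ r : ℕ∞, SpecGen L (fun K _ i => ∀ (T' S' : Type) [CommRing T'] [CommRing S']
      [Algebra T' S'] (k : K →+* T') (φ : T →+* T') (ψ : S →+* S'), SpecPO i a k φ →
      SpecPO φ (algebraMap T S) (algebraMap T' S') ψ → ∀ J' : Ideal S', J' = J.map ψ →
      Module.length T' (S' ⧸ J') = r) :=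
  specGenLength a σ hgen (algebraMap T S) J
    ((RingHom.Finite.of_surjective _ Ideal.Quotient.mk_surjective).comp
      (RingHom.finite_algebraMap.2 inferInstance)) fun j => by
    obtain ⟨n, hn⟩ := hnil j
    exact ⟨n, hn ▸ J.zero_mem⟩

theorem specGenLengthX {L T S ι τ : Type} [CommRing L] [IsDomain L] [CommRing T] [CommRing S]
    [Algebra T S] [Module.Finite T S] [Finite ι] [Finite τ] (a : L →+* T) (σ : ι → T)
    (hgen : Subring.closure (Set.range a ∪ Set.range σ) = ⊤)
    (hnil : ∀ j, IsNilpotent (algebraMap T S (σ j))) (J : Ideal (MvPolynomial τ S))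
    (hJ : ∀ j, ∃ n, (X j : MvPolynomial τ S) ^ n ∈ J) :
    ∃ r : ℕ∞, SpecGen L (fun K _ i => ∀ (T' S' : Type) [CommRing T'] [CommRing S']
      [Algebra T' S'] (k : K →+* T') (φ : T →+* T') (ψ : S →+* S'), SpecPO i a k φ →
      SpecPO φ (algebraMap T S) (algebraMap T' S') ψ → ∀ J' : Ideal (MvPolynomial τ S'),
      J' = J.map (MvPolynomial.map ψ) → Module.length T' (MvPolynomial τ S' ⧸ J') = r) := by
  have h1 : ((Ideal.Quotient.mk J).comp (C : S →+* MvPolynomial τ S)).Finite :=
    specFinite _ X (specGenMv τ S) _ (RingHom.Finite.of_surjective _ Ideal.Quotient.mk_surjective)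
      fun j => by
        obtain ⟨n, hn⟩ := hJ j
        exact ⟨n, by rw [← map_pow, Ideal.Quotient.eq_zero_iff_mem]; exact hn⟩
  obtain ⟨r, h⟩ := specGenLength a σ hgen ((C : S →+* MvPolynomial τ S).comp (algebraMap T S)) J
    (h1.comp (RingHom.finite_algebraMap.2 inferInstance)) fun j => by
      obtain ⟨n, hn⟩ := hnil j
      exact ⟨n, by rw [RingHom.comp_apply, ← map_pow, hn, map_zero]; exact J.zero_mem⟩
  exact ⟨r, h.mono fun K _ i h T' S' _ _ _ k φ ψ h1 h2 J' hJ =>
    h T' (MvPolynomial τ S') k φ (MvPolynomial.map ψ) h1 (h2.paste (SpecPO.mv τ ψ)) J' hJ⟩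

section concrete

variable (d s : ℕ) {L K : Type} [CommRing L] [CommRing K]

/-- The base change map on `T`. -/
noncomputable def specφ (i : L →+* K) :
    TT d s (MvPolynomial (Fin d) L) →+* TT d s (MvPolynomial (Fin d) K) :=
  MvPolynomial.map (MvPolynomial.map i)

variable (K) in
/-- The constants of `T`. -/
noncomputable def speck : K →+* TT d s (MvPolynomial (Fin d) K) :=
  (C : MvPolynomial (Fin d) K →+* TT d s (MvPolynomial (Fin d) K)).comp C

theorem specPO_T (i : L →+* K) : SpecPO i (speck d s L) (speck d s K) (specφ d s i) :=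
  (SpecPO.mv _ i).paste (SpecPO.mv _ (MvPolynomial.map i))

variable {d s}

theorem specφ_C (i : L →+* K) (a : MvPolynomial (Fin d) L) :
    specφ d s i (C a) = C (MvPolynomial.map i a) := MvPolynomial.map_C _ _

theorem specφ_X (i : L →+* K) (j : Tau d s) : specφ d s i (X j) = X j := MvPolynomial.map_X _ _

theorem specφ_CX (i : L →+* K) (k : Fin d) : specφ d s i (C (X k)) = C (X k) := by
  rw [specφ_C, MvPolynomial.map_X]

theorem specφ_zz (i : L →+* K) (k : Fin d) :
    specφ d s i (zz d s _ k) = zz d s _ k := specφ_X _ _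

theorem specφ_sig (i : L →+* K) (j : Fin d ⊕ Tau d s) :
    specφ d s i (sig s X j) = sig s X j := by
  cases j with
  | inl k => exact specφ_CX i k
  | inr j => exact specφ_X i j

theorem specφ_win (i : L →+* K) (b : ℕ) : (win s X b).map (specφ d s i) = win s X b := by
  simp only [win, specSpMap, map_pow, specφ_sig]

theorem specφ_aeval (i : L →+* K)
    (ε : MvPolynomial (Tau d s) (TT d s (MvPolynomial (Fin d) L))) :
    specφ d s i (aeval (fun j => (X j : TT d s (MvPolynomial (Fin d) L))) ε) =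
      aeval (fun j => (X j : TT d s (MvPolynomial (Fin d) K)))
        (MvPolynomial.map (specφ d s i) ε) := by
  induction ε using MvPolynomial.induction_on with
  | C c => simp
  | add p q hp hq => simp only [map_add, hp, hq]
  | mul_X p j hp => simp only [map_mul, hp, MvPolynomial.map_X, aeval_X, specφ_X]

variable (d s K) in
theorem specGenT : Subring.closure (Set.range (speck d s K) ∪
    Set.range (sig s (X : Fin d → MvPolynomial (Fin d) K))) = ⊤ := by
  rw [eq_top_iff, ← specGenMv (Tau d s) (MvPolynomial (Fin d) K), Subring.closure_le]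
  rintro _ (⟨a, rfl⟩ | ⟨j, rfl⟩)
  · have h1 : Subring.closure (Set.range (C : K →+* MvPolynomial (Fin d) K) ∪
        Set.range (X : Fin d → MvPolynomial (Fin d) K)) ≤
        (Subring.closure (Set.range (speck d s K) ∪
          Set.range (sig s (X : Fin d → MvPolynomial (Fin d) K)))).comap C := by
      rw [Subring.closure_le]
      rintro _ (⟨c, rfl⟩ | ⟨k, rfl⟩)
      · exact Subring.subset_closure (Or.inl ⟨c, rfl⟩)
      · exact Subring.subset_closure (Or.inr ⟨Sum.inl k, rfl⟩)
    exact h1 (specGenMv (Fin d) K ▸ Subring.mem_top a)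
  · exact Subring.subset_closure (Or.inr ⟨Sum.inr j, rfl⟩)

theorem specSigWin (b : ℕ) (j : Fin d ⊕ Tau d s) :
    sig s (X : Fin d → MvPolynomial (Fin d) K) j ^ b ∈ win s X b :=
  Ideal.subset_span ⟨j, rfl⟩

end concrete

theorem specExistsL (l : Type) [Field l] {d s : ℕ} (Z : Set (TT d s (MvPolynomial (Fin d) l)))
    (hZ : Z.Finite) : ∃ (L : Type) (_ : CommRing L) (_ : IsDomain L) (_ : Algebra.FiniteType ℤ L)
      (i : L →+* l), Function.Injective i ∧ ∀ t ∈ Z, ∃ t₀, specφ d s i t₀ = t := by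
  classical
  let Y : Set l := ⋃ t ∈ Z, ⋃ a ∈ t.coeffs, (a.coeffs : Set l)
  have hY : Y.Finite := hZ.biUnion fun t _ =>
    (Finset.finite_toSet t.coeffs).biUnion fun a _ => Finset.finite_toSet _
  have h1 : Algebra.FiniteType ℤ (Algebra.adjoin ℤ Y) := .adjoin_of_finite hY
  refine ⟨Algebra.adjoin ℤ Y, inferInstance, inferInstance, by convert h1,
    (Algebra.adjoin ℤ Y).val.toRingHom, Subtype.val_injective, fun t ht => ?_⟩
  refine MvPolynomial.mem_range_map_iff_coeffs_subset.2 fun a ha => ?_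
  refine MvPolynomial.mem_range_map_iff_coeffs_subset.2 fun c hc => ?_
  exact ⟨⟨c, Algebra.subset_adjoin (Set.mem_biUnion ht (Set.mem_biUnion ha hc))⟩, rfl⟩

end Crest.Agent.R183
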