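import Crest.Agent.R183.WDefs
import Crest.Agent.R183.Sig
import Crest.Agent.R183.SL
import Crest.Agent.R183.SpecAux3

/-!
# Specialization of finite window data to a finite field
-/

set_option autoImplicit false

open scoped ENNReal
open MvPolynomial TensorProduct

namespace Crest.Agent.R183

section core

variable {L l : Type} [CommRing L] [IsDomain L] [Field l] {d : ℕ} {p : Par} {b : ℕ}

/-- The part of the window data in `T` specializes. -/
theorem specTD [IsNoetherianRing L] {i : L →+* l} (hi : Function.Injective i)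
    (W : TD d p (MvPolynomial (Fin d) l) X b)
    (H : Tau d p.s → TT d p.s (MvPolynomial (Fin d) L)) (c : TT d p.s (MvPolynomial (Fin d) L))
    (mg : Fin p.r → TT d p.s (MvPolynomial (Fin d) L))
    (hH : W.H = fun j => specφ d p.s i (H j)) (hc : W.c = specφ d p.s i c)
    (hmg : W.mg = fun j => specφ d p.s i (mg j))
    (hP : (W.P.comap (specφ d p.s i)).map (specφ d p.s i) = W.P) :
    SpecGen L (fun K _ j => ∃ W' : TD d p (MvPolynomial (Fin d) K) X b,
      W'.H = (fun k => specφ d p.s j (H k)) ∧ W'.c = specφ d p.s j c ∧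
      W'.mg = (fun k => specφ d p.s j (mg k)) ∧
      W'.P = (W.P.comap (specφ d p.s i)).map (specφ d p.s j)) := by
  have hT := specPO_T d p.s i
  set P := W.P.comap (specφ d p.s i) with hPdef
  have h1 := SpecGen.all fun k => hT.gen_mem hi (J := sp (sig p.s X)) (x := H k) (by
    have := W.Hσ k
    rw [hH] at this
    simpa only [specSpMap, specφ_sig] using this)
  have h2 := hT.gen_mem hi (J := sp (sig p.s X)) (x := c) (by
    have := W.cσ
    rw [hc] at this
    simpa only [specSpMap, specφ_sig] using this)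
  have h3 := SpecGen.all fun k => hT.gen_mem hi
    (J := sp (zz d p.s _) ⊔ sp H ⊔ win p.s X b) (x := sig p.s X k ^ p.a) (by
    have := W.hz k
    rw [hH] at this
    simpa only [Ideal.map_sup, specSpMap, specφ_sig, specφ_zz, specφ_win, map_pow] using this)
  have h4 := SpecGen.all fun k => hT.gen_mem hi
    (J := sp (fun k => C (X k)) ⊔ sp H ⊔ win p.s X b) (x := sig p.s X k ^ p.a) (by
    have := W.hx k
    rw [hH] at this
    simpa only [Ideal.map_sup, specSpMap, specφ_sig, specφ_CX, specφ_win, map_pow] using this)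
  have h5 := hT.gen_le hi (I := Ideal.span {c} * P ^ p.mm) (J := sp H ⊔ win p.s X b)
    (IsNoetherian.noetherian _) (by
    have := W.hc
    rw [hH, hc] at this
    simpa only [Ideal.map_sup, Ideal.map_mul, Ideal.map_pow, specSingleMap, specSpMap, specφ_win,
      hP] using this)
  have h6 := hT.gen_le hi (I := sp mg ^ (p.r₀ + 1))
    (J := sp (zz d p.s _) ^ p.q * sp mg ^ p.r₀ ⊔ P) (IsNoetherian.noetherian _) (by
    have := W.hm
    rw [hmg] at this
    simpa only [Ideal.map_sup, Ideal.map_mul, Ideal.map_pow, specSpMap, specφ_zz,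
      hP] using this)
  have hwin : win p.s X b ≤ P := by
    rw [hPdef, ← Ideal.map_le_iff_le_comap, specφ_win]
    exact W.winP
  have hHP : ∀ k, H k ∈ P := fun k => by
    have := W.HP k
    rw [hH] at this
    exact this
  refine (h1.and (h2.and (h3.and (h4.and (h5.and h6))))).mono ?_
  rintro K _ j ⟨h1, h2, h3, h4, h5, h6⟩
  have hc' := (specPO_T d p.s j).comm
  refine ⟨⟨fun k => specφ d p.s j (H k), specφ d p.s j c, P.map (specφ d p.s j),
    fun k => specφ d p.s j (mg k), ?_, fun k => Ideal.mem_map_of_mem _ (hHP k), fun k => ?_, ?_,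
    fun k => ?_, fun k => ?_, ?_, ?_⟩, rfl, rfl, rfl, rfl⟩
  · rw [← specφ_win j]
    exact Ideal.map_mono hwin
  · simpa only [specSpMap, specφ_sig] using h1 k _ _ _ hc'
  · simpa only [specSpMap, specφ_sig] using h2 _ _ _ hc'
  · simpa only [Ideal.map_sup, specSpMap, specφ_sig, specφ_zz, specφ_win, map_pow]
      using h3 k _ _ _ hc'
  · simpa only [Ideal.map_sup, specSpMap, specφ_sig, specφ_CX, specφ_win, map_pow]
      using h4 k _ _ _ hc'
  · simpa only [Ideal.map_sup, Ideal.map_mul, Ideal.map_pow, specSingleMap, specSpMap, specφ_win]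
      using h5 _ _ _ hc'
  · simpa only [Ideal.map_sup, Ideal.map_mul, Ideal.map_pow, specSpMap, specφ_zz]
      using h6 _ _ _ hc'

/-- The lengths computed in `T` and `A` are generically constant. -/
theorem specLenT (H : Tau d p.s → TT d p.s (MvPolynomial (Fin d) L))
    (c : TT d p.s (MvPolynomial (Fin d) L)) (w' : MvPolynomial (Fin d) L) :
    ∃ r₁ r₂ r₃ : ℕ∞, SpecGen L (fun K _ j =>
      Module.length (TT d p.s (MvPolynomial (Fin d) K)) (TT d p.s (MvPolynomial (Fin d) K) ⧸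
        (sp (fun k => (C (X k) : TT d p.s (MvPolynomial (Fin d) K))) ⊔
          sp (fun k => specφ d p.s j (H k)) ⊔ win p.s X b)) = r₁ ∧
      Module.length (TT d p.s (MvPolynomial (Fin d) K)) (TT d p.s (MvPolynomial (Fin d) K) ⧸
        (sp (fun k => specφ d p.s j (H k)) ⊔
          Ideal.span {C (MvPolynomial.map j w') - specφ d p.s j c} ⊔
          sp (zz d p.s (MvPolynomial (Fin d) K)) ^ p.N' ⊔ win p.s X b)) = r₂ ∧
      Module.length (MvPolynomial (Fin d) K) (MvPolynomial (Fin d) K ⧸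
        (Ideal.span {MvPolynomial.map j w'} ⊔
          sp (fun k => (X k : MvPolynomial (Fin d) K) ^ (p.a * p.N')))) = r₃) := by
  obtain ⟨r₁, h1⟩ := specGenLengthT _ _ (specGenT d p.s L)
    (sp (fun k => (C (X k) : TT d p.s (MvPolynomial (Fin d) L))) ⊔ sp H ⊔ win p.s X b)
    fun k => ⟨b, Ideal.mem_sup_right (specSigWin b k)⟩
  obtain ⟨r₂, h2⟩ := specGenLengthT _ _ (specGenT d p.s L)
    (sp H ⊔ Ideal.span {C w' - c} ⊔ sp (zz d p.s (MvPolynomial (Fin d) L)) ^ p.N' ⊔ win p.s X b)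
    fun k => ⟨b, Ideal.mem_sup_right (specSigWin b k)⟩
  obtain ⟨r₃, h3⟩ := specGenLengthT _ _ (specGenMv (Fin d) L)
    (Ideal.span {w'} ⊔ sp (fun k => (X k : MvPolynomial (Fin d) L) ^ (p.a * p.N')))
    fun k => ⟨p.a * p.N', Ideal.mem_sup_right (Ideal.subset_span ⟨k, rfl⟩)⟩
  refine ⟨r₁, r₂, r₃, (h1.and (h2.and h3)).mono ?_⟩
  rintro K _ j ⟨h1, h2, h3⟩
  refine ⟨h1 _ _ _ (specPO_T d p.s j) _ ?_, h2 _ _ _ (specPO_T d p.s j) _ ?_,
    h3 _ _ _ (SpecPO.mv _ j) _ ?_⟩
  · simp only [Ideal.map_sup, specSpMap, specφ_CX, specφ_win]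
  · simp only [Ideal.map_sup, Ideal.map_pow, specSpMap, specSingleMap, specφ_zz, specφ_win,
      map_sub, specφ_C]
  · simp only [Ideal.map_sup, specSpMap, specSingleMap, map_pow, MvPolynomial.map_X]

/-- The lengths computed in `S` are generically constant. -/
theorem specLenS (H : Tau d p.s → TT d p.s (MvPolynomial (Fin d) L))
    (mg : Fin p.r → TT d p.s (MvPolynomial (Fin d) L)) (w : MvPolynomial (Fin d) L)
    (ε : MvPolynomial (Tau d p.s) (TT d p.s (MvPolynomial (Fin d) L)))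
    (S : Type) [CommRing S] [Algebra (TT d p.s (MvPolynomial (Fin d) L)) S]
    [Module.Finite (TT d p.s (MvPolynomial (Fin d) L)) S] (y : Fin d → S)
    (hnil : ∀ j, IsNilpotent (algebraMap (TT d p.s (MvPolynomial (Fin d) L)) S (sig p.s X j))) :
    ∃ r₁ r₂ r₃ r₄ r₅ : ℕ∞, SpecGen L (fun K _ j => ∀ (S' : Type) [CommRing S']
      [Algebra (TT d p.s (MvPolynomial (Fin d) K)) S'] (ψ : S →+* S'),
      SpecPO (specφ d p.s j) (algebraMap _ S) (algebraMap _ S') ψ →
      Module.length (TT d p.s (MvPolynomial (Fin d) K)) (S' ⧸ (sp (fun k => ψ (y k)) ⊔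
        (sp (fun k => specφ d p.s j (mg k)) ⊔ sp (sig p.s X)).map
          (algebraMap (TT d p.s (MvPolynomial (Fin d) K)) S'))) = r₁ ∧
      Module.length (TT d p.s (MvPolynomial (Fin d) K)) (S' ⧸ (sp (sig p.s X)).map
          (algebraMap (TT d p.s (MvPolynomial (Fin d) K)) S')) = r₂ ∧
      Module.length (TT d p.s (MvPolynomial (Fin d) K))
        (S' ⧸ sp (fun k => ψ (y k)) ^ p.N) = r₃ ∧
      Module.length (TT d p.s (MvPolynomial (Fin d) K))
        (S' ⧸ (sp (fun k => ψ (y k)) ^ p.N ⊔ Ideal.span {algebraMap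
          (TT d p.s (MvPolynomial (Fin d) K)) S' (C (MvPolynomial.map j w))})) = r₄ ∧
      Module.length (TT d p.s (MvPolynomial (Fin d) K)) (MvPolynomial (Tau d p.s) S' ⧸
        (sp (fun k => MvPolynomial.map
            ((algebraMap (TT d p.s (MvPolynomial (Fin d) K)) S').comp C) (specφ d p.s j (H k))) ⊔
          Ideal.span {MvPolynomial.map (algebraMap (TT d p.s (MvPolynomial (Fin d) K)) S')
            (MvPolynomial.map (specφ d p.s j) ε)} ⊔
          (sp (fun k => ψ (y k)) ^ p.N).map (C : S' →+* MvPolynomial (Tau d p.s) S') ⊔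
          sp (fun k => (X k : MvPolynomial (Tau d p.s) S') ^ b))) = r₅) := by
  obtain ⟨r₁, h1⟩ := specGenLengthS _ _ (specGenT d p.s L) hnil
    (sp y ⊔ (sp mg ⊔ sp (sig p.s X)).map (algebraMap (TT d p.s (MvPolynomial (Fin d) L)) S))
  obtain ⟨r₂, h2⟩ := specGenLengthS _ _ (specGenT d p.s L) hnil
    ((sp (sig p.s X)).map (algebraMap (TT d p.s (MvPolynomial (Fin d) L)) S))
  obtain ⟨r₃, h3⟩ := specGenLengthS _ _ (specGenT d p.s L) hnil (sp y ^ p.N)
  obtain ⟨r₄, h4⟩ := specGenLengthS _ _ (specGenT d p.s L) hnil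
    (sp y ^ p.N ⊔ Ideal.span {algebraMap (TT d p.s (MvPolynomial (Fin d) L)) S (C w)})
  obtain ⟨r₅, h5⟩ := specGenLengthX _ _ (specGenT d p.s L) hnil
    (sp (fun k => MvPolynomial.map
        ((algebraMap (TT d p.s (MvPolynomial (Fin d) L)) S).comp C) (H k)) ⊔
      Ideal.span {MvPolynomial.map (algebraMap (TT d p.s (MvPolynomial (Fin d) L)) S) ε} ⊔
      (sp y ^ p.N).map (C : S →+* MvPolynomial (Tau d p.s) S) ⊔
      sp (fun k => (X k : MvPolynomial (Tau d p.s) S) ^ b))
    fun k => ⟨b, Ideal.mem_sup_right (Ideal.subset_span ⟨k, rfl⟩)⟩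
  refine ⟨r₁, r₂, r₃, r₄, r₅, (h1.and (h2.and (h3.and (h4.and h5)))).mono ?_⟩
  rintro K _ j ⟨h1, h2, h3, h4, h5⟩ S' _ _ ψ hψ
  have hT := specPO_T d p.s j
  refine ⟨h1 _ _ _ _ _ hT hψ _ ?_, h2 _ _ _ _ _ hT hψ _ ?_, h3 _ _ _ _ _ hT hψ _ ?_,
    h4 _ _ _ _ _ hT hψ _ ?_, h5 _ _ _ _ _ hT hψ _ ?_⟩
  · rw [Ideal.map_sup ψ, hψ.map_map]
    simp only [Ideal.map_sup (specφ d p.s j), specSpMap ψ, specSpMap (specφ d p.s j), specφ_sig]
  · rw [hψ.map_map]
    simp only [specSpMap (specφ d p.s j), specφ_sig]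
  · simp only [Ideal.map_pow, specSpMap]
  · simp only [Ideal.map_sup, Ideal.map_pow, specSpMap, specSingleMap, hψ.comm, specφ_C]
  · have e1 : ∀ t : TT d p.s (MvPolynomial (Fin d) L), MvPolynomial.map ψ (MvPolynomial.map
        ((algebraMap (TT d p.s (MvPolynomial (Fin d) L)) S).comp C) t) = MvPolynomial.map
        ((algebraMap (TT d p.s (MvPolynomial (Fin d) K)) S').comp C) (specφ d p.s j t) := by
      intro t
      rw [specφ, MvPolynomial.map_map, MvPolynomial.map_map]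
      congr 2
      refine RingHom.ext fun a => ?_
      simp only [RingHom.comp_apply, hψ.comm, specφ_C]
    have e2 : MvPolynomial.map ψ (MvPolynomial.map
        (algebraMap (TT d p.s (MvPolynomial (Fin d) L)) S) ε) = MvPolynomial.map
        (algebraMap (TT d p.s (MvPolynomial (Fin d) K)) S')
          (MvPolynomial.map (specφ d p.s j) ε) := by
      rw [MvPolynomial.map_map, MvPolynomial.map_map]
      congr 2
      exact RingHom.ext hψ.comm
    rw [Ideal.map_sup, Ideal.map_sup, Ideal.map_sup, (SpecPO.mv (Tau d p.s) ψ).map_map]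
    simp only [Ideal.map_pow ψ, specSpMap ψ, specSpMap (MvPolynomial.map ψ), specSingleMap, e1, e2,
      map_pow, MvPolynomial.map_X]

theorem specCore [Algebra.FiniteType ℤ L] {i : L →+* l} (hi : Function.Injective i)
    (W : WD d p (MvPolynomial (Fin d) l) X b)
    (hμ : ∀ (M : Type) [AddCommGroup M] [Module W.S M]
      [Module (TT d p.s (MvPolynomial (Fin d) l)) M]
      [IsScalarTower (TT d p.s (MvPolynomial (Fin d) l)) W.S M],
      W.μ.val M = Module.length (TT d p.s (MvPolynomial (Fin d) l)) M)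
    (H : Tau d p.s → TT d p.s (MvPolynomial (Fin d) L)) (c : TT d p.s (MvPolynomial (Fin d) L))
    (mg : Fin p.r → TT d p.s (MvPolynomial (Fin d) L)) (w w' : MvPolynomial (Fin d) L)
    (ε : MvPolynomial (Tau d p.s) (TT d p.s (MvPolynomial (Fin d) L)))
    (hH : W.H = fun j => specφ d p.s i (H j)) (hc : W.c = specφ d p.s i c)
    (hmg : W.mg = fun j => specφ d p.s i (mg j))
    (hP : (W.P.comap (specφ d p.s i)).map (specφ d p.s i) = W.P)
    (hw : W.w = MvPolynomial.map i w) (hw' : W.w' = MvPolynomial.map i w')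
    (hε : W.ε = MvPolynomial.map (specφ d p.s i) ε)
    (S : Type) [CommRing S] [Algebra (TT d p.s (MvPolynomial (Fin d) L)) S] (ψ : S →+* W.S)
    (y : Fin d → S)
    (σ : (Finset (Fin d) → S) →ₗ[TT d p.s (MvPolynomial (Fin d) L)] (Finset (Fin d) → S))
    {ν : ℕ} (e : S ≃ₗ[TT d p.s (MvPolynomial (Fin d) L)]
      (Fin ν → TT d p.s (MvPolynomial (Fin d) L) ⧸ W.P.comap (specφ d p.s i)))
    (hψ : SpecPO (specφ d p.s i) (algebraMap _ S) (algebraMap _ W.S) ψ)
    (hy : W.y = fun j => ψ (y j))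
    (σ' : (Finset (Fin d) → W.S) →ₗ[TT d p.s (MvPolynomial (Fin d) l)] (Finset (Fin d) → W.S))
    (hσ : ∀ x, σ' (fun U => ψ (x U)) = fun U => ψ (σ x U))
    (hσ' : ∀ x, kd W.y W.S (σ' (kd W.y W.S x)) - kd W.y W.S x ∈
      (sp W.mg • ⊤ : Submodule (TT d p.s (MvPolynomial (Fin d) l)) (Finset (Fin d) → W.S))) :
    ∃ (κ : Type) (_ : Field κ) (_ : Finite κ),
      Nonempty (WD d p (MvPolynomial (Fin d) κ) X b) := by
  have : IsNoetherianRing L := Algebra.FiniteType.isNoetherianRing ℤ L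
  have : Module.Finite (TT d p.s (MvPolynomial (Fin d) L)) S := Module.Finite.equiv e.symm
  have hT := specPO_T d p.s i
  have hPS : ∀ π ∈ W.P.comap (specφ d p.s i),
      algebraMap (TT d p.s (MvPolynomial (Fin d) L)) S π = 0 := fun π hπ => by
    rw [Algebra.algebraMap_eq_smul_one, ← e.map_eq_zero_iff, map_smul]
    funext k
    exact LF.LFkill_quot_ideal le_rfl π hπ _
  have hnil : ∀ j, IsNilpotent (algebraMap (TT d p.s (MvPolynomial (Fin d) L)) S
      (sig p.s X j)) := fun j => ⟨b, by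
    rw [← map_pow]
    refine hPS _ ?_
    rw [Ideal.mem_comap, map_pow, specφ_sig]
    exact W.winP (specSigWin b j)⟩
  have hε' : aeval (fun j => (X j : TT d p.s (MvPolynomial (Fin d) L))) ε - C w ∈
      W.P.comap (specφ d p.s i) := by
    rw [Ideal.mem_comap, map_sub, specφ_aeval, specφ_C, ← hw, ← hε]
    exact W.hε
  have g1 := specTD hi W.toTD H c mg hH hc hmg hP
  obtain ⟨r₁, r₂, r₃, g2⟩ := specLenT (b := b) H c w'
  obtain ⟨s₁, s₂, s₃, s₄, s₅, g3⟩ := specLenS (b := b) H mg w ε S y hnil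
  have g4 := specGenSig hi hT hψ (sp mg) y σ σ' hσ (by
    rw [specSpMap, ← hmg, ← hy]
    exact hσ')
  have g5 := SpecGen.all fun k => (hT.paste hψ).gen_mem hi (J := sp y)
    (x := algebraMap (TT d p.s (MvPolynomial (Fin d) L)) S (sig p.s X k) ^ p.a) (by
      rw [specSpMap, ← hy, map_pow, hψ.comm, specφ_sig]
      exact W.hy k)
  obtain ⟨a1, a2, a3⟩ := g2.self hi
  obtain ⟨b1, b2, b3, b4, b5⟩ := g3.self hi W.S ψ hψ
  rw [← hH] at a1
  rw [← hH, ← hw', ← hc] at a2
  rw [← hw'] at a3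
  rw [← hy, ← hmg] at b1
  rw [← hy] at b3
  rw [← hy, ← hw] at b4
  rw [← hy, ← hε] at b5
  have c1 := W.hΔ
  have c2 := W.hv1
  have c3 := W.hv2
  have d1 := W.b0
  have d2 := W.hub
  have d3 := W.hu1
  have d4 := W.hu3
  have d5 := W.hu2
  rw [a1] at c1
  rw [a2] at c2
  rw [a3] at c3
  rw [hμ, b1] at d1
  rw [hμ, b2] at d2
  rw [hμ, b3] at d3
  rw [hμ, b4] at d4
  rw [hμ, hH, b5] at d5
  obtain ⟨κ, _, _, j, ⟨W', hH', hc', hmg', hP'⟩, ⟨a1, a2, a3⟩, g3, g4, g5⟩ :=
    (g1.and (g2.and (g3.and (g4.and g5)))).finite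
  refine ⟨κ, inferInstance, inferInstance, ?_⟩
  have hT' := specPO_T d p.s j
  let _ : Algebra (TT d p.s (MvPolynomial (Fin d) L)) (TT d p.s (MvPolynomial (Fin d) κ)) :=
    (specφ d p.s j).toAlgebra
  obtain ⟨S', _, _, ψ', hψ'⟩ : ∃ (S' : Type) (_ : CommRing S')
      (_ : Algebra (TT d p.s (MvPolynomial (Fin d) κ)) S') (ψ' : S →+* S'),
      SpecPO (specφ d p.s j) (algebraMap _ S) (algebraMap _ S') ψ' :=
    ⟨_, _, _, _, SpecPO.tensor⟩
  obtain ⟨b1, b2, b3, b4, b5⟩ := g3 S' ψ' hψ'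
  obtain ⟨e'⟩ := specFree hψ' e
  rw [← hP'] at e'
  refine ⟨
    { toTD := W'
      w := MvPolynomial.map j w
      w' := MvPolynomial.map j w'
      ε := MvPolynomial.map (specφ d p.s j) ε
      S := S'
      y := fun k => ψ' (y k)
      μ := (LF.length _).comap (algebraMap (TT d p.s (MvPolynomial (Fin d) κ)) S')
      hε := ?_
      PS := ?_
      flat := flatMod_of_equiv _ _ e'
      hsig := ?_
      hy := fun k => ?_
      hΔ := ?_
      b0 := ?_
      hub := ?_
      hu1 := ?_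
      hu3 := ?_
      hu2 := ?_
      hv1 := ?_
      hv2 := ?_ }⟩
  · rw [hP', ← specφ_aeval, ← specφ_C, ← map_sub]
    exact Ideal.mem_map_of_mem _ hε'
  · have h1 : W'.P ≤ RingHom.ker (algebraMap (TT d p.s (MvPolynomial (Fin d) κ)) S') := by
      rw [hP', Ideal.map_le_iff_le_comap]
      intro π hπ
      rw [Ideal.mem_comap, RingHom.mem_ker, ← hψ'.comm, hPS π hπ, map_zero]
    exact fun π hπ => h1 hπ
  · rw [hmg', ← specSpMap]
    exact g4 _ _ _ _ _ hT'.comm hψ'
  · have := g5 k _ _ _ (hT'.paste hψ').comm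
    rwa [specSpMap, map_pow, hψ'.comm, specφ_sig] at this
  · rw [hH', a1]
    exact c1
  · rw [LF.comap_algebraMap_val, LF.length_val, hmg', b1]
    exact d1
  · rw [LF.comap_algebraMap_val, LF.length_val, b2]
    exact d2
  · rw [LF.comap_algebraMap_val, LF.length_val, b3]
    exact d3
  · rw [LF.comap_algebraMap_val, LF.length_val, b4]
    exact d4
  · rw [LF.comap_algebraMap_val, LF.length_val, hH', b5]
    exact d5
  · rw [hH', hc', a2]
    exact c2
  · rw [a3]
    exact c3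

end core

theorem spec (l : Type) [Field l] {d : ℕ} {p : Par} {b : ℕ}
    (W : WD d p (MvPolynomial (Fin d) l) X b) (hW : W.FinFree) :
    ∃ (κ : Type) (_ : Field κ) (_ : Finite κ),
      Nonempty (WD d p (MvPolynomial (Fin d) κ) X b) := by
  classical
  obtain ⟨⟨ν, ⟨e⟩⟩, hμ⟩ := hW
  obtain ⟨σ', hσ'⟩ := W.hsig
  obtain ⟨G, hG⟩ : W.P.FG := IsNoetherian.noetherian _
  choose lift hlift using fun (s : W.S) (k : Fin ν) => Ideal.Quotient.mk_surjective (e s k)
  let Y : Set W.S := {1} ∪ (Set.range fun q : Fin ν × Fin ν =>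
    e.symm (Pi.single q.1 1) * e.symm (Pi.single q.2 1)) ∪ Set.range W.y ∪
    Set.range fun q : Finset (Fin d) × Fin ν × Finset (Fin d) =>
      σ' (Pi.single q.1 (e.symm (Pi.single q.2.1 1))) q.2.2
  have hY : Y.Finite := (((Set.finite_singleton _).union (Set.finite_range _)).union
    (Set.finite_range _)).union (Set.finite_range _)
  let Z : Set (TT d p.s (MvPolynomial (Fin d) l)) :=
    Set.range W.H ∪ {W.c, C W.w, C W.w'} ∪ Set.range W.mg ∪ (G : Set _) ∪ (W.ε.coeffs : Set _) ∪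
      ⋃ s ∈ Y, Set.range (lift s)
  have hZ : Z.Finite := (((((Set.finite_range _).union (Set.toFinite _)).union
    (Set.finite_range _)).union (Finset.finite_toSet _)).union (Finset.finite_toSet _)).union
    (hY.biUnion fun s _ => Set.finite_range _)
  obtain ⟨L, _, _, _, i, hi, hL⟩ := specExistsL l Z hZ
  choose H hH using fun k => hL (W.H k) (by simp [Z])
  obtain ⟨c, hc⟩ := hL W.c (by simp [Z])
  choose mg hmg using fun k => hL (W.mg k) (by simp [Z])
  have hA : ∀ a : MvPolynomial (Fin d) l, C a ∈ Z → ∃ a₀, a = MvPolynomial.map i a₀ :=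
    fun a ha => by
      obtain ⟨t, ht⟩ := hL _ ha
      refine ⟨t.coeff 0, ?_⟩
      have := congrArg (MvPolynomial.coeff 0) ht
      rw [specφ, MvPolynomial.coeff_map, MvPolynomial.coeff_zero_C] at this
      exact this.symm
  obtain ⟨w, hw⟩ := hA W.w (by simp [Z])
  obtain ⟨w', hw'⟩ := hA W.w' (by simp [Z])
  obtain ⟨ε, hε⟩ : W.ε ∈ Set.range (MvPolynomial.map (specφ d p.s i)) :=
    MvPolynomial.mem_range_map_iff_coeffs_subset.2 fun t ht =>
      hL t (Or.inl (Or.inr ht))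
  have hP : (W.P.comap (specφ d p.s i)).map (specφ d p.s i) = W.P := by
    refine le_antisymm Ideal.map_comap_le ?_
    conv_lhs => rw [← hG]
    rw [Ideal.span_le]
    intro t ht
    obtain ⟨t₀, rfl⟩ := hL t (Or.inl (Or.inl (Or.inr ht)))
    exact Ideal.mem_map_of_mem _ (Ideal.mem_comap.2 (hG ▸ Ideal.subset_span ht))
  obtain ⟨S, _, _, ψ, y, σ, ⟨e₀⟩, hψ, hy, hσ⟩ := specDesc (specφ d p.s i) W.P hP e (· ∈ Y)
    (fun s hs k => by
      obtain ⟨t, ht⟩ := hL (lift s k) (Or.inr (Set.mem_biUnion hs ⟨k, rfl⟩))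
      exact ⟨t, by rw [ht, hlift]⟩)
    (Or.inl (Or.inl (Or.inl rfl))) (fun j k => Or.inl (Or.inl (Or.inr ⟨(j, k), rfl⟩))) W.y
    (fun j => Or.inl (Or.inr ⟨j, rfl⟩)) σ' (fun U j U' => Or.inr ⟨(U, j, U'), rfl⟩)
  exact specCore hi W hμ H c mg w w' ε (funext fun k => (hH k).symm) hc.symm
    (funext fun k => (hmg k).symm) hP hw hw' hε.symm S ψ y σ e₀ hψ
    (funext fun k => (hy k).symm) σ' hσ hσ'

end Crest.Agent.R183
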