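import Crest.Agent.R183.LVUp
import Crest.Agent.R183.LVLow
import Crest.Agent.R183.Family
import Crest.Agent.R183.CoverEq
import Crest.Agent.R183.CoverMix
import Crest.Agent.R183.Spec

/-!
# The window inequality in the three basic cases
-/

set_option autoImplicit false

open scoped NNReal ENNReal
open MvPolynomial

namespace Crest.Agent.R183

theorem WI_ar1 {X Y : ℝ≥0∞} {ρ Δ : ℕ} (hρ : 0 < ρ) (hΔ : 0 < Δ) {u : ℝ≥0∞}
    (h : X * Y ≤ ρ * Δ * u) : X / (ρ * Δ) * Y ≤ u := by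
  have h0 : ((ρ : ℝ≥0∞) * Δ) ≠ 0 := mul_ne_zero (by simpa using hρ.ne') (by simpa using hΔ.ne')
  have h1 : ((ρ : ℝ≥0∞) * Δ) ≠ ⊤ := ENNReal.mul_ne_top (by simp) (by simp)
  rw [ENNReal.div_eq_inv_mul, mul_assoc, ← ENNReal.div_eq_inv_mul,
    ENNReal.div_le_iff_le_mul (Or.inl h0) (Or.inl h1), mul_comm u]
  exact h

theorem WI_ar2 {X Y : ℝ≥0∞} {ρ Δ : ℕ} (hρ : 0 < ρ) (hΔ : 0 < Δ) {u1 u2 u3 : ℝ≥0}
    (h : X * Y + ρ * u2 ≤ ρ * Δ * (u1 + u3)) :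
    X / (ρ * Δ) * Y ≤ (u1 + u3 - u2 / Δ : ℝ≥0) := by
  refine WI_ar1 hρ hΔ ?_
  have hfin : X * Y ≠ ⊤ :=
    ne_top_of_le_ne_top (by finiteness) (le_self_add.trans h)
  generalize X * Y = Z at h hfin
  lift Z to ℝ≥0 using hfin
  have h' : Z + ρ * u2 ≤ ρ * Δ * (u1 + u3) := by exact_mod_cast h
  have hΔ' : (Δ : ℝ≥0) ≠ 0 := by simpa using hΔ.ne'
  have : Z ≤ ρ * Δ * (u1 + u3 - u2 / Δ) := by
    rw [mul_tsub]
    refine le_tsub_of_add_le_right ?_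
    rwa [mul_assoc (ρ : ℝ≥0) Δ (u2 / Δ), mul_div_cancel₀ _ hΔ']
  exact_mod_cast this

theorem WI_ar3 {X Y : ℝ≥0∞} {ρ Δ B : ℕ} (hρ : 0 < ρ) (hΔ : 0 < Δ) (hB : 0 < B) {v1 v2 : ℝ≥0}
    (h : ρ * (v1 : ℝ≥0∞) ≤ X * B * Y + ρ * Δ * v2) :
    (((v1 / Δ - v2) / B : ℝ≥0) : ℝ≥0∞) ≤ X / (ρ * Δ) * Y := by
  have h0 : ((ρ : ℝ≥0∞) * Δ) ≠ 0 := mul_ne_zero (by simpa using hρ.ne') (by simpa using hΔ.ne')
  have h1 : ((ρ : ℝ≥0∞) * Δ) ≠ ⊤ := ENNReal.mul_ne_top (by simp) (by simp)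
  rw [ENNReal.div_eq_inv_mul, mul_assoc, ← ENNReal.div_eq_inv_mul,
    ENNReal.le_div_iff_mul_le (Or.inl h0) (Or.inl h1)]
  rw [mul_right_comm] at h
  generalize X * Y = Z at h
  rcases eq_or_ne Z ⊤ with rfl | hfin
  · exact le_top
  lift Z to ℝ≥0 using hfin
  have h' : ρ * v1 ≤ Z * B + ρ * Δ * v2 := by exact_mod_cast h
  have hΔ' : (Δ : ℝ≥0) ≠ 0 := by simpa using hΔ.ne'
  have hB' : (0 : ℝ≥0) < B := by simpa using hB
  have : (v1 / Δ - v2) / B * (ρ * Δ) ≤ Z := by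
    rw [div_mul_eq_mul_div, div_le_iff₀ hB', tsub_mul, tsub_le_iff_right]
    calc v1 / Δ * (ρ * Δ) = ρ * v1 := by field_simp
      _ ≤ Z * B + ρ * Δ * v2 := h'
      _ = _ := by ring
  exact_mod_cast this

theorem WI_hm {T E D ι τ : Type} [CommRing T] [CommRing E] [CommRing D] [Algebra T E]
    [Algebra T D] (φ : E →+* D) (hφ : ∀ t, φ (algebraMap T E t) = algebraMap T D t)
    {w : τ → E} (hw : ∀ j, φ (w j) = 0) {z : ι → T} {γ : E} {t : T} {q : ℕ}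
    (h : γ * algebraMap T E t ∈ sp (fun k => algebraMap T E (z k)) ^ q ⊔ sp w) :
    φ γ * algebraMap T D t ∈ sp (fun k => algebraMap T D (z k)) ^ q := by
  have h1 := Ideal.mem_map_of_mem φ h
  have h2 : sp (fun j => φ (w j)) = ⊥ := by
    rw [Ideal.span_eq_bot]
    rintro _ ⟨j, rfl⟩
    exact hw j
  rw [Ideal.map_sup, Ideal.map_pow, ← SLT.sp_map', ← SLT.sp_map', h2, sup_bot_eq, map_mul] at h1
  simpa only [hφ] using h1

theorem WI_comap {B ι : Type} [CommRing B] [Fintype ι] (J : Ideal B) :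
    J.comap (constantCoeff : MvPolynomial ι B →+* B) = J.map C ⊔ sp X := by
  apply le_antisymm
  · intro f hf
    have h1 : f = C (coeff 0 f) + (f - C (coeff 0 f)) := by ring
    rw [h1]
    exact Submodule.add_mem_sup (Ideal.mem_map_of_mem _ hf) (SLT.sub_C_mem ι f)
  · refine sup_le (Ideal.map_le_iff_le_comap.2 fun a ha => ?_) (Ideal.span_le.2 ?_)
    · simpa using ha
    · rintro _ ⟨i, rfl⟩
      simp

theorem WI_surj {B ι : Type} [CommRing B] :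
    Function.Surjective (constantCoeff : MvPolynomial ι B →+* B) :=
  fun a => ⟨C a, constantCoeff_C ι a⟩

theorem WI_max_X (ι κ : Type) [Fintype ι] [Field κ] :
    (sp (X : ι → MvPolynomial ι κ)).IsMaximal := by
  have h := WI_comap (ι := ι) (⊥ : Ideal κ)
  rw [Ideal.map_bot, bot_sup_eq] at h
  rw [← h]
  have := Ideal.bot_isMaximal (K := κ)
  exact Ideal.comap_isMaximal_of_surjective _ WI_surj

theorem WI_max_mix (e : ℕ) (Λ : Type) [CommRing Λ] (ℓ : ℕ)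
    (hmax : (Ideal.span {(ℓ : Λ)}).IsMaximal) : (sp (xMix e Λ ℓ)).IsMaximal := by
  have h := WI_comap (ι := Fin e) (Ideal.span {(ℓ : Λ)})
  have h1 : sp (xMix e Λ ℓ) = (Ideal.span {(ℓ : Λ)}).map C ⊔ sp X := by
    rw [Ideal.map_span, Set.image_singleton, xMix, sp, Fin.range_cons, Ideal.span_insert]
  rw [h1, ← h]
  exact Ideal.comap_isMaximal_of_surjective _ WI_surj

theorem level_of_cover {d : ℕ} (hd : 0 < d) {p : Par} {A : Type} [CommRing A] {x' : Fin d → A}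
    {b n N₀ q' : ℕ} (W : WD d p A x' b) (V : Cover W.toTD (Bn d p.N' * (n + 1)) N₀ q')
    (hqr : QR x' A) (hmax : (sp x').IsMaximal) (hb : 2 * (p.a * N₀) ≤ b) (hN₀ : 0 < N₀)
    (hq' : 0 < q') (hΔ : 0 < p.Δ) (hN' : 0 < p.N') :
    Nonempty (Level d p.r q' p.a p.N N₀ n (p.a ^ d * p.ub) (p.u1 + p.u3 - p.u2 / p.Δ)
      ((p.v1 / p.Δ - p.v2) / Bn d p.N')) := by
  have hb' : 2 * p.a ≤ b := le_trans (by nlinarith) hb
  have hB : 0 < Bn d p.N' := Nat.choose_pos (by omega)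
  refine ⟨{
    R₀ := TT d p.s A
    D := DD W V
    z := zz d p.s A
    mg := W.mg
    y := yD W V
    γ := gD W V
    μ := LF.smul ((V.Q : ℝ≥0∞) ^ (d + p.s) / (V.ρ * p.Δ)) (lamD W V)
    hSL := sl_DD W V hqr hb
    hm := fun i => ?_
    hz := fun k => ?_
    hsig := ?_
    hub := ?_
    hU := WI_ar2 V.hρ hΔ (level_upper W V hqr hmax hb')
    hL := WI_ar3 V.hρ hΔ hB (level_lower hd W V hqr hmax hb' hN₀ hq') }⟩
  · refine WI_hm ((algebraMap (Cb W V) (DD W V)).comp (Cb.mk W V)) (fun t => ?_)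
      (fun j => ?_) (V.hmg i)
    · exact (IsScalarTower.algebraMap_apply (TT d p.s A) (Cb W V) (DD W V) t).symm
    · have : Cb.mk W V (V.w j) = 0 :=
        Ideal.Quotient.eq_zero_iff_mem.2 (Ideal.mem_sup_left (Ideal.subset_span ⟨j, rfl⟩))
      rw [RingHom.comp_apply, this, map_zero]
  · have h1 := Ideal.mem_map_of_mem (DD.inr W V).toRingHom (W.hy (Sum.inr (Sum.inl k)))
    rw [← SLT.sp_map', map_pow] at h1
    have h2 : (DD.inr W V).toRingHom (algebraMap (TT d p.s A) W.S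
        (sig p.s x' (Sum.inr (Sum.inl k)))) = algebraMap (TT d p.s A) (DD W V) (zz d p.s A k) :=
      (DD.inr W V).commutes _
    rw [h2] at h1
    exact h1
  · exact HasSig.restrict (R₀ := Cb W V) (D := DD W V) (W.hsig.baseChange (Cb W V))
  · refine WI_ar1 V.hρ hΔ (le_trans ?_ ((level_fin W V hqr hmax hb').trans_eq ?_))
    · exact mul_le_mul_right ((lamD W V).quot_anti le_sup_left) _
    · push_cast
      rfl

theorem WI_of_levels {e : ℕ} {p : Par} {q' : ℕ} (hq : 1 ≤ q')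
    (h : ∀ N₀ n : ℕ, 0 < N₀ → Nonempty (Level (e + 1) p.r q' p.a p.N N₀ n (p.a ^ (e + 1) * p.ub)
      (p.u1 + p.u3 - p.u2 / p.Δ) ((p.v1 / p.Δ - p.v2) / Bn (e + 1) p.N'))) :
    (q' : ℝ≥0) ^ (e + 1) * Bn (e + 1) p.N * ((p.v1 / p.Δ - p.v2) / Bn (e + 1) p.N') ≤
      p.u1 + p.u3 - p.u2 / p.Δ := by
  obtain ⟨N₀, hN₀, hF⟩ := family e p.r q' p.a p.N hq
  exact hF _ _ _ fun n => h N₀ n hN₀

theorem wi_eq (e : ℕ) (κ : Type) [Field κ] (ℓ : ℕ) [Fact ℓ.Prime] [CharP κ ℓ] [PerfectRing κ ℓ] :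
    WIProp (e + 1) (MvPolynomial (Fin (e + 1)) κ) X False := by
  intro p q' h1 h2 h3 h4 h5 hW
  refine WI_of_levels h1 fun N₀ n hN₀ => ?_
  obtain ⟨b₀, hb₀⟩ := cover_eq (e + 1) p (Bn (e + 1) p.N' * (n + 1)) N₀ q' h2 h5
  obtain ⟨b, hb, W, -⟩ := hW (max b₀ (2 * (p.a * N₀)))
  obtain ⟨V⟩ := hb₀ b ((le_max_left _ _).trans hb) κ ℓ W.toTD
  exact level_of_cover e.succ_pos W V (qr_X _) (WI_max_X _ _) ((le_max_right _ _).trans hb) hN₀ h1
    h3 h4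

theorem wi_mix (e : ℕ) (K : Type) [Field K] (ℓ : ℕ) [Fact ℓ.Prime] [CharP K ℓ]
    [PerfectRing K ℓ] :
    WIProp (e + 1) (MvPolynomial (Fin e) (WittVector ℓ K)) (xMix e (WittVector ℓ K) ℓ) False := by
  intro p q' h1 h2 h3 h4 h5 hW
  refine WI_of_levels h1 fun N₀ n hN₀ => ?_
  obtain ⟨b₀, hb₀⟩ := cover_mix ℓ K e p (Bn (e + 1) p.N' * (n + 1)) N₀ q' h2 h5
  obtain ⟨b, hb, W, -⟩ := hW (max b₀ (2 * (p.a * N₀)))
  obtain ⟨V⟩ := hb₀ b ((le_max_left _ _).trans hb) W.toTD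
  have hirr := WittVector.irreducible ℓ (k := K)
  have hmax : (Ideal.span {(ℓ : WittVector ℓ K)}).IsMaximal := by
    rw [← hirr.maximalIdeal_eq]
    infer_instance
  exact level_of_cover e.succ_pos W V (qr_cons e _ (mem_nonZeroDivisors_of_ne_zero hirr.ne_zero))
    (WI_max_mix e _ ℓ hmax) ((le_max_right _ _).trans hb) hN₀ h1 h3 h4

theorem wi_zero (e : ℕ) (l : Type) [Field l] :
    WIProp (e + 1) (MvPolynomial (Fin (e + 1)) l) X True := by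
  intro p q' h1 h2 h3 h4 h5 hW
  refine WI_of_levels h1 fun N₀ n hN₀ => ?_
  obtain ⟨b₀, hb₀⟩ := cover_eq (e + 1) p (Bn (e + 1) p.N' * (n + 1)) N₀ q' h2 h5
  obtain ⟨b, hb, W₀, hW₀⟩ := hW (max b₀ (2 * (p.a * N₀)))
  obtain ⟨κ, _, _, ⟨W⟩⟩ := spec l W₀ (hW₀ trivial)
  obtain ⟨ℓ, hℓ⟩ := CharP.exists κ
  have : Fact ℓ.Prime := ⟨CharP.char_is_prime κ ℓ⟩
  have : PerfectRing κ ℓ := PerfectField.toPerfectRing ℓ
  obtain ⟨V⟩ := hb₀ b ((le_max_left _ _).trans hb) κ ℓ W.toTD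
  exact level_of_cover e.succ_pos W V (qr_X _) (WI_max_X _ _) ((le_max_right _ _).trans hb) hN₀ h1
    h3 h4

end Crest.Agent.R183
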