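import Crest.Agent.R183.TopBasic
import Crest.Agent.R183.Complete
import Crest.Agent.R183.Cohen
import Crest.Agent.R183.Trunc
import Crest.Agent.R183.WI

/-!
# Cohen structure: a complete local domain is finite over a regular base ring
-/

set_option autoImplicit false

open scoped ENNReal NNReal TensorProduct
open IsLocalRing

namespace Crest.Agent.R183

theorem Base_finExt {A R : Type} [CommRing A] [IsDomain A] [IsLocalRing A] [IsNoetherianRing A]
    [IsAdicComplete (maximalIdeal A) A] [CommRing R] [IsLocalRing R] [IsNoetherianRing R]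
    [Algebra A R] {e : ℕ} (hd : ringKrullDim R = (e + 1 : ℕ)) (x' : Fin (e + 1) → A)
    (hmax : maximalIdeal A = sp x') (hx : ∀ i, algebraMap A R (x' i) ∈ maximalIdeal R) {c : ℕ}
    (hc : maximalIdeal R ^ c ≤ sp fun i => algebraMap A R (x' i))
    (hres : ∀ r : R, ∃ a : A, r - algebraMap A R a ∈ maximalIdeal R) : FinExt A R := by
  have hmap : (maximalIdeal A).map (algebraMap A R) = sp fun i => algebraMap A R (x' i) := by
    rw [hmax, sp_map]
  have hle : (maximalIdeal A).map (algebraMap A R) ≤ maximalIdeal R := by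
    rw [hmap, Ideal.span_le]
    rintro _ ⟨i, rfl⟩
    exact hx i
  have hfin : Module.Finite A R := by
    have : IsHausdorff (maximalIdeal A) R := IsHausdorff.of_map hle
    have h1 : Module.length A (R ⧸ maximalIdeal R ^ c) ≠ ⊤ := by
      rw [length_eq_of_residue_surj (maximalIdeal R) hres _ ⟨c, fun a ha x => ?_⟩]
      · exact hs_ne_top R (Ideal.fg_of_isNoetherianRing _) c
      · rw [Algebra.smul_def, Ideal.Quotient.algebraMap_eq, Ideal.Quotient.eq_zero_iff_mem.2 ha,
          zero_mul]
    have h2 := (isFiniteLength_iff_isNoetherian_isArtinian.1 (Module.length_ne_top_iff.1 h1)).1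
    have h3 : Module.Finite A (R ⧸ (maximalIdeal R ^ c).restrictScalars A) :=
      Module.Finite.equiv (Submodule.Quotient.restrictScalarsEquiv A (maximalIdeal R ^ c)).symm
    have h4 : (maximalIdeal R ^ c).restrictScalars A ≤ (maximalIdeal A • ⊤ : Submodule A R) := by
      rw [Ideal.smul_top_eq_map, hmap]
      exact hc
    have : Module.Finite A (R ⧸ (maximalIdeal A • ⊤ : Submodule A R)) :=
      Module.Finite.of_surjective _ (Submodule.factor_surjective h4)
    exact finite_of_complete (maximalIdeal A) R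
  refine ⟨hfin, ?_, ((IsLocalRing.local_hom_TFAE (algebraMap A R)).out 2 0).1 hle, hres⟩
  rw [RingHom.injective_iff_ker_eq_bot]
  by_contra hne
  have h1 := (ringKrullDim_le_of_isIntegral A R).trans (ringKrullDim_quot_le A e
    (ringKrullDim_le_of_sop A x' (fun i => hmax ▸ Ideal.subset_span ⟨i, rfl⟩) (c := 1)
      (by rw [pow_one, hmax])) _ hne)
  rw [hd] at h1
  exact absurd (by exact_mod_cast h1) (Nat.not_succ_le_self e)

theorem Base_sp_cons {B : Type} [CommRing B] {e : ℕ} (a : B) (u : Fin e → B) :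
    sp (Fin.cons a u : Fin (e + 1) → B) = Ideal.span {a} ⊔ sp u := by
  rw [sp, Fin.range_cons, Ideal.span_insert]

theorem Base_eq (R : Type) [CommRing R] [IsLocalRing R] [IsNoetherianRing R]
    [IsAdicComplete (maximalIdeal R) R] (e : ℕ) (hd : ringKrullDim R = (e + 1 : ℕ))
    (s : ResidueField R →+* R) (hs : ∀ a, residue R (s a) = a) {fin : Prop}
    (hwi : WIProp (e + 1) (MvPolynomial (Fin (e + 1)) (ResidueField R)) MvPolynomial.X fin) :
    ∃ (A : Type) (_ : CommRing A) (_ : IsDomain A) (_ : IsLocalRing A) (_ : IsNoetherianRing A)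
      (_ : Algebra A R) (x' : Fin (e + 1) → A), BaseRing (e + 1) A x' fin ∧ FinExt A R := by
  obtain ⟨x, hx, c, hc⟩ := exists_sop R (e + 1) hd.le
  obtain ⟨Φ, hC, hX⟩ := exists_eval (maximalIdeal R) s x hx
  have : IsDomain (MvPowerSeries (Fin (e + 1)) (ResidueField R)) := NoZeroDivisors.to_isDomain _
  have := isAdicComplete_mvPowerSeries (ResidueField R) (Ideal.fg_of_isNoetherianRing _)
    (Fin (e + 1))
  have hmax : maximalIdeal (MvPowerSeries (Fin (e + 1)) (ResidueField R)) = sp MvPowerSeries.X := by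
    rw [maximalIdeal_mvPowerSeries, maximalIdeal_eq_bot, Ideal.map_bot, bot_sup_eq]
  have h1 := QR.of_winIso _ _ (winIso_X (ResidueField R) (Fin (e + 1))) (qr_X _)
  have h2 := WIProp.of_winIso _ _ (winIso_X (ResidueField R) (Fin (e + 1))) hwi
  simp only [MvPolynomial.coeToMvPowerSeries.ringHom_apply, MvPolynomial.coe_X] at h1 h2
  let := Φ.toAlgebra
  refine ⟨_, _, inferInstance, inferInstance, inferInstance, inferInstance, MvPowerSeries.X,
    ⟨hmax, h1, h2⟩, Base_finExt hd _ hmax (c := c) ?_ ?_ fun r => ⟨MvPowerSeries.C (residue R r), ?_⟩⟩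
  · simpa only [RingHom.algebraMap_toAlgebra, hX] using hx
  · simpa only [RingHom.algebraMap_toAlgebra, hX] using hc
  · rw [RingHom.algebraMap_toAlgebra, hC, ← residue_eq_zero_iff, map_sub, hs, sub_self]

theorem Base_mix (R : Type) [CommRing R] [IsDomain R] [IsLocalRing R] [IsNoetherianRing R]
    [IsAdicComplete (maximalIdeal R) R] (e : ℕ) (hd : ringKrullDim R = (e + 1 : ℕ)) (p : ℕ)
    [Fact p.Prime] [CharP (ResidueField R) p] [PerfectRing (ResidueField R) p] (hp : (p : R) ≠ 0) :
    ∃ (A : Type) (_ : CommRing A) (_ : IsDomain A) (_ : IsLocalRing A) (_ : IsNoetherianRing A)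
      (_ : Algebra A R) (x' : Fin (e + 1) → A), BaseRing (e + 1) A x' False ∧ FinExt A R := by
  obtain ⟨φ, hφ⟩ := exists_witt_hom R p
  have hpm : (p : R) ∈ maximalIdeal R := by
    rw [← residue_eq_zero_iff, map_natCast, CharP.cast_eq_zero]
  have hI : Ideal.span {(p : R)} ≤ maximalIdeal R := by
    rwa [Ideal.span_singleton_le_iff_mem]
  have : Nontrivial (R ⧸ Ideal.span {(p : R)}) :=
    Ideal.Quotient.nontrivial_iff.2 (hI.trans_lt (maximalIdeal.isMaximal R).lt_top).ne
  have hsurj := Ideal.Quotient.mk_surjective (I := Ideal.span {(p : R)})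
  have : IsLocalRing (R ⧸ Ideal.span {(p : R)}) := IsLocalRing.of_surjective' _ hsurj
  obtain ⟨y, hy, c, hc⟩ := exists_sop (R ⧸ Ideal.span {(p : R)}) e
    (ringKrullDim_quot_le R e hd.le _ (by rwa [Ne, Ideal.span_singleton_eq_bot]))
  choose x hxy using fun i => hsurj (y i)
  rw [← map_maximalIdeal_of_surjective _ hsurj] at hy hc
  have hx : ∀ i, x i ∈ maximalIdeal R := fun i => by
    have := hy i
    rw [← hxy, ← Ideal.mem_comap, Ideal.comap_map_of_surjective _ hsurj, ← RingHom.ker_eq_comap_bot,
      Ideal.mk_ker, sup_eq_left.2 hI] at this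
    exact this
  have hc' : maximalIdeal R ^ c ≤ sp (Fin.cons (p : R) x : Fin (e + 1) → R) := by
    rw [← funext hxy, ← sp_map, ← Ideal.map_pow, Ideal.map_le_iff_le_comap,
      Ideal.comap_map_of_surjective _ hsurj, ← RingHom.ker_eq_comap_bot, Ideal.mk_ker] at hc
    rwa [Base_sp_cons, sup_comm]
  obtain ⟨Φ, hC, hX⟩ := exists_eval (maximalIdeal R) φ x hx
  set W := WittVector p (ResidueField R)
  have : IsDomain (MvPowerSeries (Fin e) W) := NoZeroDivisors.to_isDomain _
  have := isAdicComplete_wittVector p (ResidueField R)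
  have := isAdicComplete_mvPowerSeries W (Ideal.fg_of_isNoetherianRing _) (Fin e)
  have hmax : maximalIdeal (MvPowerSeries (Fin e) W) =
      sp (Fin.cons (MvPowerSeries.C (p : W)) MvPowerSeries.X : Fin (e + 1) → _) := by
    rw [maximalIdeal_mvPowerSeries, maximalIdeal_wittVector, Ideal.map_span, Set.image_singleton,
      Base_sp_cons]
  have h0 : (fun i => (MvPolynomial.coeToMvPowerSeries.ringHom :
      MvPolynomial (Fin e) W →+* MvPowerSeries (Fin e) W) (xMix e W p i)) =
      Fin.cons (MvPowerSeries.C (p : W)) MvPowerSeries.X := by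
    funext i
    refine Fin.cases ?_ (fun i => ?_) i <;> simp [xMix]
  have h1 := QR.of_winIso _ (xMix e W p) (winIso_cons W e p)
    (qr_cons e _ (mem_nonZeroDivisors_of_ne_zero (WittVector.irreducible p).ne_zero))
  have h2 := WIProp.of_winIso _ (xMix e W p) (winIso_cons W e p) (wi_mix e _ p)
  rw [h0] at h1 h2
  let := Φ.toAlgebra
  have h3 : (fun i => algebraMap (MvPowerSeries (Fin e) W) R
      ((Fin.cons (MvPowerSeries.C (p : W)) MvPowerSeries.X : Fin (e + 1) → _) i)) =
      Fin.cons (p : R) x := by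
    funext i
    refine Fin.cases ?_ (fun i => hX i) i
    exact (hC _).trans (map_natCast φ p)
  refine ⟨_, _, inferInstance, inferInstance, inferInstance, inferInstance, _,
    ⟨hmax, h1, h2⟩, Base_finExt hd _ hmax (c := c) (fun i => ?_) (h3 ▸ hc') fun r =>
      ⟨MvPowerSeries.C (WittVector.teichmuller p (residue R r)), ?_⟩⟩
  · rw [congrFun h3 i]
    exact Fin.cases hpm hx i
  · rw [RingHom.algebraMap_toAlgebra, hC, ← residue_eq_zero_iff, map_sub, hφ,
      WittVector.teichmuller_coeff_zero, sub_self]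

theorem exists_base (R : Type) [CommRing R] [IsDomain R] [IsLocalRing R] [IsNoetherianRing R]
    [IsAdicComplete (maximalIdeal R) R] [PerfectField (ResidueField R)] (e : ℕ)
    (hd : ringKrullDim R = (e + 1 : ℕ)) :
    ∃ (A : Type) (_ : CommRing A) (_ : IsDomain A) (_ : IsLocalRing A) (_ : IsNoetherianRing A)
      (_ : Algebra A R) (x' : Fin (e + 1) → A),
      BaseRing (e + 1) A x' (CharZero (ResidueField R)) ∧ FinExt A R := by
  obtain ⟨p, hp⟩ := CharP.exists (ResidueField R)
  rcases CharP.char_is_prime_or_zero (ResidueField R) p with h | rfl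
  · have : Fact p.Prime := ⟨h⟩
    have : ExpChar (ResidueField R) p := ExpChar.prime h
    have : PerfectRing (ResidueField R) p := PerfectField.toPerfectRing p
    by_cases h0 : (p : R) = 0
    · obtain ⟨s, hs⟩ := exists_coeffField_charP R p h0
      exact Base_eq R e hd s hs ((wi_eq e _ p).mono False.elim)
    · obtain ⟨A, _, _, _, _, _, x', h1, h2⟩ := Base_mix R e hd p h0
      exact ⟨A, _, ‹_›, _, ‹_›, _, x', ⟨h1.max, h1.qr, h1.wi.mono False.elim⟩, h2⟩
  · have : CharZero (ResidueField R) := CharP.charP_to_charZero _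
    obtain ⟨s, hs⟩ := exists_coeffField_charZero R
    exact Base_eq R e hd s hs ((wi_zero e _).mono fun _ => this)

end Crest.Agent.R183
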