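import Crest.Agent.R183.CorePath

/-!
# Upper and lower bounds for the truncated Euler characteristic
-/

set_option autoImplicit false

open scoped ENNReal

namespace Crest.Agent.R183

namespace CoreBoundAux

section general

variable {B : Type} [CommRing B] (μ : LF B) {X : Type} [AddCommGroup X] [Module B X]

theorem sz_span_le {ι : Type} [Fintype ι] (J : Ideal B) (v : ι → X) (Q : Submodule B X)
    (hJ : ∀ i, ∀ a ∈ J, a • v i ∈ Q) :
    μ.sz (Submodule.span B (Set.range v)) Q ≤ Fintype.card ι * μ.val (B ⧸ J) := by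
  rw [← Fintype.range_linearCombination, ← Submodule.map_top, μ.sz_map_eq]
  refine (μ.sz_mono (P' := Submodule.pi Set.univ fun _ : ι => (⊤ : Submodule B B))
    (Q' := Submodule.pi Set.univ fun _ : ι => J) (fun x _ i _ => trivial) ?_).trans ?_
  · intro c hc
    rw [Submodule.mem_comap, Fintype.linearCombination_apply]
    exact Submodule.sum_mem _ fun i _ => hJ i _ (hc i trivial)
  · rw [μ.sz_pi]
    simp only [μ.sz_top, Finset.sum_const, Finset.card_univ, nsmul_eq_mul, le_refl]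

variable (C : DG B X)

theorem chi_eq_zero_deg {A A' : Submodule B X} {lo : ℤ} (hlo : lo ≤ 0)
    (hz : ∀ k < 0, C.h μ k A A' = 0) : C.chi μ lo 0 A A' = (C.h μ 0 A A').toReal := by
  unfold DG.chi
  rw [Finset.sum_eq_single_of_mem 0 (Finset.mem_Icc.2 ⟨hlo, le_rfl⟩)]
  · simp
  · intro k hk hk0
    rw [hz k (lt_of_le_of_ne (Finset.mem_Icc.1 hk).2 hk0)]
    simp

theorem chi_le_trunc {A A' : Submodule B X} {lo hi : ℤ} (hhi : 0 ≤ hi)
    (hz : ∀ k, 2 ≤ k → C.h μ k A A' = 0) : C.chi μ lo hi A A' ≤ C.chi μ lo 0 A A' := by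
  unfold DG.chi
  rw [← Finset.sum_sdiff (Finset.Icc_subset_Icc_right hhi : Finset.Icc lo 0 ⊆ Finset.Icc lo hi)]
  refine add_le_of_nonpos_left (Finset.sum_nonpos fun k hk => ?_)
  simp only [Finset.mem_sdiff, Finset.mem_Icc] at hk
  rcases (by omega : k = 1 ∨ 2 ≤ k) with rfl | h2
  · simp
  · rw [hz k h2]
    simp

theorem chi_low {A₁ A₂ A₃ : Submodule B X} (s₁ : C.Sub A₁) (s₂ : C.Sub A₂) (s₃ : C.Sub A₃)
    (h₁₂ : A₂ ≤ A₁) (h₂₃ : A₃ ≤ A₂) (f₁₂ : ∀ k, C.h μ k A₁ A₂ ≠ ⊤) (f₂₃ : ∀ k, C.h μ k A₂ A₃ ≠ ⊤)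
    (z₁₂ : ∀ k, 2 ≤ k → C.h μ k A₁ A₂ = 0) (z₂₃ : ∀ k < 0, C.h μ k A₂ A₃ = 0) {lo hi : ℤ}
    (hlo : lo ≤ 0) (hhi : 0 ≤ hi) : C.chi μ lo hi A₁ A₂ ≤ C.chi μ lo 0 A₁ A₃ := by
  refine (chi_le_trunc μ C hhi z₁₂).trans ?_
  rw [C.chi_add μ s₁ s₂ s₃ h₁₂ h₂₃ f₁₂ f₂₃ (by omega : lo ≤ 0 + 1), chi_eq_zero_deg μ C hlo z₂₃]
  have e1 := (C.les μ s₁ s₂ s₃ h₁₂ h₂₃ lo).2.2
  rw [z₂₃ _ (by omega), eq_comm, add_eq_zero] at e1
  have e2 := (C.les μ s₁ s₂ s₃ h₁₂ h₂₃ (0 + 1)).2.2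
  rw [add_sub_cancel_right] at e2
  have e3 := ENNReal.toReal_mono (f₂₃ 0) (le_self_add.trans e2.ge)
  rw [e1.1]
  simp only [Int.negOnePow_zero, Units.val_one, Int.cast_one, one_mul, ENNReal.toReal_zero,
    mul_zero, sub_zero]
  linarith

theorem gen_step {A₀ A₁ A₂ A₃ A₄ E F : Submodule B X} (s₁ : C.Sub A₁) (s₂ : C.Sub A₂)
    (s₃ : C.Sub A₃) (h₀₁ : A₁ ≤ A₀) (h₁₂ : A₂ ≤ A₁) (h₂₃ : A₃ ≤ A₂) (h₃₄ : A₄ ≤ A₃)
    (hF : F ≤ C.Z 0 A₁ A₄) (hFE : F ≤ E ⊔ A₄)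
    (hg : μ.sz (C.Z 0 A₁ A₂) (F ⊔ C.Bd A₁ A₂) = 0) (hz : C.h μ 0 A₂ A₃ = 0)
    (ih : μ.sz (C.Z 0 A₃ A₄) (E ⊔ C.Bd A₀ A₄) = 0) :
    μ.sz (C.Z 0 A₁ A₄) (E ⊔ C.Bd A₀ A₄) = 0 := by
  have a1 : μ.sz (C.Z 0 A₂ A₄) (C.Z 0 A₃ A₄ ⊔ C.Bd A₂ A₄) = 0 :=
    le_zero_iff.1 ((DG_le_right μ (C.Z_inf_Bd_le A₄ s₂ s₃ 0)).trans
      ((μ.sz_mono (C.Z_mono 0 le_rfl h₃₄) le_rfl).trans hz.le))
  have a2 : μ.sz (C.Z 0 A₂ A₄) (E ⊔ C.Bd A₀ A₄) = 0 :=
    DG_trans μ a1 (le_zero_iff.1 ((DG_le_left μ (sup_le_sup_left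
      (le_sup_of_le_right (C.Bd_mono (h₁₂.trans h₀₁) le_rfl)) _)).trans ih.le))
  have a3 : μ.sz (C.Z 0 A₁ A₄) (F ⊔ (C.Z 0 A₁ A₄ ⊓ C.Bd A₁ A₂)) = 0 := by
    rw [μ.sz_modular _ hF]
    exact le_zero_iff.1 ((μ.sz_mono (C.Z_mono 0 le_rfl (h₃₄.trans h₂₃)) le_rfl).trans hg.le)
  refine DG_trans μ a3 (le_zero_iff.1 ((DG_le_left μ ?_).trans a2.le))
  refine sup_le (le_sup_of_le_right (hFE.trans (sup_le_sup_left (C.le_Bd _ _) _))) ?_
  exact (C.Z_inf_Bd_le A₄ s₁ s₂ 0).trans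
    (sup_le_sup_left (le_sup_of_le_right (C.Bd_mono h₀₁ le_rfl)) _)

end general

section corner

variable {D : Type} [CommRing D] {m : ℕ} {z y : Fin (m + 1) → D} {𝔪 : Ideal D} {q : ℕ}
  {α : Fin m → ℤ} {u₀ : ℤ}

theorem mem_corner {P : Submodule D (LL D m)} {x : XX D m} :
    x ∈ corner P ↔ ∃ v ∈ P, Pi.single ∅ (Pi.single ∅ v) = x := Iff.rfl

theorem single_mem_KK {P : Submodule D (LL D m)} {v : LL D m} (hv : v ∈ P)
    (S : Finset (Fin (m + 1))) : (Pi.single S v : Finset (Fin (m + 1)) → LL D m) ∈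
      KK (Fin (m + 1)) P := by
  intro T _
  by_cases hT : T = S
  · rw [hT, Pi.single_eq_same]
    exact hv
  · rw [Pi.single_eq_of_ne hT]
    exact P.zero_mem

theorem single_mem_WW {l : ℤ} {w : Finset (Fin (m + 1)) → LL D m}
    (hw : w ∈ KK (Fin (m + 1)) (Vt z 𝔪 q ∅ α u₀ l)) :
    (Pi.single ∅ w : XX D m) ∈ WW z 𝔪 q α u₀ l := by
  intro I _
  by_cases hI : I = ∅
  · rw [hI, Pi.single_eq_same]
    exact hw
  · rw [Pi.single_eq_of_ne hI]
    exact Submodule.zero_mem _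

theorem totD_single {w : Finset (Fin (m + 1)) → LL D m}
    (hw : ∀ I : Finset (Fin m), I.Nonempty → w ∈ KK (Fin (m + 1)) (Rel z I α u₀)) (n : ℤ) :
    totD y (Pi.single ∅ w) - Pi.single ∅ (kd y (LL D m) w) ∈ WW z 𝔪 q α u₀ n := by
  intro I _
  rw [Pi.sub_apply, totD_apply]
  by_cases hI : I = ∅
  · subst hI
    simp
  · rw [Pi.single_eq_of_ne hI, Pi.single_eq_of_ne hI, map_zero, smul_zero, zero_add, sub_zero]
    refine Submodule.sum_mem _ fun k _ => Submodule.smul_of_tower_mem _ _ ?_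
    by_cases hk : I.erase k = ∅
    · rw [hk, Pi.single_eq_same]
      exact fun S _ => Rel_le_Vt z 𝔪 q I α u₀ n
        (hw I (Finset.nonempty_iff_ne_empty.2 hI) S trivial)
    · rw [Pi.single_eq_of_ne hk]
      exact Submodule.zero_mem _

theorem Glev_le_Vt {l : ℤ} (h : u₀ ≤ l) : supp D (Glev α l) ≤ Vt z 𝔪 q ∅ α u₀ l :=
  (AddMonoidAlgebra.supported_mono (t := Alev ∅ l) fun _ hg =>
    And.intro hg.1 fun k _ => (hg.2 k).1).trans (supp_Alev_le_Vt z 𝔪 q ∅ α h)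

theorem corner_le_Z {l : ℤ} (h : u₀ ≤ l) (n : ℤ) : corner (supp D (Glev α l)) ≤
    (totDG y).Z 0 (WW z 𝔪 q α u₀ l) (WW z 𝔪 q α u₀ n) := by
  intro x hx
  obtain ⟨v, hv, rfl⟩ := mem_corner.1 hx
  refine (totDG y).mem_Z.2 ⟨⟨single_mem_WW (single_mem_KK (Glev_le_Vt h hv) ∅), ?_⟩, ?_⟩
  · funext I S
    change (if (S.card : ℤ) - I.card = 0 then _ else 0) = _
    by_cases hI : I = ∅
    · subst hI
      by_cases hS : S = ∅
      · subst hS
        simp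
      · simp [hS]
    · simp [hI]
  · have h1 := totD_single (y := y) (𝔪 := 𝔪) (q := q) (w := Pi.single ∅ v)
      (fun I hI => single_mem_KK (supp_Glev_le_Rel z hI α h hv) ∅) n
    have h2 : kd y (LL D m) (Pi.single ∅ v) = 0 := by
      funext S
      rw [kd_apply]
      refine Finset.sum_eq_zero fun i _ => ?_
      rw [Pi.single_eq_of_ne (Finset.insert_ne_empty i S), smul_zero, smul_zero]
    rw [h2, Pi.single_zero, sub_zero] at h1
    exact h1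

theorem corner_le_sup {π : Fin m → ℕ} (hπ : Function.Injective π) (hα : ∀ k, (π k : ℤ) ≤ α k)
    (hu : u₀ ≤ 0) {l : ℤ} (hl : 0 ≤ l) (n : ℤ) :
    corner (supp D (Glev α l)) ≤ corner (supp D (Glev α 0)) ⊔ WW z 𝔪 q α u₀ n := by
  intro x hx
  obtain ⟨v, hv, rfl⟩ := mem_corner.1 hx
  obtain ⟨v₁, h₁, v₂, h₂, rfl⟩ := Submodule.mem_sup.1 (supp_Glev_le_sup_Rel z α π hπ hα hu hl hv)
  rw [Pi.single_add, Pi.single_add]
  exact Submodule.add_mem_sup (mem_corner.2 ⟨v₁, h₁, rfl⟩)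
    (single_mem_WW (single_mem_KK (Rel_le_Vt z 𝔪 q ∅ α u₀ n h₂) ∅))

theorem smul_corner_mem {l : ℤ} (h : u₀ ≤ l) (n : ℤ) {v : LL D m} (hv : v ∈ supp D (Glev α l))
    {c : D} (hc : c ∈ sp y) : c • (Pi.single ∅ (Pi.single ∅ v) : XX D m) ∈
      (totDG y).Bd (WW z 𝔪 q α u₀ l) (WW z 𝔪 q α u₀ n) := by
  induction hc using Submodule.span_induction with
  | mem c hc =>
    obtain ⟨i, rfl⟩ := hc
    have h1 := totD_single (y := y) (𝔪 := 𝔪) (q := q) (w := Pi.single {i} v)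
      (fun I hI => single_mem_KK (supp_Glev_le_Rel z hI α h hv) {i}) n
    rw [kd_single_empty, Pi.single_smul, Pi.single_smul] at h1
    have h2 := (totDG y).D_mem_Bd (WW z 𝔪 q α u₀ n)
      (single_mem_WW (single_mem_KK (Glev_le_Vt (z := z) (𝔪 := 𝔪) (q := q) h hv) {i}))
    have h3 := sub_mem h2 ((totDG y).le_Bd _ _ h1)
    exact (sub_sub_cancel _ _).subst h3
  | zero => rw [zero_smul]; exact Submodule.zero_mem _
  | add a b _ _ ha hb => rw [add_smul]; exact add_mem ha hb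
  | smul a b _ hb => rw [smul_assoc]; exact Submodule.smul_mem _ _ hb

theorem sz_corner_le (μ : LF D) (hα : ∀ k, 0 ≤ α k) (hu : u₀ ≤ 0) (n : ℤ) :
    μ.sz (corner (supp D (Glev α 0))) ((totDG y).Bd (WW z 𝔪 q α u₀ 0) (WW z 𝔪 q α u₀ n)) ≤
      ecard α * μ.val (D ⧸ sp y) := by
  have hc : Fintype.card (Fintype.piFinset fun k => Finset.Icc (0 : ℤ) (α k)) = ecard α := by
    rw [Fintype.card_coe, Fintype.card_piFinset, ecard]
    refine Finset.prod_congr rfl fun k _ => ?_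
    have := hα k
    rw [Int.card_Icc]
    omega
  have hmem : ∀ b : Fintype.piFinset fun k => Finset.Icc (0 : ℤ) (α k),
      ((b : Fin m → ℤ), (0 : ℤ)) ∈ Glev α 0 := fun b =>
    ⟨rfl, fun k => by simpa using Fintype.mem_piFinset.1 b.2 k⟩
  rw [← hc]
  refine le_trans (μ.sz_mono ?_ le_rfl) (sz_span_le μ (sp y)
    (fun b : Fintype.piFinset fun k => Finset.Icc (0 : ℤ) (α k) =>
      (Pi.single ∅ (Pi.single ∅ (mo D ((b : Fin m → ℤ), (0 : ℤ)))) : XX D m)) _ ?_)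
  · rw [corner, supp, AddMonoidAlgebra.supported_eq_span_single, Submodule.map_span]
    refine Submodule.span_mono ?_
    rintro _ ⟨_, ⟨⟨b, l⟩, hg, rfl⟩, rfl⟩
    obtain rfl : l = 0 := hg.1
    exact ⟨⟨b, Fintype.mem_piFinset.2 fun k => by simpa using hg.2 k⟩, rfl⟩
  · intro b c hc
    refine smul_corner_mem hu n ?_ hc
    rw [supp, AddMonoidAlgebra.supported_eq_span_single]
    exact Submodule.subset_span ⟨_, hmem b, rfl⟩

end corner

theorem adm_const (m q : ℕ) (l : ℤ) : Adm m q fun _ => l := fun _ _ => ⟨le_rfl, by simp⟩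

end CoreBoundAux

open CoreBoundAux

namespace CH

variable {R₀ D : Type} [CommRing R₀] [CommRing D] [Algebra R₀ D] {m : ℕ}
  {z : Fin (m + 1) → R₀} {𝔪 : Ideal R₀} {y : Fin (m + 1) → D} {γ : D} {μ : LF D} {q a Wd : ℕ}

theorem FF_up (h : CH z 𝔪 y γ μ q a Wd) (α : Fin m → ℤ) (π : Fin m → ℕ)
    (hπ : Function.Injective π) (hα : ∀ k, (π k : ℤ) ≤ α k) {u₀ n : ℤ} (h₁ : u₀ ≤ 0) (h₂ : 0 ≤ n)
    (h₃ : n ≤ u₀ + Wd) (hy : μ.val (D ⧸ sp y) ≠ ⊤) :
    FF (zD D z) y (mD D 𝔪) q μ α u₀ 0 n ≤ ecard α * (μ.val (D ⧸ sp y)).toReal := by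
  have hα0 : ∀ k, 0 ≤ α k := fun k => (Int.natCast_nonneg _).trans (hα k)
  have hq := h.q_pos
  have key : ∀ l ≤ n, 0 ≤ l → μ.sz ((totDG y).Z 0 (WW (zD D z) (mD D 𝔪) q α u₀ l)
      (WW (zD D z) (mD D 𝔪) q α u₀ n)) (corner (supp D (Glev α 0)) ⊔
        (totDG y).Bd (WW (zD D z) (mD D 𝔪) q α u₀ 0) (WW (zD D z) (mD D 𝔪) q α u₀ n)) = 0 := by
    intro l hl
    induction l, hl using Int.leInductionDown with
    | base =>
      intro _
      exact μ.sz_eq_zero_of_le fun x hx =>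
        Submodule.mem_sup_right ((totDG y).le_Bd _ _ hx.1.1)
    | pred l hl ih =>
      intro hl0
      obtain ⟨l, rfl⟩ : ∃ l', l = l' + 1 := ⟨l - 1, by ring⟩
      rw [add_sub_cancel_right] at hl0 ⊢
      have hj' : Adm m q (Function.update (fun _ : ℕ => l) 0 (l + 1)) := by
        intro i _
        rw [Function.update_of_ne (Nat.succ_ne_zero i), Function.update_apply]
        split_ifs <;> omega
      have hle : ∀ i, l ≤ Function.update (fun _ : ℕ => l) 0 (l + 1) i ∧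
          Function.update (fun _ : ℕ => l) 0 (l + 1) i ≤ l + 1 := by
        intro i
        rw [Function.update_apply]
        split_ifs <;> omega
      have hg := h.step_gen α u₀ (fun _ => l) (adm_const m q l) hj' (by omega) (by omega)
      have hz := h.path_zero α u₀ hj' (adm_const m q (l + 1))
        (fun i _ => ⟨by have := hle i; omega, (hle i).2, by omega⟩) 0 (by
          intro r _ l' h1 h2 _
          rw [Function.update_apply] at h1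
          split_ifs at h1 with hr
          · omega
          · have e : neg (fun k => α k + l') = 0 := by
              rw [neg, Finset.card_eq_zero, Finset.filter_eq_empty_iff]
              intro k _
              have := hα0 k
              omega
            rw [e]
            omega)
      rw [GG_const] at hg hz
      refine gen_step μ (totDG y) (sub_WW _ _ _ _ _ _ _) (sub_GG _ _ _ _ _ _ _)
        (sub_WW _ _ _ _ _ _ _) (WW_anti _ _ _ _ _ hl0) ?_ ?_ (WW_anti _ _ _ _ _ hl)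
        (corner_le_Z (by omega) n) (corner_le_sup hπ hα h₁ hl0 n) hg hz (ih (by omega))
      · rw [← GG_const _ y]
        exact GG_anti _ _ _ _ _ _ fun i _ => (hle i).1
      · rw [← GG_const _ y]
        exact GG_anti _ _ _ _ _ _ fun i _ => (hle i).2
  rw [FF, chi_eq_zero_deg μ _ (by omega) fun k hk =>
    h.win_high α h₁ h₂ h₃ (fun k => by have := hα0 k; omega) hk]
  have h4 : (totDG y).h μ 0 (WW (zD D z) (mD D 𝔪) q α u₀ 0) (WW (zD D z) (mD D 𝔪) q α u₀ n) ≤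
      ecard α * μ.val (D ⧸ sp y) :=
    (μ.sz_le_of_null_left (key 0 h₂ le_rfl) _).trans
      ((μ.sz_sup_left _ _).le.trans (sz_corner_le μ hα0 h₁ n))
  refine (ENNReal.toReal_mono (ENNReal.mul_ne_top (ENNReal.natCast_ne_top _) hy) h4).trans ?_
  rw [ENNReal.toReal_mul, ENNReal.toReal_natCast]

theorem FF_low (h : CH z 𝔪 y γ μ q a Wd) (α : Fin m → ℤ) {u₀ u n : ℤ} (h₁ : u₀ ≤ u)
    (h₂ : u ≤ -((m + 1 : ℤ) * q)) (h₃ : 0 ≤ n) (h₄ : n ≤ u₀ + Wd)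
    (hP : ∀ r ≤ m + 1, ∀ l : ℤ, l < -(r * q : ℤ) → (r : ℤ) - neg (fun k => α k + l) ≤ 1)
    (hQ : ∀ r ≤ m + 1, ∀ l : ℤ, -(r * q : ℤ) ≤ l → ecard (fun k => α k + l) ≠ 0 →
      neg (fun k => α k + l) ≤ r) :
    ∑ r ∈ Finset.range (m + 2), (-1) ^ r * (beta μ y (sp (zD D z) ⊔ mD D 𝔪) r).toReal *
        ∑ l ∈ Finset.Ico u (-(r * q : ℤ)), ((∏ k, (α k + l + 1) : ℤ) : ℝ) ≤
      FF (zD D z) y (mD D 𝔪) q μ α u₀ u n := by
  have hj : Adm m q fun r => -(r * q : ℤ) := by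
    intro i _
    have := Int.natCast_nonneg q
    push_cast
    constructor <;> linarith
  have hb : ∀ r ≤ m + 1, u ≤ -(r * q : ℤ) ∧ -(r * q : ℤ) ≤ 0 := by
    intro r hr
    have h1 : (r : ℤ) ≤ m + 1 := by exact_mod_cast hr
    have h2 := mul_le_mul_of_nonneg_right h1 (Int.natCast_nonneg q)
    have h3 := mul_nonneg (Int.natCast_nonneg r) (Int.natCast_nonneg q)
    constructor <;> linarith
  have l1 : ∀ i ≤ m + 1, u₀ ≤ u ∧ u ≤ -(i * q : ℤ) ∧ -(i * q : ℤ) ≤ u₀ + Wd := fun i hi =>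
    ⟨h₁, (hb i hi).1, (hb i hi).2.trans (h₃.trans h₄)⟩
  have l2 : ∀ i ≤ m + 1, u₀ ≤ -(i * q : ℤ) ∧ -(i * q : ℤ) ≤ n ∧ n ≤ u₀ + Wd := fun i hi =>
    ⟨h₁.trans (hb i hi).1, (hb i hi).2.trans h₃, h₄⟩
  rw [← h.path_chi α u₀ (adm_const m q u) hj l1, FF, ← GG_const _ y, ← GG_const _ y]
  refine chi_low μ (totDG y) (sub_GG _ _ _ _ _ _ _) (sub_GG _ _ _ _ _ _ _) (sub_GG _ _ _ _ _ _ _)
    (GG_anti _ _ _ _ _ _ fun i hi => (l1 i hi).2.1) (GG_anti _ _ _ _ _ _ fun i hi => (l2 i hi).2.1)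
    (h.path_fin α u₀ (adm_const m q u) hj l1) (h.path_fin α u₀ hj (adm_const m q n) l2)
    (fun k hk => h.path_zero α u₀ (adm_const m q u) hj l1 k fun r hr l _ hl _ => ?_)
    (fun k hk => h.path_zero α u₀ hj (adm_const m q n) l2 k fun r hr l hl _ he => ?_)
    (by omega) (by omega)
  · have := hP r hr l hl
    omega
  · have := hQ r hr l hl he
    omega

end CH

end Crest.Agent.R183
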