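import Crest.Agent.R183.CoreDefs

/-!
# Combinatorial ingredients of the core inequality
-/

set_option autoImplicit false

namespace Crest.Agent.R183

theorem CoreComb_span_top {R : Type} [CommRing R] {m : ℕ} (u v : Fin m → R)
    (h : ∀ k, u k = 1 ∨ v k = 1) :
    Ideal.span (Set.range fun j : Fin (m + 1) =>
      ∑ J ∈ Finset.univ.filter (fun J : Finset (Fin m) => J.card = j),
        ∏ k, if k ∈ J then v k else u k) = ⊤ := by
  classical
  by_contra hne
  obtain ⟨M, hM, hle⟩ := Ideal.exists_le_maximal _ hne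
  have hP : M.IsPrime := hM.isPrime
  set J₀ : Finset (Fin m) := Finset.univ.filter (fun k => u k ∈ M) with hJ₀
  have hcard : J₀.card < m + 1 := by
    have := Finset.card_le_univ J₀
    rw [Fintype.card_fin] at this
    omega
  have hmem := hle (Ideal.subset_span ⟨(⟨J₀.card, hcard⟩ : Fin (m + 1)), rfl⟩)
  simp only at hmem
  rw [← Finset.add_sum_erase _ _ (a := J₀) (by simp)] at hmem
  have hrest : ∑ J ∈ (Finset.univ.filter (fun J : Finset (Fin m) => J.card = J₀.card)).erase J₀,
      (∏ k, if k ∈ J then v k else u k) ∈ M := by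
    refine Ideal.sum_mem _ fun J hJ => ?_
    rw [Finset.mem_erase, Finset.mem_filter] at hJ
    have hns : ¬ J₀ ⊆ J := fun hs => hJ.1 (Finset.eq_of_subset_of_card_le hs hJ.2.2.le).symm
    obtain ⟨k, hk0, hk⟩ := Finset.not_subset.1 hns
    refine Ideal.IsPrime.prod_mem_iff.2 ⟨k, Finset.mem_univ k, ?_⟩
    rw [if_neg hk]
    simpa [hJ₀] using hk0
  have h0 := (Ideal.add_mem_iff_left M hrest).1 hmem
  obtain ⟨k, -, hk⟩ := Ideal.IsPrime.prod_mem_iff.1 h0
  have h1 : (1 : R) ∉ M := fun h1 => hM.ne_top ((Ideal.eq_top_iff_one M).2 h1)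
  by_cases hkJ : k ∈ J₀
  · rw [if_pos hkJ] at hk
    have huk : u k ∈ M := by simpa [hJ₀] using hkJ
    rcases h k with h' | h'
    · exact h1 (h' ▸ huk)
    · exact h1 (h' ▸ hk)
  · rw [if_neg hkJ] at hk
    exact hkJ (by simpa [hJ₀] using hk)

theorem CoreComb_mo_mem {D : Type} [CommRing D] {m : ℕ} {Ω : Set (G m)} {g : G m} (hg : g ∈ Ω) :
    mo D g ∈ supp D Ω := by
  rw [supp, AddMonoidAlgebra.supported_eq_span_single]
  exact Submodule.subset_span ⟨g, hg, rfl⟩

theorem CoreComb_mo_mul {D : Type} [CommRing D] {m : ℕ} (g g' : G m) :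
    mo D g * mo D g' = mo D (g + g') := by
  simp [mo, AddMonoidAlgebra.single_mul_single]

theorem CoreComb_supp_mul {D : Type} [CommRing D] {m : ℕ} {Ω₁ Ω₂ Ω : Set (G m)}
    (h : ∀ g₁ ∈ Ω₁, ∀ g₂ ∈ Ω₂, g₁ + g₂ ∈ Ω) {x y : LL D m} (hx : x ∈ supp D Ω₁)
    (hy : y ∈ supp D Ω₂) : x * y ∈ supp D Ω := by
  classical
  rw [supp, AddMonoidAlgebra.mem_supported] at hx hy ⊢
  intro g hg
  have := AddMonoidAlgebra.support_coeff_mul_subset x y hg
  obtain ⟨g₁, h₁, g₂, h₂, rfl⟩ := Finset.mem_add.1 this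
  exact h g₁ (hx h₁) g₂ (hy h₂)

/-- The dehomogenised `e_j(t)` generate the unit ideal on the chart `I`:
`(t^I τ)^a = ∑ g_j Z_j^a` with `g_j` regular on the chart. -/
theorem exists_unit_comb (D : Type) [CommRing D] {m : ℕ} (I : Finset (Fin m)) (a : ℕ) :
    ∃ g : Fin (m + 1) → LL D m,
      (∀ j, g j ∈ supp D {e : G m | e.2 = 0 ∧ (∀ k ∉ I, 0 ≤ e.1 k) ∧ ∀ k ∈ I, e.1 k ≤ 0}) ∧
      ∑ j, g j * ZZ D m j ^ a = mo D (ind I, 1) ^ a := by
  classical
  set Ω : Set (G m) := {e : G m | e.2 = 0 ∧ (∀ k ∉ I, 0 ≤ e.1 k) ∧ ∀ k ∈ I, e.1 k ≤ 0} with hΩ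
  have hadd : ∀ g₁ ∈ Ω, ∀ g₂ ∈ Ω, g₁ + g₂ ∈ Ω := by
    rintro g₁ ⟨h1, h2, h3⟩ g₂ ⟨h1', h2', h3'⟩
    refine ⟨by simp [h1, h1'], fun k hk => ?_, fun k hk => ?_⟩
    · exact add_nonneg (h2 k hk) (h2' k hk)
    · exact add_nonpos (h3 k hk) (h3' k hk)
  let A : Subalgebra D (LL D m) := (supp D Ω).toSubalgebra
    (CoreComb_mo_mem (g := 0) ⟨rfl, fun _ _ => le_rfl, fun _ _ => le_rfl⟩)
    (fun x y hx hy => CoreComb_supp_mul hadd hx hy)
  let eu : Fin m → G m := fun k => (if k ∈ I then -Pi.single k 1 else 0, 0)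
  let ev : Fin m → G m := fun k => (if k ∈ I then 0 else Pi.single k 1, 0)
  have heu : ∀ k, eu k ∈ Ω := by
    intro k
    refine ⟨rfl, fun k' hk' => ?_, fun k' hk' => ?_⟩
    · simp only [eu]
      split_ifs with h
      · have : k' ≠ k := fun e => hk' (e ▸ h)
        simp [this]
      · simp
    · simp only [eu]
      split_ifs with h
      · simp only [Pi.neg_apply, Pi.single_apply]
        split_ifs <;> simp
      · simp
  have hev : ∀ k, ev k ∈ Ω := by
    intro k
    refine ⟨rfl, fun k' hk' => ?_, fun k' hk' => ?_⟩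
    · simp only [ev]
      split_ifs with h
      · simp
      · simp only [Pi.single_apply]
        split_ifs <;> simp
    · simp only [ev]
      split_ifs with h
      · simp
      · have : k' ≠ k := fun e => h (e ▸ hk')
        simp [this]
  let u : Fin m → A := fun k => ⟨mo D (eu k), CoreComb_mo_mem (heu k)⟩
  let v : Fin m → A := fun k => ⟨mo D (ev k), CoreComb_mo_mem (hev k)⟩
  have huv : ∀ k, u k = 1 ∨ v k = 1 := by
    intro k
    by_cases h : k ∈ I
    · right
      apply Subtype.ext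
      simp only [v, ev, if_pos h]
      rfl
    · left
      apply Subtype.ext
      simp only [u, eu, if_neg h]
      rfl
  set x : Fin (m + 1) → A := fun j =>
    ∑ J ∈ Finset.univ.filter (fun J : Finset (Fin m) => J.card = j),
      ∏ k, if k ∈ J then v k else u k with hx
  have htop := Ideal.span_pow_eq_top _ (CoreComb_span_top u v huv) a
  rw [← Set.range_comp, Ideal.eq_top_iff_one] at htop
  obtain ⟨c, hc⟩ := (Submodule.mem_span_range_iff_exists_fun A).1 htop
  have hxZ : ∀ j, (x j : LL D m) * mo D (ind I, 1) = ZZ D m j := by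
    intro j
    simp only [hx, ZZ, AddSubmonoidClass.coe_finsetSum, SubmonoidClass.coe_finsetProd,
      Finset.sum_mul]
    refine Finset.sum_congr rfl fun J _ => ?_
    have e1 : ∀ k, ((if k ∈ J then v k else u k : A) : LL D m) =
        mo D (if k ∈ J then ev k else eu k) := by
      intro k
      split_ifs <;> rfl
    simp only [e1]
    rw [AddMonoidAlgebra.prod_single, Finset.prod_const_one]
    change mo D _ * mo D _ = _
    rw [CoreComb_mo_mul]
    congr 1
    refine Prod.ext ?_ ?_
    · funext i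
      simp only [Prod.fst_add, Prod.fst_sum, Pi.add_apply, Finset.sum_apply]
      rw [Finset.sum_eq_single i]
      · simp only [ind, eu, ev]
        by_cases h1 : i ∈ J <;> by_cases h2 : i ∈ I <;> simp [h1, h2]
      · intro k _ hk
        simp only [eu, ev]
        by_cases h1 : k ∈ J <;> by_cases h2 : k ∈ I <;> simp [h1, h2, hk.symm]
      · simp
    · simp only [Prod.snd_add, Prod.snd_sum]
      rw [Finset.sum_eq_zero, zero_add]
      intro k _
      split_ifs <;> rfl
  refine ⟨fun j => (c j : LL D m), fun j => (c j).2, ?_⟩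
  have hc' := congrArg (fun y : A => (y : LL D m) * mo D (ind I, 1) ^ a) hc
  simp only [AddSubmonoidClass.coe_finsetSum, Finset.sum_mul, OneMemClass.coe_one, one_mul] at hc'
  rw [← hc']
  refine Finset.sum_congr rfl fun j _ => ?_
  rw [← hxZ j, mul_pow, ← mul_assoc]
  congr 1

/-- elementary symmetric functions of the variables in `s`, times `τ` -/
noncomputable def CoreCombE (D : Type) [CommRing D] {m : ℕ} (s : Finset (Fin m)) (j : ℕ) :
    LL D m :=
  ∑ J ∈ s.powersetCard j, mo D (ind J, 1)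

theorem CoreCombE_zero (D : Type) [CommRing D] {m : ℕ} (s : Finset (Fin m)) :
    CoreCombE D s 0 = mo D (0, 1) := by
  have : (ind (∅ : Finset (Fin m))) = 0 := by
    funext k
    simp [ind]
  simp [CoreCombE, this]

theorem CoreCombE_eq_zero (D : Type) [CommRing D] {m : ℕ} (s : Finset (Fin m)) {j : ℕ}
    (hj : s.card < j) : CoreCombE D s j = 0 := by
  simp [CoreCombE, Finset.powersetCard_eq_empty.2 hj]

theorem CoreCombE_succ (D : Type) [CommRing D] {m : ℕ} {s : Finset (Fin m)} {a : Fin m}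
    (ha : a ∉ s) (j : ℕ) :
    CoreCombE D (insert a s) (j + 1) =
      CoreCombE D s (j + 1) + CoreCombE D s j * mo D (Pi.single a 1, 0) := by
  unfold CoreCombE
  rw [Finset.powersetCard_succ_insert ha, Finset.sum_union, Finset.sum_image, Finset.sum_mul]
  · congr 1
    refine Finset.sum_congr rfl fun J hJ => ?_
    have haJ : a ∉ J := fun h => ha ((Finset.mem_powersetCard.1 hJ).1 h)
    rw [CoreComb_mo_mul]
    congr 1
    refine Prod.ext ?_ (by simp)
    funext k
    simp only [ind, Prod.fst_add, Pi.add_apply, Pi.single_apply, Finset.mem_insert]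
    by_cases h1 : k = a
    · subst h1
      simp [haJ]
    · simp [h1]
  · intro J hJ J' hJ' e
    have haJ : a ∉ J := fun h => ha ((Finset.mem_powersetCard.1 hJ).1 h)
    have haJ' : a ∉ J' := fun h => ha ((Finset.mem_powersetCard.1 hJ').1 h)
    rw [← Finset.erase_insert haJ, ← Finset.erase_insert haJ']
    exact congrArg (fun t => Finset.erase t a) e
  · rw [Finset.disjoint_left]
    intro J hJ hJ'
    obtain ⟨J', -, rfl⟩ := Finset.mem_image.1 hJ'
    exact ha ((Finset.mem_powersetCard.1 hJ).1 (Finset.mem_insert_self a J'))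

/-- the submodule generated by the `E_j · t^e τ^l` -/
noncomputable def CoreCombT (D : Type) [CommRing D] {m : ℕ} (β : Fin m → ℤ) (l : ℤ)
    (s : Finset (Fin m)) (b : Fin m → ℤ) : Submodule D (LL D m) :=
  Submodule.span D {x | ∃ (j : ℕ) (e : Fin m → ℤ), (∀ k ∈ s, 0 ≤ e k ∧ e k ≤ β k) ∧
    (∀ k ∉ s, e k = b k) ∧ x = CoreCombE D s j * mo D (e, l)}

theorem CoreCombT_le (D : Type) [CommRing D] {m : ℕ} (β : Fin m → ℤ) (l : ℤ)
    {s : Finset (Fin m)} {a : Fin m} (ha : a ∉ s) (hβ : (s.card : ℤ) ≤ β a) (b : Fin m → ℤ)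
    (hb : 0 ≤ b a ∧ b a ≤ β a + 1) :
    CoreCombT D β l s b ≤ CoreCombT D β l (insert a s) b := by
  refine Submodule.span_le.2 ?_
  rintro x ⟨j, e, he1, he2, rfl⟩
  have hgen : ∀ (i : ℕ) (c : ℤ), 0 ≤ c → c ≤ β a →
      CoreCombE D (insert a s) i * mo D (Function.update e a c, l) ∈
        CoreCombT D β l (insert a s) b := by
    intro i c h0 h1
    refine Submodule.subset_span ⟨i, Function.update e a c, fun k hk => ?_, fun k hk => ?_, rfl⟩
    · by_cases hka : k = a
      · subst hka
        simpa using ⟨h0, h1⟩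
      · rw [Function.update_of_ne hka]
        exact he1 k ((Finset.mem_insert.1 hk).resolve_left hka)
    · rw [Finset.mem_insert, not_or] at hk
      rw [Function.update_of_ne hk.1]
      exact he2 k hk.2
  have hrec : ∀ (i : ℕ) (c : ℤ),
      CoreCombE D (insert a s) (i + 1) * mo D (Function.update e a c, l) =
        CoreCombE D s (i + 1) * mo D (Function.update e a c, l) +
          CoreCombE D s i * mo D (Function.update e a (c + 1), l) := by
    intro i c
    rw [CoreCombE_succ D ha, add_mul, mul_assoc, CoreComb_mo_mul]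
    congr 3
    refine Prod.ext ?_ (by simp)
    funext k
    by_cases hka : k = a
    · subst hka
      simp [add_comm]
    · simp [hka]
  have hdown : ∀ (i : ℕ) (c : ℤ), 0 ≤ c → c + i ≤ β a →
      CoreCombE D s i * mo D (Function.update e a c, l) ∈ CoreCombT D β l (insert a s) b := by
    intro i
    induction i with
    | zero =>
      intro c h0 h1
      have := hgen 0 c h0 (by simpa using h1)
      rwa [CoreCombE_zero, ← CoreCombE_zero D s] at this
    | succ i ih =>
      intro c h0 h1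
      push_cast at h1
      have h2 := hgen (i + 1) c h0 (by omega)
      rw [hrec] at h2
      exact (Submodule.add_mem_iff_left _ (ih (c + 1) (by omega) (by omega))).1 h2
  have hup : ∀ (d i : ℕ) (c : ℤ), s.card + 1 ≤ i + d → c ≤ β a + 1 → (s.card : ℤ) + 1 ≤ c + i →
      CoreCombE D s i * mo D (Function.update e a c, l) ∈ CoreCombT D β l (insert a s) b := by
    intro d
    induction d with
    | zero =>
      intro i c h0 _ _
      rw [CoreCombE_eq_zero D s (by omega), zero_mul]
      exact Submodule.zero_mem _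
    | succ d ih =>
      intro i c h0 h1 h2
      by_cases hi : s.card < i
      · rw [CoreCombE_eq_zero D s hi, zero_mul]
        exact Submodule.zero_mem _
      · have h3 := hgen (i + 1) (c - 1) (by omega) (by omega)
        rw [hrec, sub_add_cancel] at h3
        exact (Submodule.add_mem_iff_right _
          (ih (i + 1) (c - 1) (by omega) (by omega) (by push_cast; omega))).1 h3
  have hea : e = Function.update e a (b a) := by
    rw [← he2 a ha, Function.update_eq_self]
  rw [hea]
  by_cases hc : b a + j ≤ β a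
  · exact hdown j (b a) hb.1 hc
  · exact hup (s.card + 1) j (b a) (by omega) hb.2 (by omega)

theorem CoreComb_mo_mem_T (D : Type) [CommRing D] {m : ℕ} (β : Fin m → ℤ) (l : ℤ)
    (π : Fin m → ℕ) (hπ : Function.Injective π) (h : ∀ k, (π k : ℤ) ≤ β k) (b : Fin m → ℤ)
    (hb : ∀ k, 0 ≤ b k ∧ b k ≤ β k + 1) (s : Finset (Fin m)) :
    mo D (b, l + 1) ∈ CoreCombT D β l s b := by
  induction s using Finset.induction_on_max_value π with
  | empty =>
    refine Submodule.subset_span ⟨0, b, by simp, by simp, ?_⟩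
    rw [CoreCombE_zero, CoreComb_mo_mul]
    congr 1
    exact Prod.ext (by simp) (by simp [add_comm])
  | insert a s ha hmax ih =>
    refine CoreCombT_le D β l ha ?_ b (hb a) ih
    have hc : s.card ≤ π a := by
      rw [← Finset.card_range (π a)]
      refine Finset.card_le_card_of_injOn π (fun x hx => ?_) hπ.injOn
      have hx' : x ∈ s := hx
      have hne : π x ≠ π a := fun e => ha (hπ e ▸ hx')
      have := hmax x hx'
      simp only [Finset.coe_range, Set.mem_Iio]
      omega
    have := h a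
    omega

/-- generation of the sections of `O(β + 1)` by those of `O(β)` for `β` above an Ulrich point -/
theorem supp_Glev_succ_le (D : Type) [CommRing D] {m : ℕ} (α : Fin m → ℤ) (l : ℤ)
    (π : Fin m → ℕ) (hπ : Function.Injective π) (h : ∀ k, (π k : ℤ) ≤ α k + l) :
    supp D (Glev α (l + 1)) ≤
      ⨆ j : Fin (m + 1), (supp D (Glev α l)).map (LinearMap.mulLeft D (ZZ D m j)) := by
  rw [supp, AddMonoidAlgebra.supported_eq_span_single]
  refine Submodule.span_le.2 ?_
  rintro _ ⟨⟨b, l'⟩, ⟨hl, hb⟩, rfl⟩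
  simp only at hl hb
  subst hl
  have h1 := CoreComb_mo_mem_T D (fun k => α k + l) l π hπ h b
    (fun k => by have := hb k; omega) Finset.univ
  refine (?_ : CoreCombT D (fun k => α k + l) l Finset.univ b ≤ _) h1
  refine Submodule.span_le.2 ?_
  rintro _ ⟨j, e, he, -, rfl⟩
  by_cases hj : j < m + 1
  · have hE : CoreCombE D Finset.univ j = ZZ D m ⟨j, hj⟩ := by
      unfold CoreCombE ZZ
      rw [Finset.powersetCard_eq_filter, Finset.powerset_univ]
    rw [hE]
    refine Submodule.mem_iSup_of_mem ⟨j, hj⟩ ⟨mo D (e, l), ?_, rfl⟩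
    exact CoreComb_mo_mem ⟨rfl, fun k => he k (Finset.mem_univ k)⟩
  · rw [CoreCombE_eq_zero D _ (by simpa using hj), zero_mul]
    exact Submodule.zero_mem _

theorem CoreComb_cons_add_single {m : ℕ} (c : ℤ) (α : Fin m → ℤ) (k : Fin m) :
    (Fin.cons c (α + Pi.single k 1) : Fin (m + 1) → ℤ) =
      Fin.cons c α + Pi.single k.succ 1 := by
  funext i
  refine Fin.cases ?_ (fun j => ?_) i
  · simp
  · simp [Pi.single_apply]

theorem CoreComb_cons_sub_single {m : ℕ} (c : ℤ) (α : Fin m → ℤ) (k : Fin m) :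
    (Fin.cons c (α - Pi.single k 1) : Fin (m + 1) → ℤ) =
      Fin.cons c α - Pi.single k.succ 1 := by
  funext i
  refine Fin.cases ?_ (fun j => ?_) i
  · simp
  · simp [Pi.single_apply]

theorem CoreComb_cons_add_single_zero {m : ℕ} (c : ℤ) (α : Fin m → ℤ) :
    (Fin.cons c α + Pi.single 0 1 : Fin (m + 1) → ℤ) = Fin.cons (c + 1) α := by
  funext i
  refine Fin.cases ?_ (fun j => ?_) i
  · simp
  · simp

theorem CoreComb_cons_sub_single_zero {m : ℕ} (c : ℤ) (α : Fin m → ℤ) :
    (Fin.cons c α - Pi.single 0 1 : Fin (m + 1) → ℤ) = Fin.cons (c - 1) α := by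
  funext i
  refine Fin.cases ?_ (fun j => ?_) i
  · simp
  · simp

theorem CoreComb_cons_add_one {m : ℕ} (c : ℤ) (α : Fin m → ℤ) :
    (Fin.cons c α + 1 : Fin (m + 1) → ℤ) = Fin.cons (c + 1) (α + 1) := by
  funext i
  refine Fin.cases ?_ (fun j => ?_) i
  · simp
  · simp

theorem CoreComb_cons_comp {m : ℕ} (c : ℤ) (α : Fin m → ℤ) (σ : Equiv.Perm (Fin m)) :
    (Fin.cons c (α ∘ σ) : Fin (m + 1) → ℤ) =
      Fin.cons c α ∘ (Equiv.Perm.decomposeFin.symm (0, σ)) := by
  funext i
  refine Fin.cases ?_ (fun j => ?_) i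
  · simp
  · simp

/-- a symmetric function on a box which is affine in each variable and invariant under the
diagonal shift is constant -/
theorem CoreComb_symm_const (L : ℤ) (hL : 2 ≤ L) (m : ℕ) : ∀ (F : (Fin m → ℤ) → ℝ),
    (∀ (σ : Equiv.Perm (Fin m)) (α : Fin m → ℤ), F (α ∘ σ) = F α) →
    (∀ (α : Fin m → ℤ) (k : Fin m), (∀ i, 0 ≤ α i ∧ α i ≤ L) → 1 ≤ α k → α k + 1 ≤ L →
      F (α + Pi.single k 1) + F (α - Pi.single k 1) = 2 * F α) →
    (∀ α : Fin m → ℤ, (∀ i, 0 ≤ α i ∧ α i + 1 ≤ L) → F (α + 1) = F α) →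
    ∀ α : Fin m → ℤ, (∀ i, 0 ≤ α i ∧ α i ≤ L) → F α = F 0 := by
  induction m with
  | zero =>
    intro F _ _ _ α _
    rw [Subsingleton.elim α 0]
  | succ m ih =>
    intro F hsym haff hshift
    have hbox : ∀ (c : ℤ) (α : Fin m → ℤ), 0 ≤ c → c ≤ L → (∀ i, 0 ≤ α i ∧ α i ≤ L) →
        ∀ i, 0 ≤ (Fin.cons c α : Fin (m + 1) → ℤ) i ∧ (Fin.cons c α : Fin (m + 1) → ℤ) i ≤ L := by
      intro c α h0 h1 hα i
      refine Fin.cases ?_ (fun j => ?_) i
      · simpa using ⟨h0, h1⟩
      · simpa using hα j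
    have hbox' : ∀ (c : ℤ) (α : Fin m → ℤ), 0 ≤ c → c + 1 ≤ L → (∀ i, 0 ≤ α i ∧ α i + 1 ≤ L) →
        ∀ i, 0 ≤ (Fin.cons c α : Fin (m + 1) → ℤ) i ∧
          (Fin.cons c α : Fin (m + 1) → ℤ) i + 1 ≤ L := by
      intro c α h0 h1 hα i
      refine Fin.cases ?_ (fun j => ?_) i
      · simpa using ⟨h0, h1⟩
      · simpa using hα j
    have haff0 : ∀ (c : ℤ) (α : Fin m → ℤ), 1 ≤ c → c + 1 ≤ L → (∀ i, 0 ≤ α i ∧ α i ≤ L) →
        F (Fin.cons (c + 1) α) + F (Fin.cons (c - 1) α) = 2 * F (Fin.cons c α) := by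
      intro c α h0 h1 hα
      have := haff (Fin.cons c α) 0 (hbox c α (by omega) (by omega) hα) (by simpa using h0)
        (by simpa using h1)
      rwa [CoreComb_cons_add_single_zero, CoreComb_cons_sub_single_zero] at this
    set Gf : (Fin m → ℤ) → ℝ := fun α => F (Fin.cons 1 α) - F (Fin.cons 0 α) with hG
    have hGc : ∀ α : Fin m → ℤ, (∀ i, 0 ≤ α i ∧ α i ≤ L) → Gf α = Gf 0 := by
      refine ih Gf ?_ ?_ ?_
      · intro σ α
        simp only [hG, CoreComb_cons_comp, hsym]
      · intro α k hα h1 h2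
        have e1 := haff (Fin.cons 1 α) k.succ (hbox 1 α (by omega) (by omega) hα)
          (by simpa using h1) (by simpa using h2)
        have e0 := haff (Fin.cons 0 α) k.succ (hbox 0 α (by omega) (by omega) hα)
          (by simpa using h1) (by simpa using h2)
        simp only [hG, CoreComb_cons_add_single, CoreComb_cons_sub_single]
        linarith
      · intro α hα
        have e0 := hshift (Fin.cons 0 α) (hbox' 0 α (by omega) (by omega) hα)
        have e1 := hshift (Fin.cons 1 α) (hbox' 1 α (by omega) (by omega) hα)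
        rw [CoreComb_cons_add_one] at e0 e1
        have e2 := haff0 1 (α + 1) le_rfl (by omega)
          (fun i => by have := hα i; simp only [Pi.add_apply, Pi.one_apply]; omega)
        simp only [hG]
        norm_num at e0 e1 e2 ⊢
        linarith
    have step0 : ∀ (α : Fin m → ℤ), (∀ i, 0 ≤ α i ∧ α i ≤ L) → ∀ t : ℕ, (t : ℤ) + 1 ≤ L →
        F (Fin.cons ((t : ℤ) + 1) α) = F (Fin.cons (t : ℤ) α) + Gf 0 := by
      intro α hα t
      induction t with
      | zero =>
        intro _
        rw [← hGc α hα]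
        simp [hG]
      | succ t iht =>
        intro ht
        push_cast at ht ⊢
        have e1 := iht (by omega)
        have e2 := haff0 ((t : ℤ) + 1) α (by omega) ht hα
        rw [add_sub_cancel_right] at e2
        linarith
    have step : ∀ (α : Fin (m + 1) → ℤ) (k : Fin (m + 1)), (∀ i, 0 ≤ α i ∧ α i ≤ L) →
        α k + 1 ≤ L → F (α + Pi.single k 1) = F α + Gf 0 := by
      intro α k hα hk
      obtain ⟨t, ht⟩ := Int.eq_ofNat_of_zero_le (hα k).1
      have e1 : α ∘ Equiv.swap 0 k = Fin.cons (t : ℤ) (Fin.tail (α ∘ Equiv.swap 0 k)) := by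
        rw [← ht]
        conv_lhs => rw [← Fin.cons_self_tail (α ∘ Equiv.swap 0 k)]
        simp
      have e2 : (α + Pi.single k 1) ∘ Equiv.swap 0 k =
          Fin.cons ((t : ℤ) + 1) (Fin.tail (α ∘ Equiv.swap 0 k)) := by
        rw [← CoreComb_cons_add_single_zero, ← e1]
        funext i
        simp only [Function.comp_apply, Pi.add_apply, Pi.single_apply]
        congr 1
        simp only [Equiv.swap_apply_eq_iff, Equiv.swap_apply_right]
      rw [← hsym (Equiv.swap 0 k) α, ← hsym (Equiv.swap 0 k) (α + Pi.single k 1), e2, e1]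
      refine step0 _ (fun i => ?_) t (by omega)
      simpa [Fin.tail] using hα _
    have lin : ∀ (n : ℕ) (α : Fin (m + 1) → ℤ), (∀ i, 0 ≤ α i ∧ α i ≤ L) → ∑ i, α i = n →
        F α = F 0 + n * Gf 0 := by
      intro n
      induction n with
      | zero =>
        intro α hα hs
        have : α = 0 := by
          funext i
          exact (Finset.sum_eq_zero_iff_of_nonneg (fun i _ => (hα i).1)).1 (by simpa using hs) i
            (Finset.mem_univ i)
        simp [this]
      | succ n ihn =>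
        intro α hα hs
        have : ∃ k, 1 ≤ α k := by
          by_contra hc
          push Not at hc
          have : ∑ i, α i ≤ 0 := Finset.sum_nonpos fun i _ => by have := hc i; omega
          omega
        obtain ⟨k, hk⟩ := this
        have hb : ∀ i, 0 ≤ (α - Pi.single k 1 : Fin (m + 1) → ℤ) i ∧
            (α - Pi.single k 1 : Fin (m + 1) → ℤ) i ≤ L := by
          intro i
          have := hα i
          simp only [Pi.sub_apply, Pi.single_apply]
          split_ifs with h
          · subst h; omega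
          · omega
        have e1 := ihn (α - Pi.single k 1) hb (by
          simp only [Pi.sub_apply, Finset.sum_sub_distrib, Finset.sum_pi_single',
            Finset.mem_univ, if_true]
          push_cast at hs
          omega)
        have e2 := step (α - Pi.single k 1) k hb (by have := hα k; simp; omega)
        rw [sub_add_cancel] at e2
        push_cast
        linarith
    have hc : Gf 0 = 0 := by
      have e1 := hshift 0 (fun i => by simp; omega)
      have e2 := lin (m + 1) (0 + 1) (fun i => by simp; omega) (by simp)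
      rw [e1] at e2
      have hm : ((m + 1 : ℕ) : ℝ) ≠ 0 := by positivity
      have : ((m + 1 : ℕ) : ℝ) * Gf 0 = 0 := by linarith
      exact (mul_eq_zero.1 this).resolve_left hm
    intro α hα
    obtain ⟨n, hn⟩ := Int.eq_ofNat_of_zero_le
      (Finset.sum_nonneg (s := Finset.univ) fun i _ => (hα i).1)
    rw [lin n α hα hn, hc, mul_zero, add_zero]

/-- A function on a box which is affine in each variable and invariant under the diagonal shift
has a constant symmetrisation. -/
theorem symm_sum_const {m : ℕ} (L : ℤ) (hL : 2 ≤ L ∨ m = 0) (f : (Fin m → ℤ) → ℝ)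
    (haff : ∀ (α : Fin m → ℤ) (k : Fin m), (∀ i, 0 ≤ α i ∧ α i ≤ L) → 1 ≤ α k → α k + 1 ≤ L →
      f (α + Pi.single k 1) + f (α - Pi.single k 1) = 2 * f α)
    (hshift : ∀ α : Fin m → ℤ, (∀ i, 0 ≤ α i ∧ α i + 1 ≤ L) → f (α + 1) = f α)
    (α β : Fin m → ℤ) (hα : ∀ i, 0 ≤ α i ∧ α i ≤ L) (hβ : ∀ i, 0 ≤ β i ∧ β i ≤ L) :
    ∑ σ : Equiv.Perm (Fin m), f (α ∘ σ) = ∑ σ : Equiv.Perm (Fin m), f (β ∘ σ) := by
  rcases hL with hL | rfl
  · have key := CoreComb_symm_const L hL m (fun α => ∑ σ : Equiv.Perm (Fin m), f (α ∘ σ)) ?_ ?_ ?_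
    · exact (key α hα).trans (key β hβ).symm
    · intro τ γ
      exact Fintype.sum_equiv (Equiv.mulLeft τ) _ _ fun σ => rfl
    · intro γ k hγ h1 h2
      rw [← Finset.sum_add_distrib, Finset.mul_sum]
      refine Finset.sum_congr rfl fun σ _ => ?_
      have e : (Pi.single k 1 : Fin m → ℤ) ∘ σ = Pi.single (σ.symm k) 1 := by
        funext i
        simp only [Function.comp_apply, Pi.single_apply, Equiv.eq_symm_apply]
      have e1 : (γ + Pi.single k 1) ∘ σ = γ ∘ σ + Pi.single (σ.symm k) 1 := by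
        rw [← e]; rfl
      have e2 : (γ - Pi.single k 1) ∘ σ = γ ∘ σ - Pi.single (σ.symm k) 1 := by
        rw [← e]; rfl
      rw [e1, e2]
      exact haff _ _ (fun i => hγ _) (by simpa using h1) (by simpa using h2)
    · intro γ hγ
      exact Finset.sum_congr rfl fun σ _ => hshift (γ ∘ σ) fun i => hγ _
  · rw [Subsingleton.elim α β]

/-- the `i`-th twist -/
def twist (m q : ℕ) (i : Fin (m + 1)) : Fin m → ℤ := fun k =>
  if i.succAbove k < i then ((i.succAbove k : ℕ) + 1 : ℤ) * q
  else ((i.succAbove k : ℕ) + 1 : ℤ) * q - 1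

theorem twist_mem (m q : ℕ) (hq : 0 < q) (i : Fin (m + 1)) (k : Fin m) :
    0 ≤ twist m q i k ∧ twist m q i k ≤ (m + 1 : ℤ) * q := by
  have h1 : ((i.succAbove k : ℕ) : ℤ) ≤ m := by
    have := (i.succAbove k).isLt
    omega
  have h0 : (0 : ℤ) ≤ ((i.succAbove k : ℕ) : ℤ) := by positivity
  have hq' : (1 : ℤ) ≤ q := by exact_mod_cast hq
  unfold twist
  split_ifs <;> constructor <;> nlinarith

theorem CoreComb_prod_succ_sub {n : ℕ} (x : Fin (n + 1) → ℤ) :
    ∑ i : Fin (n + 1), ∏ k : Fin n,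
        (if i.succAbove k < i then x (i.succAbove k) + 1 else x (i.succAbove k)) =
      ∏ j, (x j + 1) - ∏ j, x j := by
  have h := Finset.prod_add_ordered (Finset.univ : Finset (Fin (n + 1))) x (fun _ => (1 : ℤ))
  rw [h, add_sub_cancel_left]
  refine Finset.sum_congr rfl fun i _ => ?_
  have h2 : ∏ j : Fin (n + 1), (if j < i then x j + 1 else if i < j then x j else 1) =
      (∏ j ∈ Finset.univ.filter (fun j => j < i), (x j + 1)) *
        ∏ j ∈ Finset.univ.filter (fun j => i < j), x j := by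
    rw [Finset.prod_filter, Finset.prod_filter, ← Finset.prod_mul_distrib]
    refine Finset.prod_congr rfl fun j _ => ?_
    rcases lt_trichotomy j i with h | h | h
    · simp [h, h.not_gt]
    · simp [h]
    · simp [h, h.not_gt]
  rw [one_mul, ← h2, Fin.prod_univ_succAbove _ i]
  simp only [lt_irrefl, if_false, one_mul]
  refine Finset.prod_congr rfl fun k _ => ?_
  have hne : i.succAbove k ≠ i := Fin.succAbove_ne i k
  rcases lt_or_gt_of_ne hne with h | h
  · simp [h]
  · simp [h, h.not_gt]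

theorem sum_prod_twist (m q : ℕ) (l : ℤ) :
    ∑ i : Fin (m + 1), ∏ k, (twist m q i k + l + 1) =
      ∏ j : Fin (m + 1), (l + 1 + ((j : ℕ) + 1 : ℤ) * q) -
        ∏ j : Fin (m + 1), (l + ((j : ℕ) + 1 : ℤ) * q) := by
  have h := CoreComb_prod_succ_sub (fun j : Fin (m + 1) => l + ((j : ℕ) + 1 : ℤ) * q)
  have e1 : ∏ j : Fin (m + 1), (l + 1 + ((j : ℕ) + 1 : ℤ) * q) =
      ∏ j : Fin (m + 1), (l + ((j : ℕ) + 1 : ℤ) * q + 1) :=
    Finset.prod_congr rfl fun j _ => by ring
  rw [e1, ← h]
  refine Finset.sum_congr rfl fun i _ => Finset.prod_congr rfl fun k _ => ?_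
  unfold twist
  split_ifs <;> ring

theorem twist_low (m q : ℕ) (i : Fin (m + 1)) (σ : Equiv.Perm (Fin m)) (r : ℕ) (hr : r ≤ m + 1)
    (l : ℤ) (hl : l < -(r * q : ℤ)) :
    (r : ℤ) - neg (fun k => (twist m q i ∘ σ) k + l) ≤ 1 := by
  classical
  set N := Finset.univ.filter (fun k => (twist m q i ∘ σ) k + l < 0) with hN
  have hsub : Finset.range r ⊆
      insert (i : ℕ) (N.image (fun k => ((i.succAbove (σ k) : Fin (m + 1)) : ℕ))) := by
    intro j hj
    rw [Finset.mem_range] at hj
    by_cases hji : j = i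
    · simp [hji]
    · refine Finset.mem_insert_of_mem (Finset.mem_image.2 ?_)
      have hj' : j < m + 1 := by omega
      have hne : (⟨j, hj'⟩ : Fin (m + 1)) ≠ i := fun h => hji (by rw [← h])
      obtain ⟨k, hk⟩ := Fin.exists_succAbove_eq hne
      refine ⟨σ.symm k, ?_, by simp [hk]⟩
      simp only [hN, Finset.mem_filter, Finset.mem_univ, true_and, Function.comp_apply,
        Equiv.apply_symm_apply]
      have hq : (0 : ℤ) ≤ q := by positivity
      have hjr : (j : ℤ) + 1 ≤ r := by exact_mod_cast hj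
      have : ((j : ℤ) + 1) * q ≤ r * q := mul_le_mul_of_nonneg_right hjr hq
      unfold twist
      rw [hk]
      split_ifs <;> simp only <;> linarith
  have h1 := Finset.card_le_card hsub
  rw [Finset.card_range] at h1
  have h2 := Finset.card_insert_le (i : ℕ)
    (N.image (fun k => ((i.succAbove (σ k) : Fin (m + 1)) : ℕ)))
  have h3 := Finset.card_image_le (s := N)
    (f := fun k => ((i.succAbove (σ k) : Fin (m + 1)) : ℕ))
  have h4 : neg (fun k => (twist m q i ∘ σ) k + l) = N.card := rfl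
  rw [h4]
  omega

theorem twist_high (m q : ℕ) (i : Fin (m + 1)) (σ : Equiv.Perm (Fin m)) (r : ℕ)
    (l : ℤ) (hl : -(r * q : ℤ) ≤ l) (he : ecard (fun k => (twist m q i ∘ σ) k + l) ≠ 0) :
    neg (fun k => (twist m q i ∘ σ) k + l) ≤ r := by
  classical
  unfold ecard at he
  rw [Finset.prod_ne_zero_iff] at he
  unfold neg
  rw [← Finset.card_range r]
  refine Finset.card_le_card_of_injOn (fun k => ((i.succAbove (σ k) : Fin (m + 1)) : ℕ)) ?_ ?_
  · intro k hk
    have hk' : twist m q i (σ k) + l < 0 := by simpa using hk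
    have hk2 : twist m q i (σ k) + l + 1 ≠ 0 := by
      have := he k (Finset.mem_univ k)
      simpa [Int.natAbs_eq_zero] using this
    have hk3 : twist m q i (σ k) + l ≤ -2 := by omega
    simp only [Finset.coe_range, Set.mem_Iio]
    by_contra hc
    have hc' : (r : ℤ) ≤ ((i.succAbove (σ k) : Fin (m + 1)) : ℕ) := by
      exact_mod_cast not_lt.1 hc
    have hq : (0 : ℤ) ≤ q := by positivity
    have : (r : ℤ) * q ≤ (((i.succAbove (σ k) : Fin (m + 1)) : ℕ) + 1) * q :=
      mul_le_mul_of_nonneg_right (by linarith) hq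
    unfold twist at hk3
    split_ifs at hk3 <;> linarith
  · intro k _ k' _ h
    have h' : i.succAbove (σ k) = i.succAbove (σ k') := Fin.ext h
    exact σ.injective (Fin.succAbove_right_injective h')

theorem prod_add_one_eq {m : ℕ} (β : Fin m → ℤ) :
    ∏ k, (β k + 1) = (-1) ^ neg β * (ecard β : ℤ) := by
  classical
  unfold neg ecard
  rw [Nat.cast_prod, ← Finset.prod_const, Finset.prod_filter, ← Finset.prod_mul_distrib]
  refine Finset.prod_congr rfl fun k _ => ?_
  split_ifs with h <;> omega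

theorem neg_le {m : ℕ} (β : Fin m → ℤ) : neg β ≤ m := by
  unfold neg
  simpa using Finset.card_filter_le (Finset.univ : Finset (Fin m)) (fun k => β k < 0)

theorem ecard_perm {m : ℕ} (σ : Equiv.Perm (Fin m)) :
    ecard (fun k => ((σ k : ℕ) : ℤ)) = m.factorial := by
  unfold ecard
  have h1 : ∏ k : Fin m, (((σ k : ℕ) : ℤ) + 1).natAbs = ∏ k : Fin m, ((σ k : ℕ) + 1) :=
    Finset.prod_congr rfl fun k _ => by omega
  rw [h1, Equiv.prod_comp σ (fun k : Fin m => (k : ℕ) + 1),
    Fin.prod_univ_eq_prod_range (fun k => k + 1) m, Finset.prod_range_add_one_eq_factorial]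

theorem CoreComb_telescope (P : ℤ → ℝ) (u v : ℤ) (huv : u ≤ v) :
    ∑ l ∈ Finset.Ico u v, (P (l + 1) - P l) = P v - P u := by
  induction v, huv using Int.leInduction with
  | base => simp
  | succ v hv ih =>
    rw [← Finset.insert_Ico_right_eq_Ico_add_one hv, Finset.sum_insert (by simp), ih]
    ring

/-- The final linear-algebra step: if `∑ (-1)^r β_r = 0` then the alternating sum of the Euler
characteristics above the profile `-r q` is `β_0 (m+1)! q^(m+1)`. -/
theorem sum_twist_euler (m q : ℕ) (β : ℕ → ℝ)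
    (hβ : ∑ r ∈ Finset.range (m + 2), (-1) ^ r * β r = 0) (u : ℤ) (hu : u ≤ -((m + 1 : ℤ) * q))
    (σ : Equiv.Perm (Fin m)) :
    ∑ i : Fin (m + 1), ∑ r ∈ Finset.range (m + 2), (-1) ^ r * β r *
      ∑ l ∈ Finset.Ico u (-(r * q : ℤ)), ((∏ k, ((twist m q i ∘ σ) k + l + 1) : ℤ) : ℝ) =
      β 0 * (m + 1).factorial * (q : ℝ) ^ (m + 1) := by
  set P : ℤ → ℝ := fun l => ((∏ j : Fin (m + 1), (l + ((j : ℕ) + 1 : ℤ) * q) : ℤ) : ℝ) with hP
  have hq : (0 : ℤ) ≤ q := by positivity
  have key : ∀ r ∈ Finset.range (m + 2),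
      ∑ i : Fin (m + 1), (-1) ^ r * β r *
        ∑ l ∈ Finset.Ico u (-(r * q : ℤ)), ((∏ k, ((twist m q i ∘ σ) k + l + 1) : ℤ) : ℝ) =
      (-1) ^ r * β r * P (-(r * q : ℤ)) - (-1) ^ r * β r * P u := by
    intro r hr
    rw [Finset.mem_range] at hr
    have hr' : (r : ℤ) ≤ m + 1 := by omega
    have hur : u ≤ -(r * q : ℤ) := by
      have : (r : ℤ) * q ≤ (m + 1) * q := mul_le_mul_of_nonneg_right hr' hq
      linarith
    rw [← Finset.mul_sum, Finset.sum_comm, ← mul_sub, ← CoreComb_telescope P u _ hur]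
    congr 1
    refine Finset.sum_congr rfl fun l _ => ?_
    have h1 : ∀ i : Fin (m + 1), ∏ k, ((twist m q i ∘ σ) k + l + 1) =
        ∏ k, (twist m q i k + l + 1) := fun i =>
      Equiv.prod_comp σ (fun k => twist m q i k + l + 1)
    simp only [h1]
    rw [← Int.cast_sum, sum_prod_twist, Int.cast_sub]
  rw [Finset.sum_comm, Finset.sum_congr rfl key, Finset.sum_sub_distrib, ← Finset.sum_mul, hβ,
    zero_mul, sub_zero, Finset.sum_range_succ']
  have h0 : ∀ r ∈ Finset.range (m + 1),
      (-1) ^ (r + 1) * β (r + 1) * P (-(((r + 1 : ℕ) : ℤ) * q : ℤ)) = 0 := by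
    intro r hr
    rw [Finset.mem_range] at hr
    have : P (-(((r + 1 : ℕ) : ℤ) * q : ℤ)) = 0 := by
      simp only [hP]
      rw [Finset.prod_eq_zero (Finset.mem_univ (⟨r, hr⟩ : Fin (m + 1))) (by push_cast; ring)]
      simp
    rw [this, mul_zero]
  rw [Finset.sum_eq_zero h0, zero_add]
  have hP0 : P 0 = (m + 1).factorial * (q : ℝ) ^ (m + 1) := by
    simp only [hP, zero_add]
    rw [Finset.prod_mul_distrib, Finset.prod_const, Finset.card_univ, Fintype.card_fin,
      Fin.prod_univ_eq_prod_range (fun k => ((k : ℕ) + 1 : ℤ)) (m + 1)]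
    rw [← Finset.prod_range_add_one_eq_factorial]
    push_cast
    ring
  simp only [Nat.cast_zero, zero_mul, neg_zero, pow_zero, one_mul]
  rw [hP0, mul_assoc]

end Crest.Agent.R183
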