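import Crest.Agent.R183.CoreF
import Crest.Agent.R183.CoreBound
import Crest.Agent.R183.CoreComb
import Crest.Agent.R183.SL

/-!
# The core inequality and its amplification
-/

set_option autoImplicit false

open scoped ENNReal

namespace Crest.Agent.R183

variable {R₀ D : Type} [CommRing R₀] [CommRing D] [Algebra R₀ D] {m : ℕ}
  {z : Fin (m + 1) → R₀} {𝔪 : Ideal R₀} {y : Fin (m + 1) → D} {γ : D} {μ : LF D} {q a Wd : ℕ}

theorem CH.core_real (h : CH z 𝔪 y γ μ q a Wd) (hW : 4 * ((m + 1) * a) + (m + 1) * q + 3 ≤ Wd)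
    (hy : μ.val (D ⧸ sp y) ≠ ⊤) :
    (beta μ y (sp (zD D z) ⊔ mD D 𝔪) 0).toReal * (q : ℝ) ^ (m + 1) ≤ (μ.val (D ⧸ sp y)).toReal := by
  have hW' : 4 * (((m : ℤ) + 1) * a) + ((m : ℤ) + 1) * q + 3 ≤ Wd := by exact_mod_cast hW
  have hq : (1 : ℤ) ≤ q := by exact_mod_cast h.q_pos
  have hA0 : (0 : ℤ) ≤ ((m : ℤ) + 1) * a := by positivity
  have hLm : (m : ℤ) + 1 ≤ ((m : ℤ) + 1) * q := le_mul_of_one_le_right (by positivity) hq
  obtain ⟨A, hA⟩ : ∃ A : ℤ, A = ((m : ℤ) + 1) * a := ⟨_, rfl⟩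
  obtain ⟨L, hL⟩ : ∃ L : ℤ, L = ((m : ℤ) + 1) * q := ⟨_, rfl⟩
  let f : (Fin m → ℤ) → ℝ := fun α =>
    FF (zD D z) y (mD D 𝔪) q μ α (-L - 1 - A) (-L - 1) (2 * A + 1)
  have hsym := symm_sum_const L (by omega) f
    (fun α k hα _ _ => h.FF_aff α k (by omega) (by omega) (by omega)
      (fun i => by
        have := hα i
        rcases eq_or_ne i k with rfl | hik
        · simp only [Pi.add_apply, Pi.single_eq_same]; omega
        · simp only [Pi.add_apply, Pi.single_eq_of_ne hik]; omega)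
      (fun i => by
        have := hα i
        rcases eq_or_ne i k with rfl | hik
        · simp only [Pi.sub_apply, Pi.single_eq_same]; omega
        · simp only [Pi.sub_apply, Pi.single_eq_of_ne hik]; omega))
    (fun α hα => by
      simp only [f]
      rw [h.FF_shift α (by omega) (by omega) (by omega),
        h.FF_bot α (by omega) (by omega) (by omega) (fun k => by have := hα k; omega),
        ← h.FF_top α (by omega) (by omega) (by omega)
          (Or.inl fun k => by have := hα k; omega)])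
  have hU : ∀ σ : Equiv.Perm (Fin m),
      f ((fun k : Fin m => ((k : ℕ) : ℤ)) ∘ σ) ≤ m.factorial * (μ.val (D ⧸ sp y)).toReal := by
    intro σ
    have key : ∀ l : ℤ, -L - 1 ≤ l → l ≤ 0 → f ((fun k : Fin m => ((k : ℕ) : ℤ)) ∘ σ) =
        FF (zD D z) y (mD D 𝔪) q μ ((fun k : Fin m => ((k : ℕ) : ℤ)) ∘ σ) (-L - 1 - A) l
          (2 * A + 1) := by
      intro l hl
      induction l, hl using Int.le_induction with
      | base => intro _; rfl
      | succ l hl ih =>
        intro hl0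
        rw [ih (by omega)]
        refine h.FF_top _ (by omega) (by omega) (by omega) ?_
        by_cases hlm : l ≤ -m
        · left
          intro k
          have := (σ k).2
          simp only [Function.comp_apply]
          omega
        · right
          refine ⟨σ.symm ⟨(-l - 1).toNat, by omega⟩, ?_⟩
          simp only [Function.comp_apply, Equiv.apply_symm_apply]
          omega
    rw [key 0 (by omega) le_rfl, ← ecard_perm σ]
    exact h.FF_up _ (fun k => (σ k : ℕ)) (fun k k' e => σ.injective (Fin.ext e))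
      (fun k => le_rfl) (by omega) (by omega) (by omega) hy
  have hlow : ∀ σ : Equiv.Perm (Fin m),
      (beta μ y (sp (zD D z) ⊔ mD D 𝔪) 0).toReal * (m + 1).factorial * (q : ℝ) ^ (m + 1) ≤
        ∑ i : Fin (m + 1), f (twist m q i ∘ σ) := by
    intro σ
    rw [← sum_twist_euler m q (fun r => (beta μ y (sp (zD D z) ⊔ mD D 𝔪) r).toReal)
      (beta_alt_sum y μ _ h.fin) (-L - 1) (by omega) σ]
    exact Finset.sum_le_sum fun i _ => h.FF_low _ (by omega) (by omega) (by omega) (by omega)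
      (fun r hr l hl => twist_low m q i σ r hr l hl)
      (fun r _ l hl he => twist_high m q i σ r l hl he)
  have h1 := Finset.sum_le_sum fun σ (_ : σ ∈ Finset.univ) => hlow σ
  rw [Finset.sum_comm] at h1
  have h2 : ∀ i : Fin (m + 1), ∑ σ : Equiv.Perm (Fin m), f (twist m q i ∘ σ) ≤
      m.factorial * (m.factorial * (μ.val (D ⧸ sp y)).toReal) := by
    intro i
    rw [hsym (twist m q i) (fun k : Fin m => ((k : ℕ) : ℤ))
      (fun k => hL ▸ twist_mem m q h.q_pos i k) (fun k => by have := k.2; omega)]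
    refine (Finset.sum_le_sum fun σ _ => hU σ).trans (le_of_eq ?_)
    simp [Fintype.card_perm]
  have h3 := h1.trans (Finset.sum_le_sum fun i _ => h2 i)
  simp only [Finset.sum_const, Finset.card_univ, Fintype.card_perm, Fintype.card_fin,
    nsmul_eq_mul, Nat.factorial_succ] at h3
  push_cast at h3
  have hpos : (0 : ℝ) < m.factorial * ((m + 1) * m.factorial) := by positivity
  refine le_of_mul_le_mul_left ?_ hpos
  linarith

theorem CH.core (h : CH z 𝔪 y γ μ q a Wd) (hW : 4 * ((m + 1) * a) + (m + 1) * q + 3 ≤ Wd) :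
    (q : ℝ≥0∞) ^ (m + 1) * μ.val (D ⧸ (sp y ⊔ sp (zD D z) ⊔ mD D 𝔪)) ≤ μ.val (D ⧸ sp y) := by
  by_cases hy : μ.val (D ⧸ sp y) = ⊤
  · rw [hy]; exact le_top
  have h1 := h.core_real hW hy
  have h2 := beta_ne_top y μ _ h.fin 0
  rw [sup_assoc, ← beta_zero y μ, ← ENNReal.toReal_le_toReal
    (ENNReal.mul_ne_top (ENNReal.pow_ne_top (ENNReal.natCast_ne_top q)) h2) hy]
  simpa [mul_comm] using h1

theorem CH.core_amp (h : CH z 𝔪 y γ μ q a Wd) (hW : 4 * ((m + 1) * a) + (m + 1) * q + 3 ≤ Wd)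
    (N : ℕ) (hN : a * N ≤ Wd) :
    (q : ℝ≥0∞) ^ (m + 1) * Bn (m + 1) N * μ.val (D ⧸ (sp y ⊔ sp (zD D z) ⊔ mD D 𝔪)) ≤
      μ.val (D ⧸ sp y ^ N) := by
  obtain ⟨c, hc⟩ := sl_of_wr (Fin (m + 1)) (Fin (m + 1)) rfl
  have hwr := h.sl.wr (fun _ => a * N) fun j α hα => degGE_subset_boxGE (a * N) j (by
    simp only [degGE, Set.mem_setOf_eq, Fintype.card_fin] at hα ⊢
    exact le_trans (Nat.mul_le_mul_left _ hN) hα)
  have hsl := hc y _ _ (degGE (Fin (m + 1)) N) hwr fun r => by
    rw [monI_degGE, pow_mul]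
    exact Ideal.mul_mem_left _ _ (Ideal.pow_mem_pow (h.hz r) N)
  have hv := hsl.val_monI μ ((h.null.pow _).pow c) (isUpperSet_degGE N) subset_rfl
    (finite_compl_degGE N)
  have e1 : (monI y (degGE (Fin (m + 1)) N) • ⊤ : Submodule D D) = sp y ^ N := by
    rw [monI_degGE, Ideal.smul_eq_mul, Ideal.mul_top]
  have e2 : (sp y • ⊤ : Submodule D D) = sp y := by rw [Ideal.smul_eq_mul, Ideal.mul_top]
  rw [e1, e2, ncard_compl_degGE N (by simp), Fintype.card_fin] at hv
  have hv' : μ.val (D ⧸ sp y ^ N) = Bn (m + 1) N * μ.val (D ⧸ sp y) := hv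
  rw [hv', mul_comm _ (Bn (m + 1) N : ℝ≥0∞), mul_assoc]
  exact mul_le_mul_right (h.core hW) _

end Crest.Agent.R183
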