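import Crest.Agent.R183.CoreComb
import Crest.Agent.R183.SL
import Crest.Agent.R183.SLTransfer

/-!
# Formal properties of the column filtrations `Vt`
-/

set_option autoImplicit false

namespace Crest.Agent.R183

variable {D : Type} [CommRing D] {m : ℕ} (z : Fin (m + 1) → D) (𝔪 : Ideal D) (q : ℕ)

/-! ### general lemmas -/

theorem CoreCol_supp_eq (Ω : Set (G m)) :
    supp D Ω = Submodule.span D ((fun g => mo D g) '' Ω) :=
  AddMonoidAlgebra.supported_eq_span_single D Ω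

theorem CoreCol_supp_mono {Ω Ω' : Set (G m)} (h : Ω ⊆ Ω') : supp D Ω ≤ supp D Ω' :=
  AddMonoidAlgebra.supported_mono h

theorem CoreCol_map_supp (g : G m) (Ω : Set (G m)) :
    (supp D Ω).map (LinearMap.mulLeft D (mo D g)) = supp D ((g + ·) '' Ω) := by
  rw [CoreCol_supp_eq, CoreCol_supp_eq, Submodule.map_span, Set.image_image, Set.image_image]
  congr 1
  refine Set.image_congr fun h _ => ?_
  rw [LinearMap.mulLeft_apply, AddMonoidAlgebra.single_mul_single, mul_one]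

theorem CoreCol_map_supp_le {g : G m} {Ω Ω' : Set (G m)} (h : ∀ a ∈ Ω, g + a ∈ Ω') :
    (supp D Ω).map (LinearMap.mulLeft D (mo D g)) ≤ supp D Ω' := by
  rw [CoreCol_map_supp]
  exact AddMonoidAlgebra.supported_mono (by rintro _ ⟨a, ha, rfl⟩; exact h a ha)

theorem CoreCol_map_supp_eq {g : G m} {Ω Ω' : Set (G m)} (h : ∀ a, a ∈ Ω ↔ g + a ∈ Ω') :
    (supp D Ω).map (LinearMap.mulLeft D (mo D g)) = supp D Ω' := by
  rw [CoreCol_map_supp]
  congr 1
  ext b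
  constructor
  · rintro ⟨a, ha, rfl⟩; exact (h a).1 ha
  · intro hb
    exact ⟨-g + b, (h _).2 (by rwa [add_neg_cancel_left]), add_neg_cancel_left g b⟩

theorem CoreCol_map_comm (f f' : LL D m) (W : Submodule D (LL D m)) :
    (W.map (LinearMap.mulLeft D f')).map (LinearMap.mulLeft D f) =
      (W.map (LinearMap.mulLeft D f)).map (LinearMap.mulLeft D f') := by
  rw [← Submodule.map_comp, ← Submodule.map_comp]
  congr 1
  refine LinearMap.ext fun v => ?_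
  simp only [LinearMap.comp_apply, LinearMap.mulLeft_apply]
  ring

theorem CoreCol_Aset_anti (I : Finset (Fin m)) {u u' : ℤ} (h : u ≤ u') : Aset I u' ⊆ Aset I u :=
  fun _ hg => ⟨h.trans hg.1, hg.2⟩

theorem CoreCol_ZZ_mul (I : Finset (Fin m)) (u : ℤ) (j : Fin (m + 1)) {v : LL D m}
    (hv : v ∈ supp D (Aset I u)) : ZZ D m j * v ∈ supp D (Aset I (u + 1)) := by
  unfold ZZ
  rw [Finset.sum_mul]
  refine Submodule.sum_mem _ fun J _ => ?_
  refine CoreCol_map_supp_le (g := (ind J, 1)) (Ω := Aset I u) (Ω' := Aset I (u + 1))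
    (fun a ha => ⟨?_, fun k hk => ?_⟩) ⟨v, hv, rfl⟩
  · have := ha.1
    show u + 1 ≤ 1 + a.2
    omega
  · have := ha.2 k hk
    show 0 ≤ ind J k + a.1 k
    unfold ind
    split_ifs <;> omega

theorem CoreCol_map_Rel (f : LL D m) (I : Finset (Fin m)) (α : Fin m → ℤ) (u₀ : ℤ) :
    (Rel z I α u₀).map (LinearMap.mulLeft D f) =
      (supp D (Bset I α u₀)).map (LinearMap.mulLeft D f) ⊔ ⨆ j : Fin (m + 1),
        ((supp D (Aset I u₀)).map (LinearMap.mulLeft D f)).map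
          (LinearMap.mulLeft D (algebraMap D (LL D m) (z j) - ZZ D m j)) := by
  unfold Rel
  rw [Submodule.map_sup, Submodule.map_iSup]
  simp only [CoreCol_map_comm f]

theorem CoreCol_map_Vt (f : LL D m) (I : Finset (Fin m)) (α : Fin m → ℤ) (u₀ l : ℤ) :
    (Vt z 𝔪 q I α u₀ l).map (LinearMap.mulLeft D f) =
      ⨆ s : ℕ, 𝔪 ^ s • (Vv z I α u₀ (l - s * q)).map (LinearMap.mulLeft D f) := by
  unfold Vt
  rw [Submodule.map_iSup]
  simp only [Submodule.map_smul'']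

theorem CoreCol_map_Vv_le {g : G m} {I I' : Finset (Fin m)} {α α' : Fin m → ℤ} {u₀ u₀' l l' : ℤ}
    (hA : ∀ a ∈ Aset I u₀, g + a ∈ Aset I' u₀') (hB : ∀ a ∈ Bset I α u₀, g + a ∈ Bset I' α' u₀')
    (hA' : ∀ a ∈ Aset I (max u₀ l), g + a ∈ Aset I' (max u₀' l')) :
    (Vv z I α u₀ l).map (LinearMap.mulLeft D (mo D g)) ≤ Vv z I' α' u₀' l' := by
  unfold Vv
  rw [Submodule.map_sup, CoreCol_map_Rel]
  exact sup_le_sup (CoreCol_map_supp_le hA') (sup_le_sup (CoreCol_map_supp_le hB)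
    (iSup_mono fun j => Submodule.map_mono (CoreCol_map_supp_le hA)))

theorem CoreCol_map_Vv_eq {g : G m} {I I' : Finset (Fin m)} {α α' : Fin m → ℤ} {u₀ u₀' l l' : ℤ}
    (hA : ∀ a, a ∈ Aset I u₀ ↔ g + a ∈ Aset I' u₀')
    (hB : ∀ a, a ∈ Bset I α u₀ ↔ g + a ∈ Bset I' α' u₀')
    (hA' : ∀ a, a ∈ Aset I (max u₀ l) ↔ g + a ∈ Aset I' (max u₀' l')) :
    (Vv z I α u₀ l).map (LinearMap.mulLeft D (mo D g)) = Vv z I' α' u₀' l' := by
  unfold Vv
  rw [Submodule.map_sup, CoreCol_map_Rel, CoreCol_map_supp_eq hA, CoreCol_map_supp_eq hB,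
    CoreCol_map_supp_eq hA']
  rfl

theorem CoreCol_Vv_mono {I I' : Finset (Fin m)} {α α' : Fin m → ℤ} {u₀ u₀' l l' : ℤ}
    (hI : I ⊆ I') (hα : ∀ k ∈ I, α k ≤ α' k) (hu : u₀' ≤ u₀) (hl : max u₀' l' ≤ max u₀ l) :
    Vv z I α u₀ l ≤ Vv z I' α' u₀' l' := by
  have hA : ∀ {u u' : ℤ}, u' ≤ u → Aset I u ⊆ Aset I' u' := fun h g hg =>
    ⟨h.trans hg.1, fun k hk => hg.2 k fun hk' => hk (hI hk')⟩
  have hB : Bset I α u₀ ⊆ Bset I' α' u₀' := fun g hg => by
    obtain ⟨h1, k, hk, h2⟩ := hg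
    exact ⟨hA hu h1, k, hI hk, h2.trans (hα k hk)⟩
  exact sup_le_sup (AddMonoidAlgebra.supported_mono (hA hl))
    (sup_le_sup (AddMonoidAlgebra.supported_mono hB)
      (iSup_mono fun j => Submodule.map_mono (AddMonoidAlgebra.supported_mono (hA hu))))

theorem CoreCol_Vt_mono {I I' : Finset (Fin m)} {α α' : Fin m → ℤ} {u₀ u₀' l l' : ℤ}
    (hI : I ⊆ I') (hα : ∀ k ∈ I, α k ≤ α' k) (hu : u₀' ≤ u₀) (hl : l' ≤ l) :
    Vt z 𝔪 q I α u₀ l ≤ Vt z 𝔪 q I' α' u₀' l' :=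
  iSup_mono fun _ => Submodule.smul_mono le_rfl
    (CoreCol_Vv_mono z hI hα hu (max_le_max hu (sub_le_sub_right hl _)))

theorem CoreCol_rel_mem (I : Finset (Fin m)) (α : Fin m → ℤ) (u₀ : ℤ) (j : Fin (m + 1))
    {v : LL D m} (hv : v ∈ supp D (Aset I u₀)) : z j • v - ZZ D m j * v ∈ Rel z I α u₀ := by
  refine Submodule.mem_sup_right (Submodule.mem_iSup_of_mem j ⟨v, hv, ?_⟩)
  rw [LinearMap.mulLeft_apply, sub_mul, Algebra.smul_def]

theorem CoreCol_Rel_le_supp (I : Finset (Fin m)) (α : Fin m → ℤ) (u₀ : ℤ) :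
    Rel z I α u₀ ≤ supp D (Aset I u₀) := by
  refine sup_le (AddMonoidAlgebra.supported_mono fun g hg => hg.1) (iSup_le fun j => ?_)
  rintro _ ⟨v, hv, rfl⟩
  rw [LinearMap.mulLeft_apply, sub_mul, ← Algebra.smul_def]
  exact Submodule.sub_mem _ (Submodule.smul_mem _ _ hv)
    (AddMonoidAlgebra.supported_mono (CoreCol_Aset_anti I (by omega)) (CoreCol_ZZ_mul I u₀ j hv))

theorem CoreCol_sp_smul_Vv (I : Finset (Fin m)) (α : Fin m → ℤ) (u₀ l : ℤ) :
    sp z • Vv z I α u₀ l ≤ Vv z I α u₀ (max u₀ l + 1) := by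
  unfold Vv
  rw [Submodule.smul_sup]
  refine sup_le ?_ (le_sup_of_le_right Submodule.smul_le_right)
  refine Submodule.smul_le.2 fun r hr v hv => ?_
  refine Submodule.span_induction (p := fun r _ => r • v ∈
    supp D (Aset I (max u₀ (max u₀ l + 1))) ⊔ Rel z I α u₀) ?_ ?_ ?_ ?_ hr
  · rintro _ ⟨j, rfl⟩
    have h1 := CoreCol_rel_mem z I α u₀ j
      (AddMonoidAlgebra.supported_mono (CoreCol_Aset_anti I (le_max_left u₀ l)) hv)
    have h2 := AddMonoidAlgebra.supported_mono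
      (CoreCol_Aset_anti I (u := max u₀ (max u₀ l + 1)) (by omega)) (CoreCol_ZZ_mul I _ j hv)
    have : z j • v = ZZ D m j * v + (z j • v - ZZ D m j * v) := by ring
    rw [this]
    exact Submodule.add_mem_sup h2 h1
  · rw [zero_smul]; exact Submodule.zero_mem _
  · intro a b _ _ ha hb
    rw [add_smul]; exact Submodule.add_mem _ ha hb
  · intro a b _ hb
    rw [smul_eq_mul, mul_smul]; exact Submodule.smul_mem _ _ hb

/-! ### the formal properties -/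

theorem Vt_anti (I : Finset (Fin m)) (α : Fin m → ℤ) (u₀ : ℤ) : Antitone (Vt z 𝔪 q I α u₀) :=
  fun _ _ h => CoreCol_Vt_mono z 𝔪 q subset_rfl (fun _ _ => le_rfl) le_rfl h

theorem Vv_le_Vt (I : Finset (Fin m)) (α : Fin m → ℤ) (u₀ l : ℤ) :
    Vv z I α u₀ l ≤ Vt z 𝔪 q I α u₀ l := by
  refine le_trans ?_ (le_iSup (fun s : ℕ => 𝔪 ^ s • Vv z I α u₀ (l - s * q)) 0)
  simp

theorem Rel_le_Vt (I : Finset (Fin m)) (α : Fin m → ℤ) (u₀ l : ℤ) :
    Rel z I α u₀ ≤ Vt z 𝔪 q I α u₀ l :=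
  le_sup_right.trans (Vv_le_Vt z 𝔪 q I α u₀ l)

theorem Vt_mono_col {I I' : Finset (Fin m)} (h : I ⊆ I') (α : Fin m → ℤ) (u₀ l : ℤ) :
    Vt z 𝔪 q I α u₀ l ≤ Vt z 𝔪 q I' α u₀ l :=
  CoreCol_Vt_mono z 𝔪 q h (fun _ _ => le_rfl) le_rfl le_rfl

theorem Vt_le_supp (I : Finset (Fin m)) (α : Fin m → ℤ) (u₀ l : ℤ) :
    Vt z 𝔪 q I α u₀ l ≤ supp D (Aset I u₀) :=
  iSup_le fun _ => Submodule.smul_le_right.trans (sup_le
    (AddMonoidAlgebra.supported_mono (CoreCol_Aset_anti I (le_max_left _ _)))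
    (CoreCol_Rel_le_supp z I α u₀))

theorem smul_Vt_le (I : Finset (Fin m)) (α : Fin m → ℤ) (u₀ l : ℤ) :
    𝔪 • Vt z 𝔪 q I α u₀ l ≤ Vt z 𝔪 q I α u₀ (l + q) := by
  unfold Vt
  rw [Submodule.smul_iSup]
  refine iSup_le fun s => ?_
  refine le_trans (le_of_eq ?_)
    (le_iSup (fun s : ℕ => 𝔪 ^ s • Vv z I α u₀ (l + q - s * q)) (s + 1))
  rw [← Submodule.mul_smul, ← pow_succ']
  congr 2
  push_cast
  ring

theorem sp_smul_Vv_le (I : Finset (Fin m)) (α : Fin m → ℤ) (u₀ l : ℤ) (k : ℕ) :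
    sp z ^ k • Vv z I α u₀ l ≤ Vv z I α u₀ (max u₀ l + k) := by
  induction k with
  | zero =>
    rw [pow_zero, Ideal.one_eq_top, Submodule.top_smul]
    exact CoreCol_Vv_mono z subset_rfl (fun _ _ => le_rfl) le_rfl (by omega)
  | succ k ih =>
    rw [pow_succ', Submodule.mul_smul]
    refine (Submodule.smul_mono le_rfl ih).trans ((CoreCol_sp_smul_Vv z I α u₀ _).trans ?_)
    exact CoreCol_Vv_mono z subset_rfl (fun _ _ => le_rfl) le_rfl (by omega)

theorem sp_smul_Vt_le (I : Finset (Fin m)) (α : Fin m → ℤ) (u₀ l : ℤ) :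
    sp z • Vt z 𝔪 q I α u₀ l ≤ Vt z 𝔪 q I α u₀ (l + 1) := by
  unfold Vt
  rw [Submodule.smul_iSup]
  refine iSup_mono fun s => ?_
  rw [← Submodule.mul_smul, mul_comm, Submodule.mul_smul]
  refine Submodule.smul_mono le_rfl ((CoreCol_sp_smul_Vv z I α u₀ _).trans ?_)
  exact CoreCol_Vv_mono z subset_rfl (fun _ _ => le_rfl) le_rfl (by omega)

theorem Vt_top_le (I : Finset (Fin m)) (α : Fin m → ℤ) {u₀ u₁ : ℤ} (h : u₀ ≤ u₁) (l : ℤ) :
    Vt z 𝔪 q I α u₁ l ≤ Vt z 𝔪 q I α u₀ l :=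
  CoreCol_Vt_mono z 𝔪 q subset_rfl (fun _ _ => le_rfl) h le_rfl

theorem Vt_alpha_notMem {I : Finset (Fin m)} {k : Fin m} (hk : k ∉ I) (α : Fin m → ℤ)
    (u₀ l : ℤ) : Vt z 𝔪 q I (α + Pi.single k 1) u₀ l = Vt z 𝔪 q I α u₀ l := by
  have h : ∀ j ∈ I, (α + Pi.single k 1 : Fin m → ℤ) j = α j := fun j hj => by
    have : j ≠ k := fun h => hk (h ▸ hj)
    rw [Pi.add_apply, Pi.single_eq_of_ne this, add_zero]
  exact le_antisymm (CoreCol_Vt_mono z 𝔪 q subset_rfl (fun j hj => (h j hj).le) le_rfl le_rfl)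
    (CoreCol_Vt_mono z 𝔪 q subset_rfl (fun j hj => (h j hj).ge) le_rfl le_rfl)

theorem Vt_alpha_mem {I : Finset (Fin m)} {k : Fin m} (hk : k ∈ I) (α : Fin m → ℤ) (u₀ l : ℤ) :
    (Vt z 𝔪 q I α u₀ l).map (LinearMap.mulLeft D (mo D (Pi.single k 1, 0))) =
      Vt z 𝔪 q I (α + Pi.single k 1) u₀ l := by
  have hA : ∀ (u : ℤ) (a : G m), a ∈ Aset I u ↔ ((Pi.single k 1, 0) : G m) + a ∈ Aset I u := by
    intro u a
    refine and_congr (by simp) (forall₂_congr fun j hj => ?_)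
    have : j ≠ k := fun h => hj (h ▸ hk)
    simp [Pi.single_eq_of_ne this]
  rw [CoreCol_map_Vt]
  refine iSup_congr fun s => ?_
  rw [CoreCol_map_Vv_eq z (hA _) (fun a => ?_) (hA _)]
  refine and_congr (hA _ a) (exists_congr fun j => and_congr_right fun _ => ?_)
  simp only [Prod.fst_add, Prod.snd_add, Pi.add_apply, zero_add]
  omega

theorem Vt_alpha_le (I : Finset (Fin m)) (k : Fin m) (α : Fin m → ℤ) (u₀ l : ℤ) :
    Vt z 𝔪 q I α u₀ l ≤ Vt z 𝔪 q I (α + Pi.single k 1) u₀ l := by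
  refine CoreCol_Vt_mono z 𝔪 q subset_rfl (fun j _ => ?_) le_rfl le_rfl
  rw [Pi.add_apply, Pi.single_apply]
  split_ifs <;> omega

theorem Vt_map_t_le (I : Finset (Fin m)) (k : Fin m) (α : Fin m → ℤ) (u₀ l : ℤ) :
    (Vt z 𝔪 q I α u₀ l).map (LinearMap.mulLeft D (mo D (Pi.single k 1, 0))) ≤
      Vt z 𝔪 q I (α + Pi.single k 1) u₀ l := by
  have hA : ∀ (u : ℤ), ∀ a ∈ Aset I u, ((Pi.single k 1, 0) : G m) + a ∈ Aset I u := by
    intro u a ha
    refine ⟨by simpa using ha.1, fun j hj => ?_⟩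
    have := ha.2 j hj
    simp only [Prod.fst_add, Pi.add_apply, Pi.single_apply]
    split_ifs <;> omega
  rw [CoreCol_map_Vt]
  refine iSup_mono fun s => Submodule.smul_mono le_rfl
    (CoreCol_map_Vv_le z (hA _) (fun a ha => ?_) (hA _))
  obtain ⟨h1, j, hj, h2⟩ := ha
  refine ⟨hA _ a h1, j, hj, ?_⟩
  simp only [Prod.fst_add, Prod.snd_add, Pi.add_apply, zero_add]
  omega

theorem Vt_shift (I : Finset (Fin m)) (α : Fin m → ℤ) (u₀ l : ℤ) :
    (Vt z 𝔪 q I (α + 1) u₀ l).map (LinearMap.mulLeft D (mo D (0, 1))) =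
      Vt z 𝔪 q I α (u₀ + 1) (l + 1) := by
  have hA : ∀ (u u' : ℤ), u' = u + 1 → ∀ (a : G m),
      a ∈ Aset I u ↔ ((0, 1) : G m) + a ∈ Aset I u' := by
    rintro u _ rfl a
    refine and_congr ?_ (by simp)
    simp only [Prod.snd_add]
    omega
  rw [CoreCol_map_Vt]
  refine iSup_congr fun s => ?_
  rw [CoreCol_map_Vv_eq z (l' := l + 1 - s * q) (hA _ _ rfl) (fun a => ?_) (hA _ _ (by omega))]
  refine and_congr (hA _ _ rfl a) (exists_congr fun j => and_congr_right fun _ => ?_)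
  simp only [Prod.fst_add, Prod.snd_add, Pi.add_apply, Pi.zero_apply, Pi.one_apply]
  omega

theorem Vv_theta (I : Finset (Fin m)) (α : Fin m → ℤ) (u₀ l : ℤ) (a : ℕ) :
    (Vv z I α u₀ l).map (LinearMap.mulLeft D (mo D (ind I, 1) ^ a)) =
      Vv z I α (u₀ + a) (l + a) := by
  have h1 : ∀ (b : G m) (j : Fin m), (a • ((ind I, 1) : G m) + b).1 j = a * ind I j + b.1 j := by
    intro b j
    rw [Prod.fst_add, Prod.smul_fst, Pi.add_apply, Pi.smul_apply, nsmul_eq_mul]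
  have h2 : ∀ (b : G m), (a • ((ind I, 1) : G m) + b).2 = a + b.2 := by
    intro b
    rw [Prod.snd_add, Prod.smul_snd, nsmul_eq_mul, mul_one]
  have hA : ∀ (u u' : ℤ), u' = u + a → ∀ (b : G m),
      b ∈ Aset I u ↔ a • ((ind I, 1) : G m) + b ∈ Aset I u' := by
    rintro u _ rfl b
    refine and_congr ?_ (forall₂_congr fun j hj => ?_)
    · rw [h2]
      omega
    · rw [h1, ind, if_neg hj, mul_zero, zero_add]
  rw [AddMonoidAlgebra.single_pow, one_pow]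
  refine CoreCol_map_Vv_eq z (hA _ _ rfl) (fun b => ?_) (hA _ _ (by omega))
  refine and_congr (hA _ _ rfl b) (exists_congr fun j => and_congr_right fun hj => ?_)
  rw [h1, h2, ind, if_pos hj, mul_one]
  omega

/-- functions regular on the chart `I` preserve the filtration -/
theorem chart_mul_mem_Vt (I : Finset (Fin m)) (α : Fin m → ℤ) (u₀ l : ℤ) {g v : LL D m}
    (hg : g ∈ supp D {e : G m | e.2 = 0 ∧ (∀ k ∉ I, 0 ≤ e.1 k) ∧ ∀ k ∈ I, e.1 k ≤ 0})
    (hv : v ∈ Vt z 𝔪 q I α u₀ l) : g * v ∈ Vt z 𝔪 q I α u₀ l := by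
  rw [CoreCol_supp_eq] at hg
  refine Submodule.span_induction (p := fun g _ => g * v ∈ Vt z 𝔪 q I α u₀ l) ?_ ?_ ?_ ?_ hg
  · rintro _ ⟨e, ⟨he0, he1, he2⟩, rfl⟩
    have hA : ∀ (u : ℤ), ∀ a ∈ Aset I u, e + a ∈ Aset I u := by
      intro u a ha
      refine ⟨by simpa [he0] using ha.1, fun j hj => ?_⟩
      exact add_nonneg (he1 j hj) (ha.2 j hj)
    have : (Vt z 𝔪 q I α u₀ l).map (LinearMap.mulLeft D (mo D e)) ≤ Vt z 𝔪 q I α u₀ l := by
      rw [CoreCol_map_Vt]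
      refine iSup_mono fun s => Submodule.smul_mono le_rfl
        (CoreCol_map_Vv_le z (hA _) (fun a ha => ?_) (hA _))
      obtain ⟨h1, j, hj, h2⟩ := ha
      refine ⟨hA _ a h1, j, hj, ?_⟩
      have := he2 j hj
      simp only [Prod.fst_add, Prod.snd_add, Pi.add_apply, he0]
      omega
    exact this ⟨v, hv, rfl⟩
  · rw [zero_mul]; exact Submodule.zero_mem _
  · intro a b _ _ ha hb
    rw [add_mul]; exact Submodule.add_mem _ ha hb
  · intro a b _ hb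
    rw [smul_mul_assoc]; exact Submodule.smul_mem _ _ hb

/-- the relations of the model of the graded piece in degree `l` -/
noncomputable def Bmod (J : Ideal D) (I : Finset (Fin m)) (α : Fin m → ℤ) (l : ℤ) :
    Submodule D (LL D m) :=
  supp D (Alev I l ∩ {g | ∃ k ∈ I, g.1 k ≤ α k + l}) ⊔ J • supp D (Alev I l)

theorem supp_Alev_le_Vt (I : Finset (Fin m)) (α : Fin m → ℤ) {u₀ l : ℤ} (h : u₀ ≤ l) :
    supp D (Alev I l) ≤ Vt z 𝔪 q I α u₀ l := by
  refine le_trans (le_sup_of_le_left (AddMonoidAlgebra.supported_mono fun g hg => ?_))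
    (Vv_le_Vt z 𝔪 q I α u₀ l)
  exact ⟨max_le (h.trans hg.1.ge) hg.1.ge, hg.2⟩

theorem Bmod_le_Vt (hq : 0 < q) (I : Finset (Fin m)) (α : Fin m → ℤ) {u₀ l : ℤ} (h : u₀ ≤ l) :
    Bmod (sp z ⊔ 𝔪) I α l ≤ Vt z 𝔪 q I α u₀ (l + 1) := by
  refine sup_le (le_trans (le_sup_of_le_left (AddMonoidAlgebra.supported_mono ?_))
    (Rel_le_Vt z 𝔪 q I α u₀ (l + 1))) ?_
  · rintro g ⟨⟨h1, h2⟩, k, hk, h3⟩
    exact ⟨⟨h.trans h1.ge, h2⟩, k, hk, by omega⟩
  · refine (Submodule.smul_mono le_rfl (supp_Alev_le_Vt z 𝔪 q I α h)).trans ?_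
    rw [Submodule.sup_smul]
    exact sup_le (sp_smul_Vt_le z 𝔪 q I α u₀ l)
      ((smul_Vt_le z 𝔪 q I α u₀ l).trans (Vt_anti z 𝔪 q I α u₀ (by omega)))

theorem supp_Glev_le_Rel {I : Finset (Fin m)} (hI : I.Nonempty) (α : Fin m → ℤ) {u₀ l : ℤ}
    (h : u₀ ≤ l) : supp D (Glev α l) ≤ Rel z I α u₀ := by
  obtain ⟨k, hk⟩ := hI
  refine le_sup_of_le_left (AddMonoidAlgebra.supported_mono ?_)
  rintro g ⟨h1, h2⟩
  exact ⟨⟨h.trans h1.ge, fun j _ => (h2 j).1⟩, k, hk, by have := (h2 k).2; omega⟩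

/-- generation by the sections in degree `0` -/
theorem supp_Glev_le_sup_Rel (α : Fin m → ℤ) (π : Fin m → ℕ) (hπ : Function.Injective π)
    (h : ∀ k, (π k : ℤ) ≤ α k) {u₀ l : ℤ} (hu : u₀ ≤ 0) (hl : 0 ≤ l) :
    supp D (Glev α l) ≤ supp D (Glev α 0) ⊔ Rel z ∅ α u₀ := by
  induction l, hl using Int.leInduction with
  | base => exact le_sup_left
  | succ l hl ih =>
    refine (supp_Glev_succ_le D α l π hπ fun k => by have := h k; omega).trans
      (iSup_le fun j => ?_)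
    rintro _ ⟨v, hv, rfl⟩
    have h0 : Glev α l ⊆ Aset ∅ u₀ := fun g hg =>
      ⟨(hu.trans hl).trans hg.1.ge, fun k _ => (hg.2 k).1⟩
    have h1 := CoreCol_rel_mem z ∅ α u₀ j (v := v) (CoreCol_supp_mono h0 hv)
    have : LinearMap.mulLeft D (ZZ D m j) v = z j • v - (z j • v - ZZ D m j * v) := by
      rw [LinearMap.mulLeft_apply]; ring
    rw [this]
    exact Submodule.sub_mem _ (Submodule.smul_mem _ _ (ih hv)) (Submodule.mem_sup_right h1)

/-! ### coefficientwise operators -/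

section lift

variable {R₀ : Type} [CommRing R₀] [Algebra R₀ D]

/-- `φ` preserves `W` up to the ideal `J` -/
def CoreCol_Pres (φ : D →ₗ[R₀] D) (J : Ideal D) (W : Submodule D (LL D m)) : Prop :=
  ∀ v ∈ W, AddMonoidAlgebra.map (M := G m) φ.toAddMonoidHom v ∈ J • W

theorem CoreCol_coeff_map (φ : D →ₗ[R₀] D) (v : LL D m) (g : G m) :
    (AddMonoidAlgebra.map (M := G m) φ.toAddMonoidHom v).coeff g = φ (v.coeff g) := rfl

theorem CoreCol_map_add (φ : D →ₗ[R₀] D) (v w : LL D m) :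
    AddMonoidAlgebra.map (M := G m) φ.toAddMonoidHom (v + w) =
      AddMonoidAlgebra.map (M := G m) φ.toAddMonoidHom v +
        AddMonoidAlgebra.map (M := G m) φ.toAddMonoidHom w := by
  ext g
  simp

theorem CoreCol_map_zero (φ : D →ₗ[R₀] D) :
    AddMonoidAlgebra.map (M := G m) φ.toAddMonoidHom (0 : LL D m) = 0 := by
  ext g
  simp

theorem CoreCol_map_smul (φ : D →ₗ[R₀] D) (c : R₀) (v : LL D m) :
    AddMonoidAlgebra.map (M := G m) φ.toAddMonoidHom (algebraMap R₀ D c • v) =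
      algebraMap R₀ D c • AddMonoidAlgebra.map (M := G m) φ.toAddMonoidHom v := by
  ext g
  simp

theorem CoreCol_map_mo (φ : D →ₗ[R₀] D) (e : G m) (v : LL D m) :
    AddMonoidAlgebra.map (M := G m) φ.toAddMonoidHom (mo D e * v) =
      mo D e * AddMonoidAlgebra.map (M := G m) φ.toAddMonoidHom v := by
  ext g
  simp

theorem CoreCol_map_rel (φ : D →ₗ[R₀] D) (c : R₀) (j : Fin (m + 1)) (v : LL D m) :
    AddMonoidAlgebra.map (M := G m) φ.toAddMonoidHom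
        ((algebraMap D (LL D m) (algebraMap R₀ D c) - ZZ D m j) * v) =
      (algebraMap D (LL D m) (algebraMap R₀ D c) - ZZ D m j) *
        AddMonoidAlgebra.map (M := G m) φ.toAddMonoidHom v := by
  let F : LL D m →+ LL D m := AddMonoidHom.mk' _ (CoreCol_map_add φ)
  show F _ = _ * F v
  rw [sub_mul, sub_mul, map_sub, ← Algebra.smul_def, ← Algebra.smul_def]
  unfold ZZ
  rw [Finset.sum_mul, Finset.sum_mul, map_sum]
  congr 1
  · exact CoreCol_map_smul φ c v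
  · exact Finset.sum_congr rfl fun J _ => CoreCol_map_mo φ _ v

theorem CoreCol_Pres_supp {φ : D →ₗ[R₀] D} {J : Ideal D} (h : ∀ r, φ r ∈ J) (Ω : Set (G m)) :
    CoreCol_Pres φ J (supp D Ω) := by
  intro v hv
  rw [← AddMonoidAlgebra.sum_coeff_single (AddMonoidAlgebra.map (M := G m) φ.toAddMonoidHom v)]
  refine Submodule.sum_mem _ fun g hg => ?_
  have hg' : g ∈ Ω := by
    by_contra hn
    rw [Finsupp.mem_support_iff, CoreCol_coeff_map,
      AddMonoidAlgebra.mem_supported'.1 hv g hn, map_zero] at hg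
    exact hg rfl
  rw [CoreCol_coeff_map, ← mul_one (φ _), ← AddMonoidAlgebra.smul_single']
  refine Submodule.smul_mem_smul (h _) ?_
  rw [CoreCol_supp_eq]
  exact Submodule.subset_span ⟨g, hg', rfl⟩

theorem CoreCol_Pres_sup {φ : D →ₗ[R₀] D} {J : Ideal D} {W W' : Submodule D (LL D m)}
    (h : CoreCol_Pres φ J W) (h' : CoreCol_Pres φ J W') : CoreCol_Pres φ J (W ⊔ W') := by
  intro v hv
  obtain ⟨a, ha, b, hb, rfl⟩ := Submodule.mem_sup.1 hv
  rw [CoreCol_map_add, Submodule.smul_sup]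
  exact Submodule.add_mem_sup (h a ha) (h' b hb)

theorem CoreCol_Pres_iSup {φ : D →ₗ[R₀] D} {J : Ideal D} {κ : Type}
    {W : κ → Submodule D (LL D m)} (h : ∀ i, CoreCol_Pres φ J (W i)) :
    CoreCol_Pres φ J (⨆ i, W i) := by
  intro v hv
  refine Submodule.iSup_induction W (motive := fun v =>
    AddMonoidAlgebra.map (M := G m) φ.toAddMonoidHom v ∈ J • ⨆ i, W i) hv ?_ ?_ ?_
  · intro i w hw
    exact Submodule.smul_mono le_rfl (le_iSup W i) (h i w hw)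
  · rw [CoreCol_map_zero]; exact Submodule.zero_mem _
  · intro a b ha hb
    rw [CoreCol_map_add]; exact Submodule.add_mem _ ha hb

theorem CoreCol_Pres_map {φ : D →ₗ[R₀] D} {J : Ideal D} {W : Submodule D (LL D m)}
    (h : CoreCol_Pres φ J W) (f : LL D m)
    (hf : ∀ v, AddMonoidAlgebra.map (M := G m) φ.toAddMonoidHom (f * v) =
      f * AddMonoidAlgebra.map (M := G m) φ.toAddMonoidHom v) :
    CoreCol_Pres φ J (W.map (LinearMap.mulLeft D f)) := by
  rintro _ ⟨v, hv, rfl⟩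
  rw [← Submodule.map_smul'', LinearMap.mulLeft_apply, hf]
  exact ⟨_, h v hv, rfl⟩

theorem CoreCol_Pres_smul {φ : D →ₗ[R₀] D} {J : Ideal D} {W : Submodule D (LL D m)}
    (h : CoreCol_Pres φ J W) (K : Ideal R₀) :
    CoreCol_Pres φ J (K.map (algebraMap R₀ D) • W) := by
  intro v hv
  have hv' : v ∈ K • W.restrictScalars R₀ := by
    rw [← Ideal.smul_restrictScalars]; exact hv
  refine Submodule.smul_induction_on (p := fun v =>
    AddMonoidAlgebra.map (M := G m) φ.toAddMonoidHom v ∈ J • K.map (algebraMap R₀ D) • W) hv' ?_ ?_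
  · intro c hc w hw
    rw [← algebraMap_smul D c w, CoreCol_map_smul, ← Submodule.mul_smul, mul_comm,
      Submodule.mul_smul]
    exact Submodule.smul_mem_smul (Ideal.mem_map_of_mem _ hc) (h w hw)
  · intro a b ha hb
    rw [CoreCol_map_add]; exact Submodule.add_mem _ ha hb

theorem CoreCol_Pres_Vt {φ : D →ₗ[R₀] D} {J : Ideal D} (h : ∀ r, φ r ∈ J)
    (z₀ : Fin (m + 1) → R₀) (𝔪₀ : Ideal R₀) (I : Finset (Fin m)) (α : Fin m → ℤ) (u₀ l : ℤ) :
    CoreCol_Pres φ J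
      (Vt (fun k => algebraMap R₀ D (z₀ k)) (𝔪₀.map (algebraMap R₀ D)) q I α u₀ l) := by
  refine CoreCol_Pres_iSup fun s => ?_
  rw [← Ideal.map_pow]
  refine CoreCol_Pres_smul (CoreCol_Pres_sup (CoreCol_Pres_supp h _)
    (CoreCol_Pres_sup (CoreCol_Pres_supp h _) (CoreCol_Pres_iSup fun j => ?_))) _
  exact CoreCol_Pres_map (CoreCol_Pres_supp h _) _ (CoreCol_map_rel φ _ j)

/-- matrix entries of an operator on the Koszul complex -/
noncomputable def CoreCol_ent {ι : Type} [DecidableEq ι] (σ : (ι → D) →ₗ[R₀] (ι → D)) (S T : ι) :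
    D →ₗ[R₀] D :=
  LinearMap.proj S ∘ₗ σ ∘ₗ LinearMap.single R₀ (fun _ : ι => D) T

/-- the coefficientwise lift -/
noncomputable def CoreCol_lift {ι : Type} [Fintype ι] [DecidableEq ι]
    (σ : (ι → D) →ₗ[R₀] (ι → D)) : (ι → LL D m) →+ (ι → LL D m) :=
  AddMonoidHom.mk' (fun x S =>
    ∑ T, AddMonoidAlgebra.map (M := G m) (CoreCol_ent σ S T).toAddMonoidHom (x T)) (by
      intro x x'
      funext S
      simp only [Pi.add_apply, CoreCol_map_add, Finset.sum_add_distrib])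

theorem CoreCol_lift_apply {ι : Type} [Fintype ι] [DecidableEq ι]
    (σ : (ι → D) →ₗ[R₀] (ι → D)) (x : ι → LL D m) (S : ι) :
    CoreCol_lift σ x S =
      ∑ T, AddMonoidAlgebra.map (M := G m) (CoreCol_ent σ S T).toAddMonoidHom (x T) := rfl

theorem CoreCol_coeff_lift {ι : Type} [Fintype ι] [DecidableEq ι]
    (σ : (ι → D) →ₗ[R₀] (ι → D)) (x : ι → LL D m) (S : ι) (g : G m) :
    (CoreCol_lift σ x S).coeff g = σ (fun T => (x T).coeff g) S := by
  rw [CoreCol_lift_apply, AddMonoidAlgebra.coeff_sum, Finsupp.finsetSum_apply]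
  conv_rhs => rw [← Finset.univ_sum_single (fun T => (x T).coeff g), map_sum, Finset.sum_apply]
  rfl

theorem CoreCol_coeff_kd (y : Fin (m + 1) → D) (x : Finset (Fin (m + 1)) → LL D m)
    (g : G m) : (fun S => (kd y (LL D m) x S).coeff g) = kd y D (fun T => (x T).coeff g) := by
  let f : LL D m →+ D := AddMonoidHom.mk' (fun v => v.coeff g) (fun v w => by simp)
  exact (kd_comp y y f (fun i v => rfl) x).symm

theorem CoreCol_lift_mem {ι : Type} [Fintype ι] [DecidableEq ι]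
    (σ : (ι → D) →ₗ[R₀] (ι → D)) {J : Ideal D} (h : ∀ x S, σ x S ∈ J)
    (z₀ : Fin (m + 1) → R₀) (𝔪₀ : Ideal R₀) (I : Finset (Fin m)) (α : Fin m → ℤ) (u₀ l : ℤ)
    {x : ι → LL D m}
    (hx : ∀ T, x T ∈ Vt (fun k => algebraMap R₀ D (z₀ k)) (𝔪₀.map (algebraMap R₀ D)) q I α u₀ l)
    (S : ι) : CoreCol_lift σ x S ∈
      J • Vt (fun k => algebraMap R₀ D (z₀ k)) (𝔪₀.map (algebraMap R₀ D)) q I α u₀ l := by
  rw [CoreCol_lift_apply]
  exact Submodule.sum_mem _ fun T _ =>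
    CoreCol_Pres_Vt q (φ := CoreCol_ent σ S T) (fun r => h _ S) z₀ 𝔪₀ I α u₀ l _ (hx T)

end lift

/-- the operator `σ` acts coefficientwise on the Koszul complex of the Laurent ring -/
theorem exists_sig_lift {R₀ : Type} [CommRing R₀] [Algebra R₀ D] (z₀ : Fin (m + 1) → R₀)
    (𝔪₀ : Ideal R₀) (y : Fin (m + 1) → D) (h : HasSig 𝔪₀ y) :
    ∃ σ : (Finset (Fin (m + 1)) → LL D m) →+ (Finset (Fin (m + 1)) → LL D m),
      ∀ (I : Finset (Fin m)) (α : Fin m → ℤ) (u₀ l : ℤ) (x : Finset (Fin (m + 1)) → LL D m),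
        x ∈ KK (Fin (m + 1))
          (Vt (fun k => algebraMap R₀ D (z₀ k)) (𝔪₀.map (algebraMap R₀ D)) q I α u₀ l) →
        σ x ∈ KK (Fin (m + 1))
          (Vt (fun k => algebraMap R₀ D (z₀ k)) (𝔪₀.map (algebraMap R₀ D)) q I α u₀ l) ∧
        kd y (LL D m) (σ (kd y (LL D m) x)) - kd y (LL D m) x ∈ KK (Fin (m + 1))
          (Vt (fun k => algebraMap R₀ D (z₀ k)) (𝔪₀.map (algebraMap R₀ D)) q I α u₀ (l + q)) := by
  obtain ⟨σ, hσ⟩ := h
  refine ⟨CoreCol_lift σ, fun I α u₀ l x hx => ⟨fun S _ => ?_, fun S _ => ?_⟩⟩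
  · exact Submodule.smul_le_right (CoreCol_lift_mem q σ (J := ⊤) (fun _ _ => trivial) z₀ 𝔪₀ I α
      u₀ l (fun T => hx T trivial) S)
  · let d : (Finset (Fin (m + 1)) → D) →ₗ[R₀] (Finset (Fin (m + 1)) → D) :=
      (kd y D).restrictScalars R₀
    have he : (kd y (LL D m) (CoreCol_lift σ (kd y (LL D m) x)) - kd y (LL D m) x) S =
        CoreCol_lift (d ∘ₗ σ ∘ₗ d - d) x S := by
      ext g
      have h1 := congrFun (CoreCol_coeff_kd y (CoreCol_lift σ (kd y (LL D m) x)) g) S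
      have h2 := congrFun (CoreCol_coeff_kd y x g) S
      simp only [CoreCol_coeff_lift, CoreCol_coeff_kd] at h1
      rw [CoreCol_coeff_lift, Pi.sub_apply, AddMonoidAlgebra.coeff_sub, Finsupp.sub_apply, h1, h2]
      rfl
    rw [he]
    refine smul_Vt_le _ _ q I α u₀ l (CoreCol_lift_mem q _ (fun v T => ?_) z₀ 𝔪₀ I α
      u₀ l (fun T => hx T trivial) S)
    have h3 := KoszulAux.map_mem_smul_top (LinearMap.proj (R := R₀) (φ := fun _ => D) T) (hσ v)
    rw [Ideal.smul_top_eq_map] at h3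
    exact h3

end Crest.Agent.R183
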