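import Crest.Agent.R183.Koszul

/-!
# The Čech–Koszul model on `(ℙ¹)^m` over the blow-up: definitions

Everything lives in the Laurent ring `LL D m = D[t_1^±, …, t_m^±, τ^±]`; the exponent of
`t^b τ^l` is `(b, l) : G m`.  For `I ⊆ Fin m` the column `I` of the Čech complex of `O(α)` in the
window of `τ`-degrees `≥ u₀` is the subquotient `supported (Aset I u₀) / Rel I α u₀`.
-/

set_option autoImplicit false

open scoped ENNReal NNReal

namespace Crest.Agent.R183

/-- exponents -/
abbrev G (m : ℕ) : Type := (Fin m → ℤ) × ℤ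

/-- the ambient Laurent ring -/
abbrev LL (D : Type) [CommRing D] (m : ℕ) : Type := AddMonoidAlgebra D (G m)

/-- the ambient module of the total complex: Čech index, Koszul index -/
abbrev XX (D : Type) [CommRing D] (m : ℕ) : Type :=
  Finset (Fin m) → Finset (Fin (m + 1)) → LL D m

/-- indicator vector -/
def ind {m : ℕ} (J : Finset (Fin m)) : Fin m → ℤ := fun k => if k ∈ J then 1 else 0

/-- the monomial with exponent `g` -/
noncomputable abbrev mo (D : Type) [CommRing D] {m : ℕ} (g : G m) : LL D m :=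
  AddMonoidAlgebra.single g 1

/-- elements supported on a set of exponents -/
noncomputable abbrev supp (D : Type) [CommRing D] {m : ℕ} (Ω : Set (G m)) : Submodule D (LL D m) :=
  AddMonoidAlgebra.supported D D Ω

/-- `Z_j = e_j(t) τ` -/
noncomputable def ZZ (D : Type) [CommRing D] (m : ℕ) (j : Fin (m + 1)) : LL D m :=
  ∑ J ∈ Finset.univ.filter (fun J : Finset (Fin m) => J.card = j), mo D (ind J, 1)

def Aset {m : ℕ} (I : Finset (Fin m)) (u : ℤ) : Set (G m) :=
  {g | u ≤ g.2 ∧ ∀ k ∉ I, 0 ≤ g.1 k}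

def Bset {m : ℕ} (I : Finset (Fin m)) (α : Fin m → ℤ) (u : ℤ) : Set (G m) :=
  {g | g ∈ Aset I u ∧ ∃ k ∈ I, g.1 k - g.2 ≤ α k}

/-- the exponents of column `I` in `τ`-degree `l` before dividing by `Bset` -/
def Alev {m : ℕ} (I : Finset (Fin m)) (l : ℤ) : Set (G m) :=
  {g | g.2 = l ∧ ∀ k ∉ I, 0 ≤ g.1 k}

/-- the exponents of the global sections of `O(α + l)` in `τ`-degree `l` -/
def Glev {m : ℕ} (α : Fin m → ℤ) (l : ℤ) : Set (G m) :=
  {g | g.2 = l ∧ ∀ k, 0 ≤ g.1 k ∧ g.1 k ≤ α k + l}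

/-- the cohomological degree in which `O(β)` has cohomology -/
def neg {m : ℕ} (β : Fin m → ℤ) : ℕ := (Finset.univ.filter (fun k => β k < 0)).card

/-- the rank of the cohomology of `O(β)` -/
def ecard {m : ℕ} (β : Fin m → ℤ) : ℕ := ∏ k, (β k + 1).natAbs

section

variable {D : Type} [CommRing D] {m : ℕ}

/-- relations of column `I` -/
noncomputable def Rel (z : Fin (m + 1) → D) (I : Finset (Fin m)) (α : Fin m → ℤ) (u₀ : ℤ) :
    Submodule D (LL D m) :=
  supp D (Bset I α u₀) ⊔ ⨆ j : Fin (m + 1), (supp D (Aset I u₀)).map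
    (LinearMap.mulLeft D (algebraMap D (LL D m) (z j) - ZZ D m j))

/-- the `τ`-adic filtration of column `I` -/
noncomputable def Vv (z : Fin (m + 1) → D) (I : Finset (Fin m)) (α : Fin m → ℤ) (u₀ l : ℤ) :
    Submodule D (LL D m) :=
  supp D (Aset I (max u₀ l)) ⊔ Rel z I α u₀

/-- the saturated filtration, on which `𝔪` raises the degree by `q` -/
noncomputable def Vt (z : Fin (m + 1) → D) (𝔪 : Ideal D) (q : ℕ) (I : Finset (Fin m))
    (α : Fin m → ℤ) (u₀ l : ℤ) : Submodule D (LL D m) :=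
  ⨆ s : ℕ, 𝔪 ^ s • Vv z I α u₀ (l - s * q)

variable (D) in
/-- the Čech differential -/
noncomputable def cech (m : ℕ) (M : Type) [AddCommGroup M] [Module D M] :
    (Finset (Fin m) → M) →ₗ[D] (Finset (Fin m) → M) :=
  ∑ k : Fin m, kh D M k

/-- the columnwise Koszul differential, with the sign `(-1)^{#I}` -/
noncomputable def colD (y : Fin (m + 1) → D) : XX D m →ₗ[D] XX D m :=
  LinearMap.pi fun I => ((-1 : ℤ) ^ I.card • kd y (LL D m)) ∘ₗ LinearMap.proj I

/-- the total differential -/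
noncomputable def totD (y : Fin (m + 1) → D) : XX D m →ₗ[D] XX D m :=
  colD y + cech D m (Finset (Fin (m + 1)) → LL D m)

variable (D m) in
/-- projection to total degree `k = #S - #I` -/
noncomputable def totπ (k : ℤ) : XX D m →ₗ[D] XX D m where
  toFun x := fun I S => if (S.card : ℤ) - I.card = k then x I S else 0
  map_add' x x' := by
    funext I S
    by_cases h : (S.card : ℤ) - I.card = k <;> simp [h]
  map_smul' c x := by
    funext I S
    by_cases h : (S.card : ℤ) - I.card = k <;> simp [h]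

/-- the décalage subcomplex with profile `j` -/
noncomputable def GG (z y : Fin (m + 1) → D) (𝔪 : Ideal D) (q : ℕ) (α : Fin m → ℤ) (u₀ : ℤ)
    (j : ℕ → ℤ) : Submodule D (XX D m) where
  carrier := {x | ∀ I S, x I S ∈ Vt z 𝔪 q I α u₀ (j S.card) ∧
    kd y (LL D m) (x I) S ∈ Vt z 𝔪 q I α u₀ (j S.card)}
  add_mem' := by
    intro x x' hx hx' I S
    refine ⟨Submodule.add_mem _ (hx I S).1 (hx' I S).1, ?_⟩
    rw [Pi.add_apply, map_add]
    exact Submodule.add_mem _ (hx I S).2 (hx' I S).2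
  zero_mem' := by
    intro I S
    simp
  smul_mem' := by
    intro c x hx I S
    refine ⟨Submodule.smul_mem _ c (hx I S).1, ?_⟩
    rw [Pi.smul_apply, map_smul]
    exact Submodule.smul_mem _ c (hx I S).2

/-- the straight filtration of the total complex -/
noncomputable def WW (z : Fin (m + 1) → D) (𝔪 : Ideal D) (q : ℕ) (α : Fin m → ℤ) (u₀ l : ℤ) :
    Submodule D (XX D m) :=
  Submodule.pi Set.univ fun I => KK (Fin (m + 1)) (Vt z 𝔪 q I α u₀ l)

/-- admissible profiles -/
def Adm (m q : ℕ) (j : ℕ → ℤ) : Prop := ∀ i ≤ m, j (i + 1) ≤ j i ∧ j i ≤ j (i + 1) + q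

/-- elements concentrated at `I = ∅`, `S = ∅` with value in `P` -/
noncomputable def corner (P : Submodule D (LL D m)) : Submodule D (XX D m) :=
  P.map (LinearMap.single D (fun _ : Finset (Fin m) => Finset (Fin (m + 1)) → LL D m) ∅ ∘ₗ
    LinearMap.single D (fun _ : Finset (Fin (m + 1)) => LL D m) ∅)

/-- the size of the `i`-th Koszul homology of `y` on `D / J` -/
noncomputable def beta (μ : LF D) (y : Fin (m + 1) → D) (J : Ideal D) (i : ℕ) : ℝ≥0∞ :=
  μ.sz (LinearMap.eqLocus (kπ D D i) LinearMap.id ⊓ (KK (Fin (m + 1)) J).comap (kd y D))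
    (LinearMap.range (kd y D) ⊔ KK (Fin (m + 1)) J)

end

/-- The hypotheses of the core inequality; `Wd` is the width of the windows that are allowed. -/
structure CH {R₀ D : Type} [CommRing R₀] [CommRing D] [Algebra R₀ D] {m : ℕ}
    (z : Fin (m + 1) → R₀) (𝔪 : Ideal R₀) (y : Fin (m + 1) → D) (γ : D) (μ : LF D)
    (q a Wd : ℕ) : Prop where
  q_pos : 0 < q
  null : μ.Null γ
  sl : SL (fun k => algebraMap R₀ D (z k)) D (degGE (Fin (m + 1)) ((m + 2) * Wd)) γ
  hm : ∀ x ∈ 𝔪, γ * algebraMap R₀ D x ∈ sp (fun k => algebraMap R₀ D (z k)) ^ q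
  hz : ∀ k, algebraMap R₀ D (z k) ^ a ∈ sp y
  sig : HasSig 𝔪 y
  fin : μ.val (D ⧸ (sp (fun k => algebraMap R₀ D (z k)) ⊔ 𝔪.map (algebraMap R₀ D))) ≠ ⊤

end Crest.Agent.R183
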