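import Crest.Agent.R183.CorePath

/-!
# Invariance properties of the truncated Euler characteristic
-/

set_option autoImplicit false

open scoped ENNReal

namespace Crest.Agent.R183

namespace CoreF

variable {D : Type} [CommRing D] {m : ℕ}

/-- multiplication by a Laurent polynomial on the total complex -/
noncomputable def mulX (g : LL D m) : XX D m →ₗ[D] XX D m :=
  ((LinearMap.mulLeft D g).compLeft _).compLeft _

theorem mulX_apply (g : LL D m) (x : XX D m) (I : Finset (Fin m)) (S : Finset (Fin (m + 1))) :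
    mulX g x I S = g * x I S := rfl

theorem mulX_D (y : Fin (m + 1) → D) (g : LL D m) (x : XX D m) :
    mulX g ((totDG y).D x) = (totDG y).D (mulX g x) := by
  funext I S
  change g * totD y x I S = totD y (mulX g x) I S
  simp only [totD_apply, Pi.add_apply, Pi.smul_apply, Finset.sum_apply, kd_apply, mulX_apply,
    mul_add, Finset.mul_sum, mul_smul_comm]

theorem mulX_π (y : Fin (m + 1) → D) (g : LL D m) (k : ℤ) (x : XX D m) :
    mulX g ((totDG y).π k x) = (totDG y).π k (mulX g x) := by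
  funext I S
  change g * (if (S.card : ℤ) - I.card = k then x I S else 0) =
    if (S.card : ℤ) - I.card = k then g * x I S else 0
  split_ifs <;> simp

theorem mo_mul_inj (e : G m) {v w : LL D m} (h : mo D e * v = mo D e * w) : v = w := by
  have h1 : mo D (-e) * mo D e = 1 := by
    rw [AddMonoidAlgebra.single_mul_single, neg_add_cancel, mul_one]
    rfl
  have h2 := congrArg (mo D (-e) * ·) h
  simpa only [← mul_assoc, h1, one_mul] using h2

variable {z : Fin (m + 1) → D} {𝔪 : Ideal D} {q : ℕ}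

theorem mem_WW {α : Fin m → ℤ} {u₀ l : ℤ} {x : XX D m} :
    x ∈ WW z 𝔪 q α u₀ l ↔ ∀ I S, x I S ∈ Vt z 𝔪 q I α u₀ l :=
  ⟨fun h I S => h I trivial S trivial, fun h I _ S _ => h I S⟩

theorem mem_WW_sup {α α' : Fin m → ℤ} {u₀ l u₀' l' : ℤ} {x : XX D m}
    (h : ∀ I S, x I S ∈ Vt z 𝔪 q I α u₀ l ⊔ Vt z 𝔪 q I α' u₀' l') :
    x ∈ WW z 𝔪 q α u₀ l ⊔ WW z 𝔪 q α' u₀' l' := by
  simp only [Submodule.mem_sup] at h
  choose a ha b hb e using h
  exact Submodule.mem_sup.2 ⟨a, mem_WW.2 ha, b, mem_WW.2 hb, funext₂ e⟩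

theorem WW_shift (α : Fin m → ℤ) (u₀ l : ℤ) :
    (WW z 𝔪 q (α + 1) u₀ l).map (mulX (mo D (0, 1))) = WW z 𝔪 q α (u₀ + 1) (l + 1) := by
  refine le_antisymm ?_ fun x hx => ?_
  · rintro _ ⟨x, hx, rfl⟩
    exact mem_WW.2 fun I S => (Vt_shift z 𝔪 q I α u₀ l).le ⟨_, mem_WW.1 hx I S, rfl⟩
  · choose a ha e using fun I S => (Vt_shift z 𝔪 q I α u₀ l).ge (mem_WW.1 hx I S)
    exact ⟨a, mem_WW.2 ha, funext₂ e⟩

theorem mulX_inj (e : G m) : Function.Injective (mulX (mo D e)) := fun _ _ h =>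
  funext₂ fun I S => mo_mul_inj e (congrFun (congrFun h I) S)

/-- the first map of the Euler sequence -/
noncomputable def eI (k : Fin m) : XX D m →ₗ[D] XX D m × XX D m :=
  (mulX (mo D (Pi.single k 1, 0))).prod (-LinearMap.id)

/-- the second map of the Euler sequence -/
noncomputable def eP (k : Fin m) : XX D m × XX D m →ₗ[D] XX D m :=
  LinearMap.id.coprod (mulX (mo D (Pi.single k 1, 0)))

theorem eI_apply (k : Fin m) (x : XX D m) :
    eI k x = (mulX (mo D (Pi.single k 1, 0)) x, -x) := rfl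

theorem eP_apply (k : Fin m) (x : XX D m × XX D m) :
    eP k x = x.1 + mulX (mo D (Pi.single k 1, 0)) x.2 := rfl

theorem WW_le (k : Fin m) (α : Fin m → ℤ) (u₀ l : ℤ) :
    WW z 𝔪 q α u₀ l ≤ WW z 𝔪 q (α + Pi.single k 1) u₀ l := fun _ hx =>
  mem_WW.2 fun I S => Vt_alpha_le z 𝔪 q I k α u₀ l (mem_WW.1 hx I S)

theorem mul_mem_WW (k : Fin m) {α : Fin m → ℤ} {u₀ l : ℤ} {x : XX D m}
    (hx : x ∈ WW z 𝔪 q α u₀ l) :
    mulX (mo D (Pi.single k 1, 0)) x ∈ WW z 𝔪 q (α + Pi.single k 1) u₀ l :=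
  mem_WW.2 fun I S => Vt_map_t_le z 𝔪 q I k α u₀ l ⟨_, mem_WW.1 hx I S, rfl⟩

theorem mem_Vt_of_mul {I : Finset (Fin m)} {k : Fin m} (hk : k ∈ I) {α : Fin m → ℤ} {u₀ l : ℤ}
    {v : LL D m} (h : mo D (Pi.single k 1, 0) * v ∈ Vt z 𝔪 q I (α + Pi.single k 1) u₀ l) :
    v ∈ Vt z 𝔪 q I α u₀ l := by
  obtain ⟨w, hw, e⟩ := (Vt_alpha_mem z 𝔪 q hk α u₀ l).ge h
  rwa [← mo_mul_inj _ e]

theorem map_eP (k : Fin m) (α : Fin m → ℤ) (u₀ l : ℤ) :
    ((WW z 𝔪 q α u₀ l).prod (WW z 𝔪 q α u₀ l)).map (eP k) =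
      WW z 𝔪 q (α + Pi.single k 1) u₀ l := by
  refine le_antisymm ?_ fun x hx => ?_
  · rintro _ ⟨x, hx, rfl⟩
    exact add_mem (WW_le k α u₀ l hx.1) (mul_mem_WW k hx.2)
  · have : ∀ I S, ∃ a ∈ Vt z 𝔪 q I α u₀ l, ∃ b ∈ Vt z 𝔪 q I α u₀ l,
        a + mo D (Pi.single k 1, 0) * b = x I S := by
      intro I S
      have h1 := mem_WW.1 hx I S
      by_cases hk : k ∈ I
      · obtain ⟨b, hb, e⟩ := (Vt_alpha_mem z 𝔪 q hk α u₀ l).ge h1
        exact ⟨0, zero_mem _, b, hb, by rw [zero_add]; exact e⟩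
      · rw [Vt_alpha_notMem z 𝔪 q hk] at h1
        exact ⟨_, h1, 0, zero_mem _, by rw [mul_zero, add_zero]⟩
    choose a ha b hb e using this
    exact ⟨(a, b), ⟨mem_WW.2 ha, mem_WW.2 hb⟩, funext₂ e⟩

theorem exact_left (k : Fin m) (α : Fin m → ℤ) (u₀ : ℤ) {l n : ℤ} (h : l ≤ n) :
    WW z 𝔪 q α u₀ l ⊓ ((WW z 𝔪 q (α + Pi.single k 1) u₀ n).prod
      (WW z 𝔪 q (α + Pi.single k 1) u₀ n)).comap (eI k) = WW z 𝔪 q α u₀ n := by
  refine le_antisymm (fun x hx => mem_WW.2 fun I S => ?_) fun x hx =>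
    ⟨WW_anti z 𝔪 q α u₀ h hx, mul_mem_WW k hx, neg_mem (WW_le k α u₀ n hx)⟩
  by_cases hk : k ∈ I
  · exact mem_Vt_of_mul hk (mem_WW.1 hx.2.1 I S)
  · rw [← Vt_alpha_notMem z 𝔪 q hk]
    exact neg_mem_iff.1 (mem_WW.1 hx.2.2 I S)

theorem exact_mid (k : Fin m) (α : Fin m → ℤ) (u₀ : ℤ) {l n : ℤ} (h : l ≤ n) :
    (WW z 𝔪 q (α + Pi.single k 1) u₀ l).prod (WW z 𝔪 q (α + Pi.single k 1) u₀ l) ⊓
      (WW z 𝔪 q (α + Pi.single k 1 + Pi.single k 1) u₀ n).comap (eP k) =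
      (WW z 𝔪 q α u₀ l).map (eI k) ⊔
        (WW z 𝔪 q (α + Pi.single k 1) u₀ n).prod (WW z 𝔪 q (α + Pi.single k 1) u₀ n) := by
  refine le_antisymm ?_ (sup_le ?_ fun x hx => ⟨⟨WW_anti z 𝔪 q _ u₀ h hx.1,
    WW_anti z 𝔪 q _ u₀ h hx.2⟩, (map_eP k _ u₀ n).le ⟨x, hx, rfl⟩⟩)
  · rintro ⟨a, b⟩ ⟨⟨ha, hb⟩, hab⟩
    have : ∀ I S, ∃ x ∈ Vt z 𝔪 q I α u₀ l,
        a I S - mo D (Pi.single k 1, 0) * x ∈ Vt z 𝔪 q I (α + Pi.single k 1) u₀ n ∧
          b I S + x ∈ Vt z 𝔪 q I (α + Pi.single k 1) u₀ n := by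
      intro I S
      have h1 : a I S ∈ _ := mem_WW.1 ha I S
      have h2 : b I S ∈ _ := mem_WW.1 hb I S
      have h3 : a I S + mo D (Pi.single k 1, 0) * b I S ∈ _ := mem_WW.1 hab I S
      by_cases hk : k ∈ I
      · obtain ⟨x, hx, e⟩ := (Vt_alpha_mem z 𝔪 q hk α u₀ l).ge h1
        rw [LinearMap.mulLeft_apply] at e
        refine ⟨x, hx, by rw [e, sub_self]; exact zero_mem _, mem_Vt_of_mul hk ?_⟩
        rwa [mul_add, e, add_comm _ (a I S)]
      · rw [Vt_alpha_notMem z 𝔪 q hk] at h2 h3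
        exact ⟨-b I S, neg_mem h2, by rwa [mul_neg, sub_neg_eq_add],
          by rw [add_neg_cancel]; exact zero_mem _⟩
    choose x hx h1 h2 using this
    refine Submodule.mem_sup.2 ⟨_, ⟨x, mem_WW.2 hx, rfl⟩,
      (a - mulX (mo D (Pi.single k 1, 0)) x, b + x), ⟨mem_WW.2 h1, mem_WW.2 h2⟩, ?_⟩
    rw [eI_apply, Prod.mk_add_mk, add_sub_cancel, add_comm b, neg_add_cancel_left]
  · rintro _ ⟨x, hx, rfl⟩
    refine ⟨⟨mul_mem_WW k hx, neg_mem (WW_le k α u₀ l hx)⟩, ?_⟩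
    rw [SetLike.mem_coe, Submodule.mem_comap, eP_apply, eI_apply, map_neg, add_neg_cancel]
    exact zero_mem _

theorem adm_const (m q : ℕ) (l : ℤ) : Adm m q fun _ => l := fun _ _ =>
  ⟨le_rfl, le_add_of_nonneg_right (Int.natCast_nonneg q)⟩

theorem eI_D (y : Fin (m + 1) → D) (k : Fin m) (x : XX D m) :
    eI k ((totDG y).D x) = ((totDG y).prod (totDG y)).D (eI k x) := by
  rw [eI_apply, eI_apply, mulX_D, ← map_neg]
  rfl

theorem eI_π (y : Fin (m + 1) → D) (k : Fin m) (j : ℤ) (x : XX D m) :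
    eI k ((totDG y).π j x) = ((totDG y).prod (totDG y)).π j (eI k x) := by
  rw [eI_apply, eI_apply, mulX_π, ← map_neg]
  rfl

theorem eP_D (y : Fin (m + 1) → D) (k : Fin m) (x : XX D m × XX D m) :
    eP k (((totDG y).prod (totDG y)).D x) = (totDG y).D (eP k x) := by
  rw [eP_apply, eP_apply, map_add, ← mulX_D]
  rfl

theorem eP_π (y : Fin (m + 1) → D) (k : Fin m) (j : ℤ) (x : XX D m × XX D m) :
    eP k (((totDG y).prod (totDG y)).π j x) = (totDG y).π j (eP k x) := by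
  rw [eP_apply, eP_apply, map_add, ← mulX_π]
  rfl

theorem chi_prod_self {B X : Type} [CommRing B] [AddCommGroup X] [Module B X] (C : DG B X)
    (μ : LF B) (lo hi : ℤ) {A A' : Submodule B X} (f : ∀ k, C.h μ k A A' ≠ ⊤) :
    (C.prod C).chi μ lo hi (A.prod A) (A'.prod A') = 2 * C.chi μ lo hi A A' := by
  rw [DG.chi, DG.chi, Finset.mul_sum]
  refine Finset.sum_congr rfl fun j _ => ?_
  rw [DG.h_prod, ENNReal.toReal_add (f _) (f _)]
  ring

theorem eP_eI (k : Fin m) (x : XX D m) : eP k (eI k x) = 0 := by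
  rw [eP_apply, eI_apply, map_neg, add_neg_cancel]

end CoreF

open CoreF

namespace CH

variable {R₀ D : Type} [CommRing R₀] [CommRing D] [Algebra R₀ D] {m : ℕ}
  {z : Fin (m + 1) → R₀} {𝔪 : Ideal R₀} {y : Fin (m + 1) → D} {γ : D} {μ : LF D} {q a Wd : ℕ}

theorem FF_top (h : CH z 𝔪 y γ μ q a Wd) (α : Fin m → ℤ) {u₀ l n : ℤ}
    (h₁ : u₀ + (m + 1) * a ≤ l) (h₂ : l + 1 + (m + 1) * a ≤ n) (h₃ : n ≤ u₀ + Wd)
    (hα : (∀ k, α k + l ≤ -1) ∨ ∃ k, α k + l = -1) :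
    FF (zD D z) y (mD D 𝔪) q μ α u₀ l n = FF (zD D z) y (mD D 𝔪) q μ α u₀ (l + 1) n := by
  have hA : (0 : ℤ) ≤ (m + 1) * a := by positivity
  have s := sub_WW (zD D z) y (mD D 𝔪) q α u₀
  have an := WW_anti (zD D z) (mD D 𝔪) q α u₀
  have h12 := an (show l ≤ l + 1 by omega)
  have h23 := an (show l + 1 ≤ n by omega)
  have f12 := h.win_fin α (u₀ := u₀) (u := l) (n := l + 1) (by omega) (by omega) (by omega)
  obtain ⟨-, -, e1⟩ := (totDG y).les μ (s _) (s _) (s _) h12 h23 (-(m : ℤ))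
  rw [h.win_out α (by omega) (by omega) h₃ (Or.inl (by omega)), eq_comm, add_eq_zero] at e1
  obtain ⟨-, e2, -⟩ := (totDG y).les μ (s _) (s _) (s _) h12 h23 1
  rw [FF, FF, (totDG y).chi_add μ (s _) (s _) (s _) h12 h23 f12
    (h.win_fin α (by omega) (by omega) h₃) (by omega), e1.1, zero_add]
  simp only [Int.negOnePow_zero, Units.val_one, Int.cast_one, one_mul, ENNReal.toReal_zero,
    mul_zero, sub_zero]
  rw [add_sub_assoc, add_eq_left, sub_eq_zero]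
  rcases hα with hα | ⟨k, hk⟩
  · have e3 := h.top_null α (u := l) (n := n) h₁ (by omega) h₃ (fun k => (hα k).trans (by omega))
      (k := 1) le_rfl
    have e4 := le_zero_iff.1 ((μ.sz_mono le_rfl ((totDG y).Bd_mono le_rfl
      (an (show l + 1 ≤ n - (m + 1) * a by omega)))).trans e3.le)
    rw [e4, zero_add] at e2
    rw [← e2]
    have e5 := h.path_chi α u₀ (adm_const m q l) (adm_const m q (l + 1))
      fun _ _ => ⟨by omega, by omega, by omega⟩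
    rw [← Finset.sum_mul, beta_alt_sum y μ _ h.fin, zero_mul, GG_const, GG_const, DG.chi,
      ← Finset.sum_subset (s₁ := Finset.Icc (-(m : ℤ)) (0 + 1))
        (Finset.Icc_subset_Icc_right (by omega)),
      ← Finset.insert_Icc_right_eq_Icc_add_one (by omega), Finset.sum_insert (by simp)] at e5
    · rw [DG.chi]
      simp only [zero_add, Int.negOnePow_one, Units.val_neg, Units.val_one, Int.cast_neg,
        Int.cast_one] at e5
      linarith
    · intro k hk hk'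
      rw [Finset.mem_Icc] at hk hk'
      rw [h.win_low α (by omega) (by omega) (by omega) (fun k => by have := hα k; omega)
        (by omega), ENNReal.toReal_zero, mul_zero]
  · have e3 : ∀ j, (totDG y).h μ j (WW (zD D z) (mD D 𝔪) q α u₀ l)
        (WW (zD D z) (mD D 𝔪) q α u₀ (l + 1)) = 0 := by
      intro j
      have := h.path_zero α u₀ (adm_const m q l) (adm_const m q (l + 1))
        (fun _ _ => ⟨by omega, by omega, by omega⟩) j fun r _ l' h1 h2 h3 => by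
          refine absurd (Finset.prod_eq_zero (Finset.mem_univ k) ?_) h3
          obtain rfl : l = l' := le_antisymm h1 (Int.lt_add_one_iff.1 h2)
          simp only [hk, neg_add_cancel, Int.natAbs_zero]
      rwa [GG_const, GG_const] at this
    rw [e3, eq_comm, add_eq_zero] at e2
    simp only [DG.chi, e3, e2.2, ENNReal.toReal_zero, mul_zero, Finset.sum_const_zero]

theorem FF_bot (h : CH z 𝔪 y γ μ q a Wd) (α : Fin m → ℤ) {u₀ u n : ℤ} (h₁ : u₀ ≤ u)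
    (h₂ : u + (m + 1) * a ≤ n) (h₃ : n + 1 + (m + 1) * a ≤ u₀ + Wd) (hα : ∀ k, -1 ≤ α k + n) :
    FF (zD D z) y (mD D 𝔪) q μ α u₀ u (n + 1) = FF (zD D z) y (mD D 𝔪) q μ α u₀ u n := by
  have hA : (0 : ℤ) ≤ (m + 1) * a := by positivity
  have s := sub_WW (zD D z) y (mD D 𝔪) q α u₀
  have an := WW_anti (zD D z) (mD D 𝔪) q α u₀
  rw [FF, FF, DG.chi, DG.chi]
  refine Finset.sum_congr rfl fun k hk => ?_
  rw [Finset.mem_Icc] at hk
  obtain ⟨e1, e2, e3⟩ := (totDG y).les μ (s _) (s _) (s _) (an (show u ≤ n by omega))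
    (an (show n ≤ n + 1 by omega)) k
  rw [h.win_high α (by omega) (by omega) (by omega) hα (by omega), eq_comm, add_eq_zero] at e3
  have e4 := h.bot_null α (u₀ := u₀) (u := n) (n := n + 1) (by omega) (by omega) h₃
    (fun k => by have := hα k; omega) hk.2
  have e5 := le_zero_iff.1 ((μ.sz_mono le_rfl ((totDG y).Bd_mono
    (an (show u ≤ n - (m + 1) * a by omega)) le_rfl)).trans e4.le)
  rw [e1, e2, e5, e3.1, zero_add, add_zero]

theorem FF_shift (h : CH z 𝔪 y γ μ q a Wd) (α : Fin m → ℤ) {u₀ u n : ℤ} (h₁ : u₀ ≤ u)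
    (h₂ : u ≤ n) (h₃ : n + 1 ≤ u₀ + Wd) :
    FF (zD D z) y (mD D 𝔪) q μ (α + 1) u₀ u n =
      FF (zD D z) y (mD D 𝔪) q μ α u₀ (u + 1) (n + 1) := by
  rw [FF, FF, DG.chi, DG.chi]
  refine Finset.sum_congr rfl fun k _ => ?_
  have s := sub_WW (zD D z) y (mD D 𝔪) q
  have an := WW_anti (zD D z) (mD D 𝔪) q
  have h₂' : u + 1 ≤ n + 1 := by omega
  have e1 := ((totDG y).h_transport μ (totDG y) (mulX (mo D (0, 1))) (s (α + 1) u₀ u)
    (s (α + 1) u₀ n) (s α (u₀ + 1) (u + 1)) (s α (u₀ + 1) (n + 1)) (an _ _ h₂) (an _ _ h₂')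
    (by rw [WW_shift]; exact sup_eq_left.2 (an _ _ h₂'))
    (by rw [← WW_shift, Submodule.comap_map_eq_of_injective (mulX_inj _)]
        exact inf_eq_right.2 (an _ _ h₂))
    (fun x _ => by rw [mulX_D, sub_self]; exact zero_mem _) 0
    (fun k x _ => by rw [mulX_π, add_zero, sub_self]; exact zero_mem _) k).1
  obtain ⟨c, hc⟩ := h.top_compare (u₀ := u₀) (u₁ := u₀ + 1) (u := u + 1) (n := n + 1)
    (by omega) (by omega) h₂' h₃
  have hle : ∀ l, WW (zD D z) (mD D 𝔪) q α (u₀ + 1) l ≤ WW (zD D z) (mD D 𝔪) q α u₀ l :=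
    fun l x hx => mem_WW.2 fun I S => Vt_top_le _ _ q I α (by omega) l (mem_WW.1 hx I S)
  have e2 := (totDG y).h_eq_of_null μ (s α u₀ (u + 1)) (s α u₀ (n + 1)) (s α (u₀ + 1) (u + 1))
    (s α (u₀ + 1) (n + 1)) (an _ _ h₂') (an _ _ h₂') (hle _) (hle _)
    (μ.sz_eq_zero_of_smul (h.null.pow c) fun x hx =>
      mem_WW_sup fun I S => (hc I α).1 _ (mem_WW.1 hx I S))
    (μ.sz_eq_zero_of_smul (h.null.pow c) fun x hx =>
      mem_WW.2 fun I S => (hc I α).2 _ ⟨mem_WW.1 hx.1 I S, mem_WW.1 hx.2 I S⟩) k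
  rw [e1, e2, add_zero]

theorem FF_aff (h : CH z 𝔪 y γ μ q a Wd) (α : Fin m → ℤ) (k : Fin m) {u₀ u n : ℤ}
    (h₁ : u₀ + (m + 1) * a ≤ u) (h₂ : u + 2 * ((m + 1) * a) ≤ n)
    (h₃ : n + (m + 1) * a ≤ u₀ + Wd) (hu : ∀ i, (α + Pi.single k 1 : Fin m → ℤ) i + u ≤ 0)
    (hn : ∀ i, -1 ≤ (α - Pi.single k 1 : Fin m → ℤ) i + n) :
    FF (zD D z) y (mD D 𝔪) q μ (α + Pi.single k 1) u₀ u n +
        FF (zD D z) y (mD D 𝔪) q μ (α - Pi.single k 1) u₀ u n =
      2 * FF (zD D z) y (mD D 𝔪) q μ α u₀ u n := by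
  obtain ⟨β, rfl⟩ : ∃ β, α = β + Pi.single k 1 := ⟨α - Pi.single k 1, by simp⟩
  rw [add_sub_cancel_right] at hn ⊢
  have hA : (0 : ℤ) ≤ (m + 1) * a := by positivity
  have s := sub_WW (zD D z) y (mD D 𝔪) q
  have an := WW_anti (zD D z) (mD D 𝔪) q
  have l1 : u ≤ n - (m + 1) * a := by omega
  have l2 : n - (m + 1) * a ≤ n := by omega
  have l3 : u ≤ n := by omega
  have f := fun α => h.win_fin α (u₀ := u₀) (by omega) l3 (by omega)
  have htop := le_zero_iff.1 ((DG_le_right μ (DG.Z_inf_Bd_le _ (s _ _ _) (s _ _ _) 1)).trans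
    (h.top_null _ h₁ (n := n) (by omega) (by omega) hu le_rfl).le)
  have hbot := le_zero_iff.1 ((μ.sz_mono le_rfl ((totDG y).Bd_mono
    (an _ _ (show u ≤ n - (m + 1) * a - (m + 1) * a by omega)) le_rfl)).trans
    (h.bot_null _ (by omega) l2 h₃ hn le_rfl).le)
  have s2 := fun l => DG.sub_prod _ _ (s (β + Pi.single k 1) u₀ l) (s (β + Pi.single k 1) u₀ l)
  have a2 := fun l l' (hl : l ≤ l') =>
    Submodule.prod_mono (an (β + Pi.single k 1) u₀ hl) (an (β + Pi.single k 1) u₀ hl)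
  have e3 := fun l (hl : l ≤ n) => (congrArg (· ⊔ _) (map_eP k (β + Pi.single k 1) u₀ l)).trans
    (sup_eq_left.2 (an (β + Pi.single k 1 + Pi.single k 1) u₀ hl))
  have e := DG.chi_fses μ (totDG y) ((totDG y).prod (totDG y)) (totDG y) (eI k) (eP k)
    (eI_D y k) (eP_D y k) (eI_π y k) (eP_π y k) (eP_eI k)
    (s β u₀ u) (s β u₀ (n - (m + 1) * a)) (s β u₀ n) (s2 u) (s2 (n - (m + 1) * a)) (s2 n)
    (s (β + Pi.single k 1 + Pi.single k 1) u₀ u)
    (s (β + Pi.single k 1 + Pi.single k 1) u₀ (n - (m + 1) * a))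
    (s (β + Pi.single k 1 + Pi.single k 1) u₀ n)
    (an _ _ l1) (an _ _ l2) (a2 _ _ l1) (a2 _ _ l2) (an _ _ l1) (an _ _ l2)
    (map_eP k _ u₀ n).le (exact_left k β u₀ l3) (exact_mid k β u₀ l3) (e3 _ l3)
    (exact_mid k β u₀ l2) (e3 _ l2) htop hbot (f _) (f _) (lo := -(m : ℤ)) (by omega)
    (h.win_out _ (by omega) l3 (by omega) (Or.inl (by omega)))
  rw [chi_prod_self _ _ _ _ (f _)] at e
  exact (add_comm _ _).trans e.symm

end CH

end Crest.Agent.R183
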