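import Crest.Agent.R183.CoreDefs
import Crest.Agent.R183.SL

/-!
# Auxiliary results for `CoreRT`: subquotient forms of the regularity transfer, supports
-/

set_option autoImplicit false

namespace Crest.Agent.R183

namespace CoreRTAux

theorem rt_quot (ι : Type) [Fintype ι] [DecidableEq ι] : ∃ c : ℕ,
    ∀ {B : Type} [CommRing B] {W : Type} [AddCommGroup W] [Module B W] (N W' : Submodule B W)
      (f g : ι → B) (γ : B), N ≤ W' →
      (∀ (j : ι) (x : W), g j • x ∈ sp (Function.update g j (g j ^ 2)) • ⊤ ⊔ W' →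
        γ • x ∈ sp g • ⊤ ⊔ W') →
      (∀ r, ∃ a ∈ sp f, ∀ x : W, (γ * g r - a) • x ∈ W') →
      (∀ x ∈ W' ⊓ (sp g • ⊤ ⊔ N), γ • x ∈ sp f • W' ⊔ N) →
      ∀ x ∈ W' ⊓ (sp f • ⊤ ⊔ N), γ ^ c • x ∈ sp f • W' ⊔ N := by
  obtain ⟨c, hc⟩ := rt_module ι
  refine ⟨c, ?_⟩
  intro B _ W _ _ N W' f g γ hN hWR ha hb x hx
  have key : ∀ (J : Ideal B) (Q : Submodule B W) (x : W),
      N.mkQ x ∈ J • Q.map N.mkQ ↔ x ∈ J • Q ⊔ N := by
    intro J Q x
    rw [← Submodule.map_smul'', ← Submodule.mem_comap, Submodule.comap_map_mkQ, sup_comm]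
  have key' : ∀ (x : W), N.mkQ x ∈ W'.map N.mkQ ↔ x ∈ W' := by
    intro x
    rw [← Submodule.mem_comap, Submodule.comap_map_mkQ, sup_eq_right.2 hN]
  have hWR' : WR g (W ⧸ W') γ := by
    intro j x hx
    obtain ⟨x, rfl⟩ := W'.mkQ_surjective x
    rw [← map_smul, SLT.mem_quot_iff] at hx ⊢
    exact hWR j x hx
  have h1 := hc (W'.map N.mkQ) f g γ
    (hWR'.of_equiv (Submodule.quotientQuotientEquivQuotient N W' hN).symm) ?_ ?_ (N.mkQ x)
    ⟨(key' x).2 hx.1, (SLT.mem_quot_iff _ _ _).2 hx.2⟩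
  · rwa [← map_smul, key] at h1
  · intro r
    obtain ⟨a, ha1, ha2⟩ := ha r
    refine ⟨a, ha1, fun x => ?_⟩
    obtain ⟨x, rfl⟩ := N.mkQ_surjective x
    rw [← map_smul, key']
    exact ha2 x
  · intro x hx
    obtain ⟨x, rfl⟩ := N.mkQ_surjective x
    rw [← map_smul, key]
    exact hb x ⟨(key' x).1 hx.1, (SLT.mem_quot_iff _ _ _).1 hx.2⟩

theorem rt_sub (ι : Type) [Fintype ι] [DecidableEq ι] : ∃ c : ℕ,
    ∀ {B : Type} [CommRing B] {M : Type} [AddCommGroup M] [Module B M] (N P' P : Submodule B M)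
      (f g : ι → B) (γ : B), N ≤ P' → P' ≤ P →
      (∀ (j : ι), ∀ x ∈ P, g j • x ∈ sp (Function.update g j (g j ^ 2)) • P ⊔ P' →
        γ • x ∈ sp g • P ⊔ P') →
      (∀ r, ∃ a ∈ sp f, ∀ x ∈ P, (γ * g r - a) • x ∈ P') →
      (∀ x ∈ P' ⊓ (sp g • P ⊔ N), γ • x ∈ sp f • P' ⊔ N) →
      ∀ x ∈ P' ⊓ (sp f • P ⊔ N), γ ^ c • x ∈ sp f • P' ⊔ N := by
  obtain ⟨c, hc⟩ := rt_quot ι
  refine ⟨c, ?_⟩
  intro B _ M _ _ N P' P f g γ hN hP hWR ha hb x hx
  have key : ∀ (J : Ideal B) (Q Q' : Submodule B M), Q ≤ P → Q' ≤ P → ∀ x : P,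
      x ∈ J • Q.comap P.subtype ⊔ Q'.comap P.subtype ↔ (x : M) ∈ J • Q ⊔ Q' := by
    intro J Q Q' hQ hQ' x
    have h1 : (J • Q.comap P.subtype ⊔ Q'.comap P.subtype).map P.subtype = J • Q ⊔ Q' := by
      rw [Submodule.map_sup, Submodule.map_smul'', Submodule.map_comap_subtype,
        Submodule.map_comap_subtype, inf_eq_right.2 hQ, inf_eq_right.2 hQ']
    rw [← h1]
    constructor
    · exact fun h => ⟨x, h, rfl⟩
    · rintro ⟨y, hy, he⟩
      rwa [← (Subtype.ext he : y = x)]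
  have key' : ∀ (J : Ideal B) (Q' : Submodule B M), Q' ≤ P → ∀ x : P,
      x ∈ J • ⊤ ⊔ Q'.comap P.subtype ↔ (x : M) ∈ J • P ⊔ Q' := by
    intro J Q' hQ' x
    rw [← key J P Q' le_rfl hQ', Submodule.comap_subtype_self]
  have h1 := hc (N.comap P.subtype) (P'.comap P.subtype) f g γ (Submodule.comap_mono hN) ?_ ?_ ?_
    ⟨x, hP hx.1⟩ ⟨hx.1, (key' _ _ (hN.trans hP) _).2 hx.2⟩
  · exact (key _ _ _ hP (hN.trans hP) _).1 h1
  · intro j x hx
    rw [key' _ _ hP] at hx ⊢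
    exact hWR j x x.2 hx
  · intro r
    obtain ⟨a, ha1, ha2⟩ := ha r
    exact ⟨a, ha1, fun x => ha2 x x.2⟩
  · intro x hx
    rw [key _ _ _ hP (hN.trans hP)]
    exact hb x ⟨hx.1, (key' _ _ (hN.trans hP) _).1 hx.2⟩

section alg

variable {ι : Type} {D L : Type} [CommRing D] [CommRing L] [Algebra D L]

theorem exists_over (Z : ι → L) (R : Subalgebra D L) (hR : R = Algebra.adjoin D (Set.range Z))
    (P : Submodule D L) (hP : ∀ j, ∀ x ∈ P, Z j * x ∈ P) :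
    ∃ P' : Submodule R L, ∀ x, x ∈ P' ↔ x ∈ P := by
  subst hR
  have h : ∀ r ∈ Algebra.adjoin D (Set.range Z), ∀ x ∈ P, r * x ∈ P := by
    intro r hr
    induction hr using Algebra.adjoin_induction with
    | mem r hr =>
      obtain ⟨j, rfl⟩ := hr
      exact hP j
    | algebraMap d =>
      intro x hx
      rw [← Algebra.smul_def]
      exact P.smul_mem d hx
    | add r s _ _ hr hs =>
      intro x hx
      rw [add_mul]
      exact P.add_mem (hr x hx) (hs x hx)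
    | mul r s _ _ hr hs =>
      intro x hx
      rw [mul_assoc]
      exact hr _ (hs x hx)
  exact ⟨{ carrier := P
           add_mem' := P.add_mem
           zero_mem' := P.zero_mem
           smul_mem' := fun r x hx => h r r.2 x hx }, fun _ => Iff.rfl⟩

theorem mem_sp_smul_sup [Fintype ι] {B M : Type} [CommRing B] [AddCommGroup M] [Module B M]
    (f : ι → B) (P N : Submodule B M) (x : M) :
    x ∈ sp f • P ⊔ N ↔ ∃ v : ι → M, (∀ j, v j ∈ P) ∧ x - ∑ j, f j • v j ∈ N := by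
  constructor
  · intro hx
    obtain ⟨y, hy, w, hw, rfl⟩ := Submodule.mem_sup.1 hx
    obtain ⟨v, hv, rfl⟩ := SL_mem_sp_smul hy
    exact ⟨v, hv, by simpa using hw⟩
  · rintro ⟨v, hv, hx⟩
    refine Submodule.mem_sup.2 ⟨∑ j, f j • v j, ?_, _, hx, by simp⟩
    exact Submodule.sum_mem _ fun j _ =>
      Submodule.smul_mem_smul (Ideal.subset_span ⟨j, rfl⟩) (hv j)

theorem mem_iSup_sup [Fintype ι] [DecidableEq ι] (f : ι → L) (P N : Submodule D L) (x : L) :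
    x ∈ (⨆ j, P.map (LinearMap.mulLeft D (f j))) ⊔ N ↔
      ∃ v : ι → L, (∀ j, v j ∈ P) ∧ x - ∑ j, f j * v j ∈ N := by
  constructor
  · intro hx
    obtain ⟨y, hy, w, hw, rfl⟩ := Submodule.mem_sup.1 hx
    have : ∃ v : ι → L, (∀ j, v j ∈ P) ∧ y = ∑ j, f j * v j := by
      clear hx
      induction hy using Submodule.iSup_induction' with
      | mem j y hy =>
        obtain ⟨v, hv, rfl⟩ := hy
        refine ⟨Pi.single j v, fun i => ?_, ?_⟩
        · by_cases h : i = j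
          · subst h
            simpa using hv
          · simp [h]
        · rw [Finset.sum_eq_single j (fun i _ h => by simp [h]) (by simp)]
          simp
      | zero => exact ⟨0, fun _ => P.zero_mem, by simp⟩
      | add y y' _ _ h h' =>
        obtain ⟨v, hv, rfl⟩ := h
        obtain ⟨v', hv', rfl⟩ := h'
        exact ⟨v + v', fun j => P.add_mem (hv j) (hv' j),
          by simp [mul_add, Finset.sum_add_distrib]⟩
    obtain ⟨v, hv, rfl⟩ := this
    exact ⟨v, hv, by simpa using hw⟩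
  · rintro ⟨v, hv, hx⟩
    refine Submodule.mem_sup.2 ⟨∑ j, f j * v j, ?_, _, hx, by simp⟩
    exact Submodule.sum_mem _ fun j _ => Submodule.mem_iSup_of_mem j ⟨v j, hv j, rfl⟩

end alg

theorem rt_alg (ι : Type) [Fintype ι] [DecidableEq ι] : ∃ c : ℕ,
    ∀ {D L : Type} [CommRing D] [CommRing L] [Algebra D L] (N P' P : Submodule D L)
      (z : ι → D) (Z : ι → L) (b : ℕ) (γ : D), N ≤ P' → P' ≤ P →
      (∀ j, ∀ x ∈ N, Z j * x ∈ N) → (∀ j, ∀ x ∈ P', Z j * x ∈ P') →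
      (∀ j, ∀ x ∈ P, Z j * x ∈ P) → (∀ j, ∀ x ∈ P, Z j ^ b * x ∈ N) →
      (∀ (j : ι), ∀ x ∈ P, z j ^ b • x ∈
          sp (Function.update (fun i => z i ^ b) j ((z j ^ b) ^ 2)) • P ⊔ P' →
        γ • x ∈ sp (fun i => z i ^ b) • P ⊔ P') →
      (∀ x ∈ P' ⊓ (sp (fun i => z i ^ b) • P ⊔ N), x ∈ sp (fun i => z i ^ b) • P' ⊔ N) →
      ∀ x ∈ P' ⊓ ((⨆ j, P.map (LinearMap.mulLeft D (algebraMap D L (z j) - Z j))) ⊔ N),
        γ ^ c • x ∈ (⨆ j, P'.map (LinearMap.mulLeft D (algebraMap D L (z j) - Z j))) ⊔ N := by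
  obtain ⟨c, hc⟩ := rt_sub ι
  refine ⟨c, ?_⟩
  intro D L _ _ _ N P' P z Z b γ hN hP sN sP' sP hZ hWR hb x hx
  obtain ⟨R, hR⟩ : ∃ R : Subalgebra D L, R = Algebra.adjoin D (Set.range Z) := ⟨_, rfl⟩
  obtain ⟨N₁, hN₁⟩ := exists_over Z R hR N sN
  obtain ⟨P₁', hP₁'⟩ := exists_over Z R hR P' sP'
  obtain ⟨P₁, hP₁⟩ := exists_over Z R hR P sP
  have hZR : ∀ j, Z j ∈ R := fun j => hR ▸ Algebra.subset_adjoin ⟨j, rfl⟩
  let Z₁ : ι → R := fun j => ⟨Z j, hZR j⟩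
  have tr : ∀ (g : ι → D) (Q Q' : Submodule D L) (Q₁ Q₁' : Submodule R L),
      (∀ x, x ∈ Q₁ ↔ x ∈ Q) → (∀ x, x ∈ Q₁' ↔ x ∈ Q') → ∀ x,
      x ∈ sp (fun i => algebraMap D R (g i)) • Q₁ ⊔ Q₁' ↔ x ∈ sp g • Q ⊔ Q' := by
    intro g Q Q' Q₁ Q₁' h h' x
    simp only [mem_sp_smul_sup, h, h', algebraMap_smul]
  have tr' : ∀ (Q Q' : Submodule D L) (Q₁ Q₁' : Submodule R L),
      (∀ x, x ∈ Q₁ ↔ x ∈ Q) → (∀ x, x ∈ Q₁' ↔ x ∈ Q') → ∀ x,
      x ∈ sp (fun i => algebraMap D R (z i) - Z₁ i) • Q₁ ⊔ Q₁' ↔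
        x ∈ (⨆ j, Q.map (LinearMap.mulLeft D (algebraMap D L (z j) - Z j))) ⊔ Q' := by
    intro Q Q' Q₁ Q₁' h h' x
    simp only [mem_sp_smul_sup, mem_iSup_sup, h, h']
    rfl
  have hpow : ∀ r, algebraMap D R (z r ^ b) - Z₁ r ^ b ∈
      sp (fun i => algebraMap D R (z i) - Z₁ i) := by
    intro r
    rw [map_pow]
    exact Ideal.mem_of_dvd _ (sub_dvd_pow_sub_pow _ _ b) (Ideal.subset_span ⟨r, rfl⟩)
  have hZ₁ : ∀ r, ∀ x ∈ P₁, Z₁ r ^ b • x ∈ N₁ := by
    intro r x hx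
    rw [hN₁]
    exact hZ r x ((hP₁ x).1 hx)
  have hN' : N₁ ≤ P₁' := fun x hx => (hP₁' x).2 (hN ((hN₁ x).1 hx))
  have hP' : P₁' ≤ P₁ := fun x hx => (hP₁ x).2 (hP ((hP₁' x).1 hx))
  have h1 := hc N₁ P₁' P₁ (fun i => algebraMap D R (z i) - Z₁ i)
    (fun i => algebraMap D R (z i ^ b)) (algebraMap D R γ) hN' hP' ?_ ?_ ?_ x
    ⟨(hP₁' x).2 hx.1, (tr' _ _ _ _ hP₁ hN₁ x).2 hx.2⟩
  · rw [← map_pow, algebraMap_smul] at h1
    exact (tr' _ _ _ _ hP₁' hN₁ _).1 h1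
  · intro j x hx h
    have e : Function.update (fun i => algebraMap D R (z i ^ b)) j
        (algebraMap D R (z j ^ b) ^ 2) =
        fun i => algebraMap D R (Function.update (fun i => z i ^ b) j ((z j ^ b) ^ 2) i) := by
      funext i
      by_cases hi : i = j
      · subst hi
        simp
      · simp [hi]
    rw [e, tr _ _ _ _ _ hP₁ hP₁', algebraMap_smul] at h
    rw [tr _ _ _ _ _ hP₁ hP₁', algebraMap_smul]
    exact hWR j x ((hP₁ x).1 hx) h
  · intro r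
    refine ⟨algebraMap D R γ * (algebraMap D R (z r ^ b) - Z₁ r ^ b),
      Ideal.mul_mem_left _ _ (hpow r), fun x hx => ?_⟩
    have : algebraMap D R γ * algebraMap D R (z r ^ b) -
        algebraMap D R γ * (algebraMap D R (z r ^ b) - Z₁ r ^ b) =
        algebraMap D R γ * Z₁ r ^ b := by ring
    rw [this, mul_smul]
    exact P₁'.smul_mem _ (hN' (hZ₁ r x hx))
  · intro x hx
    apply Submodule.smul_mem
    have h2 := hb x ⟨(hP₁' x).1 hx.1, (tr _ _ _ _ _ hP₁ hN₁ x).1 hx.2⟩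
    rw [← tr _ _ _ _ _ hP₁' hN₁] at h2
    refine (sup_le ?_ le_sup_right :
      sp (fun i => algebraMap D R (z i ^ b)) • P₁' ⊔ N₁ ≤ _) h2
    intro y hy
    obtain ⟨v, hv, rfl⟩ := SL_mem_sp_smul hy
    refine Submodule.sum_mem _ fun r _ => ?_
    have : algebraMap D R (z r ^ b) • v r =
        (algebraMap D R (z r ^ b) - Z₁ r ^ b) • v r + Z₁ r ^ b • v r := by
      rw [← add_smul, sub_add_cancel]
    rw [this]
    exact Submodule.add_mem_sup (Submodule.smul_mem_smul (hpow r) (hv r))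
      (hZ₁ r _ (hP' (hv r)))

section supp

variable {D : Type} [CommRing D] {m : ℕ}

theorem mem_supp {Ω : Set (G m)} {x : LL D m} : x ∈ supp D Ω ↔ ∀ e ∉ Ω, x.coeff e = 0 :=
  AddMonoidAlgebra.mem_supported'

theorem supp_mono {Ω Ω' : Set (G m)} (h : Ω ⊆ Ω') : supp D Ω ≤ supp D Ω' :=
  AddMonoidAlgebra.supported_mono h

theorem single_mem_supp {Ω : Set (G m)} {e : G m} (he : e ∈ Ω) (d : D) :
    (AddMonoidAlgebra.single e d : LL D m) ∈ supp D Ω := by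
  classical
  rw [mem_supp]
  intro e' he'
  rw [AddMonoidAlgebra.coeff_single, Finsupp.single_apply, if_neg]
  rintro rfl
  exact he' he

theorem mem_of_single (Q : Submodule D (LL D m)) {x : LL D m}
    (h : ∀ e, x.coeff e ≠ 0 → AddMonoidAlgebra.single e (x.coeff e) ∈ Q) : x ∈ Q := by
  rw [← AddMonoidAlgebra.sum_coeff_single x]
  exact Submodule.sum_mem _ fun e he => h e (Finsupp.mem_support_iff.1 he)

theorem supp_union (Ω Ω' : Set (G m)) : supp D (Ω ∪ Ω') = supp D Ω ⊔ supp D Ω' := by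
  apply le_antisymm
  · intro x hx
    apply mem_of_single
    intro e he
    have : e ∈ Ω ∪ Ω' := by
      by_contra h
      exact he (mem_supp.1 hx e h)
    rcases this with h | h
    · exact Submodule.mem_sup_left (single_mem_supp h _)
    · exact Submodule.mem_sup_right (single_mem_supp h _)
  · exact sup_le (supp_mono Set.subset_union_left) (supp_mono Set.subset_union_right)

theorem supp_inter (Ω Ω' : Set (G m)) : supp D (Ω ∩ Ω') = supp D Ω ⊓ supp D Ω' := by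
  ext x
  simp only [Submodule.mem_inf, mem_supp, Set.mem_inter_iff, not_and_or]
  exact ⟨fun h => ⟨fun e he => h e (Or.inl he), fun e he => h e (Or.inr he)⟩,
    fun h e he => he.elim (h.1 e) (h.2 e)⟩

theorem mul_mem_supp {Ω₁ Ω₂ Ω₃ : Set (G m)} (h : ∀ a ∈ Ω₁, ∀ b ∈ Ω₂, a + b ∈ Ω₃) {g v : LL D m}
    (hg : g ∈ supp D Ω₁) (hv : v ∈ supp D Ω₂) : g * v ∈ supp D Ω₃ := by
  classical
  rw [AddMonoidAlgebra.mem_supported] at hg hv ⊢
  intro e he
  have := AddMonoidAlgebra.support_coeff_mul_subset g v he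
  obtain ⟨a, ha, b, hb, rfl⟩ := Finset.mem_add.1 this
  exact h a (hg ha) b (hv hb)

theorem mem_smul_supp_sup {Ω Ω' : Set (G m)} (h : Ω' ⊆ Ω) (J : Ideal D) {x : LL D m} :
    x ∈ J • supp D Ω ⊔ supp D Ω' ↔ x ∈ supp D Ω ∧ ∀ e ∉ Ω', x.coeff e ∈ J := by
  constructor
  · intro hx
    refine ⟨(sup_le Submodule.smul_le_right (supp_mono h) : J • supp D Ω ⊔ supp D Ω' ≤ _) hx, ?_⟩
    obtain ⟨y, hy, w, hw, rfl⟩ := Submodule.mem_sup.1 hx
    intro e he
    rw [AddMonoidAlgebra.coeff_add, Finsupp.add_apply, mem_supp.1 hw e he, add_zero]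
    refine Submodule.smul_induction_on hy (fun r hr v _ => ?_) (fun a b ha hb => ?_)
    · rw [AddMonoidAlgebra.coeff_smul_apply]
      exact J.mul_mem_right _ hr
    · rw [AddMonoidAlgebra.coeff_add, Finsupp.add_apply]
      exact J.add_mem ha hb
  · rintro ⟨h1, h2⟩
    apply mem_of_single
    intro e he
    by_cases he' : e ∈ Ω'
    · exact Submodule.mem_sup_right (single_mem_supp he' _)
    · have h3 : e ∈ Ω := by
        by_contra h3
        exact he (mem_supp.1 h1 e h3)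
      apply Submodule.mem_sup_left
      have : (AddMonoidAlgebra.single e (x.coeff e) : LL D m) =
          x.coeff e • AddMonoidAlgebra.single e 1 := by
        rw [AddMonoidAlgebra.smul_single, smul_eq_mul, mul_one]
      rw [this]
      exact Submodule.smul_mem_smul (h2 e he') (single_mem_supp h3 _)

theorem ZZ_mem (j : Fin (m + 1)) :
    ZZ D m j ∈ supp D {e : G m | e.2 = 1 ∧ ∀ k, 0 ≤ e.1 k ∧ e.1 k ≤ 1} := by
  unfold ZZ
  refine Submodule.sum_mem _ fun J _ => single_mem_supp ?_ _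
  refine ⟨rfl, fun k => ?_⟩
  simp only [ind]
  split_ifs <;> simp

theorem ZZ_mul_Aset (j : Fin (m + 1)) (I : Finset (Fin m)) (u : ℤ) {x : LL D m}
    (hx : x ∈ supp D (Aset I u)) : ZZ D m j * x ∈ supp D (Aset I (u + 1)) := by
  refine mul_mem_supp ?_ (ZZ_mem j) hx
  rintro a ⟨ha1, ha2⟩ b ⟨hb1, hb2⟩
  refine ⟨?_, fun k hk => ?_⟩
  · rw [Prod.snd_add]
    omega
  · have := ha2 k
    have := hb2 k hk
    rw [Prod.fst_add, Pi.add_apply]
    omega

theorem Aset_anti (I : Finset (Fin m)) {u u' : ℤ} (h : u ≤ u') : Aset I u' ⊆ Aset I u :=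
  fun _ he => ⟨h.trans he.1, he.2⟩

theorem ZZ_mul_Aset' (j : Fin (m + 1)) (I : Finset (Fin m)) (u : ℤ) {x : LL D m}
    (hx : x ∈ supp D (Aset I u)) : ZZ D m j * x ∈ supp D (Aset I u) :=
  supp_mono (Aset_anti I (by omega)) (ZZ_mul_Aset j I u hx)

theorem ZZ_pow_mul_Aset (j : Fin (m + 1)) (I : Finset (Fin m)) (u : ℤ) (b : ℕ) {x : LL D m}
    (hx : x ∈ supp D (Aset I u)) : ZZ D m j ^ b * x ∈ supp D (Aset I (u + b)) := by
  induction b with
  | zero => simpa using hx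
  | succ b ih =>
    rw [pow_succ', mul_assoc, Nat.cast_succ, ← add_assoc]
    exact ZZ_mul_Aset j I _ ih

theorem ZZ_mul_Bset (j : Fin (m + 1)) (I : Finset (Fin m)) (α : Fin m → ℤ) (u : ℤ) {x : LL D m}
    (hx : x ∈ supp D (Bset I α u)) : ZZ D m j * x ∈ supp D (Bset I α u) := by
  refine mul_mem_supp ?_ (ZZ_mem j) hx
  rintro a ⟨ha1, ha2⟩ b ⟨⟨hb1, hb2⟩, k, hk, hb3⟩
  refine ⟨⟨?_, fun k hk => ?_⟩, k, hk, ?_⟩
  · rw [Prod.snd_add]
    omega
  · have := ha2 k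
    have := hb2 k hk
    rw [Prod.fst_add, Pi.add_apply]
    omega
  · have := ha2 k
    rw [Prod.fst_add, Pi.add_apply, Prod.snd_add]
    omega

theorem ZZ_mul_AB (j : Fin (m + 1)) (I : Finset (Fin m)) (α : Fin m → ℤ) (u u' : ℤ) {x : LL D m}
    (hx : x ∈ supp D (Aset I u ∪ Bset I α u')) :
    ZZ D m j * x ∈ supp D (Aset I u ∪ Bset I α u') := by
  rw [supp_union] at hx ⊢
  obtain ⟨y, hy, w, hw, rfl⟩ := Submodule.mem_sup.1 hx
  rw [mul_add]
  exact Submodule.add_mem_sup (ZZ_mul_Aset' j I u hy) (ZZ_mul_Bset j I α u' hw)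

/-- `z_j^a - Z_j^a` maps the window into the relations -/
theorem pow_sub_pow_mul_mem_Rel (z : Fin (m + 1) → D) (j : Fin (m + 1)) (I : Finset (Fin m))
    (α : Fin m → ℤ) (u : ℤ) (a : ℕ) {x : LL D m} (hx : x ∈ supp D (Aset I u)) :
    z j ^ a • x - ZZ D m j ^ a * x ∈ Rel z I α u := by
  induction a with
  | zero => simp
  | succ a ih =>
    have e : z j ^ (a + 1) • x - ZZ D m j ^ (a + 1) * x =
        z j • (z j ^ a • x - ZZ D m j ^ a * x) +
          (algebraMap D (LL D m) (z j) - ZZ D m j) * (ZZ D m j ^ a * x) := by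
      simp only [Algebra.smul_def, map_pow]
      ring
    rw [e]
    refine Submodule.add_mem _ (Submodule.smul_mem _ _ ih) ?_
    refine Submodule.mem_sup_right (Submodule.mem_iSup_of_mem j ⟨_, ?_, rfl⟩)
    exact supp_mono (Aset_anti I (by omega)) (ZZ_pow_mul_Aset j I u a hx)

end supp

end CoreRTAux

end Crest.Agent.R183
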