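import Crest.Agent.R183.CoreCol
import Crest.Agent.R183.CoreRTAux

/-!
# Almost properties of the column filtrations (consequences of window regularity of `z`)
-/

set_option autoImplicit false

namespace Crest.Agent.R183

/-- image of `z` in `D` -/
abbrev zD {R₀ : Type} [CommRing R₀] (D : Type) [CommRing D] [Algebra R₀ D] {m : ℕ}
    (z : Fin (m + 1) → R₀) : Fin (m + 1) → D := fun k => algebraMap R₀ D (z k)

/-- extension of `𝔪` to `D` -/
abbrev mD {R₀ : Type} [CommRing R₀] (D : Type) [CommRing D] [Algebra R₀ D] (𝔪 : Ideal R₀) :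
    Ideal D := 𝔪.map (algebraMap R₀ D)

namespace CoreRTAux

variable {D : Type} [CommRing D] {m : ℕ}

theorem Vv_anti (z : Fin (m + 1) → D) (I : Finset (Fin m)) (α : Fin m → ℤ) (u₀ : ℤ) {l l' : ℤ}
    (h : max u₀ l ≤ max u₀ l') : Vv z I α u₀ l' ≤ Vv z I α u₀ l :=
  sup_le_sup_right (supp_mono (Aset_anti I h)) _

theorem supp_le_Vv (z : Fin (m + 1) → D) (I : Finset (Fin m)) (α : Fin m → ℤ) {u₀ l u : ℤ}
    (h₁ : u₀ ≤ u) (h₂ : l ≤ u) : supp D (Aset I u) ≤ Vv z I α u₀ l :=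
  (supp_mono (Aset_anti I (max_le h₁ h₂))).trans le_sup_left

theorem F_le (z : Fin (m + 1) → D) {P : Submodule D (LL D m)}
    (hP : ∀ j, ∀ x ∈ P, ZZ D m j * x ∈ P) :
    (⨆ j : Fin (m + 1), P.map (LinearMap.mulLeft D (algebraMap D (LL D m) (z j) - ZZ D m j))) ≤
      P := by
  refine iSup_le fun j => ?_
  rintro _ ⟨x, hx, rfl⟩
  rw [LinearMap.mulLeft_apply, sub_mul, ← Algebra.smul_def]
  exact P.sub_mem (P.smul_mem _ hx) (hP j x hx)

theorem kd_mul (y : Fin (m + 1) → D) (g : LL D m) (x : Finset (Fin (m + 1)) → LL D m) :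
    kd y (LL D m) (g • x) = g • kd y (LL D m) x :=
  kd_comp y y (AddMonoidHom.mulLeft g) (fun i v => mul_smul_comm (y i) g v) x

theorem mem_KK {ι M : Type} [AddCommGroup M] [Module D M] {P : Submodule D M}
    {x : Finset ι → M} : x ∈ KK ι P ↔ ∀ S, x S ∈ P :=
  ⟨fun h S => h S (Set.mem_univ S), fun h S _ => h S⟩

theorem KK_mono {ι M : Type} [AddCommGroup M] [Module D M] {P Q : Submodule D M} (h : P ≤ Q) :
    KK ι P ≤ KK ι Q := fun _ hx => mem_KK.2 fun S => h (mem_KK.1 hx S)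

end CoreRTAux

open CoreRTAux

namespace CH

variable {R₀ D : Type} [CommRing R₀] [CommRing D] [Algebra R₀ D] {m : ℕ}
  {z : Fin (m + 1) → R₀} {𝔪 : Ideal R₀} {y : Fin (m + 1) → D} {γ : D} {μ : LF D} {q a Wd : ℕ}

/-- change of the top of the window -/
theorem rt_col (h : CH z 𝔪 y γ μ q a Wd) {u₀ u n : ℤ} (h₁ : u₀ ≤ u) (h₂ : u ≤ n)
    (h₃ : n ≤ u₀ + Wd) : ∃ c : ℕ, ∀ (I : Finset (Fin m)) (α : Fin m → ℤ),
      ∀ x ∈ supp D (Aset I u) ⊓ Vv (zD D z) I α u₀ n, γ ^ c • x ∈ Vv (zD D z) I α u n := by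
  obtain ⟨c, hc⟩ := rt_alg (Fin (m + 1))
  have hWR := h.sl.wr (fun _ => Wd) fun j => by
    simpa using degGE_subset_boxGE (ι := Fin (m + 1)) Wd j
  refine ⟨(∏ _i : Fin (m + 1), Wd) * c, fun I α x hx => ?_⟩
  have hsub : Aset I u ∪ Bset I α u₀ ⊆ Aset I u₀ :=
    Set.union_subset (Aset_anti I h₁) fun _ he => he.1
  have hsub' : Aset I n ∪ Bset I α u₀ ⊆ Aset I u ∪ Bset I α u₀ :=
    Set.union_subset_union_left _ (Aset_anti I h₂)
  have h1 := hc (supp D (Aset I n ∪ Bset I α u₀)) (supp D (Aset I u ∪ Bset I α u₀))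
    (supp D (Aset I u₀)) (zD D z) (ZZ D m) Wd (γ ^ ∏ _i : Fin (m + 1), Wd) (supp_mono hsub')
    (supp_mono hsub) (fun j x hx => ZZ_mul_AB j I α _ _ hx) (fun j x hx => ZZ_mul_AB j I α _ _ hx)
    (fun j x hx => ZZ_mul_Aset' j I _ hx) ?_ ?_ ?_ x ⟨supp_mono Set.subset_union_left hx.1, ?_⟩
  · rw [← pow_mul] at h1
    have h2 : (⨆ j : Fin (m + 1), (supp D (Aset I u ∪ Bset I α u₀)).map
        (LinearMap.mulLeft D (algebraMap D (LL D m) (zD D z j) - ZZ D m j))) ⊔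
          supp D (Aset I n ∪ Bset I α u₀) ≤
        (⨆ j : Fin (m + 1), (supp D (Aset I u)).map
          (LinearMap.mulLeft D (algebraMap D (LL D m) (zD D z j) - ZZ D m j))) ⊔
          supp D (Aset I n ∪ Bset I α u₀) := by
      refine sup_le (iSup_le fun j => ?_) le_sup_right
      rw [supp_union (Aset I u), Submodule.map_sup]
      refine sup_le (le_sup_of_le_left (le_iSup_of_le j le_rfl)) (le_sup_of_le_right ?_)
      refine le_trans (le_iSup_of_le j le_rfl) ((F_le (zD D z) (P := supp D (Bset I α u₀))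
        fun j x hx => ZZ_mul_Bset j I α _ hx).trans (supp_mono Set.subset_union_right))
    obtain ⟨v, hv, w, hw, he⟩ := Submodule.mem_sup.1 (h2 h1)
    have hv' : v ∈ supp D (Aset I u) := F_le (zD D z) (fun j x hx => ZZ_mul_Aset' j I _ hx) hv
    have hw' : w ∈ supp D (Aset I u) := by
      rw [← eq_sub_iff_add_eq'] at he
      rw [he]
      exact Submodule.sub_mem _ (Submodule.smul_mem _ _ hx.1) hv'
    have hw'' : w ∈ supp D (Aset I (max u n) ∪ Bset I α u) := by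
      have : w ∈ supp D (Aset I u ∩ (Aset I n ∪ Bset I α u₀)) := by
        rw [supp_inter]
        exact ⟨hw', hw⟩
      refine supp_mono ?_ this
      rintro e ⟨he1, he2 | he2⟩
      · exact Or.inl (by rwa [max_eq_right h₂])
      · exact Or.inr ⟨he1, he2.2⟩
    rw [← he]
    rw [supp_union] at hw''
    refine Submodule.add_mem _ (Submodule.mem_sup_right (Submodule.mem_sup_right hv)) ?_
    exact (sup_le le_sup_left (le_sup_of_le_right le_sup_left) :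
      supp D (Aset I (max u n)) ⊔ supp D (Bset I α u) ≤ Vv (zD D z) I α u n) hw''
  · intro j x hx
    exact supp_mono (Set.subset_union_of_subset_left (Aset_anti I h₃) _)
      (ZZ_pow_mul_Aset j I u₀ Wd hx)
  · intro j x hx h1
    rw [mem_smul_supp_sup hsub] at h1 ⊢
    refine ⟨Submodule.smul_mem _ _ hx, fun e he => ?_⟩
    have h2 := h1.2 e he
    rw [AddMonoidAlgebra.coeff_smul_apply] at h2 ⊢
    exact (SLT.mem_smul_top _ _).1 (hWR j _ ((SLT.mem_smul_top _ _).2 h2))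
  · intro x hx
    have h1 := (mem_smul_supp_sup (hsub'.trans hsub) _).1 hx.2
    exact (mem_smul_supp_sup hsub' _).2 ⟨hx.1, h1.2⟩
  · have h1 := hx.2
    unfold Vv Rel at h1
    rwa [max_eq_right (h₁.trans h₂), ← sup_assoc, ← supp_union, sup_comm] at h1

theorem sat (h : CH z 𝔪 y γ μ q a Wd) (u₀ l : ℤ) : ∃ c : ℕ,
    ∀ (I : Finset (Fin m)) (α : Fin m → ℤ), ∀ x ∈ Vt (zD D z) (mD D 𝔪) q I α u₀ l,
      γ ^ c • x ∈ Vv (zD D z) I α u₀ l := by
  have hγ : Ideal.span {γ} * mD D 𝔪 ≤ sp (zD D z) ^ q := by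
    rw [Ideal.span_singleton_mul_le_iff]
    intro x hx
    induction hx using Submodule.span_induction with
    | mem x hx =>
      obtain ⟨x, hx, rfl⟩ := hx
      exact h.hm x hx
    | zero => simp
    | add x y _ _ hx hy =>
      rw [mul_add]
      exact Ideal.add_mem _ hx hy
    | smul r x _ hx =>
      rw [smul_eq_mul, mul_left_comm]
      exact Ideal.mul_mem_left _ _ hx
  have hq : (1 : ℤ) ≤ q := by exact_mod_cast h.q_pos
  have key : ∀ (I : Finset (Fin m)) (α : Fin m → ℤ) (s : ℕ),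
      ∀ x ∈ mD D 𝔪 ^ s • Vv (zD D z) I α u₀ (l - s * q), γ ^ s • x ∈ Vv (zD D z) I α u₀ l := by
    intro I α s x hx
    refine Submodule.smul_induction_on hx (fun r hr v hv => ?_) (fun a b ha hb => ?_)
    · rw [← mul_smul]
      have h1 : γ ^ s * r ∈ sp (zD D z) ^ (q * s) := by
        rw [pow_mul]
        refine Ideal.pow_right_mono hγ s ?_
        rw [mul_pow]
        exact Ideal.mul_mem_mul (Ideal.pow_mem_pow (Ideal.mem_span_singleton_self γ) s) hr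
      have h2 := sp_smul_Vv_le (zD D z) I α u₀ (l - s * q) (q * s) (Submodule.smul_mem_smul h1 hv)
      refine Vv_anti _ I α u₀ (max_le_max_left _ ?_) h2
      have := le_max_right u₀ (l - s * q)
      push_cast
      linarith
    · rw [smul_add]
      exact Submodule.add_mem _ ha hb
  refine ⟨(l - u₀).toNat, fun I α x hx => ?_⟩
  induction hx using Submodule.iSup_induction' with
  | mem s x hx =>
    rcases le_total s (l - u₀).toNat with hs | hs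
    · obtain ⟨t, ht⟩ := Nat.exists_eq_add_of_le hs
      rw [ht, add_comm, pow_add, mul_smul]
      exact Submodule.smul_mem _ _ (key I α s x hx)
    · apply key I α
      refine Submodule.smul_mono (Ideal.pow_le_pow_right hs) (Vv_anti _ I α u₀ ?_) hx
      have h1 := Int.self_le_toNat (l - u₀)
      have h2 : (0 : ℤ) ≤ ((l - u₀).toNat : ℤ) := Int.natCast_nonneg _
      refine max_le (le_max_left _ _) (le_trans ?_ (le_max_left _ _))
      nlinarith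
  | zero => simp
  | add x y _ _ hx hy =>
    rw [smul_add]
    exact Submodule.add_mem _ hx hy

theorem gr_surj (h : CH z 𝔪 y γ μ q a Wd) {u₀ l : ℤ} (h₁ : u₀ ≤ l) : ∃ c : ℕ,
    ∀ (I : Finset (Fin m)) (α : Fin m → ℤ), ∀ x ∈ Vt (zD D z) (mD D 𝔪) q I α u₀ l,
      γ ^ c • x ∈ supp D (Alev I l) ⊔ Vt (zD D z) (mD D 𝔪) q I α u₀ (l + 1) := by
  obtain ⟨c, hc⟩ := h.sat u₀ l
  refine ⟨c, fun I α x hx => ?_⟩
  refine (sup_le ?_ (le_sup_of_le_right (Rel_le_Vt _ _ _ _ _ _ _)) : Vv (zD D z) I α u₀ l ≤ _)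
    (hc I α x hx)
  have h1 : Aset I (max u₀ l) ⊆ Alev I l ∪ Aset I (l + 1) := by
    rintro e ⟨he1, he2⟩
    rw [max_eq_right h₁] at he1
    rcases he1.eq_or_lt with h2 | h2
    · exact Or.inl ⟨h2.symm, he2⟩
    · exact Or.inr ⟨h2, he2⟩
  refine (supp_mono h1).trans ?_
  rw [supp_union]
  exact sup_le_sup_left ((supp_le_Vv _ I α (by omega) le_rfl).trans (Vv_le_Vt _ _ _ _ _ _ _)) _

theorem gr_inj (h : CH z 𝔪 y γ μ q a Wd) {u₀ l : ℤ} (h₁ : u₀ ≤ l) (h₂ : l < u₀ + Wd) : ∃ c : ℕ,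
    ∀ (I : Finset (Fin m)) (α : Fin m → ℤ),
      ∀ x ∈ supp D (Alev I l) ⊓ Vt (zD D z) (mD D 𝔪) q I α u₀ (l + 1),
        γ ^ c • x ∈ Bmod (sp (zD D z) ⊔ mD D 𝔪) I α l := by
  obtain ⟨c, hc⟩ := h.sat u₀ (l + 1)
  obtain ⟨c', hc'⟩ := h.rt_col (u := l) (n := l + 1) h₁ (by omega) (by omega)
  refine ⟨c' + c, fun I α x hx => ?_⟩
  have hA : supp D (Alev I l) ≤ supp D (Aset I l) := supp_mono fun e he => ⟨he.1.ge, he.2⟩
  have h1 := hc' I α _ ⟨Submodule.smul_mem _ _ (hA hx.1), hc I α x hx.2⟩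
  rw [← mul_smul, ← pow_add] at h1
  have hsplit : supp D (Aset I l) ≤ supp D (Alev I l) ⊔ supp D (Aset I (l + 1)) := by
    rw [← supp_union]
    refine supp_mono ?_
    rintro e ⟨he1, he2⟩
    rcases he1.eq_or_lt with h2 | h2
    · exact Or.inl ⟨h2.symm, he2⟩
    · exact Or.inr ⟨h2, he2⟩
  have h2 : Vv (zD D z) I α l (l + 1) ≤
      Bmod (sp (zD D z) ⊔ mD D 𝔪) I α l ⊔ supp D (Aset I (l + 1)) := by
    refine sup_le (le_sup_of_le_right (supp_mono (Aset_anti I (le_max_right _ _))))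
      (sup_le ?_ (iSup_le fun j => ?_))
    · refine le_trans ?_ (sup_le_sup_right le_sup_left _)
      rw [← supp_union]
      refine supp_mono ?_
      rintro e ⟨⟨he1, he2⟩, k, hk, he3⟩
      rcases he1.eq_or_lt with h2 | h2
      · exact Or.inl ⟨⟨h2.symm, he2⟩, k, hk, by omega⟩
      · exact Or.inr ⟨h2, he2⟩
    · rintro _ ⟨v, hv, rfl⟩
      rw [LinearMap.mulLeft_apply, sub_mul, ← Algebra.smul_def]
      refine Submodule.sub_mem _ ?_ (Submodule.mem_sup_right (ZZ_mul_Aset j I l hv))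
      obtain ⟨v₁, hv₁, v₂, hv₂, rfl⟩ := Submodule.mem_sup.1 (hsplit hv)
      rw [smul_add]
      refine Submodule.add_mem_sup (Submodule.mem_sup_right ?_) (Submodule.smul_mem _ _ hv₂)
      exact Submodule.smul_mem_smul (Ideal.mem_sup_left (Ideal.subset_span ⟨j, rfl⟩)) hv₁
  obtain ⟨v, hv, w, hw, he⟩ := Submodule.mem_sup.1 (h2 h1)
  have hv' : v ∈ supp D (Alev I l) :=
    (sup_le (supp_mono Set.inter_subset_left) Submodule.smul_le_right :
      Bmod (sp (zD D z) ⊔ mD D 𝔪) I α l ≤ _) hv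
  have hw' : w ∈ supp D (Alev I l) := by
    rw [← eq_sub_iff_add_eq'] at he
    rw [he]
    exact Submodule.sub_mem _ (Submodule.smul_mem _ _ hx.1) hv'
  have hw0 : w = 0 := by
    ext e
    by_cases he : e.2 = l
    · exact mem_supp.1 hw e fun h => by have := h.1; omega
    · exact mem_supp.1 hw' e fun h => he h.1
  rw [← he, hw0, add_zero]
  exact hv

theorem top_compare (h : CH z 𝔪 y γ μ q a Wd) {u₀ u₁ u n : ℤ} (h₀ : u₀ ≤ u₁) (h₁ : u₁ ≤ u)
    (h₂ : u ≤ n) (h₃ : n ≤ u₀ + Wd) : ∃ c : ℕ, ∀ (I : Finset (Fin m)) (α : Fin m → ℤ),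
      (∀ x ∈ Vt (zD D z) (mD D 𝔪) q I α u₀ u,
        γ ^ c • x ∈ Vt (zD D z) (mD D 𝔪) q I α u₁ u ⊔ Vt (zD D z) (mD D 𝔪) q I α u₀ n) ∧
      (∀ x ∈ Vt (zD D z) (mD D 𝔪) q I α u₁ u ⊓ Vt (zD D z) (mD D 𝔪) q I α u₀ n,
        γ ^ c • x ∈ Vt (zD D z) (mD D 𝔪) q I α u₁ n) := by
  obtain ⟨c₁, hc₁⟩ := h.sat u₀ u
  obtain ⟨c₂, hc₂⟩ := h.sat u₀ n
  obtain ⟨c₃, hc₃⟩ := h.rt_col h₀ (h₁.trans h₂) h₃
  refine ⟨c₃ + c₂ + c₁, fun I α => ⟨fun x hx => ?_, fun x hx => ?_⟩⟩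
  · rw [pow_add, mul_smul]
    refine Submodule.smul_mem _ _ ?_
    refine (sup_le (le_sup_of_le_left ?_) (le_sup_of_le_right (Rel_le_Vt _ _ _ _ _ _ _)) :
      Vv (zD D z) I α u₀ u ≤ _) (hc₁ I α x hx)
    exact (supp_le_Vv _ I α (h₁.trans (le_max_right _ _)) (le_max_right _ _)).trans
      (Vv_le_Vt _ _ _ _ _ _ _)
  · rw [add_comm, pow_add, mul_smul, pow_add, mul_smul]
    refine Submodule.smul_mem _ _ (Vv_le_Vt _ _ _ _ _ _ _ (hc₃ I α _ ⟨?_, hc₂ I α x hx.2⟩))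
    exact Submodule.smul_mem _ _ (Vt_le_supp _ _ _ _ _ _ _ hx.1)

/-- the map `V[u, n + a) → V[u - a, n)` is almost null on the Koszul homology of each column -/
theorem null_col (h : CH z 𝔪 y γ μ q a Wd) {u₀ u n : ℤ} (h₁ : u₀ + a ≤ u) (h₂ : u₀ ≤ n)
    (h₃ : n + a ≤ u₀ + Wd) : ∃ c : ℕ, ∀ (I : Finset (Fin m)) (α : Fin m → ℤ)
      (x : Finset (Fin (m + 1)) → LL D m),
      x ∈ KK (Fin (m + 1)) (Vt (zD D z) (mD D 𝔪) q I α u₀ u) →
      kd y (LL D m) x ∈ KK (Fin (m + 1)) (Vt (zD D z) (mD D 𝔪) q I α u₀ (n + a)) →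
      γ ^ c • x ∈
        (KK (Fin (m + 1)) (Vt (zD D z) (mD D 𝔪) q I α u₀ (u - a))).map (kd y (LL D m)) ⊔
          KK (Fin (m + 1)) (Vt (zD D z) (mD D 𝔪) q I α u₀ n) := by
  obtain ⟨c₁, hc₁⟩ := h.sat u₀ u
  obtain ⟨c₂, hc₂⟩ := h.sat u₀ (n + a)
  obtain ⟨c₃, hc₃⟩ := h.rt_col (u₀ := u₀) (u := u₀ + a) (n := n + a) (by omega) (by omega) h₃
  refine ⟨c₃ + c₂ + c₁, fun I α x hx hdx => ?_⟩
  have hu : u₀ ≤ u := by omega
  have h1 : ∀ S, ∃ v ∈ supp D (Aset I u), ∃ w ∈ Rel (zD D z) I α u₀, v + w = γ ^ c₁ • x S := by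
    intro S
    have := hc₁ I α _ (mem_KK.1 hx S)
    unfold Vv at this
    rw [max_eq_right hu] at this
    exact Submodule.mem_sup.1 this
  choose x₁ hx₁ ρ hρ he using h1
  have he' : x₁ + ρ = γ ^ c₁ • x := funext he
  obtain ⟨θ, hθ⟩ : ∃ θ : LL D m, θ = mo D (ind I, 1) ^ a := ⟨_, rfl⟩
  obtain ⟨η, hη⟩ : ∃ η : LL D m, η = mo D (-(a • ((ind I, 1) : G m))) := ⟨_, rfl⟩
  have hθη : θ * η = 1 := by
    rw [hθ, hη, AddMonoidAlgebra.single_pow, AddMonoidAlgebra.single_mul_single, add_neg_cancel,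
      one_pow, one_mul, AddMonoidAlgebra.one_def]
  have hx' : ∀ S, (η • x₁) S ∈ supp D (Aset I (u - a)) := by
    intro S
    refine mul_mem_supp (Ω₁ := {-(a • ((ind I, 1) : G m))}) ?_
      (hη ▸ single_mem_supp (Set.mem_singleton _) _) (hx₁ S)
    rintro _ rfl b ⟨hb1, hb2⟩
    refine ⟨?_, fun k hk => ?_⟩
    · rw [Prod.snd_add, Prod.snd_neg, Prod.smul_snd, nsmul_eq_mul, mul_one]
      omega
    · simpa [ind, hk] using hb2 k hk
  have hθx : θ • η • x₁ = x₁ := by rw [← mul_smul, hθη, one_smul]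
  obtain ⟨x', hx'e⟩ : ∃ x', x' = η • x₁ := ⟨_, rfl⟩
  rw [← hx'e] at hx' hθx
  have hd1 : kd y (LL D m) x₁ ∈ KK (Fin (m + 1)) (Vt (zD D z) (mD D 𝔪) q I α u₀ (n + a)) := by
    rw [eq_sub_of_add_eq he', map_sub, map_smul]
    exact Submodule.sub_mem _ (Submodule.smul_mem _ _ hdx)
      (kd_mem_KK y (KK_mono (Rel_le_Vt _ _ _ _ _ _ _) (mem_KK.2 hρ)))
  have hd2 : kd y (LL D m) x₁ ∈ KK (Fin (m + 1)) (supp D (Aset I (u₀ + a))) :=
    kd_mem_KK y (mem_KK.2 fun S => supp_mono (Aset_anti I h₁) (hx₁ S))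
  have hd3 : ∀ S, γ ^ (c₃ + c₂) • kd y (LL D m) x' S ∈ Vt (zD D z) (mD D 𝔪) q I α u₀ n := by
    intro S
    have h2 := hc₃ I α _ ⟨Submodule.smul_mem _ _ (mem_KK.1 hd2 S), hc₂ I α _ (mem_KK.1 hd1 S)⟩
    rw [← mul_smul, ← pow_add, ← Vv_theta, ← hθ, ← hθx, kd_mul] at h2
    obtain ⟨v, hv, h3⟩ := h2
    rw [LinearMap.mulLeft_apply, Pi.smul_apply, smul_eq_mul, ← mul_smul_comm] at h3
    have h4 : v = γ ^ (c₃ + c₂) • kd y (LL D m) x' S := by
      have := congrArg (η * ·) h3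
      simpa only [← mul_assoc, mul_comm η θ, hθη, one_mul] using this
    rw [← h4]
    exact Vv_le_Vt _ _ _ _ _ _ _ hv
  obtain ⟨g, hg, hgθ⟩ := exists_unit_comb D I a
  rw [← hθ] at hgθ
  have hw : ∀ j S, (g j • x') S ∈ supp D (Aset I (u - a)) := by
    intro j S
    refine mul_mem_supp ?_ (hg j) (hx' S)
    rintro e ⟨he1, he2, -⟩ b ⟨hb1, hb2⟩
    refine ⟨?_, fun k hk => add_nonneg (he2 k hk) (hb2 k hk)⟩
    rw [Prod.snd_add]
    omega
  have hx₁e : x₁ = ∑ j, ZZ D m j ^ a • g j • x' := by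
    rw [← hθx, ← hgθ, Finset.sum_smul]
    refine Finset.sum_congr rfl fun j _ => ?_
    rw [mul_comm, mul_smul]
  rw [pow_add, mul_smul, ← he', smul_add]
  refine Submodule.add_mem _ ?_ (Submodule.mem_sup_right (Submodule.smul_mem _ _
    (KK_mono (Rel_le_Vt _ _ _ _ _ _ _) (mem_KK.2 hρ))))
  rw [hx₁e, Finset.smul_sum]
  refine Submodule.sum_mem _ fun j _ => ?_
  have e1 : ZZ D m j ^ a • g j • x' =
      zD D z j ^ a • g j • x' - (zD D z j ^ a • g j • x' - ZZ D m j ^ a • g j • x') := by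
    rw [sub_sub_cancel]
  rw [e1, smul_sub]
  refine Submodule.sub_mem _ ?_ (Submodule.mem_sup_right (Submodule.smul_mem _ _
    (mem_KK.2 fun S => Rel_le_Vt _ _ _ _ _ _ _ ?_)))
  · obtain ⟨cc, hcc⟩ := exists_homotopy (M := LL D m) y (h.hz j)
    rw [← hcc, smul_add]
    refine Submodule.add_mem_sup (Submodule.smul_mem _ _ ⟨_, ?_, rfl⟩) ?_
    · refine Submodule.sum_mem _ fun i _ => Submodule.smul_mem _ _ (kh_mem_KK i ?_)
      refine mem_KK.2 fun S => Vv_le_Vt _ _ _ _ _ _ _ ?_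
      exact supp_le_Vv _ I α (by omega) le_rfl (hw j S)
    · rw [Finset.smul_sum]
      refine Submodule.sum_mem _ fun i _ => ?_
      rw [smul_comm, ← map_smul]
      refine Submodule.smul_mem _ _ (kh_mem_KK i (mem_KK.2 fun S => ?_))
      rw [kd_mul, Pi.smul_apply, Pi.smul_apply, smul_eq_mul, ← mul_smul_comm]
      exact chart_mul_mem_Vt _ _ _ I α u₀ n (hg j) (hd3 S)
  · exact pow_sub_pow_mul_mem_Rel (zD D z) j I α u₀ a
      (supp_mono (Aset_anti I (by omega)) (hw j S))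

end CH

end Crest.Agent.R183
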