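import Crest.Agent.R183.CoreTot
import Crest.Agent.R183.CoreRT

/-!
# Čech cohomology of the Koszul homology of a graded piece
-/

set_option autoImplicit false

open scoped ENNReal

namespace Crest.Agent.R183

namespace CoreModelAux

open KoszulAux

variable {D : Type} [CommRing D] {m : ℕ}

/-- the coefficient of an exponent -/
noncomputable def coef (g : G m) : LL D m →ₗ[D] D :=
  Finsupp.lapply g ∘ₗ (AddMonoidAlgebra.coeffLinearEquiv D).toLinearMap

/-- the coefficient of an exponent in a column -/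
noncomputable def cfL (g : G m) :
    (Finset (Fin (m + 1)) → LL D m) →ₗ[D] (Finset (Fin (m + 1)) → D) :=
  (coef g).compLeft _

/-- the coefficient of an exponent in the total complex -/
noncomputable def cf (g : G m) : XX D m →ₗ[D] (Finset (Fin m) → Finset (Fin (m + 1)) → D) :=
  (cfL g).compLeft _

/-- Koszul cycles of `a / b` -/
noncomputable def Zc (y : Fin (m + 1) → D) (a b : Ideal D) (i : ℕ) :
    Submodule D (Finset (Fin (m + 1)) → D) :=
  LinearMap.eqLocus (kπ D D i) LinearMap.id ⊓ KK (Fin (m + 1)) a ⊓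
    (KK (Fin (m + 1)) b).comap (kd y D)

/-- Koszul boundaries of `a / b` -/
noncomputable def Bc (y : Fin (m + 1) → D) (a b : Ideal D) (i : ℕ) :
    Submodule D (Finset (Fin (m + 1)) → D) :=
  LinearMap.eqLocus (kπ D D i) LinearMap.id ⊓
    ((KK (Fin (m + 1)) a).map (kd y D) ⊔ KK (Fin (m + 1)) b)

open Classical in
/-- allowed coefficients -/
noncomputable def aI (D : Type) [CommRing D] (l : ℤ) (I : Finset (Fin m)) (g : G m) : Ideal D :=
  if g ∈ Alev I l then ⊤ else ⊥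

open Classical in
/-- allowed coefficients of the relations -/
noncomputable def bI (J : Ideal D) (α : Fin m → ℤ) (l : ℤ) (I : Finset (Fin m)) (g : G m) :
    Ideal D :=
  if g ∈ Alev I l then (if ∃ k ∈ I, g.1 k ≤ α k + l then ⊤ else J) else ⊥

/-- the column that carries the cohomology -/
def I0 (β : Fin m → ℤ) : Finset (Fin m) := Finset.univ.filter fun k => β k < 0

/-- the exponents that carry the cohomology -/
noncomputable def Ef (β : Fin m → ℤ) : Finset (Fin m → ℤ) :=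
  Fintype.piFinset fun k => if β k < 0 then Finset.Ioo (β k) 0 else Finset.Icc 0 (β k)

theorem anchor : True := by
  have := @coef.eq_1; have := @coef.eq_def; have := @cfL.eq_1; have := @cfL.eq_def
  have := @cf.eq_1; have := @cf.eq_def; have := @Zc.eq_1; have := @Zc.eq_def
  have := @Bc.eq_1; have := @Bc.eq_def; have := @aI.eq_1; have := @aI.eq_def
  have := @bI.eq_1; have := @bI.eq_def; have := @I0.eq_1; have := @I0.eq_def
  have := @Ef.eq_1; have := @Ef.eq_def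
  trivial

theorem coef_apply (g : G m) (v : LL D m) : coef g v = v.coeff g := rfl

theorem cfL_apply (g : G m) (u : Finset (Fin (m + 1)) → LL D m) (S : Finset (Fin (m + 1))) :
    cfL g u S = (u S).coeff g := rfl

theorem cf_apply (g : G m) (x : XX D m) (I : Finset (Fin m)) : cf g x I = cfL g (x I) := rfl

theorem mem_I0 {β : Fin m → ℤ} {k : Fin m} : k ∈ I0 β ↔ β k < 0 :=
  Finset.mem_filter.trans (and_iff_right (Finset.mem_univ k))

theorem mem_Ef {β b : Fin m → ℤ} :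
    b ∈ Ef β ↔ ∀ k, (β k < 0 → β k < b k ∧ b k < 0) ∧ (0 ≤ β k → 0 ≤ b k ∧ b k ≤ β k) := by
  refine Fintype.mem_piFinset.trans (forall_congr' fun k => ?_)
  split_ifs with h
  · rw [Finset.mem_Ioo]
    omega
  · rw [Finset.mem_Icc]
    omega

theorem card_Ef (β : Fin m → ℤ) : (Ef β).card = ecard β := by
  refine (Fintype.card_piFinset _).trans (Finset.prod_congr rfl fun k _ => ?_)
  split_ifs with h
  · rw [Int.card_Ioo]
    omega
  · rw [Int.card_Icc]
    omega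

theorem cfL_ext {u u' : Finset (Fin (m + 1)) → LL D m} (h : ∀ g, cfL g u = cfL g u') : u = u' :=
  funext fun S => AddMonoidAlgebra.ext (Finsupp.ext fun g => congrFun (h g) S)

theorem cfL_finite (u : Finset (Fin (m + 1)) → LL D m) : {g | cfL g u ≠ 0}.Finite := by
  refine (Set.finite_iUnion fun S => (u S).coeff.support.finite_toSet).subset fun g hg => ?_
  obtain ⟨S, hS⟩ := Function.ne_iff.1 hg
  exact Set.mem_iUnion.2 ⟨S, Finsupp.mem_support_iff.2 hS⟩

theorem glue (u : G m → Finset (Fin (m + 1)) → D) (hu : {g | u g ≠ 0}.Finite) :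
    ∃ v : Finset (Fin (m + 1)) → LL D m, ∀ g, cfL g v = u g :=
  ⟨fun S => AddMonoidAlgebra.ofCoeff (Finsupp.ofSupportFinite (fun g => u g S)
    (hu.subset fun _ hg e => hg (congrFun e S))), fun _ => rfl⟩

theorem cfL_kd (y : Fin (m + 1) → D) (g : G m) (u : Finset (Fin (m + 1)) → LL D m) :
    cfL g (kd y (LL D m) u) = kd y D (cfL g u) :=
  (kd_comp y y (coef g).toAddMonoidHom (fun _ _ => map_smul (coef g) _ _) u).symm

theorem cfL_kπ (i : ℕ) (g : G m) (u : Finset (Fin (m + 1)) → LL D m) :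
    cfL g (kπ D (LL D m) i u) = kπ D D i (cfL g u) := by
  funext S
  rw [cfL_apply, kπ_apply, kπ_apply]
  split_ifs <;> rfl

theorem cech_apply {M : Type} [AddCommGroup M] [Module D M] (x : Finset (Fin m) → M) :
    cech D m M x = ∑ k, kh D M k x := LinearMap.sum_apply _ _ _

theorem cf_cech (g : G m) (x : XX D m) :
    cf g ((cechDG D m).D x) = cech D m _ (cf g x) := by
  refine (congrArg (cf g) (cech_apply x)).trans ?_
  rw [cech_apply, map_sum]
  exact Finset.sum_congr rfl fun k _ => (kh_comp k (cfL g).toAddMonoidHom x).symm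

theorem cech_ka {M : Type} [AddCommGroup M] [Module D M] (k : Fin m) (x : Finset (Fin m) → M) :
    cech D m M (ka D M k x) + ka D M k (cech D m M x) = x := by
  rw [cech_apply, cech_apply, map_sum, ← Finset.sum_add_distrib, Finset.sum_eq_single k]
  · rw [add_comm, ka_kh_self]
  · intro j _ hj
    rw [add_comm, ka_kh_ne hj.symm]
  · simp

theorem cech_mem {M : Type} [AddCommGroup M] [Module D M] {x : Finset (Fin m) → M}
    {I : Finset (Fin m)} {Q : Submodule D M} (h : ∀ k ∈ I, x (I.erase k) ∈ Q) :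
    cech D m M x I ∈ Q := by
  rw [cech_apply, Finset.sum_apply]
  refine Q.sum_mem fun k _ => ?_
  rw [kh_apply]
  split_ifs with hk
  · exact Q.toAddSubgroup.zsmul_mem (h k hk) _
  · exact Q.zero_mem

theorem ka_mem {M : Type} [AddCommGroup M] [Module D M] {x : Finset (Fin m) → M}
    {I : Finset (Fin m)} {Q : Submodule D M} {k : Fin m} (h : x (insert k I) ∈ Q) :
    ka D M k x I ∈ Q := by
  rw [ka_apply]
  split_ifs with hk
  · exact Q.zero_mem
  · exact Q.toAddSubgroup.zsmul_mem h _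

section graded

variable {y : Fin (m + 1) → D} {P P' : Finset (Fin m) → Submodule D (LL D m)}
  {a b : Finset (Fin m) → G m → Ideal D} {i : ℕ} {x : XX D m}

theorem mem_KK {Q : Submodule D (LL D m)} {c : G m → Ideal D}
    (hQ : ∀ v, v ∈ Q ↔ ∀ g, v.coeff g ∈ c g) {u : Finset (Fin (m + 1)) → LL D m} :
    u ∈ KK (Fin (m + 1)) Q ↔ ∀ g, cfL g u ∈ KK (Fin (m + 1)) (c g) :=
  ⟨fun h g S hS => (hQ _).1 (h S hS) g, fun h S hS => (hQ _).2 fun g => h g S hS⟩

theorem mem_deg {u : Finset (Fin (m + 1)) → LL D m} :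
    u ∈ LinearMap.eqLocus (kπ D (LL D m) i) LinearMap.id ↔
      ∀ g, cfL g u ∈ LinearMap.eqLocus (kπ D D i) LinearMap.id :=
  ⟨fun h g => (cfL_kπ i g u).symm.trans (congrArg (cfL g) h),
    fun h => cfL_ext fun g => (cfL_kπ i g u).trans (h g)⟩

theorem mem_ZH (hP : ∀ I v, v ∈ P I ↔ ∀ g, v.coeff g ∈ a I g)
    (hP' : ∀ I v, v ∈ P' I ↔ ∀ g, v.coeff g ∈ b I g) :
    x ∈ ZH y P P' i ↔ ∀ I g, cf g x I ∈ Zc y (a I g) (b I g) i := by
  constructor
  · intro h I g
    obtain ⟨⟨h1, h2⟩, h3⟩ := h I trivial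
    refine ⟨⟨mem_deg.1 h1 g, (mem_KK (hP I)).1 h2 g⟩, ?_⟩
    have := (mem_KK (hP' I)).1 h3 g
    rwa [cfL_kd] at this
  · intro h I _
    refine ⟨⟨mem_deg.2 fun g => (h I g).1.1, (mem_KK (hP I)).2 fun g => (h I g).1.2⟩,
      (mem_KK (hP' I)).2 fun g => ?_⟩
    rw [cfL_kd]
    exact (h I g).2

theorem mem_BH (hP : ∀ I v, v ∈ P I ↔ ∀ g, v.coeff g ∈ a I g)
    (hP' : ∀ I v, v ∈ P' I ↔ ∀ g, v.coeff g ∈ b I g) :
    x ∈ BH y P P' i ↔ ∀ I g, cf g x I ∈ Bc y (a I g) (b I g) i := by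
  classical
  constructor
  · intro h I g
    obtain ⟨h1, h2⟩ := h I trivial
    obtain ⟨_, ⟨u, hu, rfl⟩, w, hw, e⟩ := Submodule.mem_sup.1 h2
    refine ⟨mem_deg.1 h1 g, ?_⟩
    rw [SetLike.mem_coe, cf_apply, ← e, map_add, cfL_kd]
    exact Submodule.add_mem_sup ⟨_, (mem_KK (hP I)).1 hu g, rfl⟩ ((mem_KK (hP' I)).1 hw g)
  · intro h I _
    refine ⟨mem_deg.2 fun g => (h I g).1, ?_⟩
    have h1 : ∀ g, ∃ u ∈ KK (Fin (m + 1)) (a I g), (cfL g (x I) = 0 → u = 0) ∧
        cfL g (x I) - kd y D u ∈ KK (Fin (m + 1)) (b I g) := by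
      intro g
      by_cases h0 : cfL g (x I) = 0
      · exact ⟨0, zero_mem _, fun _ => rfl, by rw [h0, map_zero, sub_zero]; exact zero_mem _⟩
      · obtain ⟨_, ⟨u, hu, rfl⟩, w, hw, e⟩ := Submodule.mem_sup.1 (h I g).2
        exact ⟨u, hu, fun h' => (h0 h').elim, by rwa [← cf_apply, ← e, add_sub_cancel_left]⟩
    choose u hu hu0 hub using h1
    obtain ⟨U, hU⟩ := glue u ((cfL_finite (x I)).subset fun g hg e => hg (hu0 g e))
    rw [SetLike.mem_coe, ← add_sub_cancel (kd y (LL D m) U) (x I)]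
    refine Submodule.add_mem_sup ⟨U, (mem_KK (hP I)).2 fun g => hU g ▸ hu g, rfl⟩
      ((mem_KK (hP' I)).2 fun g => ?_)
    rw [map_sub, cfL_kd, hU]
    exact hub g

end graded

section types

variable {J : Ideal D} {α : Fin m → ℤ} {l : ℤ} {I : Finset (Fin m)} {g : G m} {k : Fin m}

theorem aI_pos (h : g ∈ Alev I l) : aI D l I g = ⊤ := if_pos h

theorem aI_neg (h : g ∉ Alev I l) : aI D l I g = ⊥ := if_neg h

theorem bI_neg (h : g ∉ Alev I l) : bI J α l I g = ⊥ := if_neg h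

theorem bI_top (h : g ∈ Alev I l) (h' : ∃ k ∈ I, g.1 k ≤ α k + l) : bI J α l I g = ⊤ :=
  (if_pos h).trans (if_pos h')

theorem bI_J (h : g ∈ Alev I l) (h' : ¬ ∃ k ∈ I, g.1 k ≤ α k + l) : bI J α l I g = J :=
  (if_pos h).trans (if_neg h')

theorem mem_supp_Alev (l : ℤ) (I : Finset (Fin m)) (v : LL D m) :
    v ∈ supp D (Alev I l) ↔ ∀ g, v.coeff g ∈ aI D l I g := by
  refine AddMonoidAlgebra.mem_supported'.trans (forall_congr' fun g => ?_)
  by_cases h : g ∈ Alev I l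
  · rw [aI_pos h]
    exact iff_of_true (fun h' => (h' h).elim) trivial
  · rw [aI_neg h]
    exact ⟨fun h' => h' h, fun h' _ => h'⟩

theorem mem_Bmod (J : Ideal D) (α : Fin m → ℤ) (l : ℤ) (I : Finset (Fin m)) (v : LL D m) :
    v ∈ Bmod J I α l ↔ ∀ g, v.coeff g ∈ bI J α l I g := by
  constructor
  · intro h g
    obtain ⟨v₁, h₁, v₂, h₂, rfl⟩ := Submodule.mem_sup.1 h
    refine (bI J α l I g).add_mem ?_ ?_
    · show v₁.coeff g ∈ _
      by_cases hg : g ∈ Alev I l ∩ {g | ∃ k ∈ I, g.1 k ≤ α k + l}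
      · rw [bI_top hg.1 hg.2]
        trivial
      · rw [AddMonoidAlgebra.mem_supported'.1 h₁ g hg]
        exact zero_mem _
    · refine Submodule.smul_induction_on (p := fun v : LL D m => v.coeff g ∈ bI J α l I g) h₂
        (fun r hr v hv => ?_) fun v w hv hw => (bI J α l I g).add_mem hv hw
      show r * v.coeff g ∈ _
      by_cases hg : g ∈ Alev I l
      · by_cases hg' : ∃ k ∈ I, g.1 k ≤ α k + l
        · rw [bI_top hg hg']
          trivial
        · rw [bI_J hg hg']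
          exact J.mul_mem_right _ hr
      · rw [AddMonoidAlgebra.mem_supported'.1 hv g hg, mul_zero]
        exact zero_mem _
  · intro h
    rw [← AddMonoidAlgebra.sum_coeff_single v]
    refine Submodule.sum_mem _ fun g hg => ?_
    have hg0 := Finsupp.mem_support_iff.1 hg
    have hs : ∀ {Ω : Set (G m)}, g ∈ Ω → ∀ c : D, AddMonoidAlgebra.single g c ∈ supp D Ω :=
      fun hΩ c => AddMonoidAlgebra.mem_supported'.2 fun g' hg' =>
        Finsupp.single_eq_of_ne fun e => hg' (e ▸ hΩ)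
    have hA : g ∈ Alev I l := by
      by_contra hA
      have := h g
      rw [bI_neg hA] at this
      exact hg0 this
    by_cases hg' : ∃ k ∈ I, g.1 k ≤ α k + l
    · exact Submodule.mem_sup_left
        (hs (Ω := Alev I l ∩ {g | ∃ k ∈ I, g.1 k ≤ α k + l}) ⟨hA, hg'⟩ _)
    · have := h g
      rw [bI_J hA hg'] at this
      refine Submodule.mem_sup_right ?_
      have e : AddMonoidAlgebra.single g (v.coeff g) =
          v.coeff g • (AddMonoidAlgebra.single g 1 : LL D m) := by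
        rw [AddMonoidAlgebra.smul_single, smul_eq_mul, mul_one]
      rw [e]
      exact Submodule.smul_mem_smul this (hs hA 1)

theorem alev_insert (h : 0 ≤ g.1 k) : g ∈ Alev (insert k I) l ↔ g ∈ Alev I l := by
  refine and_congr_right fun _ => ⟨fun h' j hj => ?_, fun h' j hj =>
    h' j fun hj' => hj (Finset.mem_insert_of_mem hj')⟩
  by_cases e : j = k
  · exact e ▸ h
  · exact h' j fun hj' => (Finset.mem_insert.1 hj').elim e hj

theorem aI_free (h : 0 ≤ g.1 k) : aI D l (insert k I) g = aI D l I g := by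
  by_cases hg : g ∈ Alev I l
  · rw [aI_pos hg, aI_pos ((alev_insert h).2 hg)]
  · rw [aI_neg hg, aI_neg (mt (alev_insert h).1 hg)]

theorem bI_free (h : 0 ≤ g.1 k) (h' : α k + l < g.1 k) :
    bI J α l (insert k I) g = bI J α l I g := by
  by_cases hg : g ∈ Alev I l
  · by_cases hg' : ∃ k ∈ I, g.1 k ≤ α k + l
    · obtain ⟨j, hj, hj'⟩ := hg'
      rw [bI_top hg ⟨j, hj, hj'⟩,
        bI_top ((alev_insert h).2 hg) ⟨j, Finset.mem_insert_of_mem hj, hj'⟩]
    · rw [bI_J hg hg', bI_J ((alev_insert h).2 hg)]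
      rintro ⟨j, hj, hj'⟩
      rcases Finset.mem_insert.1 hj with rfl | hj
      · exact h'.not_ge hj'
      · exact hg' ⟨j, hj, hj'⟩
  · rw [bI_neg hg, bI_neg (mt (alev_insert h).1 hg)]

theorem nonfree (h : ¬ ∃ k, 0 ≤ g.1 k ∧ α k + l < g.1 k) (I : Finset (Fin m)) :
    aI D l I g = bI J α l I g ∨
      (I = I0 (fun k => α k + l) ∧ g.2 = l ∧ g.1 ∈ Ef fun k => α k + l) := by
  by_cases hg : g ∈ Alev I l
  · by_cases hg' : ∃ k ∈ I, g.1 k ≤ α k + l
    · exact Or.inl ((aI_pos hg).trans (bI_top hg hg').symm)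
    · have h1 : ∀ k, (k ∈ I ∧ α k + l < g.1 k ∧ g.1 k < 0) ∨
          (k ∉ I ∧ 0 ≤ g.1 k ∧ g.1 k ≤ α k + l) := fun k => by
        by_cases hk : k ∈ I
        · have h2 : α k + l < g.1 k := not_le.1 fun h' => hg' ⟨k, hk, h'⟩
          exact Or.inl ⟨hk, h2, not_le.1 fun h' => h ⟨k, h', h2⟩⟩
        · exact Or.inr ⟨hk, hg.2 k hk, not_lt.1 fun h' => h ⟨k, hg.2 k hk, h'⟩⟩
      refine Or.inr ⟨Finset.ext fun k => ?_, hg.1, mem_Ef.2 fun k => ?_⟩
      · rw [mem_I0]
        rcases h1 k with h2 | h2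
        · exact iff_of_true h2.1 (by omega)
        · exact iff_of_false h2.1 (by omega)
      · have := h1 k
        omega
  · exact Or.inl ((aI_neg hg).trans (bI_neg hg).symm)

theorem alev_I0 {b : Fin m → ℤ} (hb : b ∈ Ef fun k => α k + l) :
    ((b, l) : G m) ∈ Alev (I0 fun k => α k + l) l :=
  ⟨rfl, fun k hk => ((mem_Ef.1 hb k).2 (not_lt.1 fun h' => hk
    ((mem_I0 (β := fun k => α k + l)).2 h'))).1⟩

theorem bI_I0 {b : Fin m → ℤ} (hb : b ∈ Ef fun k => α k + l) :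
    bI J α l (I0 fun k => α k + l) (b, l) = J :=
  bI_J (alev_I0 hb) fun ⟨k, hk, hk'⟩ => ((mem_Ef.1 hb k).1 (mem_I0.1 hk)).1.not_ge hk'

end types

section model

variable {y : Fin (m + 1) → D} {J : Ideal D} {α : Fin m → ℤ} {l : ℤ} {i : ℕ} {x : XX D m}

theorem mem_ZM : x ∈ ZH y (fun I => supp D (Alev I l)) (fun I => Bmod J I α l) i ↔
    ∀ I g, cf g x I ∈ Zc y (aI D l I g) (bI J α l I g) i :=
  mem_ZH (mem_supp_Alev l) (mem_Bmod J α l)

theorem mem_BM : x ∈ BH y (fun I => supp D (Alev I l)) (fun I => Bmod J I α l) i ↔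
    ∀ I g, cf g x I ∈ Bc y (aI D l I g) (bI J α l I g) i :=
  mem_BH (mem_supp_Alev l) (mem_Bmod J α l)

theorem mem_Bd (hx : x ∈ ZH y (fun I => supp D (Alev I l)) (fun I => Bmod J I α l) i)
    (hd : (cechDG D m).D x ∈ BH y (fun I => supp D (Alev I l)) (fun I => Bmod J I α l) i)
    (hE : ∀ b ∈ Ef fun k => α k + l, cf (b, l) x (I0 fun k => α k + l) ∈ Bc y ⊤ J i) :
    x ∈ (cechDG D m).Bd (ZH y (fun I => supp D (Alev I l)) (fun I => Bmod J I α l) i)
      (BH y (fun I => supp D (Alev I l)) (fun I => Bmod J I α l) i) := by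
  rw [mem_ZM] at hx
  rw [mem_BM] at hd
  have h1 : ∀ g : G m, ∃ u : Finset (Fin m) → Finset (Fin (m + 1)) → D,
      (cf g x = 0 → u = 0) ∧ (∀ I, u I ∈ Zc y (aI D l I g) (bI J α l I g) i) ∧
        ∀ I, (cf g x - cech D m _ u) I ∈ Bc y (aI D l I g) (bI J α l I g) i := by
    intro g
    by_cases hg : ∃ k, 0 ≤ g.1 k ∧ α k + l < g.1 k
    · obtain ⟨k, h0, hk⟩ := hg
      refine ⟨ka D _ k (cf g x), fun e => by rw [e, map_zero], fun I => ka_mem ?_, fun I => ?_⟩
      · rw [← aI_free h0, ← bI_free h0 hk]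
        exact hx _ g
      · rw [← eq_sub_of_add_eq' (cech_ka k (cf g x)), ← cf_cech]
        refine ka_mem ?_
        rw [← aI_free h0, ← bI_free h0 hk]
        exact hd _ g
    · refine ⟨0, fun _ => rfl, fun _ => zero_mem _, fun I => ?_⟩
      rw [map_zero, sub_zero]
      rcases nonfree (D := D) (J := J) hg I with e | ⟨rfl, e, hb⟩
      · have := hx I g
        rw [← e] at this ⊢
        exact ⟨this.1.1, Submodule.mem_sup_right this.1.2⟩
      · obtain ⟨b, l'⟩ := g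
        obtain rfl : l' = l := e
        rw [aI_pos (alev_I0 hb), bI_I0 hb]
        exact hE b hb
  choose u hu0 huZ huB using h1
  have hfin : {g | cf g x ≠ 0}.Finite := by
    refine (Set.finite_iUnion fun I => cfL_finite (x I)).subset fun g hg => ?_
    obtain ⟨I, hI⟩ := Function.ne_iff.1 hg
    exact Set.mem_iUnion.2 ⟨I, hI⟩
  choose U hU using fun I => glue (fun g => u g I)
    (hfin.subset fun g hg e => hg (congrFun (hu0 g e) I))
  have hU' : ∀ g, cf g U = u g := fun g => funext fun I => hU I g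
  refine (cechDG D m).mem_Bd.2 ⟨U, mem_ZM.2 fun I g => hU' g ▸ huZ g I,
    x - (cechDG D m).D U, mem_BM.2 fun I g => ?_, add_sub_cancel _ _⟩
  rw [map_sub, cf_cech, hU']
  exact huB g I

theorem of_mem_Bd (hx : x ∈ (cechDG D m).Bd
      (ZH y (fun I => supp D (Alev I l)) (fun I => Bmod J I α l) i)
      (BH y (fun I => supp D (Alev I l)) (fun I => Bmod J I α l) i))
    {b : Fin m → ℤ} (hb : b ∈ Ef fun k => α k + l) :
    cf (b, l) x (I0 fun k => α k + l) ∈ Bc y ⊤ J i := by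
  obtain ⟨u, hu, w, hw, rfl⟩ := (cechDG D m).mem_Bd.1 hx
  rw [map_add, cf_cech, Pi.add_apply]
  refine add_mem (cech_mem fun k hk => ?_) ?_
  · have h1 := (mem_ZM.1 hu ((I0 fun k => α k + l).erase k) (b, l)).1.2
    rw [aI_neg fun h => ((mem_Ef.1 hb k).1 (mem_I0.1 hk)).2.not_ge
      (h.2 k (Finset.notMem_erase k _))] at h1
    have h2 : cf (b, l) u ((I0 fun k => α k + l).erase k) = 0 := funext fun S => h1 S trivial
    rw [h2]
    exact zero_mem _
  · have h1 := mem_BM.1 hw (I0 fun k => α k + l) (b, l)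
    rwa [aI_pos (alev_I0 hb), bI_I0 hb] at h1

theorem conc (h : ∀ I g, cf g x I = 0 ∨ (I = I0 (fun k => α k + l) ∧ g.2 = l ∧
      g.1 ∈ Ef (fun k => α k + l) ∧ cf g x I ∈ Zc y ⊤ J i)) :
    x ∈ ZH y (fun I => supp D (Alev I l)) (fun I => Bmod J I α l) i ∧
      (cechDG D m).D x ∈ BH y (fun I => supp D (Alev I l)) (fun I => Bmod J I α l) i := by
  refine ⟨mem_ZM.2 fun I g => ?_, mem_BM.2 fun I g => ?_⟩
  · rcases h I g with e | ⟨rfl, e, hb, hz⟩
    · rw [e]
      exact zero_mem _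
    · obtain ⟨b, l'⟩ := g
      obtain rfl : l' = l := e
      rwa [aI_pos (alev_I0 hb), bI_I0 hb]
  · rw [cf_cech]
    refine cech_mem fun k hk => ?_
    rcases h (I.erase k) g with e | ⟨e, e', hb, hz⟩
    · rw [e]
      exact zero_mem _
    · have hk' : 0 ≤ α k + l := not_lt.1 fun h' => Finset.notMem_erase k I (e ▸ mem_I0.2 h')
      have hA : g ∈ Alev I l := ⟨e', fun j hj => ((mem_Ef.1 hb j).2 (not_lt.1 fun h' =>
        hj (Finset.mem_of_mem_erase (e ▸ mem_I0.2 h' : j ∈ I.erase k)))).1⟩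
      rw [bI_top hA ⟨k, hk, ((mem_Ef.1 hb k).2 hk').2⟩]
      exact ⟨hz.1.1, Submodule.mem_sup_right fun _ _ => trivial⟩

theorem sz_Zc (μ : LF D) (y : Fin (m + 1) → D) (J : Ideal D) (i : ℕ) :
    μ.sz (Zc y ⊤ J i) (Bc y ⊤ J i) = beta μ y J i := by
  refine le_antisymm (le_trans (DG_le_right μ ?_) (μ.sz_mono ?_ le_rfl)) (μ.sz_mono ?_ ?_)
  · rintro x ⟨hx, hx'⟩
    refine ⟨hx.1.1, ?_⟩
    obtain ⟨_, ⟨u, rfl⟩, w, hw, rfl⟩ := Submodule.mem_sup.1 hx'
    exact Submodule.add_mem_sup ⟨u, fun _ _ => trivial, rfl⟩ hw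
  · exact fun x hx => ⟨hx.1.1, hx.2⟩
  · exact fun x hx => ⟨⟨hx.1, fun _ _ => trivial⟩, hx.2⟩
  · exact inf_le_right.trans (sup_le_sup_right LinearMap.map_le_range _)

theorem deg_zero {k : ℤ} (hx : (cechDG D m).π k x = x) {I : Finset (Fin m)}
    (hI : -(I.card : ℤ) ≠ k) : x I = 0 :=
  (congrFun hx I).symm.trans (if_neg hI)

theorem le_of_deg_zero {A A' : Submodule D (XX D m)} (sA' : (cechDG D m).Sub A')
    (hx : (cechDG D m).π 0 x = x) (hb : x ∈ (cechDG D m).Bd A A') : x ∈ A' := by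
  obtain ⟨u, -, w, hw, e⟩ := (cechDG D m).mem_Bd.1 hb
  have h1 : (cechDG D m).π (0 + 1) u = 0 := funext fun I => if_neg (by omega)
  rw [← hx, ← e, map_add, (cechDG D m).πD, h1, map_zero, zero_add]
  exact sA'.2 0 w hw

theorem mono_supp (l : ℤ) : Monotone fun I : Finset (Fin m) => supp D (Alev I l) :=
  fun _ _ h => AddMonoidAlgebra.supported_mono fun _ hg =>
    ⟨hg.1, fun k hk => hg.2 k fun hk' => hk (h hk')⟩

theorem mono_Bmod (J : Ideal D) (α : Fin m → ℤ) (l : ℤ) :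
    Monotone fun I : Finset (Fin m) => Bmod J I α l :=
  fun _ _ h => sup_le_sup (AddMonoidAlgebra.supported_mono fun _ hg =>
    ⟨⟨hg.1.1, fun k hk => hg.1.2 k fun hk' => hk (h hk')⟩,
      hg.2.imp fun _ hk => ⟨h hk.1, hk.2⟩⟩) (Submodule.smul_mono le_rfl (mono_supp l h))

theorem Bmod_le (J : Ideal D) (I : Finset (Fin m)) (α : Fin m → ℤ) (l : ℤ) :
    Bmod J I α l ≤ supp D (Alev I l) :=
  sup_le (AddMonoidAlgebra.supported_mono Set.inter_subset_left) Submodule.smul_le_right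

theorem model_gen (y : Fin (m + 1) → D) (J : Ideal D) (α : Fin m → ℤ) (l : ℤ) :
    (cechDG D m).Z 0 (ZH y (fun I => supp D (Alev I l)) (fun I => Bmod J I α l) 0)
        (BH y (fun I => supp D (Alev I l)) (fun I => Bmod J I α l) 0) ≤
      corner (supp D (Glev α l)) ⊔
        BH y (fun I => supp D (Alev I l)) (fun I => Bmod J I α l) 0 := by
  classical
  intro x hx
  obtain ⟨⟨h1, h2⟩, h3⟩ := (cechDG D m).mem_Z.1 hx
  obtain ⟨v, hv⟩ : ∃ v : LL D m, ∀ g, v.coeff g = if g ∈ Glev α l then (x ∅ ∅).coeff g else 0 :=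
    ⟨AddMonoidAlgebra.ofCoeff ((x ∅ ∅).coeff.filter (· ∈ Glev α l)), fun g => rfl⟩
  obtain ⟨w, hw, hw0, hw1⟩ : ∃ w : XX D m, w ∈ corner (supp D (Glev α l)) ∧
      (∀ I, I ≠ ∅ → w I = 0) ∧ ∀ g, cf g w ∅ = if g ∈ Glev α l then cf g x ∅ else 0 := by
    refine ⟨Pi.single ∅ (Pi.single ∅ v), ⟨v, AddMonoidAlgebra.mem_supported'.2 fun g hg =>
      (hv g).trans (if_neg hg), rfl⟩, fun I hI => Pi.single_eq_of_ne hI _, fun g => ?_⟩
    funext S
    rw [cf_apply, Pi.single_eq_same, cfL_apply]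
    by_cases hS : S = ∅
    · rw [hS, Pi.single_eq_same, hv]
      split_ifs <;> rfl
    · rw [Pi.single_eq_of_ne hS]
      split_ifs
      · have h4 : x ∅ S = 0 := (congrFun (h1 ∅ trivial).1.1 S).symm.trans
          (if_neg fun e => hS (Finset.card_eq_zero.1 e))
        rw [cf_apply, cfL_apply, h4]
      · rfl
  have hG : ∀ g ∈ Glev α l, ∅ = I0 (fun k => α k + l) ∧ g.1 ∈ Ef fun k => α k + l := by
    intro g hg
    refine ⟨(Finset.eq_empty_of_forall_notMem fun k hk => ?_).symm, mem_Ef.2 fun k => ?_⟩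
    · have := mem_I0.1 hk
      have := hg.2 k
      omega
    · have := hg.2 k
      omega
  obtain ⟨c1, c2⟩ := conc (y := y) (J := J) (α := α) (l := l) (i := 0) (x := w) fun I g => by
    by_cases hI : I = ∅
    · subst hI
      rw [hw1]
      split_ifs with hg
      · obtain ⟨e, hb⟩ := hG g hg
        refine Or.inr ⟨e, hg.1, hb, ?_⟩
        have h4 := mem_ZM.1 h1 ∅ g
        obtain ⟨b, l'⟩ := g
        obtain rfl : l' = l := hg.1
        rwa [aI_pos (e ▸ alev_I0 hb), e, bI_I0 hb, ← e] at h4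
      · exact Or.inl rfl
    · exact Or.inl (by rw [cf_apply, hw0 I hI, map_zero])
  rw [← add_sub_cancel w x]
  refine Submodule.add_mem_sup hw (le_of_deg_zero
    (sub_BH y (mono_supp l) (mono_Bmod J α l) 0) ?_
    (mem_Bd (sub_mem h1 c1) (by rw [map_sub]; exact sub_mem h3 c2) fun b hb => ?_))
  · rw [map_sub, h2]
    congr 1
    funext I
    by_cases hI : I = ∅
    · exact if_pos (by rw [hI]; rfl)
    · exact (if_neg fun e => hI (Finset.card_eq_zero.1 (by omega))).trans (hw0 I hI).symm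
  · rw [map_sub, Pi.sub_apply]
    by_cases hI : I0 (fun k => α k + l) = ∅
    · have hg : ((b, l) : G m) ∈ Glev α l := ⟨rfl, fun k => (mem_Ef.1 hb k).2
        (not_lt.1 fun h' => Finset.notMem_empty k (hI ▸ mem_I0.2 h'))⟩
      rw [hI, hw1, if_pos hg, sub_self]
      exact zero_mem _
    · rw [cf_apply, cf_apply, hw0 _ hI,
        deg_zero h2 fun e => hI (Finset.card_eq_zero.1 (by omega)), sub_self]
      exact zero_mem _

end model

section compare

variable {y : Fin (m + 1) → D} {P P' Q Q' : Finset (Fin m) → Submodule D (LL D m)} {i : ℕ}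

theorem KK_mono {A A' : Submodule D (LL D m)} (h : A ≤ A') :
    KK (Fin (m + 1)) A ≤ KK (Fin (m + 1)) A' := fun _ hx S hS => h (hx S hS)

theorem ZH_mono (h : ∀ I, Q I ≤ P I) (h' : ∀ I, Q' I ≤ P' I) : ZH y Q Q' i ≤ ZH y P P' i :=
  fun _ hx I hI => ⟨⟨(hx I hI).1.1, KK_mono (h I) (hx I hI).1.2⟩, KK_mono (h' I) (hx I hI).2⟩

theorem BH_mono (h : ∀ I, Q I ≤ P I) (h' : ∀ I, Q' I ≤ P' I) : BH y Q Q' i ≤ BH y P P' i :=
  fun _ hx I hI => ⟨(hx I hI).1,
    sup_le_sup (Submodule.map_mono (KK_mono (h I))) (KK_mono (h' I)) (hx I hI).2⟩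

theorem split_KK {A B C : Submodule D (LL D m)} {s : D} (hs : ∀ x ∈ A, s • x ∈ B ⊔ C)
    {u : Finset (Fin (m + 1)) → LL D m} (hu : u ∈ KK (Fin (m + 1)) A) :
    ∃ a ∈ KK (Fin (m + 1)) B, ∃ v ∈ KK (Fin (m + 1)) C, a + v = s • u := by
  choose a ha v hv e using fun S => Submodule.mem_sup.1 (hs _ (hu S trivial))
  exact ⟨a, fun S _ => ha S, v, fun S _ => hv S, funext e⟩

theorem surj_part {s t : D} (hs : ∀ I, ∀ x ∈ P I, s • x ∈ Q I ⊔ P' I)
    (ht : ∀ I, ∀ x ∈ Q I ⊓ P' I, t • x ∈ Q' I) {x : XX D m} (hx : x ∈ ZH y P P' i) :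
    (t * s) • x ∈ ZH y Q Q' i ⊔ BH y P P' i := by
  choose a ha v hv e using fun I => split_KK (hs I) (hx I trivial).1.2
  have e' : ∀ I, kπ D (LL D m) i (a I) + kπ D (LL D m) i (v I) = s • x I := fun I => by
    rw [← map_add, e, map_smul]
    exact congrArg (s • ·) (hx I trivial).1.1
  refine Submodule.mem_sup.2 ⟨fun I => t • kπ D (LL D m) i (a I), fun I _ => ⟨⟨?_, ?_⟩, ?_⟩,
    fun I => t • kπ D (LL D m) i (v I), fun I _ => ⟨?_, ?_⟩, ?_⟩
  · exact Submodule.smul_mem _ t (kπ_kπ i (a I))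
  · exact Submodule.smul_mem _ t (kπ_mem_KK i (ha I))
  · intro S _
    rw [map_smul]
    refine ht I _ ⟨kd_mem_KK y (kπ_mem_KK i (ha I)) S trivial, ?_⟩
    rw [eq_sub_of_add_eq (e' I), map_sub, map_smul]
    have h2 : kd y (LL D m) (x I) ∈ KK (Fin (m + 1)) (P' I) := (hx I trivial).2
    exact (KK (Fin (m + 1)) (P' I)).sub_mem (Submodule.smul_mem _ s h2)
      (kd_mem_KK y (kπ_mem_KK i (hv I))) S trivial
  · exact Submodule.smul_mem _ t (kπ_kπ i (v I))
  · exact Submodule.mem_sup_right (Submodule.smul_mem _ t (kπ_mem_KK i (hv I)))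
  · funext I
    rw [Pi.add_apply, ← smul_add, e', smul_smul, Pi.smul_apply]

theorem inj_part {s t : D} (hs : ∀ I, ∀ x ∈ P I, s • x ∈ Q I ⊔ P' I)
    (ht : ∀ I, ∀ x ∈ Q I ⊓ P' I, t • x ∈ Q' I) {x : XX D m}
    (hx : x ∈ ZH y Q Q' i ⊓ BH y P P' i) : (t * s) • x ∈ BH y Q Q' i := by
  intro I _
  refine ⟨Submodule.smul_mem _ _ (hx.2 I trivial).1, ?_⟩
  obtain ⟨_, ⟨u, hu, rfl⟩, w, hw, e⟩ := Submodule.mem_sup.1 (hx.2 I trivial).2
  obtain ⟨a, ha, v, hv, e'⟩ := split_KK (hs I) hu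
  have e'' : kd y (LL D m) v + s • w = s • x I - kd y (LL D m) a := by
    rw [← e, smul_add, ← map_smul, ← e', map_add]
    abel
  refine Submodule.mem_sup.2 ⟨_, ⟨t • a, Submodule.smul_mem _ t ha, rfl⟩,
    t • (kd y (LL D m) v + s • w), fun S _ => ht I _ ⟨?_, ?_⟩, ?_⟩
  · rw [e'']
    exact sub_mem (Submodule.smul_mem _ s (hx.1 I trivial).1.2) (kd_mem_KK y ha) S trivial
  · exact add_mem (kd_mem_KK y hv) (Submodule.smul_mem _ s hw) S trivial
  · rw [e'', map_smul, ← smul_add, add_sub_cancel, smul_smul, Pi.smul_apply]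

end compare

end CoreModelAux

open CoreModelAux in

/-- the cohomology of `O(β)` on `(ℙ¹)^m` with coefficients in `H_i(K(y; D / J))` -/
theorem model_h {D : Type} [CommRing D] {m : ℕ} (μ : LF D) (y : Fin (m + 1) → D) (J : Ideal D)
    (α : Fin m → ℤ) (l : ℤ) (i : ℕ) (k : ℤ) :
    (cechDG D m).h μ k (ZH y (fun I => supp D (Alev I l)) (fun I => Bmod J I α l) i)
        (BH y (fun I => supp D (Alev I l)) (fun I => Bmod J I α l) i) =
      if k = -(neg (fun k => α k + l) : ℤ) then ecard (fun k => α k + l) * beta μ y J i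
      else 0 := by
  classical
  split_ifs with hk
  · let f : XX D m →ₗ[D] (Ef (fun k => α k + l) → Finset (Fin (m + 1)) → D) :=
      LinearMap.pi fun b => LinearMap.proj (I0 fun k => α k + l) ∘ₗ cf (b.1, l)
    have h1 : (cechDG D m).h μ k (ZH y (fun I => supp D (Alev I l)) (fun I => Bmod J I α l) i)
        (BH y (fun I => supp D (Alev I l)) (fun I => Bmod J I α l) i) =
        μ.sz ((cechDG D m).Z k (ZH y (fun I => supp D (Alev I l)) (fun I => Bmod J I α l) i)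
          (BH y (fun I => supp D (Alev I l)) (fun I => Bmod J I α l) i))
          ((Submodule.pi Set.univ fun _ => Bc y ⊤ J i).comap f) :=
      le_antisymm
        (DG_le_right μ fun x hx => mem_Bd hx.1.1.1 hx.1.2 fun b hb => hx.2 ⟨b, hb⟩ trivial)
        (μ.sz_mono le_rfl fun x hx b _ => of_mem_Bd hx b.2)
    have h2 : ((cechDG D m).Z k (ZH y (fun I => supp D (Alev I l)) (fun I => Bmod J I α l) i)
        (BH y (fun I => supp D (Alev I l)) (fun I => Bmod J I α l) i)).map f =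
        Submodule.pi Set.univ fun _ => Zc y ⊤ J i := by
      refine le_antisymm ?_ fun w hw => ?_
      · rintro _ ⟨x, hx, rfl⟩ b _
        have := mem_ZM.1 hx.1.1 (I0 fun k => α k + l) (b.1, l)
        rwa [aI_pos (alev_I0 b.2), bI_I0 b.2] at this
      · obtain ⟨v, hv⟩ := glue (fun g : G m =>
          if h : g.2 = l ∧ g.1 ∈ Ef (fun k => α k + l) then w ⟨g.1, h.2⟩ else 0) (by
            refine ((Ef fun k => α k + l).finite_toSet.image fun b => ((b, l) : G m)).subset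
              fun g hg => ?_
            by_contra hc
            exact hg (dif_neg fun h => hc ⟨g.1, h.2, Prod.ext rfl h.1.symm⟩))
        obtain ⟨c1, c2⟩ := conc (y := y) (J := J) (α := α) (l := l) (i := i)
          (x := Pi.single (I0 fun k => α k + l) v) fun I g => by
            by_cases hI : I = I0 fun k => α k + l
            · rw [cf_apply, hI, Pi.single_eq_same, hv]
              split_ifs with h
              · exact Or.inr ⟨rfl, h.1, h.2, hw _ trivial⟩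
              · exact Or.inl rfl
            · exact Or.inl (by rw [cf_apply, Pi.single_eq_of_ne hI, map_zero])
        refine ⟨_, (cechDG D m).mem_Z.2 ⟨⟨c1, funext fun I => ?_⟩, c2⟩, funext fun b => ?_⟩
        · by_cases hI : I = I0 fun k => α k + l
          · exact if_pos (hI ▸ hk.symm)
          · show (if _ then (Pi.single (I0 fun k => α k + l) v : XX D m) I else 0) = _
            rw [Pi.single_eq_of_ne hI, ite_self]
        · show cfL (b.1, l) ((Pi.single (I0 fun k => α k + l) v : XX D m) _) = _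
          rw [Pi.single_eq_same, hv]
          exact dif_pos ⟨rfl, b.2⟩
    rw [h1, ← μ.sz_map_eq, h2, μ.sz_pi, Finset.sum_const, Finset.card_univ, Fintype.card_coe,
      card_Ef, sz_Zc, nsmul_eq_mul]
  · refine μ.sz_eq_zero_of_le fun x hx => mem_Bd hx.1.1 hx.2 fun b _ => ?_
    rw [cf_apply, deg_zero (I := I0 fun k => α k + l) hx.1.2 fun e => hk e.symm, map_zero]
    exact zero_mem _

namespace CH

variable {R₀ D : Type} [CommRing R₀] [CommRing D] [Algebra R₀ D] {m : ℕ}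
  {z : Fin (m + 1) → R₀} {𝔪 : Ideal R₀} {y : Fin (m + 1) → D} {γ : D} {μ : LF D} {q a Wd : ℕ}

open CoreModelAux in
theorem CoreModel_null (h : CH z 𝔪 y γ μ q a Wd) (α : Fin m → ℤ) {u₀ l : ℤ} (h₁ : u₀ ≤ l)
    (h₂ : l < u₀ + Wd) (i : ℕ) :
    μ.sz (ZH y (fun I => Vt (zD D z) (mD D 𝔪) q I α u₀ l)
          (fun I => Vt (zD D z) (mD D 𝔪) q I α u₀ (l + 1)) i)
      (ZH y (fun I => supp D (Alev I l)) (fun I => Bmod (sp (zD D z) ⊔ mD D 𝔪) I α l) i ⊔
        BH y (fun I => Vt (zD D z) (mD D 𝔪) q I α u₀ l)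
          (fun I => Vt (zD D z) (mD D 𝔪) q I α u₀ (l + 1)) i) = 0 ∧
    μ.sz (ZH y (fun I => supp D (Alev I l)) (fun I => Bmod (sp (zD D z) ⊔ mD D 𝔪) I α l) i ⊓
        BH y (fun I => Vt (zD D z) (mD D 𝔪) q I α u₀ l)
          (fun I => Vt (zD D z) (mD D 𝔪) q I α u₀ (l + 1)) i)
      (BH y (fun I => supp D (Alev I l)) (fun I => Bmod (sp (zD D z) ⊔ mD D 𝔪) I α l) i) = 0 := by
  obtain ⟨c, hc⟩ := h.gr_surj h₁
  obtain ⟨c', hc'⟩ := h.gr_inj h₁ h₂
  have hn : μ.Null (γ ^ c' * γ ^ c) := (h.null.pow c').mul (h.null.pow c)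
  exact ⟨μ.sz_eq_zero_of_smul hn fun x hx =>
      surj_part (fun I => hc I α) (fun I => hc' I α) hx,
    μ.sz_eq_zero_of_smul hn fun x hx => inj_part (fun I => hc I α) (fun I => hc' I α) hx⟩

theorem cech_h (h : CH z 𝔪 y γ μ q a Wd) (α : Fin m → ℤ) {u₀ l : ℤ} (h₁ : u₀ ≤ l)
    (h₂ : l < u₀ + Wd) (i : ℕ) (k : ℤ) :
    (cechDG D m).h μ k
        (ZH y (fun I => Vt (zD D z) (mD D 𝔪) q I α u₀ l)
          (fun I => Vt (zD D z) (mD D 𝔪) q I α u₀ (l + 1)) i)
        (BH y (fun I => Vt (zD D z) (mD D 𝔪) q I α u₀ l)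
          (fun I => Vt (zD D z) (mD D 𝔪) q I α u₀ (l + 1)) i) =
      if k = -(neg (fun k => α k + l) : ℤ) then
        ecard (fun k => α k + l) * beta μ y (sp (zD D z) ⊔ mD D 𝔪) i
      else 0 := by
  have m1 : ∀ l, Monotone fun I => Vt (zD D z) (mD D 𝔪) q I α u₀ l :=
    fun l _ _ hI => Vt_mono_col _ _ _ hI α u₀ l
  have m2 := CoreModelAux.mono_supp (D := D) (m := m) l
  have m3 := CoreModelAux.mono_Bmod (sp (zD D z) ⊔ mD D 𝔪) α l
  have l1 := fun I => supp_Alev_le_Vt (zD D z) (mD D 𝔪) q I α h₁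
  have l2 := fun I => Bmod_le_Vt (zD D z) (mD D 𝔪) q h.q_pos I α h₁
  rw [← model_h μ y (sp (zD D z) ⊔ mD D 𝔪) α l i k]
  exact (cechDG D m).h_eq_of_null μ (sub_ZH y (m1 _) (m1 _) i) (sub_BH y (m1 _) (m1 _) i)
    (sub_ZH y m2 m3 i) (sub_BH y m2 m3 i)
    (BH_le_ZH y (fun I => Vt_anti _ _ _ I α u₀ (by omega)) i)
    (BH_le_ZH y (fun I => CoreModelAux.Bmod_le _ I α l) i)
    (CoreModelAux.ZH_mono l1 l2) (CoreModelAux.BH_mono l1 l2)
    (h.CoreModel_null α h₁ h₂ i).1 (h.CoreModel_null α h₁ h₂ i).2 k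

theorem cech_gen (h : CH z 𝔪 y γ μ q a Wd) (α : Fin m → ℤ) {u₀ l : ℤ} (h₁ : u₀ ≤ l)
    (h₂ : l < u₀ + Wd) :
    μ.sz ((cechDG D m).Z 0
        (ZH y (fun I => Vt (zD D z) (mD D 𝔪) q I α u₀ l)
          (fun I => Vt (zD D z) (mD D 𝔪) q I α u₀ (l + 1)) 0)
        (BH y (fun I => Vt (zD D z) (mD D 𝔪) q I α u₀ l)
          (fun I => Vt (zD D z) (mD D 𝔪) q I α u₀ (l + 1)) 0))
      (corner (supp D (Glev α l)) ⊔
        BH y (fun I => Vt (zD D z) (mD D 𝔪) q I α u₀ l)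
          (fun I => Vt (zD D z) (mD D 𝔪) q I α u₀ (l + 1)) 0) = 0 := by
  have m1 : ∀ l, Monotone fun I => Vt (zD D z) (mD D 𝔪) q I α u₀ l :=
    fun l _ _ hI => Vt_mono_col _ _ _ hI α u₀ l
  have m2 := CoreModelAux.mono_supp (D := D) (m := m) l
  have m3 := CoreModelAux.mono_Bmod (sp (zD D z) ⊔ mD D 𝔪) α l
  have l1 := fun I => supp_Alev_le_Vt (zD D z) (mD D 𝔪) q I α h₁
  have l2 := fun I => Bmod_le_Vt (zD D z) (mD D 𝔪) q h.q_pos I α h₁
  have h0 := (cechDG D m).sz_Z_of_null μ (sub_ZH y (m1 _) (m1 _) 0) (sub_BH y (m1 _) (m1 _) 0)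
    (sub_ZH y m2 m3 0) (sub_BH y m2 m3 0)
    (BH_le_ZH y (fun I => Vt_anti _ _ _ I α u₀ (by omega)) 0)
    (BH_le_ZH y (fun I => CoreModelAux.Bmod_le _ I α l) 0)
    (CoreModelAux.ZH_mono l1 l2) (CoreModelAux.BH_mono l1 l2)
    (h.CoreModel_null α h₁ h₂ 0).1 (h.CoreModel_null α h₁ h₂ 0).2 0
  refine le_zero_iff.1 ((DG_le_right μ ?_).trans h0.le)
  rintro x ⟨hx, hx'⟩
  obtain ⟨e, he, b, hb, rfl⟩ := Submodule.mem_sup.1 hx'
  refine add_mem (sup_le_sup_left (CoreModelAux.BH_mono l1 l2) _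
    (CoreModelAux.model_gen y _ α l he)) (Submodule.mem_sup_right
      (CoreModelAux.le_of_deg_zero (sub_BH y (m1 _) (m1 _) 0) ?_ hb))
  have h3 := ((cechDG D m).mem_Z.1 hx).1.2
  rw [map_add, ((cechDG D m).mem_Z.1 he).1.2] at h3
  exact add_left_cancel h3

end CH

end Crest.Agent.R183
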