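import Crest.Agent.R183.CoreStep

/-!
# Paths of admissible profiles; nullity of long window maps
-/

set_option autoImplicit false

open scoped ENNReal

namespace Crest.Agent.R183

theorem CorePath_exists_step {m q : ℕ} (hq : 0 < q) {j j'' : ℕ → ℤ} (hj'' : Adm m q j'')
    (hj : Adm m q j) (hne : ∃ r ≤ m + 1, j r < j'' r) :
    ∃ i ≤ m + 1, j i < j'' i ∧ Adm m q (Function.update j i (j i + 1)) := by
  classical
  have hex : ∃ i, i ≤ m + 1 ∧ (∀ r ≤ m + 1, j'' r - j r ≤ j'' i - j i) ∧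
      (i = m + 1 ∨ j i < j (i + 1) + q) := by
    obtain ⟨i, hi, hmax⟩ := Finset.exists_max_image (Finset.range (m + 2))
      (fun i => toLex (j'' i - j i, i)) ⟨0, by simp⟩
    have hi' : i ≤ m + 1 := by have := Finset.mem_range.1 hi; omega
    have hmax' : ∀ r ≤ m + 1, j'' r - j r < j'' i - j i ∨ j'' r - j r = j'' i - j i ∧ r ≤ i :=
      fun r hr => Prod.Lex.toLex_le_toLex.1 (hmax r (Finset.mem_range.2 (by omega)))
    refine ⟨i, hi', fun r hr => by have := hmax' r hr; omega, ?_⟩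
    by_cases him : i = m + 1
    · exact Or.inl him
    · have h1 := hmax' (i + 1) (by omega)
      have h2 := hj'' i (by omega)
      right
      omega
  obtain ⟨hi, hmax, hup⟩ := Nat.find_spec hex
  have hmin := fun r => Nat.find_min hex (m := r)
  set i := Nat.find hex with hidef
  obtain ⟨r, hr, hlt⟩ := hne
  refine ⟨i, hi, by have := hmax r hr; omega, fun s hs => ?_⟩
  have h1 := hj s hs
  by_cases hsi : s = i
  · subst hsi
    rw [Function.update_self, Function.update_of_ne (by omega)]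
    omega
  rw [Function.update_of_ne hsi]
  by_cases hsi' : s + 1 = i
  · rw [hsi', Function.update_self]
    rw [hsi'] at h1
    have h2 := hj'' s hs
    rw [hsi'] at h2
    have h3 := hmax s (by omega)
    have h4 := hmin s (by omega)
    by_cases h5 : j'' s - j s = j'' i - j i
    · have h6 : ¬ (j s < j (s + 1) + q) := fun h6 =>
        h4 ⟨by omega, fun r hr => h5 ▸ hmax r hr, Or.inr h6⟩
      rw [hsi'] at h6
      omega
    · omega
  · rw [Function.update_of_ne hsi']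
    exact h1

/-- two comparable admissible profiles are joined by a path of admissible single steps -/
theorem adm_induction {m q : ℕ} (hq : 0 < q) (j'' : ℕ → ℤ) (hj'' : Adm m q j'')
    (P : (ℕ → ℤ) → Prop) (h0 : ∀ j, (∀ i ≤ m + 1, j i = j'' i) → P j)
    (hstep : ∀ j i, i ≤ m + 1 → Adm m q j → Adm m q (Function.update j i (j i + 1)) →
      (∀ r ≤ m + 1, Function.update j i (j i + 1) r ≤ j'' r) →
      P (Function.update j i (j i + 1)) → P j)
    (j : ℕ → ℤ) (hj : Adm m q j) (hle : ∀ i ≤ m + 1, j i ≤ j'' i) : P j := by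
  obtain ⟨n, hn⟩ : ∃ n : ℕ, ∑ i ∈ Finset.range (m + 2), (j'' i - j i) = n :=
    ⟨_, (Int.toNat_of_nonneg (Finset.sum_nonneg fun i hi => by
      have := hle i (by have := Finset.mem_range.1 hi; omega)
      omega)).symm⟩
  induction n generalizing j with
  | zero =>
    refine h0 j fun i hi => ?_
    have := (Finset.sum_eq_zero_iff_of_nonneg fun i hi => by
      have := hle i (by have := Finset.mem_range.1 hi; omega)
      omega).1 hn i (Finset.mem_range.2 (by omega))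
    omega
  | succ n ih =>
    by_cases hne : ∃ r ≤ m + 1, j r < j'' r
    · obtain ⟨i, hi, hlt, hadm⟩ := CorePath_exists_step hq hj'' hj hne
      have hle' : ∀ r ≤ m + 1, Function.update j i (j i + 1) r ≤ j'' r := by
        intro r hr
        by_cases hri : r = i
        · subst hri
          rw [Function.update_self]
          omega
        · rw [Function.update_of_ne hri]
          exact hle r hr
      refine hstep j i hi hj hadm hle' (ih _ hadm hle' ?_)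
      have hi' : i ∈ Finset.range (m + 2) := Finset.mem_range.2 (by omega)
      rw [← Finset.add_sum_erase _ _ hi'] at hn ⊢
      rw [Function.update_self, Finset.sum_congr rfl fun r hr => by
        rw [Function.update_of_ne (Finset.ne_of_mem_erase hr)]]
      push_cast at hn
      omega
    · refine h0 j fun i hi => ?_
      have h1 := hle i hi
      have h2 : ¬ j i < j'' i := fun h => hne ⟨i, hi, h⟩
      omega

namespace CH

variable {R₀ D : Type} [CommRing R₀] [CommRing D] [Algebra R₀ D] {m : ℕ}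
  {z : Fin (m + 1) → R₀} {𝔪 : Ideal R₀} {y : Fin (m + 1) → D} {γ : D} {μ : LF D} {q a Wd : ℕ}

theorem CorePath_le_update (j : ℕ → ℤ) (i r : ℕ) : j r ≤ Function.update j i (j i + 1) r := by
  by_cases hri : r = i
  · subst hri
    rw [Function.update_self]
    omega
  · rw [Function.update_of_ne hri]

theorem CorePath_GG_eq (α : Fin m → ℤ) (u₀ : ℤ) {j j'' : ℕ → ℤ} (h : ∀ i ≤ m + 1, j i = j'' i) :
    GG (zD D z) y (mD D 𝔪) q α u₀ j = GG (zD D z) y (mD D 𝔪) q α u₀ j'' :=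
  le_antisymm (GG_anti _ _ _ _ _ _ fun i hi => (h i hi).ge)
    (GG_anti _ _ _ _ _ _ fun i hi => (h i hi).le)

theorem CorePath_step_fin (h : CH z 𝔪 y γ μ q a Wd) (α : Fin m → ℤ) (u₀ : ℤ) (j : ℕ → ℤ) (i : ℕ)
    (hi : i ≤ m + 1) (hj : Adm m q j) (hj' : Adm m q (Function.update j i (j i + 1)))
    (h₁ : u₀ ≤ j i) (h₂ : j i < u₀ + Wd) (k : ℤ) :
    (totDG y).h μ k (GG (zD D z) y (mD D 𝔪) q α u₀ j)
        (GG (zD D z) y (mD D 𝔪) q α u₀ (Function.update j i (j i + 1))) ≠ ⊤ := by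
  rw [h.step_h α u₀ j i hi hj hj' h₁ h₂]
  split_ifs
  · exact ENNReal.mul_ne_top (ENNReal.natCast_ne_top _) (beta_ne_top y μ _ h.fin i)
  · exact ENNReal.zero_ne_top

theorem path_fin (h : CH z 𝔪 y γ μ q a Wd) (α : Fin m → ℤ) (u₀ : ℤ) {j j'' : ℕ → ℤ}
    (hj : Adm m q j) (hj'' : Adm m q j'')
    (hle : ∀ i ≤ m + 1, u₀ ≤ j i ∧ j i ≤ j'' i ∧ j'' i ≤ u₀ + Wd) (k : ℤ) :
    (totDG y).h μ k (GG (zD D z) y (mD D 𝔪) q α u₀ j) (GG (zD D z) y (mD D 𝔪) q α u₀ j'') ≠ ⊤ := by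
  refine adm_induction h.q_pos j'' hj'' (fun j => (∀ i ≤ m + 1, u₀ ≤ j i) →
    (totDG y).h μ k (GG (zD D z) y (mD D 𝔪) q α u₀ j) (GG (zD D z) y (mD D 𝔪) q α u₀ j'') ≠ ⊤)
    (fun j hj _ => ?_) (fun j i hi hj hj' hle' ih hu => ?_) j hj (fun i hi => (hle i hi).2.1)
    (fun i hi => (hle i hi).1)
  · rw [CorePath_GG_eq α u₀ hj, DG.h_self]
    exact ENNReal.zero_ne_top
  · have h2 : j i < u₀ + Wd := by
      have h1 := hle' i hi
      have h2 := (hle i hi).2.2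
      rw [Function.update_self] at h1
      omega
    refine ne_top_of_le_ne_top (ENNReal.add_ne_top.2
      ⟨ih fun r hr => (hu r hr).trans (CorePath_le_update j i r),
        CorePath_step_fin h α u₀ j i hi hj hj' (hu i hi) h2 k⟩) ?_
    exact (totDG y).h_le_add μ (sub_GG ..) (sub_GG ..) (sub_GG ..)
      (GG_anti _ _ _ _ _ _ fun r _ => CorePath_le_update j i r) (GG_anti _ _ _ _ _ _ hle') k

theorem path_zero (h : CH z 𝔪 y γ μ q a Wd) (α : Fin m → ℤ) (u₀ : ℤ) {j j'' : ℕ → ℤ}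
    (hj : Adm m q j) (hj'' : Adm m q j'')
    (hle : ∀ i ≤ m + 1, u₀ ≤ j i ∧ j i ≤ j'' i ∧ j'' i ≤ u₀ + Wd) (k : ℤ)
    (hk : ∀ r ≤ m + 1, ∀ l, j r ≤ l → l < j'' r → ecard (fun k => α k + l) ≠ 0 →
      k ≠ (r : ℤ) - neg (fun k => α k + l)) :
    (totDG y).h μ k (GG (zD D z) y (mD D 𝔪) q α u₀ j) (GG (zD D z) y (mD D 𝔪) q α u₀ j'') = 0 := by
  refine adm_induction h.q_pos j'' hj'' (fun j => (∀ i ≤ m + 1, u₀ ≤ j i) →
    (∀ r ≤ m + 1, ∀ l, j r ≤ l → l < j'' r → ecard (fun k => α k + l) ≠ 0 →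
      k ≠ (r : ℤ) - neg (fun k => α k + l)) →
    (totDG y).h μ k (GG (zD D z) y (mD D 𝔪) q α u₀ j) (GG (zD D z) y (mD D 𝔪) q α u₀ j'') = 0)
    (fun j hj _ _ => ?_) (fun j i hi hj hj' hle' ih hu hk => ?_) j hj (fun i hi => (hle i hi).2.1)
    (fun i hi => (hle i hi).1) hk
  · rw [CorePath_GG_eq α u₀ hj, DG.h_self]
  · have h1 : j i < j'' i := by
      have h1 := hle' i hi
      rw [Function.update_self] at h1
      omega
    have h2 : j i < u₀ + Wd := h1.trans_le (hle i hi).2.2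
    have h3 := (totDG y).h_le_add μ (sub_GG (zD D z) y (mD D 𝔪) q α u₀ j)
      (sub_GG (zD D z) y (mD D 𝔪) q α u₀ (Function.update j i (j i + 1)))
      (sub_GG (zD D z) y (mD D 𝔪) q α u₀ j'')
      (GG_anti _ _ _ _ _ _ fun r _ => CorePath_le_update j i r) (GG_anti _ _ _ _ _ _ hle') k
    rw [ih (fun r hr => (hu r hr).trans (CorePath_le_update j i r))
      (fun r hr l hl => hk r hr l ((CorePath_le_update j i r).trans hl)),
      h.step_h α u₀ j i hi hj hj' (hu i hi) h2, zero_add] at h3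
    refine le_zero_iff.1 (h3.trans (le_of_eq ?_))
    split_ifs with hki
    · have h4 : ecard (fun k => α k + j i) = 0 := by
        by_contra h4
        exact hk i hi (j i) le_rfl h1 h4 hki
      rw [h4, Nat.cast_zero, zero_mul]
    · rfl

theorem path_chi (h : CH z 𝔪 y γ μ q a Wd) (α : Fin m → ℤ) (u₀ : ℤ) {j j'' : ℕ → ℤ}
    (hj : Adm m q j) (hj'' : Adm m q j'')
    (hle : ∀ i ≤ m + 1, u₀ ≤ j i ∧ j i ≤ j'' i ∧ j'' i ≤ u₀ + Wd) :
    (totDG y).chi μ (-(m : ℤ)) (m + 1) (GG (zD D z) y (mD D 𝔪) q α u₀ j)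
        (GG (zD D z) y (mD D 𝔪) q α u₀ j'') =
      ∑ r ∈ Finset.range (m + 2), (-1) ^ r * (beta μ y (sp (zD D z) ⊔ mD D 𝔪) r).toReal *
        ∑ l ∈ Finset.Ico (j r) (j'' r), ((∏ k, (α k + l + 1) : ℤ) : ℝ) := by
  refine adm_induction h.q_pos j'' hj'' (fun j => (∀ i ≤ m + 1, u₀ ≤ j i) →
    (totDG y).chi μ (-(m : ℤ)) (m + 1) (GG (zD D z) y (mD D 𝔪) q α u₀ j)
        (GG (zD D z) y (mD D 𝔪) q α u₀ j'') =
      ∑ r ∈ Finset.range (m + 2), (-1) ^ r * (beta μ y (sp (zD D z) ⊔ mD D 𝔪) r).toReal *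
        ∑ l ∈ Finset.Ico (j r) (j'' r), ((∏ k, (α k + l + 1) : ℤ) : ℝ))
    (fun j hj _ => ?_) (fun j i hi hj hj' hle' ih hu => ?_) j hj (fun i hi => (hle i hi).2.1)
    (fun i hi => (hle i hi).1)
  · rw [CorePath_GG_eq α u₀ hj, DG.chi, Finset.sum_eq_zero fun k _ => by simp [DG.h_self],
      Finset.sum_eq_zero]
    intro r hr
    rw [hj r (by have := Finset.mem_range.1 hr; omega)]
    simp
  · have h1 : j i < j'' i := by
      have h1 := hle' i hi
      rw [Function.update_self] at h1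
      omega
    have h2 : j i < u₀ + Wd := h1.trans_le (hle i hi).2.2
    have hu' : ∀ r ≤ m + 1, u₀ ≤ Function.update j i (j i + 1) r :=
      fun r hr => (hu r hr).trans (CorePath_le_update j i r)
    have hle'' : ∀ r ≤ m + 1, u₀ ≤ Function.update j i (j i + 1) r ∧
        Function.update j i (j i + 1) r ≤ j'' r ∧ j'' r ≤ u₀ + Wd :=
      fun r hr => ⟨hu' r hr, hle' r hr, (hle r hr).2.2⟩
    have s₁ := sub_GG (zD D z) y (mD D 𝔪) q α u₀ j
    have s₂ := sub_GG (zD D z) y (mD D 𝔪) q α u₀ (Function.update j i (j i + 1))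
    have s₃ := sub_GG (zD D z) y (mD D 𝔪) q α u₀ j''
    have h₁₂ := GG_anti (zD D z) y (mD D 𝔪) q α u₀ fun r _ => CorePath_le_update j i r
    have h₂₃ := GG_anti (zD D z) y (mD D 𝔪) q α u₀ hle'
    have hneg := neg_le (fun k => α k + j i)
    obtain ⟨-, e1, -⟩ := (totDG y).les μ s₁ s₂ s₃ h₁₂ h₂₃ (m + 1 + 1)
    obtain ⟨-, -, e2⟩ := (totDG y).les μ s₁ s₂ s₃ h₁₂ h₂₃ (-(m : ℤ))
    rw [h.step_h α u₀ j i hi hj hj' (hu i hi) h2, if_neg (by omega), eq_comm, add_eq_zero] at e1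
    rw [h.path_zero α u₀ hj' hj'' hle'' _ (fun r hr l _ _ _ => by
      have := neg_le (fun k => α k + l)
      omega), eq_comm, add_eq_zero] at e2
    rw [(totDG y).chi_add μ s₁ s₂ s₃ h₁₂ h₂₃
      (CorePath_step_fin h α u₀ j i hi hj hj' (hu i hi) h2) (h.path_fin α u₀ hj' hj'' hle'')
      (by omega), e1.2, e2.1, ih hu']
    have hi' : i ∈ Finset.range (m + 2) := Finset.mem_range.2 (by omega)
    have e3 : (totDG y).chi μ (-(m : ℤ)) (m + 1) (GG (zD D z) y (mD D 𝔪) q α u₀ j)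
        (GG (zD D z) y (mD D 𝔪) q α u₀ (Function.update j i (j i + 1))) =
        (-1) ^ i * (beta μ y (sp (zD D z) ⊔ mD D 𝔪) i).toReal *
          ((∏ k, (α k + j i + 1) : ℤ) : ℝ) := by
      rw [DG.chi, Finset.sum_eq_single ((i : ℤ) - neg (fun k => α k + j i))]
      · rw [h.step_h α u₀ j i hi hj hj' (hu i hi) h2, if_pos rfl,
          prod_add_one_eq (fun k => α k + j i), Int.negOnePow_sub, ENNReal.toReal_mul]
        simp only [Units.val_mul, Int.coe_negOnePow_natCast, ENNReal.toReal_natCast]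
        push_cast
        ring
      · intro k _ hk
        rw [h.step_h α u₀ j i hi hj hj' (hu i hi) h2, if_neg hk]
        simp
      · intro hk
        exact absurd (Finset.mem_Icc.2 (by omega)) hk
    have e4 : ∑ r ∈ (Finset.range (m + 2)).erase i,
        (-1) ^ r * (beta μ y (sp (zD D z) ⊔ mD D 𝔪) r).toReal *
          ∑ l ∈ Finset.Ico (Function.update j i (j i + 1) r) (j'' r),
            ((∏ k, (α k + l + 1) : ℤ) : ℝ) =
        ∑ r ∈ (Finset.range (m + 2)).erase i,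
          (-1) ^ r * (beta μ y (sp (zD D z) ⊔ mD D 𝔪) r).toReal *
            ∑ l ∈ Finset.Ico (j r) (j'' r), ((∏ k, (α k + l + 1) : ℤ) : ℝ) :=
      Finset.sum_congr rfl fun r hr => by rw [Function.update_of_ne (Finset.ne_of_mem_erase hr)]
    rw [← Finset.add_sum_erase _ _ hi', ← Finset.add_sum_erase _ _ hi', Function.update_self,
      e3, e4, ← Finset.insert_Ico_add_one_left_eq_Ico h1, Finset.sum_insert (by simp),
      ENNReal.toReal_zero]
    ring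

theorem CorePath_adm_const (m q : ℕ) (u : ℤ) : Adm m q fun _ => u :=
  fun _ _ => ⟨le_rfl, le_add_of_nonneg_right (Int.natCast_nonneg q)⟩

theorem CorePath_win_zero (h : CH z 𝔪 y γ μ q a Wd) (α : Fin m → ℤ) {u₀ u n : ℤ} (h₁ : u₀ ≤ u)
    (h₂ : u ≤ n) (h₃ : n ≤ u₀ + Wd) (k : ℤ)
    (hk : ∀ r ≤ m + 1, ∀ l, u ≤ l → l < n → ecard (fun k => α k + l) ≠ 0 →
      k ≠ (r : ℤ) - neg (fun k => α k + l)) :
    (totDG y).h μ k (WW (zD D z) (mD D 𝔪) q α u₀ u) (WW (zD D z) (mD D 𝔪) q α u₀ n) = 0 := by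
  rw [← GG_const _ y, ← GG_const _ y]
  exact h.path_zero α u₀ (CorePath_adm_const m q u) (CorePath_adm_const m q n)
    (fun _ _ => ⟨h₁, h₂, h₃⟩) k hk

theorem win_fin (h : CH z 𝔪 y γ μ q a Wd) (α : Fin m → ℤ) {u₀ u n : ℤ} (h₁ : u₀ ≤ u)
    (h₂ : u ≤ n) (h₃ : n ≤ u₀ + Wd) (k : ℤ) :
    (totDG y).h μ k (WW (zD D z) (mD D 𝔪) q α u₀ u) (WW (zD D z) (mD D 𝔪) q α u₀ n) ≠ ⊤ := by
  rw [← GG_const _ y, ← GG_const _ y]
  exact h.path_fin α u₀ (CorePath_adm_const m q u) (CorePath_adm_const m q n)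
    (fun _ _ => ⟨h₁, h₂, h₃⟩) k

/-- windows of positive twists have homology in degrees `≥ 0` -/
theorem win_high (h : CH z 𝔪 y γ μ q a Wd) (α : Fin m → ℤ) {u₀ u n : ℤ} (h₁ : u₀ ≤ u)
    (h₂ : u ≤ n) (h₃ : n ≤ u₀ + Wd) (hα : ∀ k, -1 ≤ α k + u) {k : ℤ} (hk : k < 0) :
    (totDG y).h μ k (WW (zD D z) (mD D 𝔪) q α u₀ u) (WW (zD D z) (mD D 𝔪) q α u₀ n) = 0 := by
  refine CorePath_win_zero h α h₁ h₂ h₃ k fun r _ l hl _ he => ?_
  have h0 : neg (fun k => α k + l) = 0 := by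
    rw [neg, Finset.card_eq_zero, Finset.filter_eq_empty_iff]
    intro i _
    have h1 := Finset.prod_ne_zero_iff.1 he i (Finset.mem_univ i)
    have h2 := hα i
    simp only [ne_eq, Int.natAbs_eq_zero] at h1
    omega
  omega

/-- windows of negative twists have homology in degrees `≤ 1` -/
theorem win_low (h : CH z 𝔪 y γ μ q a Wd) (α : Fin m → ℤ) {u₀ u n : ℤ} (h₁ : u₀ ≤ u)
    (h₂ : u ≤ n) (h₃ : n ≤ u₀ + Wd) (hα : ∀ k, α k + n ≤ 0) {k : ℤ} (hk : 1 < k) :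
    (totDG y).h μ k (WW (zD D z) (mD D 𝔪) q α u₀ u) (WW (zD D z) (mD D 𝔪) q α u₀ n) = 0 := by
  refine CorePath_win_zero h α h₁ h₂ h₃ k fun r hr l _ hl _ => ?_
  have h0 : neg (fun k => α k + l) = m := by
    rw [neg, Finset.filter_true_of_mem fun i _ => by have := hα i; omega]
    simp
  omega

theorem win_out (h : CH z 𝔪 y γ μ q a Wd) (α : Fin m → ℤ) {u₀ u n : ℤ} (h₁ : u₀ ≤ u)
    (h₂ : u ≤ n) (h₃ : n ≤ u₀ + Wd) {k : ℤ} (hk : k < -(m : ℤ) ∨ (m : ℤ) + 1 < k) :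
    (totDG y).h μ k (WW (zD D z) (mD D 𝔪) q α u₀ u) (WW (zD D z) (mD D 𝔪) q α u₀ n) = 0 := by
  refine CorePath_win_zero h α h₁ h₂ h₃ k fun r hr l _ _ _ => ?_
  have := neg_le (fun k => α k + l)
  omega

theorem CorePath_totD_apply {p : ℕ} {x : XX D m} (hx : ∀ I : Finset (Fin m), I.card < p → x I = 0)
    {I : Finset (Fin m)} (hI : I.card ≤ p) :
    totD y x I = (-1 : ℤ) ^ I.card • kd y (LL D m) (x I) := by
  rw [totD_apply, Finset.sum_eq_zero, add_zero]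
  intro k hk
  rw [hx _ ((Finset.card_erase_lt_of_mem hk).trans_le hI), smul_zero]

theorem CorePath_null_step (h : CH z 𝔪 y γ μ q a Wd) (α : Fin m → ℤ) {u₀ u n : ℤ}
    (h₁ : u₀ + a ≤ u) (h₂ : u₀ ≤ n) (h₃ : n + a ≤ u₀ + Wd) (p : ℕ) :
    ∃ c : ℕ, ∀ x ∈ WW (zD D z) (mD D 𝔪) q α u₀ u, (∀ I : Finset (Fin m), I.card < p → x I = 0) →
      totD y x ∈ WW (zD D z) (mD D 𝔪) q α u₀ (n + a) →
      ∃ x' ∈ WW (zD D z) (mD D 𝔪) q α u₀ (u - a),
        (∀ I : Finset (Fin m), I.card < p + 1 → x' I = 0) ∧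
        totD y x' ∈ WW (zD D z) (mD D 𝔪) q α u₀ n ∧
        γ ^ c • x - x' ∈ (totDG y).Bd (WW (zD D z) (mD D 𝔪) q α u₀ (u - a))
          (WW (zD D z) (mD D 𝔪) q α u₀ n) := by
  obtain ⟨c, hc⟩ := h.null_col h₁ h₂ h₃
  refine ⟨c, fun x hx hp hD => ?_⟩
  have hsq : ∀ (k : ℕ) (v : Finset (Fin (m + 1)) → LL D m),
      (-1 : ℤ) ^ k • (-1 : ℤ) ^ k • v = v := by
    intro k v
    rw [smul_smul, ← mul_pow]
    simp
  have key : ∀ I : Finset (Fin m), ∃ v : Finset (Fin (m + 1)) → LL D m,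
      v ∈ KK (Fin (m + 1)) (Vt (zD D z) (mD D 𝔪) q I α u₀ (u - a)) ∧ (I.card ≠ p → v = 0) ∧
      (I.card = p → γ ^ c • x I - kd y (LL D m) v ∈
        KK (Fin (m + 1)) (Vt (zD D z) (mD D 𝔪) q I α u₀ n)) := by
    intro I
    by_cases hI : I.card = p
    · have h1 : kd y (LL D m) (x I) ∈
          KK (Fin (m + 1)) (Vt (zD D z) (mD D 𝔪) q I α u₀ (n + a)) := by
        have h2 := hD I trivial
        rw [CorePath_totD_apply hp hI.le] at h2
        rw [← hsq I.card (kd y (LL D m) (x I))]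
        exact zsmul_mem h2 _
      obtain ⟨_, ⟨v, hv, rfl⟩, w, hw, hvw⟩ := Submodule.mem_sup.1 (hc I α (x I) (hx I trivial) h1)
      exact ⟨v, hv, fun h => absurd hI h, fun _ => by rw [← hvw]; simpa using hw⟩
    · exact ⟨0, zero_mem _, fun _ => rfl, fun h => absurd h hI⟩
  choose v hv hv0 hvn using key
  let Y : XX D m := fun I => (-1 : ℤ) ^ I.card • v I
  let w : XX D m := fun I => if I.card = p then γ ^ c • x I - kd y (LL D m) (v I) else 0
  have hxu : x ∈ WW (zD D z) (mD D 𝔪) q α u₀ (u - a) := WW_anti _ _ _ _ _ (by omega) hx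
  have hY : Y ∈ WW (zD D z) (mD D 𝔪) q α u₀ (u - a) := fun I _ => zsmul_mem (hv I) _
  have hY0 : ∀ I : Finset (Fin m), I.card < p → Y I = 0 := fun I hI => by
    simp only [Y, hv0 I hI.ne, smul_zero]
  have hwn : w ∈ WW (zD D z) (mD D 𝔪) q α u₀ n := fun I _ => by
    simp only [w]
    split_ifs with hI
    · exact hvn I hI
    · exact zero_mem _
  have hwu : w ∈ WW (zD D z) (mD D 𝔪) q α u₀ (u - a) := fun I _ => by
    simp only [w]
    split_ifs with hI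
    · exact sub_mem (Submodule.smul_mem _ _ (hxu I trivial)) (kd_mem_KK y (hv I))
    · exact zero_mem _
  refine ⟨γ ^ c • x - totD y Y - w, ?_, fun I hI => ?_, ?_, ?_⟩
  · exact sub_mem (sub_mem (Submodule.smul_mem _ _ hxu) ((sub_WW _ y _ _ _ _ _).1 _ hY)) hwu
  · have hI' : I.card ≤ p := by omega
    rw [Pi.sub_apply, Pi.sub_apply, CorePath_totD_apply hY0 hI', Pi.smul_apply]
    simp only [Y, w, map_zsmul, hsq]
    split_ifs with hIp
    · exact sub_self _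
    · rw [hp I (by omega), hv0 I hIp]
      simp
  · have h1 : totD y (totD y Y) = 0 := (totDG y).DD Y
    rw [map_sub, map_sub, h1, sub_zero, map_smul]
    exact sub_mem (Submodule.smul_mem _ _ (WW_anti _ _ _ _ _ (by omega) hD))
      ((sub_WW _ y _ _ _ _ _).1 _ hwn)
  · exact (totDG y).mem_Bd.2 ⟨Y, hY, w, hwn, by
      show totD y Y + w = _
      abel⟩

theorem CorePath_null_iter (h : CH z 𝔪 y γ μ q a Wd) (α : Fin m → ℤ) {u₀ u : ℤ} (p : ℕ) {n : ℤ}
    (h₁ : u₀ + p * a ≤ u) (h₂ : u₀ ≤ n) (h₃ : n + p * a ≤ u₀ + Wd) :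
    ∃ c : ℕ, ∀ x ∈ WW (zD D z) (mD D 𝔪) q α u₀ u,
      totD y x ∈ WW (zD D z) (mD D 𝔪) q α u₀ (n + p * a) →
      ∃ x' ∈ WW (zD D z) (mD D 𝔪) q α u₀ (u - p * a),
        (∀ I : Finset (Fin m), I.card < p → x' I = 0) ∧
        totD y x' ∈ WW (zD D z) (mD D 𝔪) q α u₀ n ∧
        γ ^ c • x - x' ∈ (totDG y).Bd (WW (zD D z) (mD D 𝔪) q α u₀ (u - p * a))
          (WW (zD D z) (mD D 𝔪) q α u₀ n) := by
  induction p generalizing n with
  | zero =>
    refine ⟨0, fun x hx hD => ⟨x, by simpa using hx, fun I hI => absurd hI (Nat.not_lt_zero _),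
      by simpa using hD, by simp⟩⟩
  | succ p ih =>
    have ha : (0 : ℤ) ≤ a := Int.natCast_nonneg a
    have hpa : (0 : ℤ) ≤ p * a := by positivity
    have e : ((p + 1 : ℕ) : ℤ) * a = p * a + a := by push_cast; ring
    rw [e] at h₁ h₃ ⊢
    obtain ⟨c, hc⟩ := ih (n := n + a) (by omega) (by omega) (by omega)
    obtain ⟨c', hc'⟩ := CorePath_null_step h α (u₀ := u₀) (u := u - p * a) (n := n) (by omega) h₂
      (by omega) p
    refine ⟨c' + c, fun x hx hD => ?_⟩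
    obtain ⟨x', h1, h2, h3, h4⟩ := hc x hx (by rwa [add_assoc, add_comm (a : ℤ)])
    obtain ⟨x'', h5, h6, h7, h8⟩ := hc' x' h1 h2 h3
    rw [sub_sub] at h5 h8
    refine ⟨x'', h5, h6, h7, ?_⟩
    have h9 : γ ^ (c' + c) • x - x'' = γ ^ c' • (γ ^ c • x - x') + (γ ^ c' • x' - x'') := by
      rw [pow_add, mul_smul, smul_sub]
      abel
    rw [h9]
    exact add_mem (Submodule.smul_mem _ _ ((totDG y).Bd_mono (WW_anti _ _ _ _ _ (by omega))
      (WW_anti _ _ _ _ _ (by omega)) h4)) h8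

/-- `H(W[u, n + A)) → H(W[u - A, n))` is null for `A = (m + 1) a` -/
theorem null_tot (h : CH z 𝔪 y γ μ q a Wd) (α : Fin m → ℤ) {u₀ u n : ℤ}
    (h₁ : u₀ + (m + 1) * a ≤ u) (h₂ : u₀ ≤ n) (h₃ : n + (m + 1) * a ≤ u₀ + Wd) (k : ℤ) :
    μ.sz ((totDG y).Z k (WW (zD D z) (mD D 𝔪) q α u₀ u)
        (WW (zD D z) (mD D 𝔪) q α u₀ (n + (m + 1) * a)))
      ((totDG y).Bd (WW (zD D z) (mD D 𝔪) q α u₀ (u - (m + 1) * a))
        (WW (zD D z) (mD D 𝔪) q α u₀ n)) = 0 := by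
  obtain ⟨c, hc⟩ := CorePath_null_iter h α (u₀ := u₀) (u := u) (m + 1) (n := n)
    (by exact_mod_cast h₁) h₂ (by exact_mod_cast h₃)
  push_cast at hc
  refine μ.sz_eq_zero_of_smul (h.null.pow c) fun x hx => ?_
  obtain ⟨x', -, h2, -, h4⟩ := hc x hx.1.1 hx.2
  have h0 : x' = 0 := funext fun I => h2 I (by
    have := Finset.card_le_univ I
    rw [Fintype.card_fin] at this
    omega)
  rwa [h0, sub_zero] at h4

/-- (Bot) -/
theorem bot_null (h : CH z 𝔪 y γ μ q a Wd) (α : Fin m → ℤ) {u₀ u n : ℤ}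
    (h₁ : u₀ + (m + 1) * a ≤ u) (h₂ : u ≤ n) (h₃ : n + (m + 1) * a ≤ u₀ + Wd)
    (hα : ∀ k, -1 ≤ α k + n) {k : ℤ} (hk : k ≤ 0) :
    μ.sz ((totDG y).Z k (WW (zD D z) (mD D 𝔪) q α u₀ u) (WW (zD D z) (mD D 𝔪) q α u₀ n))
      ((totDG y).Bd (WW (zD D z) (mD D 𝔪) q α u₀ (u - (m + 1) * a))
        (WW (zD D z) (mD D 𝔪) q α u₀ n)) = 0 := by
  have hA : (0 : ℤ) ≤ (m + 1) * a := by positivity
  exact (totDG y).bot_lemma μ (sub_WW ..) (sub_WW ..) (sub_WW ..) (sub_WW ..)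
    (WW_anti _ _ _ _ _ (by omega)) (WW_anti _ _ _ _ _ h₂) (WW_anti _ _ _ _ _ (by omega)) k
    (h.null_tot α h₁ (by omega) h₃ k) (h.win_high α (by omega) (by omega) h₃ hα (by omega))

/-- (Top) -/
theorem top_null (h : CH z 𝔪 y γ μ q a Wd) (α : Fin m → ℤ) {u₀ u n : ℤ}
    (h₁ : u₀ + (m + 1) * a ≤ u) (h₂ : u + (m + 1) * a ≤ n) (h₃ : n ≤ u₀ + Wd)
    (hα : ∀ k, α k + u ≤ 0) {k : ℤ} (hk : 1 ≤ k) :
    μ.sz ((totDG y).Z k (WW (zD D z) (mD D 𝔪) q α u₀ u) (WW (zD D z) (mD D 𝔪) q α u₀ n))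
      ((totDG y).Bd (WW (zD D z) (mD D 𝔪) q α u₀ u)
        (WW (zD D z) (mD D 𝔪) q α u₀ (n - (m + 1) * a))) = 0 := by
  have hA : (0 : ℤ) ≤ (m + 1) * a := by positivity
  have hN := h.null_tot α (n := n - (m + 1) * a) h₁ (by omega) (by omega) k
  rw [sub_add_cancel] at hN
  exact (totDG y).top_lemma μ (sub_WW ..) (sub_WW ..) (sub_WW ..) (sub_WW ..)
    (WW_anti _ _ _ _ _ (by omega)) (WW_anti _ _ _ _ _ (by omega)) (WW_anti _ _ _ _ _ (by omega)) k
    hN (h.win_low α (by omega) (by omega) (by omega) hα (by omega))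

end CH

end Crest.Agent.R183
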