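import Crest.Agent.R183.CoreModel

/-!
# One step of the décalage filtration
-/

set_option autoImplicit false

open scoped ENNReal

namespace Crest.Agent.R183

namespace CoreStep

variable {D : Type} [CommRing D] {m : ℕ}

variable (D m) in
/-- the columnwise projection to Koszul degree `i` -/
noncomputable abbrev fπ (i : ℕ) : XX D m →ₗ[D] XX D m :=
  (kπ D (LL D m) i).compLeft (Finset (Fin m))

theorem fπ_apply (i : ℕ) (x : XX D m) (I : Finset (Fin m)) :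
    fπ D m i x I = kπ D (LL D m) i (x I) := rfl

theorem mem_KK {P : Submodule D (LL D m)} {x : Finset (Fin (m + 1)) → LL D m} :
    x ∈ KK (Fin (m + 1)) P ↔ ∀ S, x S ∈ P :=
  ⟨fun h S => h S trivial, fun h S _ => h S⟩

theorem KK_mono {P P' : Submodule D (LL D m)} (h : P ≤ P') {x : Finset (Fin (m + 1)) → LL D m}
    (hx : x ∈ KK (Fin (m + 1)) P) : x ∈ KK (Fin (m + 1)) P' := fun S _ => h (hx S trivial)

theorem kπ_mem {P : Submodule D (LL D m)} {i : ℕ} {x : Finset (Fin (m + 1)) → LL D m}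
    (h : ∀ S : Finset (Fin (m + 1)), S.card = i → x S ∈ P) :
    kπ D (LL D m) i x ∈ KK (Fin (m + 1)) P := by
  intro S _
  rw [kπ_apply]
  split_ifs with hS
  · exact h S hS
  · exact zero_mem _

theorem kπ_mem_lev {Q : ℕ → Submodule D (LL D m)} {i : ℕ} {x : Finset (Fin (m + 1)) → LL D m}
    (h : ∀ S : Finset (Fin (m + 1)), S.card = i → x S ∈ Q i) (S : Finset (Fin (m + 1))) :
    kπ D (LL D m) i x S ∈ Q S.card := by
  rw [kπ_apply]
  split_ifs with hS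
  · rw [hS]; exact h S hS
  · exact zero_mem _

theorem card_le (S : Finset (Fin (m + 1))) : S.card ≤ m + 1 := by
  simpa using Finset.card_le_univ S

theorem mem_ZH {y : Fin (m + 1) → D} {P P' : Finset (Fin m) → Submodule D (LL D m)} {i : ℕ}
    {x : XX D m} : x ∈ ZH y P P' i ↔ ∀ I, (kπ D (LL D m) i (x I) = x I ∧
      x I ∈ KK (Fin (m + 1)) (P I)) ∧ kd y (LL D m) (x I) ∈ KK (Fin (m + 1)) (P' I) :=
  ⟨fun h I => h I trivial, fun h I _ => h I⟩

theorem mem_BH {y : Fin (m + 1) → D} {P P' : Finset (Fin m) → Submodule D (LL D m)} {i : ℕ}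
    {x : XX D m} : x ∈ BH y P P' i ↔ ∀ I, kπ D (LL D m) i (x I) = x I ∧
      x I ∈ (KK (Fin (m + 1)) (P I)).map (kd y (LL D m)) ⊔ KK (Fin (m + 1)) (P' I) :=
  ⟨fun h I => h I trivial, fun h I _ => h I⟩

theorem cech_apply (x : XX D m) (I : Finset (Fin m)) :
    (cechDG D m).D x I = ∑ k ∈ I, ksgn k I • x (I.erase k) := by
  show (∑ k : Fin m, kh D (Finset (Fin (m + 1)) → LL D m) k) x I = _
  rw [LinearMap.sum_apply, Finset.sum_apply]
  simp only [kh_apply]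
  rw [Finset.sum_ite_mem, Finset.univ_inter]

theorem tot_apply (y : Fin (m + 1) → D) (x : XX D m) (I : Finset (Fin m)) :
    (totDG y).D x I = (-1 : ℤ) ^ I.card • kd y (LL D m) (x I) +
      ∑ k ∈ I, ksgn k I • x (I.erase k) := totD_apply y x I

theorem fπ_tot (y : Fin (m + 1) → D) (i : ℕ) (x : XX D m) (I : Finset (Fin m)) :
    (fπ D m i ((totDG y).D x) - (cechDG D m).D (fπ D m i x)) I =
      (-1 : ℤ) ^ I.card • kd y (LL D m) (kπ D (LL D m) (i + 1) (x I)) := by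
  rw [Pi.sub_apply, fπ_apply, tot_apply, cech_apply, map_add, map_zsmul, map_sum, kπ_kd]
  simp only [map_zsmul, fπ_apply, add_sub_cancel_right]

theorem fπ_π (y : Fin (m + 1) → D) (i : ℕ) (k : ℤ) (x : XX D m) :
    fπ D m i ((totDG y).π k x) = (cechDG D m).π (k + -(i : ℤ)) (fπ D m i x) := by
  funext I S
  show (if S.card = i then (if (S.card : ℤ) - I.card = k then x I S else 0) else 0) =
    (if -(I.card : ℤ) = k + -(i : ℤ) then fπ D m i x I else 0) S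
  by_cases h1 : -(I.card : ℤ) = k + -(i : ℤ)
  · rw [if_pos h1, fπ_apply, kπ_apply]
    by_cases h2 : S.card = i
    · rw [if_pos h2, if_pos h2, if_pos (by omega)]
    · rw [if_neg h2, if_neg h2]
  · rw [if_neg h1, Pi.zero_apply]
    by_cases h2 : S.card = i
    · rw [if_pos h2, if_neg (by omega)]
    · rw [if_neg h2]

theorem neg_pow_smul (n : ℕ) (x : Finset (Fin (m + 1)) → LL D m) :
    (-1 : ℤ) ^ n • (-1 : ℤ) ^ n • x = x := by
  rw [smul_smul, ← mul_pow]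
  simp

variable {z y : Fin (m + 1) → D} {𝔪 : Ideal D} {q : ℕ} {α : Fin m → ℤ} {u₀ : ℤ}

theorem mem_GG {j : ℕ → ℤ} {x : XX D m} : x ∈ GG z y 𝔪 q α u₀ j ↔
    ∀ I S, x I S ∈ Vt z 𝔪 q I α u₀ (j S.card) ∧
      kd y (LL D m) (x I) S ∈ Vt z 𝔪 q I α u₀ (j S.card) := Iff.rfl

theorem mono (l : ℤ) : Monotone fun I => Vt z 𝔪 q I α u₀ l :=
  fun _ _ h => Vt_mono_col z 𝔪 q h α u₀ l

variable (z y 𝔪 q α u₀) in
/-- the lifted operator `σ` -/
def Sig (σ : (Finset (Fin (m + 1)) → LL D m) →+ (Finset (Fin (m + 1)) → LL D m)) : Prop :=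
  ∀ (I : Finset (Fin m)) (l : ℤ) (x : Finset (Fin (m + 1)) → LL D m),
    x ∈ KK (Fin (m + 1)) (Vt z 𝔪 q I α u₀ l) → σ x ∈ KK (Fin (m + 1)) (Vt z 𝔪 q I α u₀ l) ∧
      kd y (LL D m) (σ (kd y (LL D m) x)) - kd y (LL D m) x ∈
        KK (Fin (m + 1)) (Vt z 𝔪 q I α u₀ (l + q))

variable {j : ℕ → ℤ} {i : ℕ}
  {σ : (Finset (Fin (m + 1)) → LL D m) →+ (Finset (Fin (m + 1)) → LL D m)}

local notation "Gj" => GG z y 𝔪 q α u₀ j
local notation "Gj'" => GG z y 𝔪 q α u₀ (Function.update j i (j i + 1))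
local notation "Zi" =>
  ZH y (fun I => Vt z 𝔪 q I α u₀ (j i)) (fun I => Vt z 𝔪 q I α u₀ (j i + 1)) i
local notation "Bi" =>
  BH y (fun I => Vt z 𝔪 q I α u₀ (j i)) (fun I => Vt z 𝔪 q I α u₀ (j i + 1)) i

theorem f_mem_Z (hi : i ≤ m + 1) (hj' : Adm m q (Function.update j i (j i + 1))) {x : XX D m}
    (hx : x ∈ Gj) : fπ D m i x ∈ Zi := by
  refine mem_ZH.2 fun I => ⟨⟨kπ_kπ _ _, kπ_mem fun S hS => hS ▸ (hx I S).1⟩, ?_⟩
  rw [fπ_apply]
  rcases i with _ | i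
  · rw [kd_kπ_zero]; exact zero_mem _
  · rw [← kπ_kd]
    have h := (hj' i (by omega)).1
    rw [Function.update_self, Function.update_of_ne (by omega)] at h
    exact kπ_mem fun S hS => Vt_anti z 𝔪 q I α u₀ h (hS ▸ (hx I S).2)

theorem map_sup_eq (hσ : Sig z y 𝔪 q α u₀ σ) (hi : i ≤ m + 1) (hj : Adm m q j)
    (hj' : Adm m q (Function.update j i (j i + 1))) : (Gj).map (fπ D m i) ⊔ Bi = Zi := by
  refine le_antisymm (sup_le ?_ (BH_le_ZH y (fun I => Vt_anti z 𝔪 q I α u₀ (by omega)) i))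
    fun x hx => ?_
  · rintro _ ⟨x, hx, rfl⟩
    exact f_mem_Z hi hj' hx
  have hx := mem_ZH.1 hx
  obtain ⟨u, hu⟩ : ∃ u : XX D m, ∀ I, u I = x I - σ (kd y (LL D m) (x I)) := ⟨_, fun _ => rfl⟩
  have h1 : ∀ I, σ (kd y (LL D m) (x I)) ∈ KK (Fin (m + 1)) (Vt z 𝔪 q I α u₀ (j i + 1)) :=
    fun I => (hσ I _ _ (hx I).2).1
  refine Submodule.mem_sup.2 ⟨fπ D m i u, ⟨fπ D m i u, fun I S => ⟨?_, ?_⟩, ?_⟩,
    x - fπ D m i u, mem_BH.2 fun I => ?_, by abel⟩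
  · refine kπ_mem_lev (Q := fun r => Vt z 𝔪 q I α u₀ (j r)) (fun S _ => ?_) S
    rw [hu]
    exact sub_mem ((hx I).1.2 S trivial) (Vt_anti z 𝔪 q I α u₀ (by omega) (h1 I S trivial))
  · rw [fπ_apply]
    rcases i with _ | i
    · rw [kd_kπ_zero]; exact zero_mem _
    · rw [← kπ_kd]
      refine kπ_mem_lev (Q := fun r => Vt z 𝔪 q I α u₀ (j r)) (fun S _ => ?_) S
      have h2 := neg_mem (hσ I _ _ (hx I).1.2).2
      rw [neg_sub, ← map_sub, ← hu] at h2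
      exact Vt_anti z 𝔪 q I α u₀ (hj i (by omega)).2 (h2 S trivial)
  · funext I
    exact kπ_kπ (B := D) i (u I)
  · have h2 : (x - fπ D m i u) I = kπ D (LL D m) i (σ (kd y (LL D m) (x I))) := by
      rw [Pi.sub_apply, fπ_apply, hu, map_sub, (hx I).1.1, sub_sub_cancel]
    rw [h2]
    exact ⟨kπ_kπ _ _, Submodule.mem_sup_right (kπ_mem_KK _ (h1 I))⟩

theorem comm_mem (hσ : Sig z y 𝔪 q α u₀ σ) (hj' : Adm m q (Function.update j i (j i + 1)))
    {x : XX D m} (hx : x ∈ Gj) :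
    fπ D m i ((totDG y).D x) - (cechDG D m).D (fπ D m i x) ∈ Bi := by
  refine mem_BH.2 fun I => ?_
  rw [fπ_tot]
  refine ⟨by rw [map_zsmul, kπ_kd, kπ_kπ], zsmul_mem ?_ _⟩
  rcases Nat.lt_or_ge m i with hi | hi
  · rw [kπ_eq_zero_of_lt (by simpa using hi), map_zero]
    exact zero_mem _
  have h := (hj' i hi).2
  rw [Function.update_self, Function.update_of_ne (by omega)] at h
  have h1 : kπ D (LL D m) (i + 1) (x I) ∈ KK (Fin (m + 1)) (Vt z 𝔪 q I α u₀ (j (i + 1))) :=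
    kπ_mem fun S hS => hS ▸ (hx I S).1
  have h2 : kd y (LL D m) (kπ D (LL D m) (i + 1) (x I)) ∈
      KK (Fin (m + 1)) (Vt z 𝔪 q I α u₀ (j i)) := by
    rw [← kπ_kd]
    exact kπ_mem fun S hS => hS ▸ (hx I S).2
  refine Submodule.mem_sup.2 ⟨_, ⟨_, (hσ I _ _ h2).1, rfl⟩, _,
    neg_mem (KK_mono (Vt_anti z 𝔪 q I α u₀ h) (hσ I _ _ h1).2), by abel⟩

theorem sub_mid (hσ : Sig z y 𝔪 q α u₀ σ) (hj' : Adm m q (Function.update j i (j i + 1))) :
    (totDG y).Sub (Gj ⊓ (Bi).comap (fπ D m i)) := by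
  have s1 := sub_GG z y 𝔪 q α u₀ j
  have s2 := sub_BH y (mono (z := z) (𝔪 := 𝔪) (q := q) (α := α) (u₀ := u₀) (j i))
    (mono (z := z) (𝔪 := 𝔪) (q := q) (α := α) (u₀ := u₀) (j i + 1)) i
  refine ⟨fun x hx => ⟨s1.1 x hx.1, ?_⟩, fun k x hx => ⟨s1.2 k x hx.1, ?_⟩⟩
  · have := add_mem (comm_mem hσ hj' hx.1) (s2.1 _ hx.2)
    rwa [sub_add_cancel] at this
  · rw [SetLike.mem_coe, Submodule.mem_comap, fπ_π]
    exact s2.2 _ _ hx.2

theorem le_G : Gj' ≤ Gj := by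
  refine GG_anti z y 𝔪 q α u₀ fun r _ => ?_
  by_cases h : r = i
  · subst h; rw [Function.update_self]; omega
  · rw [Function.update_of_ne h]

theorem le_mid : Gj' ≤ Gj ⊓ (Bi).comap (fπ D m i) := by
  refine le_inf le_G fun x hx => mem_BH.2 fun I => ⟨kπ_kπ _ _, Submodule.mem_sup_right ?_⟩
  refine kπ_mem fun S hS => ?_
  have := (hx I S).1
  rwa [hS, Function.update_self] at this

theorem mem_G' {x : XX D m} (hG : x ∈ Gj)
    (h1 : ∀ I (S : Finset (Fin (m + 1))), S.card = i → x I S ∈ Vt z 𝔪 q I α u₀ (j i + 1))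
    (h2 : (totDG y).D x ∈ Gj') : x ∈ Gj' := by
  refine mem_GG.2 fun I S => ?_
  by_cases hS : S.card = i
  · rw [hS, Function.update_self]
    refine ⟨h1 I S hS, ?_⟩
    have h3 := (mem_GG.1 h2 I S).1
    rw [hS, Function.update_self, tot_apply, Pi.add_apply, Finset.sum_apply] at h3
    have h4 : ∑ k ∈ I, (ksgn k I • x (I.erase k)) S ∈ Vt z 𝔪 q I α u₀ (j i + 1) := by
      refine sum_mem fun k _ => ?_
      rw [Pi.smul_apply]
      exact zsmul_mem (Vt_mono_col z 𝔪 q (Finset.erase_subset k I) α u₀ _ (h1 _ S hS)) _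
    have h5 := zsmul_mem ((Submodule.add_mem_iff_left _ h4).1 h3) ((-1 : ℤ) ^ I.card)
    rwa [← Pi.smul_apply, neg_pow_smul] at h5
  · rw [Function.update_of_ne hS]
    exact mem_GG.1 hG I S

theorem acyclic (hj : Adm m q j) {x : XX D m} (hx : x ∈ Gj ⊓ (Bi).comap (fπ D m i))
    (hD : (totDG y).D x ∈ Gj') : x ∈ (totDG y).Bd (Gj ⊓ (Bi).comap (fπ D m i)) Gj' := by
  have hab : ∀ I, ∃ a ∈ KK (Fin (m + 1)) (Vt z 𝔪 q I α u₀ (j i)),
      ∃ b ∈ KK (Fin (m + 1)) (Vt z 𝔪 q I α u₀ (j i + 1)),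
        kd y (LL D m) a + b = kπ D (LL D m) i (x I) := fun I => by
    obtain ⟨_, ⟨a, ha, rfl⟩, b, hb, h⟩ := Submodule.mem_sup.1 (mem_BH.1 hx.2 I).2
    exact ⟨a, ha, b, hb, h⟩
  choose a ha b hb hab using hab
  obtain ⟨w, hw⟩ : ∃ w : XX D m, ∀ I, w I = (-1 : ℤ) ^ I.card • kπ D (LL D m) (i + 1) (a I) :=
    ⟨_, fun _ => rfl⟩
  have hw0 : ∀ I (S : Finset (Fin (m + 1))), S.card = i → w I S = 0 := fun I S hS => by
    rw [hw, Pi.smul_apply, kπ_apply, if_neg (by omega), smul_zero]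
  have hwG : w ∈ Gj := fun I S => by
    rw [hw, map_zsmul, ← kπ_kd]
    refine ⟨zsmul_mem ?_ _, zsmul_mem ?_ _⟩
    · refine kπ_mem_lev (Q := fun r => Vt z 𝔪 q I α u₀ (j r)) (fun S hS => ?_) S
      have := card_le S
      exact Vt_anti z 𝔪 q I α u₀ (hj i (by omega)).1 (ha I S trivial)
    · exact kπ_mem_lev (Q := fun r => Vt z 𝔪 q I α u₀ (j r))
        (fun S _ => kd_mem_KK y (ha I) S trivial) S
  have hwf : fπ D m i w = 0 := by
    funext I S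
    rw [fπ_apply, kπ_apply]
    split_ifs with hS
    · exact hw0 I S hS
    · rfl
  have hG : x - (totDG y).D w ∈ Gj := sub_mem hx.1 ((sub_GG z y 𝔪 q α u₀ j).1 w hwG)
  have h1 : ∀ I (S : Finset (Fin (m + 1))), S.card = i →
      (x - (totDG y).D w) I S ∈ Vt z 𝔪 q I α u₀ (j i + 1) := fun I S hS => by
    have h2 := congrFun (hab I) S
    rw [Pi.add_apply, kπ_apply, if_pos hS] at h2
    rw [Pi.sub_apply, Pi.sub_apply, tot_apply, hw, map_zsmul, neg_pow_smul, ← kπ_kd, Pi.add_apply,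
      kπ_apply, if_pos hS, Finset.sum_apply, Finset.sum_eq_zero, add_zero, ← h2,
      add_sub_cancel_left]
    · exact hb I S trivial
    · intro k _
      rw [Pi.smul_apply, hw0 _ S hS, smul_zero]
  refine (totDG y).mem_Bd.2 ⟨w, Submodule.mem_inf.2 ⟨hwG, ?_⟩, x - (totDG y).D w,
    mem_G' hG h1 ?_, add_sub_cancel _ _⟩
  · rw [Submodule.mem_comap, hwf]
    exact zero_mem _
  · rw [map_sub, (totDG y).DD, sub_zero]
    exact hD

theorem h_eq (μ : LF D) (hσ : Sig z y 𝔪 q α u₀ σ) (hi : i ≤ m + 1) (hj : Adm m q j)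
    (hj' : Adm m q (Function.update j i (j i + 1))) (k : ℤ) :
    (totDG y).h μ k Gj Gj' = (cechDG D m).h μ (k + -(i : ℤ)) Zi Bi := by
  have s1 := sub_GG z y 𝔪 q α u₀ j
  have s2 := sub_mid hσ hj'
  have s3 := sub_GG z y 𝔪 q α u₀ (Function.update j i (j i + 1))
  rw [← ((totDG y).h_transport μ (cechDG D m) (fπ D m i) s1 s2 (sub_ZH y (mono _) (mono _) i)
    (sub_BH y (mono _) (mono _) i) inf_le_left
    (BH_le_ZH y (fun I => Vt_anti z 𝔪 q I α u₀ (by omega)) i) (map_sup_eq hσ hi hj hj') rfl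
    (fun x hx => comm_mem hσ hj' hx) (-(i : ℤ))
    (fun k x _ => by rw [fπ_π, sub_self]; exact zero_mem _) k).1]
  obtain ⟨e1, e2, e3⟩ := (totDG y).les μ s1 s2 s3 inf_le_left le_mid k
  have h0 : ∀ k, (totDG y).Z k (Gj ⊓ (Bi).comap (fπ D m i)) Gj' ≤
      (totDG y).Bd (Gj ⊓ (Bi).comap (fπ D m i)) Gj' := fun k x hx => acyclic hj hx.1.1 hx.2
  rw [DG.h, μ.sz_eq_zero_of_le (h0 _), eq_comm, add_eq_zero] at e3
  rw [e1, e2, e3.1, μ.sz_eq_zero_of_le ((h0 k).trans ((totDG y).Bd_mono inf_le_left le_rfl)),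
    zero_add, add_zero]

theorem corner_spec {l : ℤ} (hl : u₀ ≤ l) {e : XX D m} (he : e ∈ corner (supp D (Glev α l))) :
    fπ D m 0 e = e ∧ (∀ S, e ∅ S ∈ Vt z 𝔪 q ∅ α u₀ l) ∧ (∀ I, I ≠ ∅ → e I = 0) ∧
      ∀ I : Finset (Fin m), I.Nonempty → ∀ S, e ∅ S ∈ Rel z I α u₀ := by
  obtain ⟨v, hv, rfl⟩ := he
  simp only [LinearMap.comp_apply, LinearMap.coe_single, Pi.single_eq_same]
  refine ⟨?_, fun S => ?_, fun I hI => Pi.single_eq_of_ne hI _, fun I hI S => ?_⟩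
  · funext I S
    rw [fπ_apply, kπ_apply]
    split_ifs with hS
    · rfl
    · by_cases hI : I = ∅
      · subst hI
        rw [Pi.single_eq_same, Pi.single_eq_of_ne (by rintro rfl; simp at hS)]
      · rw [Pi.single_eq_of_ne hI, Pi.zero_apply]
  · by_cases hS : S = ∅
    · subst hS
      rw [Pi.single_eq_same]
      have hs : Glev α l ⊆ Alev ∅ l := fun g hg => ⟨hg.1, fun k _ => (hg.2 k).1⟩
      exact supp_Alev_le_Vt z 𝔪 q ∅ α hl (AddMonoidAlgebra.supported_mono hs hv)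
    · rw [Pi.single_eq_of_ne hS]; exact zero_mem _
  · by_cases hS : S = ∅
    · subst hS
      rw [Pi.single_eq_same]
      exact supp_Glev_le_Rel z hI α hl hv
    · rw [Pi.single_eq_of_ne hS]; exact zero_mem _

theorem corner_mem (hl : u₀ ≤ j 0) {e : XX D m} (he : e ∈ corner (supp D (Glev α (j 0))))
    (j' : ℕ → ℤ) : e ∈ Gj ∧ (totDG y).D e ∈ GG z y 𝔪 q α u₀ j' := by
  obtain ⟨h1, h2, h3, h4⟩ := corner_spec (z := z) (𝔪 := 𝔪) (q := q) hl he
  have hd : ∀ I, kd y (LL D m) (e I) = 0 := fun I => by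
    rw [← h1, fπ_apply, kd_kπ_zero]
  constructor
  · intro I S
    rw [hd]
    refine ⟨?_, zero_mem _⟩
    rw [← h1, fπ_apply]
    refine kπ_mem_lev (Q := fun r => Vt z 𝔪 q I α u₀ (j r)) (fun S _ => ?_) S
    by_cases hI : I = ∅
    · subst hI; exact h2 S
    · rw [h3 I hI]; exact zero_mem _
  · have h5 : ∀ I, (totDG y).D e I ∈ KK (Fin (m + 1)) (Rel z I α u₀) := fun I => by
      rw [tot_apply, hd, smul_zero, zero_add]
      refine sum_mem fun k hk => zsmul_mem (fun S _ => ?_) _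
      by_cases hI : I.erase k = ∅
      · rw [hI]; exact h4 I ⟨k, hk⟩ S
      · rw [h3 _ hI]; exact zero_mem _
    exact fun I S => ⟨Rel_le_Vt z 𝔪 q I α u₀ _ (h5 I S trivial),
      Rel_le_Vt z 𝔪 q I α u₀ _ (kd_mem_KK y (h5 I) S trivial)⟩

/-- Equation lemmas are realised here once and for all. -/
theorem anchor : True := by
  have := @Sig.eq_1; have := @fπ.eq_1
  trivial

end CoreStep

namespace CH

variable {R₀ D : Type} [CommRing R₀] [CommRing D] [Algebra R₀ D] {m : ℕ}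
  {z : Fin (m + 1) → R₀} {𝔪 : Ideal R₀} {y : Fin (m + 1) → D} {γ : D} {μ : LF D} {q a Wd : ℕ}

theorem step_h (h : CH z 𝔪 y γ μ q a Wd) (α : Fin m → ℤ) (u₀ : ℤ) (j : ℕ → ℤ) (i : ℕ)
    (hi : i ≤ m + 1) (hj : Adm m q j) (hj' : Adm m q (Function.update j i (j i + 1)))
    (h₁ : u₀ ≤ j i) (h₂ : j i < u₀ + Wd) (k : ℤ) :
    (totDG y).h μ k (GG (zD D z) y (mD D 𝔪) q α u₀ j)
        (GG (zD D z) y (mD D 𝔪) q α u₀ (Function.update j i (j i + 1))) =
      if k = (i : ℤ) - neg (fun k => α k + j i) then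
        ecard (fun k => α k + j i) * beta μ y (sp (zD D z) ⊔ mD D 𝔪) i
      else 0 := by
  obtain ⟨σ, hσ⟩ := exists_sig_lift q z 𝔪 y h.sig
  rw [CoreStep.h_eq μ (σ := σ) (fun I l x hx => hσ I α u₀ l x hx) hi hj hj',
    h.cech_h α h₁ h₂]
  exact if_congr (by omega) rfl rfl

theorem step_gen (h : CH z 𝔪 y γ μ q a Wd) (α : Fin m → ℤ) (u₀ : ℤ) (j : ℕ → ℤ)
    (hj : Adm m q j) (hj' : Adm m q (Function.update j 0 (j 0 + 1)))
    (h₁ : u₀ ≤ j 0) (h₂ : j 0 < u₀ + Wd) :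
    μ.sz ((totDG y).Z 0 (GG (zD D z) y (mD D 𝔪) q α u₀ j)
        (GG (zD D z) y (mD D 𝔪) q α u₀ (Function.update j 0 (j 0 + 1))))
      (corner (supp D (Glev α (j 0))) ⊔ (totDG y).Bd (GG (zD D z) y (mD D 𝔪) q α u₀ j)
        (GG (zD D z) y (mD D 𝔪) q α u₀ (Function.update j 0 (j 0 + 1)))) = 0 := by
  obtain ⟨σ, hσ⟩ := exists_sig_lift q z 𝔪 y h.sig
  have hσ' : CoreStep.Sig (zD D z) y (mD D 𝔪) q α u₀ σ := fun I l x hx => hσ I α u₀ l x hx
  refine le_zero_iff.1 (le_trans ?_ ((μ.sz_comap_le (CoreStep.fπ D m 0) _ _).trans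
    (h.cech_gen α h₁ h₂).le))
  refine le_trans (DG_le_right μ ?_) (μ.sz_mono ?_ le_rfl)
  · rintro x ⟨hx, hx'⟩
    obtain ⟨e, he, b, hb, heb⟩ := Submodule.mem_sup.1 hx'
    obtain ⟨h3, h4⟩ := CoreStep.corner_mem (z := zD D z) (y := y) (𝔪 := mD D 𝔪) (q := q) h₁ he
      (Function.update j 0 (j 0 + 1))
    have h5 := (CoreStep.corner_spec (z := zD D z) (𝔪 := mD D 𝔪) (q := q) h₁ he).1
    rw [← add_sub_cancel e x]
    refine Submodule.add_mem_sup he ((totDG y).Bd_mono inf_le_left le_rfl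
      (CoreStep.acyclic (i := 0) hj ⟨sub_mem hx.1.1 h3, ?_⟩ ?_))
    · rw [SetLike.mem_coe, Submodule.mem_comap, map_sub, h5, ← heb, add_sub_cancel_left]
      exact hb
    · rw [map_sub]
      exact sub_mem hx.2 h4
  · intro x hx
    obtain ⟨⟨h3, h4⟩, h5⟩ := (totDG y).mem_Z.1 hx
    refine (cechDG D m).mem_Z.2 ⟨⟨CoreStep.f_mem_Z (by omega) hj' h3, ?_⟩, ?_⟩
    · have := CoreStep.fπ_π y 0 0 x
      rw [h4] at this
      simpa using this.symm
    · have := sub_mem (Submodule.mem_comap.1 (CoreStep.le_mid h5).2)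
        (CoreStep.comm_mem hσ' hj' h3)
      rwa [sub_sub_cancel] at this

end CH

end Crest.Agent.R183
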