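import Crest.Agent.R183.LF

/-!
# Sizes of homology of subquotients of a differential graded module

`P ≲ Q` below always means `μ.sz P Q = 0`.
-/

set_option autoImplicit false
set_option linter.unusedVariables false

open scoped ENNReal NNReal

namespace Crest.Agent.R183

section aux

variable {B : Type} [CommRing B] (μ : LF B) {M N : Type} [AddCommGroup M] [Module B M]
  [AddCommGroup N] [Module B N]

theorem DG_le_left {P P' Q : Submodule B M} (h : P ≤ P' ⊔ Q) : μ.sz P Q ≤ μ.sz P' Q :=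
  (μ.sz_mono h le_rfl).trans (μ.sz_sup_left P' Q).le

theorem DG_le_right {P Q Q' : Submodule B M} (h : P ⊓ Q' ≤ Q) : μ.sz P Q ≤ μ.sz P Q' :=
  (μ.sz_mono le_rfl h).trans (μ.sz_inf_right P Q').le

theorem DG_trans {P Q R : Submodule B M} (h : μ.sz P Q = 0) (h' : μ.sz Q R = 0) :
    μ.sz P R = 0 :=
  le_zero_iff.1 ((μ.sz_le_of_null_left h R).trans h'.le)

theorem DG_sz_prod (P Q : Submodule B M) (P' Q' : Submodule B N) :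
    μ.sz (P.prod P') (Q.prod Q') = μ.sz P Q + μ.sz P' Q' := by
  rw [μ.sz_tower_left (P' := P.map (LinearMap.inl B M N))
    (by rw [Submodule.map_inl]; exact Submodule.prod_mono le_rfl bot_le), μ.sz_map_eq,
    Submodule.prod_comap_inl]
  congr 1
  conv_rhs => rw [← Submodule.prod_map_snd P P', μ.sz_map_eq]
  rw [Submodule.map_inl, Submodule.prod_sup_prod, bot_sup_eq]
  exact le_antisymm (DG_le_right μ fun x hx => ⟨Submodule.mem_sup_left hx.1.1, hx.2⟩)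
    (μ.sz_mono le_rfl fun x hx => hx.2)

theorem DG_telescope (δ : ℤ → ℝ) {lo hi : ℤ} (h : lo ≤ hi + 1) :
    ∑ k ∈ Finset.Icc lo hi, ((k.negOnePow : ℤˣ) : ℤ) * (δ (k + 1) + δ k) =
      ((hi.negOnePow : ℤˣ) : ℤ) * δ (hi + 1) + ((lo.negOnePow : ℤˣ) : ℤ) * δ lo := by
  have h' : lo - 1 ≤ hi := by omega
  induction hi, h' using Int.leInduction with
  | base => simp [Int.negOnePow_sub]
  | succ m hm ih =>
    rw [← Finset.insert_Icc_right_eq_Icc_add_one (by omega : lo ≤ m + 1), Finset.sum_insert (by simp), ih (by omega),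
      Int.negOnePow_succ]
    push_cast
    ring

end aux

namespace DG

variable {B : Type} [CommRing B] {X : Type} [AddCommGroup X] [Module B X] (C : DG B X)
  (μ : LF B)

theorem mem_deg {k : ℤ} {x : X} : x ∈ C.deg k ↔ C.π k x = x := Iff.rfl

theorem mem_Z {k : ℤ} {A A' : Submodule B X} {x : X} :
    x ∈ C.Z k A A' ↔ (x ∈ A ∧ C.π k x = x) ∧ C.D x ∈ A' := Iff.rfl

variable {C} in
theorem Sub.sup {A A' : Submodule B X} (h : C.Sub A) (h' : C.Sub A') : C.Sub (A ⊔ A') := by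
  refine ⟨fun x hx => ?_, fun k x hx => ?_⟩ <;>
    obtain ⟨a, ha, b, hb, rfl⟩ := Submodule.mem_sup.1 hx <;> rw [map_add]
  · exact Submodule.add_mem_sup (h.1 a ha) (h'.1 b hb)
  · exact Submodule.add_mem_sup (h.2 k a ha) (h'.2 k b hb)

variable {C} in
theorem Sub.inf {A A' : Submodule B X} (h : C.Sub A) (h' : C.Sub A') : C.Sub (A ⊓ A') :=
  ⟨fun x hx => ⟨h.1 x hx.1, h'.1 x hx.2⟩, fun k x hx => ⟨h.2 k x hx.1, h'.2 k x hx.2⟩⟩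

theorem mem_Bd {A A' : Submodule B X} {x : X} :
    x ∈ C.Bd A A' ↔ ∃ a ∈ A, ∃ b ∈ A', C.D a + b = x := by
  simp only [Bd, Submodule.mem_sup, Submodule.mem_map, exists_exists_and_eq_and]

theorem le_Bd (A A' : Submodule B X) : A' ≤ C.Bd A A' := le_sup_right

theorem D_mem_Bd {A : Submodule B X} (A' : Submodule B X) {x : X} (hx : x ∈ A) :
    C.D x ∈ C.Bd A A' := Submodule.mem_sup_left ⟨x, hx, rfl⟩

theorem Bd_mono {A A' E E' : Submodule B X} (h : E ≤ A) (h' : E' ≤ A') : C.Bd E E' ≤ C.Bd A A' :=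
  sup_le_sup (Submodule.map_mono h) h'

theorem Z_mono (k : ℤ) {A A' E E' : Submodule B X} (h : E ≤ A) (h' : E' ≤ A') :
    C.Z k E E' ≤ C.Z k A A' := fun _ hx => ⟨⟨h hx.1.1, hx.1.2⟩, h' hx.2⟩

variable {C} in
/-- A homogeneous boundary has homogeneous pieces. -/
theorem exists_of_mem_Bd {A A' : Submodule B X} (s : C.Sub A) (s' : C.Sub A') {j k : ℤ}
    (hjk : j + 1 = k) {x : X} (hx : x ∈ C.Bd A A') (hd : C.π j x = x) :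
    ∃ a ∈ A, ∃ b ∈ A', C.π k a = a ∧ C.π j b = b ∧ C.D a + b = x := by
  obtain ⟨a, ha, b, hb, rfl⟩ := C.mem_Bd.1 hx
  refine ⟨C.π k a, s.2 k a ha, C.π j b, s'.2 j b hb, C.ππ k a, C.ππ j b, ?_⟩
  rw [← hd, map_add, C.πD, hjk]

theorem D_mem_Z {A₁ A₂ : Submodule B X} (A₃ : Submodule B X) {j k : ℤ} (hjk : j + 1 = k) {x : X}
    (hx : x ∈ C.Z k A₁ A₂) : C.D x ∈ C.Z j A₂ A₃ :=
  C.mem_Z.2 ⟨⟨hx.2, by rw [C.πD, hjk, (C.mem_Z.1 hx).1.2]⟩, by rw [C.DD]; exact zero_mem _⟩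

theorem h_self (k : ℤ) (A : Submodule B X) : C.h μ k A A = 0 :=
  μ.sz_eq_zero_of_le fun _ hx => C.le_Bd A A hx.1.1

variable {C} in
theorem Z_inf_Bd_le {A₁ A₂ : Submodule B X} (A₃ : Submodule B X) (s₁ : C.Sub A₁) (s₂ : C.Sub A₂)
    (k : ℤ) : C.Z k A₁ A₃ ⊓ C.Bd A₁ A₂ ≤ C.Z k A₂ A₃ ⊔ C.Bd A₁ A₃ := by
  rintro x ⟨hx, hb'⟩
  obtain ⟨⟨-, h2⟩, h3⟩ := C.mem_Z.1 hx
  obtain ⟨a, ha, b, hb, -, h4, rfl⟩ := exists_of_mem_Bd s₁ s₂ rfl hb' h2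
  rw [map_add, C.DD, zero_add] at h3
  rw [add_comm]
  exact Submodule.add_mem_sup (C.mem_Z.2 ⟨⟨hb, h4⟩, h3⟩) (C.D_mem_Bd _ ha)

variable {C} in
theorem Z_inf_comap_le {A₁ A₂ A₃ : Submodule B X} (s₂ : C.Sub A₂) (s₃ : C.Sub A₃)
    (h₁₂ : A₂ ≤ A₁) (k : ℤ) :
    C.Z k A₁ A₂ ⊓ (C.Bd A₂ A₃).comap C.D ≤ C.Z k A₁ A₃ ⊔ C.Bd A₁ A₂ := by
  rintro x ⟨hx, hb⟩
  obtain ⟨⟨h1, h2⟩, -⟩ := C.mem_Z.1 hx
  obtain ⟨a, ha, b, hb, h4, -, h5⟩ := exists_of_mem_Bd s₂ s₃ (sub_add_cancel k 1) hb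
    (C.D_mem_Z A₃ (sub_add_cancel k 1) hx).1.2
  rw [← sub_add_cancel x a]
  refine Submodule.add_mem_sup (C.mem_Z.2 ⟨⟨sub_mem h1 (h₁₂ ha), by rw [map_sub, h2, h4]⟩, ?_⟩)
    (C.le_Bd _ _ ha)
  rwa [map_sub, ← h5, add_sub_cancel_left]

/-- The two descriptions of the size of the connecting map. -/
theorem conn_eq {A₁ A₂ A₃ : Submodule B X} (s₁ : C.Sub A₁) (s₂ : C.Sub A₂) (s₃ : C.Sub A₃)
    (h₁₂ : A₂ ≤ A₁) (h₂₃ : A₃ ≤ A₂) {j k : ℤ} (hjk : j + 1 = k) :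
    μ.sz (C.Z j A₂ A₃ ⊓ C.Bd A₁ A₃) (C.Bd A₂ A₃) =
      μ.sz (C.Z k A₁ A₂) (C.Z k A₁ A₃ ⊔ C.Bd A₁ A₂) := by
  have h1 : μ.sz (C.Z j A₂ A₃ ⊓ C.Bd A₁ A₃) (C.Bd A₂ A₃) =
      μ.sz ((C.Z k A₁ A₂).map C.D) (C.Bd A₂ A₃) := by
    refine le_antisymm (DG_le_left μ ?_) (μ.sz_mono ?_ le_rfl)
    · rintro y ⟨hy, hb'⟩
      obtain ⟨⟨h1, h2⟩, -⟩ := C.mem_Z.1 hy
      obtain ⟨a, ha, b, hb, h4, -, rfl⟩ := exists_of_mem_Bd s₁ s₃ hjk hb' h2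
      exact Submodule.add_mem_sup
        ⟨a, C.mem_Z.2 ⟨⟨ha, h4⟩, (A₂.add_mem_iff_left (h₂₃ hb)).1 h1⟩, rfl⟩ (C.le_Bd _ _ hb)
    · rintro _ ⟨x, hx, rfl⟩
      exact ⟨C.D_mem_Z A₃ hjk hx, C.D_mem_Bd _ hx.1.1⟩
  rw [h1, μ.sz_map_eq]
  refine le_antisymm (μ.sz_mono le_rfl (sup_le (fun x hx => C.le_Bd _ _ hx.2) fun x hx => ?_))
    (DG_le_right μ (Z_inf_comap_le s₂ s₃ h₁₂ k))
  obtain ⟨a, -, b, hb, rfl⟩ := C.mem_Bd.1 hx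
  rw [Submodule.mem_comap, map_add, C.DD, zero_add]
  exact C.D_mem_Bd _ hb

/-- The long exact sequence of a triple `A₁ ⊇ A₂ ⊇ A₃`, in terms of sizes. -/
theorem les {A₁ A₂ A₃ : Submodule B X} (s₁ : C.Sub A₁) (s₂ : C.Sub A₂) (s₃ : C.Sub A₃)
    (h₁₂ : A₂ ≤ A₁) (h₂₃ : A₃ ≤ A₂) (k : ℤ) :
    C.h μ k A₁ A₃ = μ.sz (C.Z k A₂ A₃) (C.Bd A₁ A₃) + μ.sz (C.Z k A₁ A₃) (C.Bd A₁ A₂) ∧
    C.h μ k A₁ A₂ = μ.sz (C.Z k A₁ A₃) (C.Bd A₁ A₂) +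
      μ.sz (C.Z k A₁ A₂) (C.Z k A₁ A₃ ⊔ C.Bd A₁ A₂) ∧
    C.h μ (k - 1) A₂ A₃ = μ.sz (C.Z k A₁ A₂) (C.Z k A₁ A₃ ⊔ C.Bd A₁ A₂) +
      μ.sz (C.Z (k - 1) A₂ A₃) (C.Bd A₁ A₃) := by
  refine ⟨?_, μ.sz_tower_left (C.Z_mono k le_rfl h₂₃) _, ?_⟩
  · rw [h, μ.sz_tower_right _ (C.Bd_mono le_rfl h₂₃), add_comm]
    congr 1
    exact le_antisymm (DG_le_left μ (Z_inf_Bd_le A₃ s₁ s₂ k)) (μ.sz_mono
      (le_inf (C.Z_mono k h₁₂ le_rfl) fun x hx => C.le_Bd _ _ hx.1.1) le_rfl)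
  · rw [h, μ.sz_tower_right _ (C.Bd_mono h₁₂ le_rfl), add_comm,
      C.conn_eq μ s₁ s₂ s₃ h₁₂ h₂₃ (sub_add_cancel k 1)]

theorem h_le_add {A₁ A₂ A₃ : Submodule B X} (s₁ : C.Sub A₁) (s₂ : C.Sub A₂) (s₃ : C.Sub A₃)
    (h₁₂ : A₂ ≤ A₁) (h₂₃ : A₃ ≤ A₂) (k : ℤ) :
    C.h μ k A₁ A₃ ≤ C.h μ k A₂ A₃ + C.h μ k A₁ A₂ := by
  rw [(C.les μ s₁ s₂ s₃ h₁₂ h₂₃ k).1]
  exact add_le_add (μ.sz_mono le_rfl (C.Bd_mono h₁₂ le_rfl))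
    (μ.sz_mono (C.Z_mono k le_rfl h₂₃) le_rfl)

/-- Additivity of truncated Euler characteristics up to the two connecting maps at the ends. -/
theorem chi_add {A₁ A₂ A₃ : Submodule B X} (s₁ : C.Sub A₁) (s₂ : C.Sub A₂) (s₃ : C.Sub A₃)
    (h₁₂ : A₂ ≤ A₁) (h₂₃ : A₃ ≤ A₂) (f₁₂ : ∀ k, C.h μ k A₁ A₂ ≠ ⊤) (f₂₃ : ∀ k, C.h μ k A₂ A₃ ≠ ⊤)
    {lo hi : ℤ} (hlh : lo ≤ hi + 1) :
    C.chi μ lo hi A₁ A₃ = C.chi μ lo hi A₂ A₃ + C.chi μ lo hi A₁ A₂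
      - ((hi.negOnePow : ℤˣ) : ℤ) *
        (μ.sz (C.Z (hi + 1) A₁ A₂) (C.Z (hi + 1) A₁ A₃ ⊔ C.Bd A₁ A₂)).toReal
      - ((lo.negOnePow : ℤˣ) : ℤ) *
        (μ.sz (C.Z lo A₁ A₂) (C.Z lo A₁ A₃ ⊔ C.Bd A₁ A₂)).toReal := by
  rw [sub_sub, ← DG_telescope
    (fun k => (μ.sz (C.Z k A₁ A₂) (C.Z k A₁ A₃ ⊔ C.Bd A₁ A₂)).toReal) hlh, chi, chi, chi,
    ← Finset.sum_add_distrib, ← Finset.sum_sub_distrib]
  refine Finset.sum_congr rfl fun k _ => ?_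
  obtain ⟨e1, e2, -⟩ := C.les μ s₁ s₂ s₃ h₁₂ h₂₃ k
  obtain ⟨-, -, e3⟩ := C.les μ s₁ s₂ s₃ h₁₂ h₂₃ (k + 1)
  rw [add_sub_cancel_right] at e3
  obtain ⟨g1, g2⟩ := ENNReal.add_ne_top.1 (e2 ▸ f₁₂ k)
  obtain ⟨g3, g4⟩ := ENNReal.add_ne_top.1 (e3 ▸ f₂₃ k)
  rw [e1, e2, e3, ENNReal.toReal_add g4 g1, ENNReal.toReal_add g1 g2, ENNReal.toReal_add g3 g4]
  ring

/-- an almost acyclic subquotient -/
theorem h_eq_zero_of_null {A A' : Submodule B X} (hz : μ.sz A A' = 0) (k : ℤ) :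
    C.h μ k A A' = 0 :=
  le_zero_iff.1 ((μ.sz_mono (inf_le_left.trans inf_le_left) (C.le_Bd A A')).trans hz.le)

/-- transport along a linear map inducing an isomorphism of subquotient complexes, shifting the
degree by `s` -/
theorem h_transport {X' : Type} [AddCommGroup X'] [Module B X'] (C' : DG B X') (f : X →ₗ[B] X')
    {A A' : Submodule B X} {E E' : Submodule B X'} (sA : C.Sub A) (sA' : C.Sub A')
    (sE : C'.Sub E) (sE' : C'.Sub E') (hA : A' ≤ A) (hE : E' ≤ E)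
    (hmap : A.map f ⊔ E' = E) (hcomap : A ⊓ E'.comap f = A')
    (hD : ∀ x ∈ A, f (C.D x) - C'.D (f x) ∈ E') (s : ℤ)
    (hπ : ∀ k, ∀ x ∈ A, f (C.π k x) - C'.π (k + s) (f x) ∈ E') (k : ℤ) :
    C.h μ k A A' = C'.h μ (k + s) E E' ∧
      (C'.Bd E E').comap f ⊓ A = C.Bd A A' ∧
      (C.Z k A A').map f ⊔ E' = C'.Z (k + s) E E' ⊔ E' := by
  have hfA : ∀ x ∈ A, f x ∈ E := fun x hx => hmap ▸ Submodule.mem_sup_left ⟨x, hx, rfl⟩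
  have hfA' : ∀ x ∈ A', f x ∈ E' := fun x hx => (hcomap.ge hx).2
  have hlift : ∀ y ∈ E, ∃ a ∈ A, ∃ e ∈ E', f a + e = y := fun y hy => by
    obtain ⟨_, ⟨a, ha, rfl⟩, e, he, rfl⟩ := Submodule.mem_sup.1 (hmap.ge hy)
    exact ⟨a, ha, e, he, rfl⟩
  have h2 : (C'.Bd E E').comap f ⊓ A = C.Bd A A' := by
    refine le_antisymm ?_ fun x hx => ?_
    · rintro x ⟨hx, hxA⟩
      obtain ⟨y, hy, e, he, h1⟩ := C'.mem_Bd.1 hx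
      obtain ⟨a, ha, e', he', rfl⟩ := hlift y hy
      refine C.mem_Bd.2 ⟨a, ha, x - C.D a, hcomap.le ⟨sub_mem hxA (sA.1 a ha), ?_⟩, by abel⟩
      have : f (x - C.D a) = C'.D e' + e - (f (C.D a) - C'.D (f a)) := by
        rw [map_sub, ← h1, map_add]; abel
      rw [SetLike.mem_coe, Submodule.mem_comap, this]
      exact sub_mem (add_mem (sE'.1 _ he') he) (hD a ha)
    · obtain ⟨a, ha, b, hb, rfl⟩ := C.mem_Bd.1 hx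
      exact ⟨C'.mem_Bd.2 ⟨f a, hfA a ha, f (C.D a) - C'.D (f a) + f b,
        add_mem (hD a ha) (hfA' b hb), by rw [map_add]; abel⟩, add_mem (sA.1 a ha) (hA hb)⟩
  have h3 : (C.Z k A A').map f ⊔ E' = C'.Z (k + s) E E' ⊔ E' := by
    refine le_antisymm (sup_le ?_ le_sup_right) (sup_le (fun y hy => ?_) le_sup_right)
    · rintro _ ⟨x, hx, rfl⟩
      obtain ⟨⟨x1, x2⟩, x3⟩ := C.mem_Z.1 hx
      have h4 := hπ k x x1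
      rw [x2] at h4
      rw [← add_sub_cancel (C'.π (k + s) (f x)) (f x)]
      refine Submodule.add_mem_sup (C'.mem_Z.2 ⟨⟨sE.2 _ _ (hfA x x1), C'.ππ _ _⟩, ?_⟩) h4
      have : C'.D (C'.π (k + s) (f x)) =
          f (C.D x) - (f (C.D x) - C'.D (f x)) - C'.D (f x - C'.π (k + s) (f x)) := by
        rw [map_sub]; abel
      rw [this]
      exact sub_mem (sub_mem (hfA' _ x3) (hD x x1)) (sE'.1 _ h4)
    · obtain ⟨⟨y1, y2⟩, y3⟩ := C'.mem_Z.1 hy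
      obtain ⟨a, ha, e, he, rfl⟩ := hlift y y1
      have h4 : f a + e - f (C.π k a) ∈ E' := by
        have : f a + e - f (C.π k a) = C'.π (k + s) e - (f (C.π k a) - C'.π (k + s) (f a)) := by
          rw [← y2, map_add]; abel
        rw [this]
        exact sub_mem (sE'.2 _ _ he) (hπ k a ha)
      have h5 := sA.2 k a ha
      rw [← add_sub_cancel (f (C.π k a)) (f a + e)]
      refine Submodule.add_mem_sup
        ⟨_, C.mem_Z.2 ⟨⟨h5, C.ππ _ _⟩, hcomap.le ⟨sA.1 _ h5, ?_⟩⟩, rfl⟩ h4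
      have : f (C.D (C.π k a)) = f (C.D (C.π k a)) - C'.D (f (C.π k a)) + C'.D (f a + e) -
          C'.D (f a + e - f (C.π k a)) := by
        rw [map_sub]; abel
      rw [SetLike.mem_coe, Submodule.mem_comap, this]
      exact sub_mem (add_mem (hD _ h5) y3) (sE'.1 _ h4)
  refine ⟨?_, h2, h3⟩
  have h4 : C'.h μ (k + s) E E' = μ.sz ((C.Z k A A').map f) (C'.Bd E E') :=
    le_antisymm (DG_le_left μ (le_sup_left.trans (h3.ge.trans (sup_le_sup_left (C'.le_Bd E E') _))))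
      (DG_le_left μ (le_sup_left.trans (h3.le.trans (sup_le_sup_left (C'.le_Bd E E') _))))
  rw [h4, μ.sz_map_eq]
  exact le_antisymm (DG_le_right μ fun x hx => h2.le ⟨hx.2, hx.1.1.1⟩)
    (μ.sz_mono le_rfl (h2.ge.trans inf_le_left))

theorem h_second_iso {A' E : Submodule B X} (sA' : C.Sub A') (sE : C.Sub E) (k : ℤ) :
    C.h μ k E (E ⊓ A') = C.h μ k (E ⊔ A') A' ∧
      C.Z k E (E ⊓ A') ⊔ A' = C.Z k (E ⊔ A') A' ⊔ A' := by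
  have := C.h_transport μ C LinearMap.id sE (sE.inf sA') (sE.sup sA') sA' inf_le_left le_sup_right
    (by simp) (by simp) (by simp) 0 (by simp) k
  simpa using And.intro this.1 this.2.2

/-- invariance under almost isomorphic inclusions of subquotients -/
theorem h_eq_of_null {A A' E E' : Submodule B X} (sA : C.Sub A) (sA' : C.Sub A') (sE : C.Sub E)
    (sE' : C.Sub E') (hA : A' ≤ A) (hE : E' ≤ E) (hEA : E ≤ A) (hEA' : E' ≤ A')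
    (h₁ : μ.sz A (E ⊔ A') = 0) (h₂ : μ.sz (E ⊓ A') E' = 0) (k : ℤ) :
    C.h μ k A A' = C.h μ k E E' := by
  obtain ⟨a1, a2, -⟩ := C.les μ sA (sE.sup sA') sA' (sup_le hEA hA) le_sup_right k
  obtain ⟨-, a3, a4⟩ := C.les μ sA (sE.sup sA') sA' (sup_le hEA hA) le_sup_right (k + 1)
  obtain ⟨b1, b2, b3⟩ := C.les μ sE (sE.inf sA') sE' inf_le_left (le_inf hE hEA') k
  obtain ⟨-, -, b4⟩ := C.les μ sE (sE.inf sA') sE' inf_le_left (le_inf hE hEA') (k + 1)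
  rw [C.h_eq_zero_of_null μ h₁, eq_comm, add_eq_zero] at a2 a3
  rw [C.h_eq_zero_of_null μ h₂, eq_comm, add_eq_zero] at b3 b4
  rw [add_sub_cancel_right] at a4 b4
  rw [a1, a2.1, add_zero, b1, b4.2, zero_add, ← zero_add (μ.sz _ (C.Bd A A')), ← a3.2, ← a4,
    ← (C.h_second_iso μ sA' sE k).1, b2, b3.1, add_zero]

/-- cycles come from the smaller subquotient, up to boundaries and null sets -/
theorem sz_Z_of_null {A A' E E' : Submodule B X} (sA : C.Sub A) (sA' : C.Sub A') (sE : C.Sub E)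
    (sE' : C.Sub E') (hA : A' ≤ A) (hE : E' ≤ E) (hEA : E ≤ A) (hEA' : E' ≤ A')
    (h₁ : μ.sz A (E ⊔ A') = 0) (h₂ : μ.sz (E ⊓ A') E' = 0) (k : ℤ) :
    μ.sz (C.Z k A A') (C.Z k E E' ⊔ C.Bd A A') = 0 := by
  obtain ⟨-, a2, -⟩ := C.les μ sA (sE.sup sA') sA' (sup_le hEA hA) le_sup_right k
  obtain ⟨-, -, b3⟩ := C.les μ sE (sE.inf sA') sE' inf_le_left (le_inf hE hEA') k
  rw [C.h_eq_zero_of_null μ h₁, eq_comm, add_eq_zero] at a2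
  rw [C.h_eq_zero_of_null μ h₂, eq_comm, add_eq_zero] at b3
  refine DG_trans μ (le_zero_iff.1 ((DG_le_right μ (Z_inf_Bd_le A' sA (sE.sup sA') k)).trans
    a2.1.le)) (le_zero_iff.1 ?_)
  refine le_trans (DG_le_left μ (P' := C.Z k E (E ⊓ A')) (sup_le ?_ (le_sup_of_le_right le_sup_right)))
    ((μ.sz_mono le_rfl (sup_le_sup_left (C.Bd_mono hEA inf_le_right) _)).trans b3.1.le)
  exact le_sup_left.trans ((C.h_second_iso μ sA' sE k).2.ge.trans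
    (sup_le_sup_left (le_sup_of_le_right (C.le_Bd A A')) _))

/-- (Bot): for `A₀ ⊇ A₁ ⊇ A₂ ⊇ A₃`, if `H(A₁/A₃) → H(A₀/A₂)` is null and `H_{k-1}(A₂/A₃)` is
null, then `H_k(A₁/A₂) → H_k(A₀/A₂)` is null. -/
theorem bot_lemma {A₀ A₁ A₂ A₃ : Submodule B X} (s₀ : C.Sub A₀) (s₁ : C.Sub A₁) (s₂ : C.Sub A₂)
    (s₃ : C.Sub A₃) (h₀₁ : A₁ ≤ A₀) (h₁₂ : A₂ ≤ A₁) (h₂₃ : A₃ ≤ A₂) (k : ℤ)
    (hN : μ.sz (C.Z k A₁ A₃) (C.Bd A₀ A₂) = 0) (hv : C.h μ (k - 1) A₂ A₃ = 0) :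
    μ.sz (C.Z k A₁ A₂) (C.Bd A₀ A₂) = 0 := by
  obtain ⟨-, -, b3⟩ := C.les μ s₁ s₂ s₃ h₁₂ h₂₃ k
  rw [hv, eq_comm, add_eq_zero] at b3
  exact DG_trans μ b3.1 (le_zero_iff.1
    ((DG_le_left μ (sup_le_sup_left (C.Bd_mono h₀₁ le_rfl) _)).trans hN.le))

/-- (Top): for `A₀ ⊇ A₁ ⊇ A₂ ⊇ A₃`, if `H(A₁/A₃) → H(A₀/A₂)` is null and `H_{k+1}(A₀/A₁)` is
null, then `H_k(A₁/A₃) → H_k(A₁/A₂)` is null. -/
theorem top_lemma {A₀ A₁ A₂ A₃ : Submodule B X} (s₀ : C.Sub A₀) (s₁ : C.Sub A₁) (s₂ : C.Sub A₂)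
    (s₃ : C.Sub A₃) (h₀₁ : A₁ ≤ A₀) (h₁₂ : A₂ ≤ A₁) (h₂₃ : A₃ ≤ A₂) (k : ℤ)
    (hN : μ.sz (C.Z k A₁ A₃) (C.Bd A₀ A₂) = 0) (hv : C.h μ (k + 1) A₀ A₁ = 0) :
    μ.sz (C.Z k A₁ A₃) (C.Bd A₁ A₂) = 0 := by
  obtain ⟨-, b2, -⟩ := C.les μ s₀ s₁ s₂ h₀₁ h₁₂ (k + 1)
  rw [hv, eq_comm, add_eq_zero, ← C.conn_eq μ s₀ s₁ s₂ h₀₁ h₁₂ rfl] at b2
  rw [μ.sz_tower_right _ (C.Bd_mono h₀₁ le_rfl), hN, zero_add]
  exact le_zero_iff.1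
    ((μ.sz_mono (inf_le_inf_right _ (C.Z_mono k le_rfl h₂₃)) le_rfl).trans b2.2.le)

/-- The product of two differential graded modules. -/
def prod {X' : Type} [AddCommGroup X'] [Module B X'] (C' : DG B X') : DG B (X × X') where
  D := C.D.prodMap C'.D
  π k := (C.π k).prodMap (C'.π k)
  DD x := Prod.ext (C.DD x.1) (C'.DD x.2)
  πD k x := Prod.ext (C.πD k x.1) (C'.πD k x.2)
  ππ k x := Prod.ext (C.ππ k x.1) (C'.ππ k x.2)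
  ππ' k j h x := Prod.ext (C.ππ' k j h x.1) (C'.ππ' k j h x.2)

theorem sub_prod {X' : Type} [AddCommGroup X'] [Module B X'] (C' : DG B X')
    {A : Submodule B X} {E : Submodule B X'} (sA : C.Sub A) (sE : C'.Sub E) :
    (C.prod C').Sub (A.prod E) :=
  ⟨fun x hx => ⟨sA.1 _ hx.1, sE.1 _ hx.2⟩, fun k x hx => ⟨sA.2 k _ hx.1, sE.2 k _ hx.2⟩⟩

theorem h_prod {X' : Type} [AddCommGroup X'] [Module B X'] (C' : DG B X')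
    (A A' : Submodule B X) (E E' : Submodule B X') (k : ℤ) :
    (C.prod C').h μ k (A.prod E) (A'.prod E') = C.h μ k A A' + C'.h μ k E E' := by
  rw [h, h, h, ← DG_sz_prod]
  congr 1
  · ext x
    exact ⟨fun hx => ⟨⟨⟨hx.1.1.1, congrArg Prod.fst hx.1.2⟩, hx.2.1⟩,
        ⟨⟨hx.1.1.2, congrArg Prod.snd hx.1.2⟩, hx.2.2⟩⟩,
      fun hx => ⟨⟨⟨hx.1.1.1, hx.2.1.1⟩, Prod.ext hx.1.1.2 hx.2.1.2⟩, hx.1.2, hx.2.2⟩⟩
  · rw [Bd, Bd, Bd, ← Submodule.prod_sup_prod]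
    congr 1
    exact LinearMap.prodMap_map_prod _ _ _ _

/-- A filtered short exact sequence `X₁ → X₂ → X₃` of windows `U ⊇ M ⊇ L`.  If `H_1(U₃/L₃)` comes
from `H_1(M₃/L₃)` and `H_0(M₁/L₁) → H_0(U₁/L₁)` is null, the connecting map
`H_1(U₃/L₃) → H_0(U₁/L₁)` is null and the truncated Euler characteristic is additive. -/
theorem chi_fses {X₁ X₂ X₃ : Type} [AddCommGroup X₁] [Module B X₁] [AddCommGroup X₂]
    [Module B X₂] [AddCommGroup X₃] [Module B X₃] (C₁ : DG B X₁) (C₂ : DG B X₂) (C₃ : DG B X₃)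
    (i : X₁ →ₗ[B] X₂) (p : X₂ →ₗ[B] X₃)
    (hiD : ∀ x, i (C₁.D x) = C₂.D (i x)) (hpD : ∀ x, p (C₂.D x) = C₃.D (p x))
    (hiπ : ∀ k x, i (C₁.π k x) = C₂.π k (i x)) (hpπ : ∀ k x, p (C₂.π k x) = C₃.π k (p x))
    (hpi : ∀ x, p (i x) = 0)
    {U₁ M₁ L₁ : Submodule B X₁} {U₂ M₂ L₂ : Submodule B X₂} {U₃ M₃ L₃ : Submodule B X₃}
    (sU₁ : C₁.Sub U₁) (sM₁ : C₁.Sub M₁) (sL₁ : C₁.Sub L₁)
    (sU₂ : C₂.Sub U₂) (sM₂ : C₂.Sub M₂) (sL₂ : C₂.Sub L₂)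
    (sU₃ : C₃.Sub U₃) (sM₃ : C₃.Sub M₃) (sL₃ : C₃.Sub L₃)
    (a₁ : M₁ ≤ U₁) (b₁ : L₁ ≤ M₁) (a₂ : M₂ ≤ U₂) (b₂ : L₂ ≤ M₂) (a₃ : M₃ ≤ U₃) (b₃ : L₃ ≤ M₃)
    (hL₂ : L₂.map p ≤ L₃)
    (eU₁ : U₁ ⊓ L₂.comap i = L₁) (eU₂ : U₂ ⊓ L₃.comap p = U₁.map i ⊔ L₂)
    (eU₃ : U₂.map p ⊔ L₃ = U₃)
    (eM₂ : M₂ ⊓ L₃.comap p = M₁.map i ⊔ L₂) (eM₃ : M₂.map p ⊔ L₃ = M₃)
    (htop : μ.sz (C₃.Z 1 U₃ L₃) (C₃.Z 1 M₃ L₃ ⊔ C₃.Bd U₃ L₃) = 0)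
    (hbot : μ.sz (C₁.Z 0 M₁ L₁) (C₁.Bd U₁ L₁) = 0)
    (f₁ : ∀ k, C₁.h μ k U₁ L₁ ≠ ⊤) (f₃ : ∀ k, C₃.h μ k U₃ L₃ ≠ ⊤)
    {lo : ℤ} (hlo : lo ≤ 1) (hz : C₁.h μ (lo - 1) U₁ L₁ = 0) :
    C₂.chi μ lo 0 U₂ L₂ = C₁.chi μ lo 0 U₁ L₁ + C₃.chi μ lo 0 U₃ L₃ := by
  have smap : ∀ {P : Submodule B X₁}, C₁.Sub P → C₂.Sub (P.map i) := fun {P} sP =>
    ⟨by rintro _ ⟨x, hx, rfl⟩; exact ⟨_, sP.1 x hx, hiD x⟩,
      by rintro k _ ⟨x, hx, rfl⟩; exact ⟨_, sP.2 k x hx, hiπ k x⟩⟩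
  have sA := (smap sU₁).sup sL₂
  have sA' := (smap sM₁).sup sL₂
  have hA : U₁.map i ⊔ L₂ ≤ U₂ := eU₂.ge.trans inf_le_left
  have hA' : M₁.map i ⊔ L₂ ≤ M₂ := eM₂.ge.trans inf_le_left
  have eM₁ : M₁ ⊓ L₂.comap i = L₁ :=
    le_antisymm ((inf_le_inf_right _ a₁).trans eU₁.le) (le_inf b₁ (eU₁.ge.trans inf_le_right))
  have tU := fun k => C₁.h_transport μ C₂ i sU₁ sL₁ sA sL₂ (b₁.trans a₁) le_sup_right rfl eU₁
    (by simp [hiD]) 0 (by simp [hiπ]) k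
  have tM := fun k => C₁.h_transport μ C₂ i sM₁ sL₁ sA' sL₂ b₁ le_sup_right rfl eM₁
    (by simp [hiD]) 0 (by simp [hiπ]) k
  have pU := fun k => C₂.h_transport μ C₃ p sU₂ sA sU₃ sL₃ hA (b₃.trans a₃) eU₃ eU₂
    (by simp [hpD]) 0 (by simp [hpπ]) k
  have pM := fun k => C₂.h_transport μ C₃ p sM₂ sA' sM₃ sL₃ hA' b₃ eM₃ eM₂
    (by simp [hpD]) 0 (by simp [hpπ]) k
  simp only [add_zero] at tU tM pU pM
  have hmono : C₂.Z 1 M₂ (M₁.map i ⊔ L₂) ≤ C₂.Z 1 U₂ (U₁.map i ⊔ L₂) :=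
    C₂.Z_mono 1 a₂ (sup_le_sup_right (Submodule.map_mono a₁) _)
  have step1 : μ.sz (C₂.Z 1 U₂ (U₁.map i ⊔ L₂))
      (C₂.Z 1 M₂ (M₁.map i ⊔ L₂) ⊔ C₂.Bd U₂ (U₁.map i ⊔ L₂)) = 0 := by
    refine le_zero_iff.1 (le_trans (DG_le_right μ
      (Q' := (C₃.Z 1 M₃ L₃ ⊔ C₃.Bd U₃ L₃).comap p) ?_) ?_)
    · rintro x ⟨hx, hp⟩
      obtain ⟨z, hz, b, hb, h1⟩ := Submodule.mem_sup.1 hp
      obtain ⟨_, ⟨y, hy, rfl⟩, l, hl, rfl⟩ :=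
        Submodule.mem_sup.1 ((pM 1).2.2.ge (Submodule.mem_sup_left hz))
      rw [← add_sub_cancel y x]
      refine Submodule.add_mem_sup hy ((pU 1).2.1.le ⟨?_, sub_mem hx.1.1 (a₂ hy.1.1)⟩)
      rw [SetLike.mem_coe, Submodule.mem_comap, map_sub, ← h1, add_assoc, add_sub_cancel_left]
      exact add_mem (C₃.le_Bd _ _ hl) hb
    · rw [← μ.sz_map_eq]
      exact (DG_le_left μ (le_sup_left.trans ((pU 1).2.2.le.trans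
        (sup_le_sup_left (le_sup_of_le_right (C₃.le_Bd _ _)) _)))).trans htop.le
  have step2 : μ.sz (C₂.Z 1 M₂ (M₁.map i ⊔ L₂))
      (C₂.Z 1 U₂ L₂ ⊔ C₂.Bd U₂ (U₁.map i ⊔ L₂)) = 0 := by
    refine le_zero_iff.1 (le_trans (DG_le_right μ
      ((inf_le_inf_right _ hmono).trans (Z_inf_comap_le sA sL₂ hA 1))) ?_)
    rw [← μ.sz_map_eq]
    refine le_trans (DG_le_left μ (P' := (C₁.Z 0 M₁ L₁).map i) ?_) ?_
    · rintro _ ⟨y, hy, rfl⟩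
      exact sup_le_sup_left (C₂.le_Bd _ _) _
        ((tM 0).2.2.ge (Submodule.mem_sup_left (C₂.D_mem_Z L₂ (zero_add 1) hy)))
    · rw [μ.sz_map_eq]
      exact (μ.sz_mono le_rfl ((tU 0).2.1.ge.trans inf_le_left)).trans hbot.le
  have e1 := DG_trans μ step1 (le_zero_iff.1
    ((DG_le_left μ (sup_le_sup_left le_sup_right _)).trans step2.le))
  obtain ⟨-, -, e2⟩ := C₂.les μ sU₂ sA sL₂ hA le_sup_right lo
  rw [← (tU _).1, hz, eq_comm, add_eq_zero] at e2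
  rw [C₂.chi_add μ sU₂ sA sL₂ hA le_sup_right (fun k => (pU k).1 ▸ f₃ k)
    (fun k => (tU k).1 ▸ f₁ k) (by omega), zero_add, e1, e2.1]
  simp only [chi, (tU _).1, (pU _).1, ENNReal.toReal_zero, mul_zero, sub_zero]

end DG

end Crest.Agent.R183
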