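import Crest.Agent.R183.CoreCol
import Crest.Agent.R183.DG

/-!
# The total complex and the Čech complex as differential graded modules
-/

set_option autoImplicit false

open scoped ENNReal

namespace Crest.Agent.R183

variable {D : Type} [CommRing D] {m : ℕ}

theorem coreTot_cech_eq_sum {M : Type} [AddCommGroup M] [Module D M] (x : Finset (Fin m) → M) :
    cech D m M x = ∑ k : Fin m, kh D M k x := by
  rw [cech, LinearMap.sum_apply]

theorem coreTot_cech_apply {M : Type} [AddCommGroup M] [Module D M] (x : Finset (Fin m) → M)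
    (I : Finset (Fin m)) : cech D m M x I = ∑ k ∈ I, ksgn k I • x (I.erase k) := by
  rw [coreTot_cech_eq_sum, Finset.sum_apply]
  simp only [kh_apply]
  rw [Finset.sum_ite_mem, Finset.univ_inter]

theorem coreTot_cech_cech {M : Type} [AddCommGroup M] [Module D M] (x : Finset (Fin m) → M) :
    cech D m M (cech D m M x) = 0 := by
  have e : cech D m M (cech D m M x) = ∑ i : Fin m, ∑ j : Fin m, kh D M i (kh D M j x) := by
    rw [coreTot_cech_eq_sum]
    refine Finset.sum_congr rfl fun i _ => ?_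
    rw [coreTot_cech_eq_sum, map_sum]
  rw [e, ← Finset.sum_product']
  refine Finset.sum_ninvolution Prod.swap (fun p => ?_) (fun p hp h => hp ?_)
    (fun p => by simp) Prod.swap_swap
  · rw [Prod.fst_swap, Prod.snd_swap, kh_kh_add]
  · have h' : p.2 = p.1 := congrArg Prod.fst h
    rw [h', kh_kh]

theorem coreTot_colD_apply (y : Fin (m + 1) → D) (x : XX D m) (I : Finset (Fin m)) :
    colD y x I = (-1 : ℤ) ^ I.card • kd y (LL D m) (x I) := rfl

theorem totD_apply (y : Fin (m + 1) → D) (x : XX D m) (I : Finset (Fin m)) :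
    totD y x I = (-1 : ℤ) ^ I.card • kd y (LL D m) (x I) +
      ∑ k ∈ I, ksgn k I • x (I.erase k) := by
  rw [totD, LinearMap.add_apply, Pi.add_apply, coreTot_colD_apply, coreTot_cech_apply]

theorem coreTot_colD_colD (y : Fin (m + 1) → D) (x : XX D m) : colD y (colD y x) = 0 := by
  funext I
  rw [coreTot_colD_apply, coreTot_colD_apply, map_zsmul, kd_kd, smul_zero, smul_zero]
  rfl

theorem coreTot_colD_cech_add (y : Fin (m + 1) → D) (x : XX D m) :
    colD y (cech D m _ x) + cech D m _ (colD y x) = 0 := by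
  funext I
  rw [Pi.add_apply, coreTot_colD_apply, coreTot_cech_apply, coreTot_cech_apply, map_sum, Finset.smul_sum,
    ← Finset.sum_add_distrib]
  refine Finset.sum_eq_zero fun k hk => ?_
  rw [coreTot_colD_apply, map_zsmul, smul_smul, smul_smul, ← add_smul, ← Finset.card_erase_add_one hk,
    pow_succ]
  have : (-1 : ℤ) ^ (I.erase k).card * -1 * ksgn k I + ksgn k I * (-1) ^ (I.erase k).card = 0 := by
    ring
  rw [this, zero_smul]

theorem coreTot_totD_totD (y : Fin (m + 1) → D) (x : XX D m) : totD y (totD y x) = 0 := by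
  have := coreTot_colD_cech_add y x
  simp only [totD, LinearMap.add_apply, map_add, coreTot_colD_colD, coreTot_cech_cech, zero_add, add_zero]
  rw [add_comm]
  exact this

theorem coreTot_totπ_apply (k : ℤ) (x : XX D m) (I : Finset (Fin m)) (S : Finset (Fin (m + 1))) :
    totπ D m k x I S = if (S.card : ℤ) - I.card = k then x I S else 0 := rfl

theorem coreTot_totπ_totD (y : Fin (m + 1) → D) (k : ℤ) (x : XX D m) :
    totπ D m k (totD y x) = totD y (totπ D m (k + 1) x) := by
  funext I S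
  have h1 : ∀ i ∈ Sᶜ, totπ D m (k + 1) x I (insert i S) =
      if (S.card : ℤ) - I.card = k then x I (insert i S) else 0 := by
    intro i hi
    rw [coreTot_totπ_apply, Finset.card_insert_of_notMem (Finset.mem_compl.1 hi)]
    refine if_congr ?_ rfl rfl
    push_cast
    omega
  have h2 : ∀ j ∈ I, totπ D m (k + 1) x (I.erase j) S =
      if (S.card : ℤ) - I.card = k then x (I.erase j) S else 0 := by
    intro j hj
    rw [coreTot_totπ_apply, ← Finset.card_erase_add_one hj]
    refine if_congr ?_ rfl rfl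
    push_cast
    omega
  rw [coreTot_totπ_apply, totD_apply, totD_apply]
  simp only [Pi.add_apply, Pi.smul_apply, Finset.sum_apply, kd_apply]
  split_ifs with h
  · congr 1
    · congr 1
      exact Finset.sum_congr rfl fun i hi => by rw [h1 i hi, if_pos h]
    · exact Finset.sum_congr rfl fun j hj => by rw [h2 j hj, if_pos h]
  · rw [Finset.sum_eq_zero fun i hi => by rw [h1 i hi, if_neg h, smul_zero, smul_zero],
      Finset.sum_eq_zero fun j hj => by rw [h2 j hj, if_neg h, smul_zero], smul_zero, add_zero]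

/-- the total complex -/
noncomputable def totDG (y : Fin (m + 1) → D) : DG D (XX D m) where
  D := totD y
  π := totπ D m
  DD := coreTot_totD_totD y
  πD := coreTot_totπ_totD y
  ππ := by
    intro k x
    funext I S
    simp only [coreTot_totπ_apply]
    split_ifs <;> rfl
  ππ' := by
    intro k j hkj x
    funext I S
    simp only [coreTot_totπ_apply]
    split_ifs with h h'
    · exact absurd (h.symm.trans h') hkj
    · rfl
    · rfl

variable (D m) in
/-- projection to Čech degree `k = -#I` -/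
noncomputable def cechπ (k : ℤ) : XX D m →ₗ[D] XX D m where
  toFun x := fun I => if -(I.card : ℤ) = k then x I else 0
  map_add' x x' := by
    funext I
    by_cases h : -(I.card : ℤ) = k <;> simp [h]
  map_smul' c x := by
    funext I
    by_cases h : -(I.card : ℤ) = k <;> simp [h]

theorem coreTot_cechπ_apply (k : ℤ) (x : XX D m) (I : Finset (Fin m)) :
    cechπ D m k x I = if -(I.card : ℤ) = k then x I else 0 := rfl

variable (D m) in
/-- the Čech complex -/
noncomputable def cechDG : DG D (XX D m) where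
  D := cech D m (Finset (Fin (m + 1)) → LL D m)
  π := cechπ D m
  DD := coreTot_cech_cech
  πD := by
    intro k x
    funext I
    have h2 : ∀ j ∈ I, cechπ D m (k + 1) x (I.erase j) =
        if -(I.card : ℤ) = k then x (I.erase j) else 0 := by
      intro j hj
      rw [coreTot_cechπ_apply, ← Finset.card_erase_add_one hj]
      refine if_congr ?_ rfl rfl
      push_cast
      omega
    rw [coreTot_cechπ_apply, coreTot_cech_apply, coreTot_cech_apply]
    split_ifs with h
    · exact Finset.sum_congr rfl fun j hj => by rw [h2 j hj, if_pos h]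
    · exact (Finset.sum_eq_zero fun j hj => by rw [h2 j hj, if_neg h, smul_zero]).symm
  ππ := by
    intro k x
    funext I
    simp only [coreTot_cechπ_apply]
    split_ifs <;> rfl
  ππ' := by
    intro k j hkj x
    funext I
    simp only [coreTot_cechπ_apply]
    split_ifs with h h'
    · exact absurd (h.symm.trans h') hkj
    · rfl
    · rfl

/-- a monotone family of columns is a subcomplex of the Čech complex -/
theorem coreTot_sub_cech_pi {R : Finset (Fin m) → Submodule D (Finset (Fin (m + 1)) → LL D m)}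
    (hR : Monotone R) : (cechDG D m).Sub (Submodule.pi Set.univ R) := by
  refine ⟨fun x hx I _ => ?_, fun k x hx I _ => ?_⟩
  · show cech D m _ x I ∈ R I
    rw [coreTot_cech_apply]
    exact Submodule.sum_mem _ fun j _ => (R I).toAddSubgroup.zsmul_mem
      (hR (Finset.erase_subset j I) (hx _ trivial)) _
  · show cechπ D m k x I ∈ R I
    rw [coreTot_cechπ_apply]
    split_ifs
    · exact hx I trivial
    · exact zero_mem _

theorem coreTot_KK_mono {ι M : Type} [AddCommGroup M] [Module D M] {P P' : Submodule D M}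
    (h : P ≤ P') : KK ι P ≤ KK ι P' := fun _ hx S _ => h (hx S trivial)

/-- columnwise Koszul cycles of degree `i` of `P I / P' I` -/
noncomputable def ZH (y : Fin (m + 1) → D) (P P' : Finset (Fin m) → Submodule D (LL D m))
    (i : ℕ) : Submodule D (XX D m) :=
  Submodule.pi Set.univ fun I => LinearMap.eqLocus (kπ D (LL D m) i) LinearMap.id ⊓
    KK (Fin (m + 1)) (P I) ⊓ (KK (Fin (m + 1)) (P' I)).comap (kd y (LL D m))

/-- columnwise Koszul boundaries of degree `i` of `P I / P' I` -/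
noncomputable def BH (y : Fin (m + 1) → D) (P P' : Finset (Fin m) → Submodule D (LL D m))
    (i : ℕ) : Submodule D (XX D m) :=
  Submodule.pi Set.univ fun I => LinearMap.eqLocus (kπ D (LL D m) i) LinearMap.id ⊓
    ((KK (Fin (m + 1)) (P I)).map (kd y (LL D m)) ⊔ KK (Fin (m + 1)) (P' I))

theorem sub_ZH (y : Fin (m + 1) → D) {P P' : Finset (Fin m) → Submodule D (LL D m)}
    (hP : Monotone P) (hP' : Monotone P') (i : ℕ) : (cechDG D m).Sub (ZH y P P' i) :=
  coreTot_sub_cech_pi fun _ _ h => inf_le_inf (inf_le_inf le_rfl (coreTot_KK_mono (hP h)))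
    (Submodule.comap_mono (coreTot_KK_mono (hP' h)))

theorem sub_BH (y : Fin (m + 1) → D) {P P' : Finset (Fin m) → Submodule D (LL D m)}
    (hP : Monotone P) (hP' : Monotone P') (i : ℕ) : (cechDG D m).Sub (BH y P P' i) :=
  coreTot_sub_cech_pi fun _ _ h => inf_le_inf le_rfl
    (sup_le_sup (Submodule.map_mono (coreTot_KK_mono (hP h))) (coreTot_KK_mono (hP' h)))

theorem BH_le_ZH (y : Fin (m + 1) → D) {P P' : Finset (Fin m) → Submodule D (LL D m)}
    (h : ∀ I, P' I ≤ P I) (i : ℕ) : BH y P P' i ≤ ZH y P P' i := by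
  intro x hx I _
  obtain ⟨h1, h2⟩ := hx I trivial
  obtain ⟨_, ⟨a, ha, rfl⟩, b, hb, hab⟩ := Submodule.mem_sup.1 h2
  refine ⟨⟨h1, ?_⟩, ?_⟩
  · rw [← hab]
    exact add_mem (kd_mem_KK y ha) (coreTot_KK_mono (h I) hb)
  · rw [← hab]
    show kd y (LL D m) (kd y (LL D m) a + b) ∈ KK (Fin (m + 1)) (P' I)
    rw [map_add, kd_kd, zero_add]
    exact kd_mem_KK y hb

variable (z y : Fin (m + 1) → D) (𝔪 : Ideal D) (q : ℕ)

theorem sub_GG (α : Fin m → ℤ) (u₀ : ℤ) (j : ℕ → ℤ) : (totDG y).Sub (GG z y 𝔪 q α u₀ j) := by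
  refine ⟨fun x hx I S => ?_, fun k x hx I S => ?_⟩
  · show totD y x I S ∈ _ ∧ kd y (LL D m) (totD y x I) S ∈ _
    rw [totD_apply, map_add, map_zsmul, kd_kd, smul_zero, zero_add, map_sum]
    simp only [Pi.add_apply, Pi.smul_apply, Finset.sum_apply, map_zsmul]
    refine ⟨add_mem (zsmul_mem (hx I S).2 _) (Submodule.sum_mem _ fun k _ => zsmul_mem ?_ _),
      Submodule.sum_mem _ fun k _ => zsmul_mem ?_ _⟩
    · exact Vt_mono_col z 𝔪 q (Finset.erase_subset k I) α u₀ _ (hx _ S).1
    · exact Vt_mono_col z 𝔪 q (Finset.erase_subset k I) α u₀ _ (hx _ S).2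
  · show totπ D m k x I S ∈ _ ∧ kd y (LL D m) (totπ D m k x I) S ∈ _
    have e : kd y (LL D m) (totπ D m k x I) S =
        if (S.card : ℤ) + 1 - I.card = k then kd y (LL D m) (x I) S else 0 := by
      have h1 : ∀ i ∈ Sᶜ, totπ D m k x I (insert i S) =
          if (S.card : ℤ) + 1 - I.card = k then x I (insert i S) else 0 := by
        intro i hi
        rw [coreTot_totπ_apply, Finset.card_insert_of_notMem (Finset.mem_compl.1 hi)]
        push_cast
        rfl
      rw [kd_apply, kd_apply, Finset.sum_congr rfl fun i hi => by rw [h1 i hi]]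
      split_ifs <;> simp
    rw [e, coreTot_totπ_apply]
    constructor <;> split_ifs
    · exact (hx I S).1
    · exact zero_mem _
    · exact (hx I S).2
    · exact zero_mem _

theorem GG_anti (α : Fin m → ℤ) (u₀ : ℤ) {j j' : ℕ → ℤ} (h : ∀ i ≤ m + 1, j i ≤ j' i) :
    GG z y 𝔪 q α u₀ j' ≤ GG z y 𝔪 q α u₀ j := by
  intro x hx I S
  have hS : S.card ≤ m + 1 := by simpa using Finset.card_le_univ S
  exact ⟨Vt_anti z 𝔪 q I α u₀ (h _ hS) (hx I S).1, Vt_anti z 𝔪 q I α u₀ (h _ hS) (hx I S).2⟩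

theorem GG_const (α : Fin m → ℤ) (u₀ l : ℤ) :
    GG z y 𝔪 q α u₀ (fun _ => l) = WW z 𝔪 q α u₀ l := by
  ext x
  exact ⟨fun hx I _ S _ => (hx I S).1,
    fun hx I S => ⟨hx I trivial S trivial, kd_mem_KK y (hx I trivial) S trivial⟩⟩

theorem sub_WW (α : Fin m → ℤ) (u₀ l : ℤ) : (totDG y).Sub (WW z 𝔪 q α u₀ l) := by
  rw [← GG_const z y]
  exact sub_GG z y 𝔪 q α u₀ _

theorem WW_anti (α : Fin m → ℤ) (u₀ : ℤ) : Antitone (WW z 𝔪 q α u₀) :=
  fun _ _ h _ hx I _ S _ => Vt_anti z 𝔪 q I α u₀ h (hx I trivial S trivial)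

namespace CoreTotAux

variable {ι : Type} [Fintype ι] [LinearOrder ι]

variable (D ι) in
/-- homogeneous elements of the Koszul complex -/
abbrev Dg (i : ℕ) : Submodule D (Finset ι → D) := LinearMap.eqLocus (kπ D D i) LinearMap.id

omit [Fintype ι] [LinearOrder ι] in
theorem mem_Dg {i : ℕ} {x : Finset ι → D} : x ∈ Dg D ι i ↔ kπ D D i x = x := Iff.rfl

theorem Dg_eq_pi (i : ℕ) :
    Dg D ι i = Submodule.pi Set.univ fun S : Finset ι => if S.card = i then ⊤ else ⊥ := by
  ext x
  rw [mem_Dg]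
  constructor
  · intro h S _
    show x S ∈ (if S.card = i then ⊤ else ⊥ : Submodule D D)
    split_ifs with hS
    · trivial
    · rw [← h, kπ_apply, if_neg hS]
      exact zero_mem _
  · intro h
    funext S
    have : x S ∈ (if S.card = i then ⊤ else ⊥ : Submodule D D) := h S trivial
    rw [kπ_apply]
    split_ifs at this ⊢ with hS
    · rfl
    · exact ((Submodule.mem_bot D).1 this).symm

theorem sz_Dg (μ : LF D) (J : Ideal D) (i : ℕ) :
    μ.sz (Dg D ι i) (KK ι J) = ((Fintype.card ι).choose i : ℝ≥0∞) * μ.val (D ⧸ J) := by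
  rw [Dg_eq_pi, μ.sz_pi]
  have h : ∀ S : Finset ι, μ.sz (if S.card = i then ⊤ else ⊥ : Submodule D D) J =
      if S.card = i then μ.val (D ⧸ J) else 0 := by
    intro S
    split_ifs
    · exact μ.sz_top J
    · exact μ.sz_eq_zero_of_le bot_le
  simp only [h]
  rw [← Finset.sum_filter, Finset.sum_const, nsmul_eq_mul, ← Finset.card_univ,
    ← Finset.card_powersetCard, Finset.powersetCard_eq_filter, Finset.powerset_univ]

theorem sz_split (μ : LF D) (w : ι → D) (J : Ideal D) (i : ℕ) :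
    μ.sz (Dg D ι i) (KK ι J) = μ.sz ((Dg D ι i).map (kd w D)) (KK ι J) +
      (μ.sz (Dg D ι i ⊓ (KK ι J).comap (kd w D)) (LinearMap.range (kd w D) ⊔ KK ι J) +
        μ.sz ((Dg D ι (i + 1)).map (kd w D)) (KK ι J)) := by
  rw [μ.sz_tower_right (Dg D ι i) (Q' := (KK ι J).comap (kd w D)) fun x hx => kd_mem_KK w hx,
    μ.sz_map_eq, μ.sz_tower_right (Dg D ι i ⊓ (KK ι J).comap (kd w D))
      (Q' := LinearMap.range (kd w D) ⊔ KK ι J) le_sup_right]
  congr 2
  refine le_antisymm (DG_le_left μ ?_) (μ.sz_mono ?_ le_rfl)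
  · rintro x ⟨⟨h1, -⟩, h2⟩
    obtain ⟨_, ⟨a, rfl⟩, b, hb, hab⟩ := Submodule.mem_sup.1 h2
    have h3 : x = kd w D (kπ D D (i + 1) a) + kπ D D i b := by
      rw [← kπ_kd, ← map_add, hab]
      exact (mem_Dg.1 h1).symm
    rw [h3]
    exact Submodule.add_mem_sup ⟨_, mem_Dg.2 (kπ_kπ _ a), rfl⟩ (kπ_mem_KK i hb)
  · rintro _ ⟨a, ha, rfl⟩
    refine ⟨⟨mem_Dg.2 ?_, ?_⟩, Submodule.mem_sup_left ⟨a, rfl⟩⟩
    · rw [kπ_kd, mem_Dg.1 ha]
    · show kd w D (kd w D a) ∈ KK ι J
      rw [kd_kd]
      exact zero_mem _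

theorem map_Dg_zero (w : ι → D) : (Dg D ι 0).map (kd w D) ≤ ⊥ := by
  rintro _ ⟨a, ha, rfl⟩
  rw [← mem_Dg.1 ha, kd_kπ_zero]
  exact zero_mem _

theorem map_Dg_top (w : ι → D) {i : ℕ} (hi : Fintype.card ι < i) :
    (Dg D ι i).map (kd w D) ≤ ⊥ := by
  rintro _ ⟨a, ha, rfl⟩
  rw [← mem_Dg.1 ha, kπ_eq_zero_of_lt hi, map_zero]
  exact zero_mem _

theorem telescope (e : ℕ → ℝ) (n : ℕ) :
    ∑ r ∈ Finset.range n, (-1 : ℝ) ^ r * (e r + e (r + 1)) = e 0 - (-1) ^ n * e n := by
  induction n with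
  | zero => simp
  | succ n ih =>
    rw [Finset.sum_range_succ, ih, pow_succ]
    ring

end CoreTotAux

theorem beta_ne_top (μ : LF D) (J : Ideal D) (h : μ.val (D ⧸ J) ≠ ⊤) (i : ℕ) :
    beta μ y J i ≠ ⊤ := by
  have h1 := CoreTotAux.sz_split μ y J i
  rw [CoreTotAux.sz_Dg] at h1
  have h2 : ((Fintype.card (Fin (m + 1))).choose i : ℝ≥0∞) * μ.val (D ⧸ J) ≠ ⊤ :=
    ENNReal.mul_ne_top (ENNReal.natCast_ne_top _) h
  rw [h1] at h2
  exact (ENNReal.add_ne_top.1 (ENNReal.add_ne_top.1 h2).2).1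

theorem beta_alt_sum (μ : LF D) (J : Ideal D) (h : μ.val (D ⧸ J) ≠ ⊤) :
    ∑ r ∈ Finset.range (m + 2), (-1 : ℝ) ^ r * (beta μ y J r).toReal = 0 := by
  set e : ℕ → ℝ := fun r =>
    (μ.sz ((CoreTotAux.Dg D (Fin (m + 1)) r).map (kd y D)) (KK (Fin (m + 1)) J)).toReal with he
  have h0 : ∀ r, (beta μ y J r).toReal =
      ((m + 1).choose r : ℝ) * (μ.val (D ⧸ J)).toReal - (e r + e (r + 1)) := by
    intro r
    have h1 := CoreTotAux.sz_split μ y J r
    rw [CoreTotAux.sz_Dg, Fintype.card_fin] at h1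
    have h2 : ((m + 1).choose r : ℝ≥0∞) * μ.val (D ⧸ J) ≠ ⊤ :=
      ENNReal.mul_ne_top (ENNReal.natCast_ne_top _) h
    have h3 := congrArg ENNReal.toReal h1
    rw [h1] at h2
    obtain ⟨h4, h5⟩ := ENNReal.add_ne_top.1 h2
    obtain ⟨h6, h7⟩ := ENNReal.add_ne_top.1 h5
    rw [ENNReal.toReal_add h4 h5, ENNReal.toReal_add h6 h7, ENNReal.toReal_mul,
      ENNReal.toReal_natCast] at h3
    rw [h3]
    simp only [he, beta]
    ring
  have e0 : e 0 = 0 := by
    simp only [he]
    rw [μ.sz_eq_zero_of_le ((CoreTotAux.map_Dg_zero y).trans bot_le), ENNReal.toReal_zero]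
  have e1 : e (m + 2) = 0 := by
    simp only [he]
    rw [μ.sz_eq_zero_of_le ((CoreTotAux.map_Dg_top y (by simp)).trans bot_le), ENNReal.toReal_zero]
  have hc : ∑ r ∈ Finset.range (m + 2), (-1 : ℝ) ^ r * ((m + 1).choose r : ℝ) = 0 := by
    have := Int.alternating_sum_range_choose_of_ne (n := m + 1) (Nat.succ_ne_zero m)
    exact_mod_cast this
  simp only [h0, mul_sub, Finset.sum_sub_distrib, ← mul_assoc]
  rw [← Finset.sum_mul, hc, CoreTotAux.telescope, e0, e1]
  ring

theorem beta_zero (μ : LF D) (J : Ideal D) : beta μ y J 0 = μ.val (D ⧸ (sp y ⊔ J)) := by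
  set s : D →ₗ[D] (Finset (Fin (m + 1)) → D) :=
    LinearMap.single D (fun _ : Finset (Fin (m + 1)) => D) ∅ with hs
  have hs' : ∀ v, s v = Pi.single ∅ v := fun _ => rfl
  have h1 : LinearMap.eqLocus (kπ D D 0) LinearMap.id ⊓ (KK (Fin (m + 1)) J).comap (kd y D) =
      (⊤ : Submodule D D).map s := by
    ext x
    constructor
    · rintro ⟨hx, -⟩
      refine ⟨x ∅, trivial, ?_⟩
      funext S
      rw [hs']
      by_cases hS : S = ∅
      · rw [hS, Pi.single_eq_same]
      · rw [Pi.single_eq_of_ne hS, ← CoreTotAux.mem_Dg.1 hx, kπ_apply,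
          if_neg (by rwa [Finset.card_eq_zero])]
    · rintro ⟨v, -, rfl⟩
      have hv : kπ D D 0 (s v) = s v := by
        funext S
        rw [kπ_apply]
        split_ifs with hS
        · rfl
        · rw [hs', Pi.single_eq_of_ne (by rwa [Finset.card_eq_zero] at hS)]
      refine ⟨hv, ?_⟩
      show kd y D (s v) ∈ KK (Fin (m + 1)) J
      rw [← hv, kd_kπ_zero]
      exact zero_mem _
  have h2 : (LinearMap.range (kd y D) ⊔ KK (Fin (m + 1)) J).comap s = sp y ⊔ J := by
    refine le_antisymm (fun v hv => ?_) (sup_le (Ideal.span_le.2 ?_) fun v hv => ?_)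
    · obtain ⟨_, ⟨a, rfl⟩, b, hb, hab⟩ := Submodule.mem_sup.1 hv
      have h3 := congrFun hab ∅
      rw [hs', Pi.single_eq_same, Pi.add_apply] at h3
      rw [← h3]
      refine Submodule.add_mem_sup ?_ (hb ∅ trivial)
      have := kd_empty_mem y a
      rwa [smul_eq_mul, Ideal.mul_top] at this
    · rintro _ ⟨i, rfl⟩
      refine Submodule.mem_sup_left ⟨Pi.single {i} 1, ?_⟩
      rw [kd_single_empty, hs', smul_eq_mul, mul_one]
    · refine Submodule.mem_sup_right fun S _ => ?_
      rw [hs']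
      by_cases hS : S = ∅
      · rwa [hS, Pi.single_eq_same]
      · rw [Pi.single_eq_of_ne hS]
        exact zero_mem _
  rw [beta, h1, μ.sz_map_eq, h2, μ.sz_top]

/-- the truncated Euler characteristic of the window `[u, n)` -/
noncomputable def FF (μ : LF D) (α : Fin m → ℤ) (u₀ u n : ℤ) : ℝ :=
  (totDG y).chi μ (-(m : ℤ)) 0 (WW z 𝔪 q α u₀ u) (WW z 𝔪 q α u₀ n)

end Crest.Agent.R183
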