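import Mathlib

/-!
# Row 183 (Lech's conjecture): basic definitions

* `LF B`: additive length functions on `B`-modules, `LF.sz` sizes of subquotients,
* `sp`, `mon`, `monI`, `SL`, `WR`: (almost) regular sequences in a window,
* `kd`, `kh`: Koszul differential and homotopies on `Finset ι → M`,
* `DG`: differential graded modules, subquotient homology sizes `DG.h`,
* `HS`, `Bn`, `psum`: Hilbert–Samuel functions.
-/

set_option autoImplicit false

open scoped ENNReal NNReal TensorProduct

namespace Crest.Agent.R183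

/-! ## Length functions -/

/-- An additive length function on `B`-modules with values in `ℝ≥0∞`. -/
structure LF (B : Type) [CommRing B] where
  val : ∀ (M : Type) [AddCommGroup M] [Module B M], ℝ≥0∞
  congr : ∀ {M N : Type} [AddCommGroup M] [Module B M] [AddCommGroup N] [Module B N],
    (M ≃ₗ[B] N) → val M = val N
  add : ∀ {M : Type} [AddCommGroup M] [Module B M] (P : Submodule B M),
    val M = val P + val (M ⧸ P)
  zero : ∀ (M : Type) [AddCommGroup M] [Module B M] [Subsingleton M], val M = 0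

/-- The size of the image of `P` in `M ⧸ Q`, i.e. of `P / (P ⊓ Q) = (P ⊔ Q) / Q`. -/
noncomputable def LF.sz {B : Type} [CommRing B] (μ : LF B) {M : Type} [AddCommGroup M]
    [Module B M] (P Q : Submodule B M) : ℝ≥0∞ :=
  μ.val (P.map Q.mkQ)

/-- `μ` vanishes on modules killed by `γ`. -/
def LF.Null {B : Type} [CommRing B] (μ : LF B) (γ : B) : Prop :=
  ∀ (M : Type) [AddCommGroup M] [Module B M], (∀ x : M, γ • x = 0) → μ.val M = 0

/-! ## Sequences, monomial ideals, window regularity -/

section seq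

variable {B : Type} [CommRing B] {ι : Type}

/-- The ideal generated by a family. -/
abbrev sp (u : ι → B) : Ideal B := Ideal.span (Set.range u)

/-- The monomial `u^α`. -/
def mon [Fintype ι] (u : ι → B) (α : ι → ℕ) : B := ∏ i, u i ^ α i

/-- The ideal generated by the monomials `u^α`, `α ∈ I`. -/
def monI [Fintype ι] (u : ι → B) (I : Set (ι → ℕ)) : Ideal B := Ideal.span (mon u '' I)

/-- Exponents of total degree `≥ N` (so `monI u (degGE N) = sp u ^ N`). -/
def degGE (ι : Type) [Fintype ι] (N : ℕ) : Set (ι → ℕ) := {α | N ≤ ∑ i, α i}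

/-- Exponents with some coordinate `≥ b i` (so `monI u (boxGE b) = sp (u i ^ b i)`). -/
def boxGE (b : ι → ℕ) : Set (ι → ℕ) := {α | ∃ i, b i ≤ α i}

/-- "Socle lemma" form of (almost) quasi-regularity of `u` on `V` in the window `I`: for every
up-set `I' ⊇ I` of exponents and `α ∉ I'`, `u^α x ∈ I'(u) V` forces `γ x ∈ (u) V`. -/
def SL [Fintype ι] (u : ι → B) (V : Type) [AddCommGroup V] [Module B V] (I : Set (ι → ℕ))
    (γ : B) : Prop :=
  ∀ I' : Set (ι → ℕ), IsUpperSet I' → I ⊆ I' → ∀ α ∉ I', ∀ x : V,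
    mon u α • x ∈ (monI u I' • ⊤ : Submodule B V) → γ • x ∈ (sp u • ⊤ : Submodule B V)

/-- Honest quasi-regularity. -/
abbrev QR [Fintype ι] (u : ι → B) (V : Type) [AddCommGroup V] [Module B V] : Prop :=
  SL u V ∅ 1

/-- Weak (almost) regularity: `g j x ∈ (g_1, …, g_j^2, …, g_n) V` forces `γ x ∈ (g) V`. -/
def WR [DecidableEq ι] (g : ι → B) (V : Type) [AddCommGroup V] [Module B V] (γ : B) : Prop :=
  ∀ (j : ι) (x : V), g j • x ∈ (sp (Function.update g j (g j ^ 2)) • ⊤ : Submodule B V) →
    γ • x ∈ (sp g • ⊤ : Submodule B V)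

end seq

/-! ## Koszul operators -/

section koszul

variable {B : Type} [CommRing B] {ι : Type} [Fintype ι] [LinearOrder ι]

/-- The sign `(-1)^{#{j ∈ S | j < i}}`. -/
def ksgn (i : ι) (S : Finset ι) : ℤ := (-1) ^ (S.filter (· < i)).card

/-- The Koszul differential of `y` on `Finset ι → M` (the component at `S` has degree `#S`;
`kd` lowers the degree by one). -/
def kd (y : ι → B) (M : Type) [AddCommGroup M] [Module B M] :
    (Finset ι → M) →ₗ[B] (Finset ι → M) where
  toFun x := fun S => ∑ i ∈ Sᶜ, ksgn i S • y i • x (insert i S)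
  map_add' x x' := by
    funext S
    simp [Finset.sum_add_distrib, smul_add]
  map_smul' c x := by
    funext S
    simp only [Pi.smul_apply, RingHom.id_apply, Finset.smul_sum]
    refine Finset.sum_congr rfl fun i _ => ?_
    rw [smul_comm c (ksgn i S), smul_comm c (y i)]

variable (B) in
/-- The creation operator `e_i ∧ -` on `Finset ι → M` (raises the degree by one). -/
def kh (M : Type) [AddCommGroup M] [Module B M] (i : ι) :
    (Finset ι → M) →ₗ[B] (Finset ι → M) where
  toFun x := fun S => if i ∈ S then ksgn i S • x (S.erase i) else 0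
  map_add' x x' := by
    funext S
    by_cases h : i ∈ S <;> simp [h, smul_add]
  map_smul' c x := by
    funext S
    by_cases h : i ∈ S
    · simp only [h, if_true, Pi.smul_apply, RingHom.id_apply]
      rw [smul_comm c (ksgn i S)]
    · simp [h]

variable (B) in
/-- Projection of `Finset ι → M` onto the components of cardinality `k`. -/
def kπ (M : Type) [AddCommGroup M] [Module B M] (k : ℕ) :
    (Finset ι → M) →ₗ[B] (Finset ι → M) where
  toFun x := fun S => if S.card = k then x S else 0
  map_add' x x' := by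
    funext S
    by_cases h : S.card = k <;> simp [h]
  map_smul' c x := by
    funext S
    by_cases h : S.card = k <;> simp [h]

variable (ι) in
/-- All components in `P`. -/
abbrev KK {M : Type} [AddCommGroup M] [Module B M] (P : Submodule B M) :
    Submodule B (Finset ι → M) :=
  Submodule.pi Set.univ (fun _ => P)

/-- There is an `R₀`-linear operator `σ` on the Koszul complex of `y` over `D` with
`d σ d ≡ d` modulo `𝔪`. -/
def HasSig {R₀ D : Type} [CommRing R₀] [CommRing D] [Algebra R₀ D] (𝔪 : Ideal R₀)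
    (y : ι → D) : Prop :=
  ∃ σ : (Finset ι → D) →ₗ[R₀] (Finset ι → D), ∀ x : Finset ι → D,
    kd y D (σ (kd y D x)) - kd y D x ∈ (𝔪 • ⊤ : Submodule R₀ (Finset ι → D))

end koszul

/-- `S ⊗[T] -` preserves injections into `T`-modules killed by `P` (flatness of `S` over `T ⧸ P`
when `P` kills `S`). -/
def FlatMod {T : Type} [CommRing T] (P : Ideal T) (S : Type) [AddCommGroup S] [Module T S] :
    Prop :=
  ∀ (V' V : Type) [AddCommGroup V'] [Module T V'] [AddCommGroup V] [Module T V]
    (f : V' →ₗ[T] V), (∀ π ∈ P, ∀ v : V, π • v = 0) → Function.Injective f →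
    Function.Injective (f.lTensor S)

/-! ## Differential graded modules -/

/-- A differential module with a homological `ℤ`-grading given by projections. -/
structure DG (B : Type) [CommRing B] (X : Type) [AddCommGroup X] [Module B X] where
  D : X →ₗ[B] X
  π : ℤ → X →ₗ[B] X
  DD : ∀ x, D (D x) = 0
  πD : ∀ k x, π k (D x) = D (π (k + 1) x)
  ππ : ∀ k x, π k (π k x) = π k x
  ππ' : ∀ k j, k ≠ j → ∀ x, π k (π j x) = 0

namespace DG

variable {B : Type} [CommRing B] {X : Type} [AddCommGroup X] [Module B X] (C : DG B X)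

/-- Graded subcomplexes. -/
def Sub (A : Submodule B X) : Prop :=
  (∀ x ∈ A, C.D x ∈ A) ∧ ∀ k, ∀ x ∈ A, C.π k x ∈ A

/-- Elements of degree `k`. -/
def deg (k : ℤ) : Submodule B X := LinearMap.eqLocus (C.π k) LinearMap.id

/-- Degree `k` cycles of the subquotient `A / A'`. -/
def Z (k : ℤ) (A A' : Submodule B X) : Submodule B X := A ⊓ C.deg k ⊓ A'.comap C.D

/-- Boundaries of the subquotient `A / A'`. -/
def Bd (A A' : Submodule B X) : Submodule B X := A.map C.D ⊔ A'

/-- Size of the `k`-th homology of the subquotient `A / A'`. -/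
noncomputable def h (μ : LF B) (k : ℤ) (A A' : Submodule B X) : ℝ≥0∞ :=
  μ.sz (C.Z k A A') (C.Bd A A')

/-- Truncated Euler characteristic `∑_{lo ≤ k ≤ hi} (-1)^k h_k`. -/
noncomputable def chi (μ : LF B) (lo hi : ℤ) (A A' : Submodule B X) : ℝ :=
  ∑ k ∈ Finset.Icc lo hi, ((k.negOnePow : ℤˣ) : ℤ) * (C.h μ k A A').toReal

end DG

/-! ## Hilbert–Samuel functions -/

/-- The Hilbert–Samuel function `N ↦ ℓ(B / m^N)`. -/
noncomputable def HS (B : Type) [CommRing B] [IsLocalRing B] (N : ℕ) : ℕ∞ :=
  Module.length B (B ⧸ IsLocalRing.maximalIdeal B ^ N)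

/-- The number of monomials of degree `< N` in `d ≥ 1` variables. -/
def Bn (d N : ℕ) : ℕ := (N + d - 1).choose d

/-- Partial sums. -/
noncomputable def psum (H : ℕ → ℕ∞) (N : ℕ) : ℕ∞ := ∑ j ∈ Finset.range (N + 1), H j

/-- `x` generates a reduction of `I`. -/
def IsRed {B : Type} [CommRing B] {ι : Type} (x : ι → B) (I : Ideal B) : Prop :=
  (∀ i, x i ∈ I) ∧ ∃ r : ℕ, I ^ (r + 1) ≤ sp x * I ^ r

/-- `φ` induces isomorphisms on all windows `A₀ / (x₀ i ^ b) ≃ A / (φ (x₀ i) ^ b)`. -/
def WinIso {A₀ A : Type} [CommRing A₀] [CommRing A] {ι : Type} (φ : A₀ →+* A) (x₀ : ι → A₀) :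
    Prop :=
  ∀ b : ℕ, (∀ a : A, ∃ a₀ : A₀, a - φ a₀ ∈ sp (fun i => φ (x₀ i) ^ b)) ∧
    (∀ a₀ : A₀, φ a₀ ∈ sp (fun i => φ (x₀ i) ^ b) → a₀ ∈ sp (fun i => x₀ i ^ b))

end Crest.Agent.R183
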