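import Crest.Agent.R183.TopDefs
import Crest.Agent.R183.SL
import Crest.Agent.R183.Sig

/-!
# From honest data to window data
-/

set_option autoImplicit false

open scoped ENNReal NNReal TensorProduct
open MvPolynomial

namespace Crest.Agent.R183

namespace HDAux

theorem val_anti {S D : Type} [CommRing S] [CommRing D] [Algebra S D] (μ : LF S) {J J' : Ideal D}
    (h : J ≤ J') : μ.val (D ⧸ J') ≤ μ.val (D ⧸ J) :=
  μ.le_of_surjective (Ideal.Quotient.factorₐ S h).toLinearMap (Ideal.Quotient.factor_surjective h)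

theorem length_anti {T : Type} [CommRing T] {J J' : Ideal T} (h : J ≤ J') :
    Module.length T (T ⧸ J') ≤ Module.length T (T ⧸ J) :=
  Module.length_le_of_surjective (Ideal.Quotient.factorₐ T h).toLinearMap
    (Ideal.Quotient.factor_surjective h)

theorem val_quot {S S' D D' : Type} [CommRing S] [CommRing S'] [CommRing D] [CommRing D']
    [Algebra S S'] [Algebra S D] [Algebra S' D'] [Algebra S D'] [IsScalarTower S S' D'] (μ : LF S)
    (f : D →ₐ[S] D') (hf : Function.Surjective f) (J : Ideal D) {J' : Ideal D'}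
    (h : J' = J.map (f : D →+* D')) :
    (μ.comap (algebraMap S S')).val (D' ⧸ J') =
      μ.val (D ⧸ (J ⊔ RingHom.ker (f : D →+* D'))) := by
  rw [LF.comap_algebraMap_val]
  have hs : Function.Surjective ((Ideal.Quotient.mkₐ S J').comp f) :=
    (Ideal.Quotient.mkₐ_surjective S J').comp hf
  have hk : J ⊔ RingHom.ker (f : D →+* D') = RingHom.ker ((Ideal.Quotient.mkₐ S J').comp f) := by
    rw [RingHom.ker_eq_comap_bot, ← Ideal.comap_map_of_surjective (f : D →+* D') hf, ← h]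
    ext x
    simp [RingHom.mem_ker, Ideal.Quotient.eq_zero_iff_mem]
  rw [hk]
  exact (μ.congr (Ideal.quotientKerAlgEquivOfSurjective hs).toLinearEquiv).symm

theorem val_mk {S : Type} [CommRing S] (μ : LF S) (K J : Ideal S) {J' : Ideal (S ⧸ K)}
    (h : J' = J.map (Ideal.Quotient.mk K)) :
    (μ.comap (algebraMap S (S ⧸ K))).val ((S ⧸ K) ⧸ J') = μ.val (S ⧸ (J ⊔ K)) := by
  rw [val_quot μ (Ideal.Quotient.mkₐ S K) (Ideal.Quotient.mkₐ_surjective S K) J h]
  have : RingHom.ker (Ideal.Quotient.mkₐ S K : S →+* S ⧸ K) = K := Ideal.mk_ker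
  rw [this]

theorem sup_pow_le {B : Type} [CommRing B] (I J : Ideal B) (n : ℕ) : (I ⊔ J) ^ n ≤ I ^ n ⊔ J := by
  induction n with
  | zero => simp
  | succ n ih =>
    rw [pow_succ, pow_succ]
    refine (Ideal.mul_mono_left ih).trans ?_
    rw [Ideal.sup_mul, Ideal.mul_sup]
    exact sup_le (sup_le le_sup_left (Ideal.mul_le_right.trans le_sup_right))
      (Ideal.mul_le_left.trans le_sup_right)

theorem pow_mem {B : Type} [CommRing B] {I J : Ideal B} {x : B} {a n b : ℕ} (h : x ^ a ∈ I ⊔ J)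
    (hb : a * n ≤ b) : x ^ b ∈ I ^ n ⊔ J := by
  obtain ⟨c, rfl⟩ := Nat.exists_eq_add_of_le hb
  rw [pow_add, pow_mul]
  exact Ideal.mul_mem_right _ _ (sup_pow_le I J n (Ideal.pow_mem_pow h n))

theorem sp_le {B : Type} [CommRing B] {ι : Type} {u : ι → B} {I : Ideal B} (h : ∀ i, u i ∈ I) :
    sp u ≤ I := Ideal.span_le.2 (Set.range_subset_iff.2 h)

theorem mem_sp {B : Type} [CommRing B] {ι : Type} (u : ι → B) (i : ι) : u i ∈ sp u :=
  Ideal.subset_span ⟨i, rfl⟩

theorem flat_quot {T S : Type} [CommRing T] [CommRing S] [Algebra T S] {P : Ideal T}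
    (h : FlatMod P S) (I : Ideal T) : FlatMod (P ⊔ I) (S ⧸ I.map (algebraMap T S)) := by
  have h' : FlatMod (P ⊔ I) S := fun V' V _ _ _ _ f hV hf =>
    h V' V f (fun π hπ => hV π (Ideal.mem_sup_left hπ)) hf
  refine LFflatMod_of_surjective h' (Ideal.Quotient.mkₐ T _).toLinearMap
    (Ideal.Quotient.mkₐ_surjective T _) fun x hx => ?_
  have hx' : x ∈ (I • ⊤ : Submodule T S) := by
    rw [Ideal.smul_top_eq_map]
    exact Ideal.Quotient.eq_zero_iff_mem.1 hx
  exact Submodule.smul_mono_left le_sup_right hx'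

theorem free_quot {T S : Type} [CommRing T] [CommRing S] [Algebra T S] {P : Ideal T} {ν : ℕ}
    (e : S ≃ₗ[T] (Fin ν → T ⧸ P)) (I : Ideal T) :
    Nonempty ((S ⧸ I.map (algebraMap T S)) ≃ₗ[T] (Fin ν → T ⧸ (P ⊔ I))) := by
  let φ : (T ⧸ P) →ₗ[T] T ⧸ (P ⊔ I) := (Ideal.Quotient.factorₐ T le_sup_left).toLinearMap
  have hφ : Function.Surjective φ := Ideal.Quotient.factor_surjective le_sup_left
  let g : S →ₗ[T] (Fin ν → T ⧸ (P ⊔ I)) := (φ.compLeft (Fin ν)).comp e.toLinearMap
  have hg : Function.Surjective g := (hφ.comp_left).comp e.surjective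
  let f : S →ₗ[T] S ⧸ I.map (algebraMap T S) := (Ideal.Quotient.mkₐ T _).toLinearMap
  have hf : Function.Surjective f := Ideal.Quotient.mkₐ_surjective T _
  have hkf : LinearMap.ker f = I • ⊤ := by
    rw [Ideal.smul_top_eq_map]
    ext x
    exact Ideal.Quotient.eq_zero_iff_mem
  have hkg : LinearMap.ker g = I • ⊤ := by
    refine le_antisymm (fun x hx => ?_) (Submodule.smul_le.2 fun a ha x _ => ?_)
    · have h1 : ∀ i, e x i ∈ (I • ⊤ : Submodule T (T ⧸ P)) := by
        intro i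
        obtain ⟨t, ht⟩ := Ideal.Quotient.mk_surjective (e x i)
        have h2 : φ (e x i) = 0 := congrFun hx i
        rw [← ht] at h2 ⊢
        obtain ⟨p, hp, j, hj, rfl⟩ := Submodule.mem_sup.1 (Ideal.Quotient.eq_zero_iff_mem.1 h2)
        rw [map_add, Ideal.Quotient.eq_zero_iff_mem.2 hp, zero_add, ← mul_one j]
        exact Submodule.smul_mem_smul hj (Submodule.mem_top (x := (1 : T ⧸ P)))
      have h3 : e x ∈ (I • ⊤ : Submodule T (Fin ν → T ⧸ P)) := by
        rw [← Finset.univ_sum_single (e x)]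
        exact Submodule.sum_mem _ fun i _ =>
          sig_map_mem (LinearMap.single T (fun _ => T ⧸ P) i) (h1 i)
      simpa using sig_map_mem e.symm.toLinearMap h3
    · rw [LinearMap.mem_ker, map_smul]
      funext i
      exact LF.LFkill_quot_ideal le_sup_right a ha _
  exact ⟨(f.quotKerEquivOfSurjective hf).symm ≪≫ₗ Submodule.quotEquivOfEq _ _ (hkf.trans hkg.symm)
    ≪≫ₗ g.quotKerEquivOfSurjective hg⟩

theorem val_length {T S S' : Type} [CommRing T] [CommRing S] [CommRing S'] [Algebra T S]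
    [Algebra S S'] [Algebra T S'] [IsScalarTower T S S'] (μ : LF S)
    (h : ∀ (M : Type) [AddCommGroup M] [Module S M] [Module T M] [IsScalarTower T S M],
      μ.val M = Module.length T M)
    (M : Type) [AddCommGroup M] [Module S' M] [Module T M] [IsScalarTower T S' M] :
    (μ.comap (algebraMap S S')).val M = Module.length T M := by
  let _ : Module S M := Module.compHom M (algebraMap S S')
  have : IsScalarTower T S M := ⟨fun t s x => by
    show algebraMap S S' (t • s) • x = t • algebraMap S S' s • x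
    rw [Algebra.smul_def, map_mul, mul_smul, ← IsScalarTower.algebraMap_apply, algebraMap_smul]⟩
  rw [μ.comap_val _ M fun _ _ => rfl]
  exact h M

end HDAux

open HDAux

theorem HD.ineq {d s q : ℕ} {A : Type} [CommRing A] {x' : Fin d → A} {S : Type} [CommRing S]
    [Algebra (TT d s A) S] {μ : LF S} {y : Fin d → S} (W : HD d s q A x' μ y) {fin : Prop}
    (hWI : WIProp d A x' fin) (hfin : fin → W.FinFree) (q' : ℕ) (hq' : 1 ≤ q')
    (hq : q' + 2 * d + s + 1 ≤ q) (N N' : ℕ) (hN' : 0 < N') (u1 u2 u3 v1 v2 : ℝ≥0)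
    (h1 : μ.val (S ⧸ sp y ^ N) ≤ u1) (h3 : W.U3 N ≤ u3) (h2 : (u2 : ℝ≥0∞) ≤ W.U2 N)
    (hv1 : (v1 : ℝ≥0∞) ≤ W.V1 N') (hv2 : W.V2 N' ≤ v2) :
    ((q' ^ d : ℕ) : ℝ≥0) * Bn d N * ((v1 / W.Δ - v2) / Bn d N') ≤ u1 + u3 - u2 / W.Δ := by
  rw [Nat.cast_pow]
  refine hWI ⟨s, W.r, W.a, W.mm, q, W.r₀, N, N', W.Δ, u1, u2, u3, v1, v2,
    (μ.val (S ⧸ (sp (sig s x')).map (algebraMap (TT d s A) S))).toNNReal⟩ q' hq' hq W.hΔ0 hN' W.ha
    fun b₀ => ?_
  obtain ⟨b, hb0, hb1, hb2, hb3, hb4⟩ : ∃ b, b₀ ≤ b ∧ 1 ≤ b ∧ W.a * N' ≤ b ∧ W.a * N ≤ b ∧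
      W.a * ((d * W.a + 1) * N) ≤ b :=
    ⟨b₀ + 1 + W.a * N' + W.a * N + W.a * ((d * W.a + 1) * N), by omega, by omega, by omega,
      by omega, by omega⟩
  set φ := algebraMap (TT d s A) S with hφ
  set K : Ideal S := (win s x' b).map φ with hK
  have hφ' : algebraMap (TT d s A) (S ⧸ K) = (Ideal.Quotient.mk K).comp φ := rfl
  have hwin : win s x' b ≤ sp (sig s x') :=
    sp_le fun i => Ideal.pow_mem_of_mem _ (mem_sp _ i) b hb1
  have hKy : K ≤ sp y ^ N := by
    rw [hK, Ideal.map_le_iff_le_comap]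
    refine sp_le fun i => ?_
    have := pow_mem (J := ⊥) (Ideal.mem_sup_left (W.hy i)) hb3
    rwa [sup_bot_eq, ← map_pow] at this
  have hc : Ideal.span {W.c} * (W.P ⊔ win s x' b) ^ W.mm ≤ sp W.H ⊔ win s x' b := by
    refine (Ideal.mul_mono_right (sup_pow_le _ _ _)).trans ?_
    rw [Ideal.mul_sup]
    exact sup_le_sup W.hc Ideal.mul_le_right
  have PS : ∀ π ∈ W.P ⊔ win s x' b, algebraMap (TT d s A) (S ⧸ K) π = 0 := by
    intro π hπ
    obtain ⟨p, hp, j, hj, rfl⟩ := Submodule.mem_sup.1 hπ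
    rw [hφ', RingHom.comp_apply, map_add, W.PS p hp, zero_add, Ideal.Quotient.eq_zero_iff_mem]
    exact Ideal.mem_map_of_mem _ hj
  have hsp : (sp fun k => Ideal.Quotient.mk K (y k)) = (sp y).map (Ideal.Quotient.mk K) :=
    (sp_map _ y).symm
  have hy : ∀ i, algebraMap (TT d s A) (S ⧸ K) (sig s x' i) ^ W.a ∈
      sp fun k => Ideal.Quotient.mk K (y k) := fun i => by
    rw [hsp, hφ', RingHom.comp_apply, ← map_pow]
    exact Ideal.mem_map_of_mem _ (W.hy i)
  have b0 : 1 ≤ (μ.comap (algebraMap S (S ⧸ K))).val ((S ⧸ K) ⧸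
      ((sp fun k => Ideal.Quotient.mk K (y k)) ⊔
        (sp W.mg ⊔ sp (sig s x')).map (algebraMap (TT d s A) (S ⧸ K)))) := by
    rw [val_mk μ K (sp y ⊔ (sp W.mg ⊔ sp (sig s x')).map φ)
      (by rw [Ideal.map_sup _ (sp y), hsp, Ideal.map_map, hφ'])]
    exact W.b0.trans (val_anti μ (sup_le le_rfl
      ((Ideal.map_mono (hwin.trans le_sup_right)).trans le_sup_right)))
  have hub : (μ.comap (algebraMap S (S ⧸ K))).val ((S ⧸ K) ⧸
      (sp (sig s x')).map (algebraMap (TT d s A) (S ⧸ K))) ≤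
      (μ.val (S ⧸ (sp (sig s x')).map φ)).toNNReal := by
    rw [val_mk μ K ((sp (sig s x')).map φ) (by rw [Ideal.map_map, hφ']),
      ENNReal.coe_toNNReal W.hub]
    exact val_anti μ le_sup_left
  have hu1 : (μ.comap (algebraMap S (S ⧸ K))).val ((S ⧸ K) ⧸
      (sp fun k => Ideal.Quotient.mk K (y k)) ^ N) ≤ u1 := by
    rw [val_mk μ K (sp y ^ N) (by rw [Ideal.map_pow, hsp])]
    exact (val_anti μ le_sup_left).trans h1
  have hu3 : (μ.comap (algebraMap S (S ⧸ K))).val ((S ⧸ K) ⧸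
      ((sp fun k => Ideal.Quotient.mk K (y k)) ^ N ⊔
        Ideal.span {algebraMap (TT d s A) (S ⧸ K) (C W.w)})) ≤ u3 := by
    rw [val_mk μ K (sp y ^ N ⊔ Ideal.span {φ (C W.w)})
      (by rw [Ideal.map_sup, Ideal.map_pow, hsp, Ideal.map_span _ {_}, Set.image_singleton]; rfl)]
    exact (val_anti μ le_sup_left).trans h3
  have hu2 : (u2 : ℝ≥0∞) ≤ (μ.comap (algebraMap S (S ⧸ K))).val
      (MvPolynomial (Tau d s) (S ⧸ K) ⧸
      (sp (fun j => MvPolynomial.map ((algebraMap (TT d s A) (S ⧸ K)).comp C) (W.H j)) ⊔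
      Ideal.span {MvPolynomial.map (algebraMap (TT d s A) (S ⧸ K)) W.ε} ⊔
      ((sp fun k => Ideal.Quotient.mk K (y k)) ^ N).map
        (C : S ⧸ K →+* MvPolynomial (Tau d s) (S ⧸ K)) ⊔
      sp (fun j => (X j : MvPolynomial (Tau d s) (S ⧸ K)) ^ b))) := by
    have hs : Function.Surjective
        (MvPolynomial.mapAlgHom (σ := Tau d s) (Ideal.Quotient.mkₐ S K)) :=
      MvPolynomial.map_surjective (Ideal.Quotient.mk K) Ideal.Quotient.mk_surjective
    have hm : (MvPolynomial.mapAlgHom (σ := Tau d s) (Ideal.Quotient.mkₐ S K) :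
        MvPolynomial (Tau d s) S →+* MvPolynomial (Tau d s) (S ⧸ K)) =
        MvPolynomial.map (Ideal.Quotient.mk K) := rfl
    rw [val_quot μ _ hs (sp (fun j => MvPolynomial.map (φ.comp C) (W.H j)) ⊔
      Ideal.span {MvPolynomial.map φ W.ε} ⊔ (sp y ^ N).map (C : S →+* MvPolynomial (Tau d s) S) ⊔
      sp (fun j => (X j : MvPolynomial (Tau d s) S) ^ b)) ?_, hm, MvPolynomial.ker_map,
      Ideal.mk_ker]
    · refine h2.trans (val_anti μ (sup_le (sup_le le_rfl (sp_le fun j => ?_))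
        ((Ideal.map_mono hKy).trans le_sup_right)))
      have e1 := Ideal.mem_map_of_mem (MvPolynomial.map (φ.comp C)) (W.hx (Sum.inr j))
      rw [Ideal.map_sup, sp_map, sp_map, map_pow] at e1
      have e2 : MvPolynomial.map (φ.comp C) (sig s x' (Sum.inr j)) = X j :=
        MvPolynomial.map_X _ j
      rw [e2] at e1
      have e3 : sp (fun k => MvPolynomial.map (φ.comp C) (C (x' k) : TT d s A)) =
          (sp fun k => φ (C (x' k))).map (C : S →+* MvPolynomial (Tau d s) S) := by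
        rw [sp_map]
        simp only [MvPolynomial.map_C, RingHom.comp_apply]
      have e4 : (sp fun k => φ (C (x' k))) ^ (d * W.a + 1) ≤ sp y := by
        have := sp_pow_le_sp_pow (fun k => φ (C (x' k))) W.a
        rw [Fintype.card_fin] at this
        exact this.trans (sp_le fun k => W.hy (Sum.inl k))
      have e5 := pow_mem e1 hb4
      rw [e3, ← Ideal.map_pow, pow_mul] at e5
      refine SetLike.le_def.1 ?_ e5
      exact sup_le ((Ideal.map_mono (Ideal.pow_right_mono e4 N)).trans le_sup_right)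
        (le_sup_left.trans le_sup_left)
    · rw [hm, Ideal.map_sup, Ideal.map_sup, Ideal.map_sup, hsp,
        sp_map (MvPolynomial.map (σ := Tau d s) (Ideal.Quotient.mk K)),
        sp_map (MvPolynomial.map (σ := Tau d s) (Ideal.Quotient.mk K)), Ideal.map_span _ {_},
        Set.image_singleton, Ideal.map_map C (MvPolynomial.map (Ideal.Quotient.mk K)),
        MvPolynomial.map_comp_C, ← Ideal.map_map,
        Ideal.map_pow (Ideal.Quotient.mk K)]
      simp only [MvPolynomial.map_map, map_pow, MvPolynomial.map_X]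
      rfl
  have hv1' : (v1 : ℝ≥0∞) ≤ Module.length (TT d s A) (TT d s A ⧸
      (sp W.H ⊔ Ideal.span {C W.w' - W.c} ⊔ sp (zz d s A) ^ N' ⊔ win s x' b)) := by
    refine hv1.trans (ENat.toENNReal_le.2 (length_anti (sup_le le_rfl (sp_le fun i => ?_))))
    refine SetLike.le_def.1 ?_ (pow_mem (W.hz i) hb2)
    exact sup_le le_sup_right (le_sup_left.trans le_sup_left)
  refine ⟨b, hb0,
    { H := W.H, c := W.c, P := W.P ⊔ win s x' b, mg := W.mg, winP := le_sup_right
      HP := fun j => Ideal.mem_sup_left (W.HP j)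
      Hσ := W.Hσ, cσ := W.cσ
      hz := fun i => Ideal.mem_sup_left (W.hz i)
      hx := fun i => Ideal.mem_sup_left (W.hx i)
      hc := hc
      hm := W.hm.trans (sup_le_sup_left le_sup_left _)
      w := W.w, w' := W.w', ε := W.ε, S := S ⧸ K
      y := fun k => Ideal.Quotient.mk K (y k)
      μ := μ.comap (algebraMap S (S ⧸ K))
      hε := Ideal.mem_sup_left W.hε
      PS := PS
      flat := flat_quot W.flat _
      hsig := W.hsig b
      hy := hy
      hΔ := (length_anti le_sup_left).trans W.hΔ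
      b0 := b0, hub := hub, hu1 := hu1, hu3 := hu3, hu2 := hu2, hv1 := hv1', hv2 := hv2 },
    fun hf => ⟨?_, val_length μ (hfin hf).2⟩⟩
  obtain ⟨ν, ⟨e⟩⟩ := (hfin hf).1
  exact ⟨ν, free_quot e _⟩

end Crest.Agent.R183
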