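import Crest.Agent.R183.TopBasic
import Crest.Agent.R183.Sig

/-!
# Sizes of `(S ⊗ M) / J`, base change of `SH`
-/

set_option autoImplicit false

open scoped ENNReal NNReal TensorProduct
open IsLocalRing

namespace Crest.Agent.R183

theorem TQ_congr {S : Type} [CommRing S] (μ : LF S) (J : Ideal S) {V V' : Type} [AddCommGroup V]
    [Module S V] [AddCommGroup V'] [Module S V'] (e : V ≃ₗ[S] V') :
    μ.val (V ⧸ (J • ⊤ : Submodule S V)) = μ.val (V' ⧸ (J • ⊤ : Submodule S V')) :=
  μ.congr (Submodule.Quotient.equiv _ _ e (by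
    rw [Submodule.map_smul'', Submodule.map_top, LinearEquiv.range]))

theorem TQ_qq {S : Type} [CommRing S] (μ : LF S) (K I : Ideal S) :
    μ.val ((S ⧸ K) ⧸ (I • ⊤ : Submodule S (S ⧸ K))) = μ.val (S ⧸ (K ⊔ I)) :=
  μ.congr ((Submodule.quotEquivOfEq _ _ (by
    rw [← Submodule.range_mkQ K, ← Submodule.map_top, ← Submodule.map_smul'', smul_eq_mul,
      Ideal.mul_top])).trans (Submodule.quotientQuotientEquivQuotientSup K I))

theorem TQ_eq {S : Type} [CommRing S] (μ : LF S) {V : Type} [AddCommGroup V] [Module S V]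
    {P P' : Submodule S V} (h : P = P') : μ.val (V ⧸ P) = μ.val (V ⧸ P') := by
  rw [h]

theorem TQ_val_comap {S D W : Type} [CommRing S] [CommRing D] [AddCommGroup W] [Module S W]
    (μ : LF S) (ι : S →+* D) (K : Ideal D) (F : D →+ W) (hF : ∀ s x, F (ι s * x) = s • F x)
    (hs : Function.Surjective F) (hk : ∀ x, F x = 0 ↔ x ∈ K) :
    (μ.comap ι).val (D ⧸ K) = μ.val W := by
  let _ : Module S (D ⧸ K) := Module.compHom _ ι
  rw [μ.comap_val ι _ fun _ _ => rfl]
  let G : D ⧸ K →ₗ[S] W :=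
    { toFun := QuotientAddGroup.lift K.toAddSubgroup F fun x hx => (hk x).2 hx
      map_add' := map_add _
      map_smul' := fun s x => by
        obtain ⟨x, rfl⟩ := Ideal.Quotient.mk_surjective x
        exact hF s x }
  refine μ.congr (LinearEquiv.ofBijective G ⟨(injective_iff_map_eq_zero G).2 fun x hx => ?_,
    fun w => ?_⟩)
  · obtain ⟨x, rfl⟩ := Ideal.Quotient.mk_surjective x
    exact Ideal.Quotient.eq_zero_iff_mem.2 ((hk x).1 hx)
  · obtain ⟨x, rfl⟩ := hs w
    exact ⟨Ideal.Quotient.mk K x, rfl⟩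

theorem TQ_mem {S : Type} [CommRing S] (J : Ideal S) (R : Type) [CommRing R] [Algebra R S]
    (R' : Type) [CommRing R'] [Algebra R R'] (x : R' ⊗[R] S) :
    Algebra.TensorProduct.comm R R' S x ∈ (J • ⊤ : Submodule S (S ⊗[R] R')) ↔
      x ∈ J.map (Algebra.TensorProduct.includeRight : S →ₐ[R] R' ⊗[R] S) := by
  have h : J.map (algebraMap S (S ⊗[R] R')) =
      (J.map (Algebra.TensorProduct.includeRight : S →ₐ[R] R' ⊗[R] S).toRingHom).map
        ((Algebra.TensorProduct.comm R R' S).toRingEquiv : R' ⊗[R] S →+* S ⊗[R] R') := by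
    rw [Ideal.map_map]
    rfl
  rw [Ideal.smul_top_eq_map, Submodule.restrictScalars_mem, h]
  exact Ideal.apply_mem_of_equiv_iff (f := (Algebra.TensorProduct.comm R R' S).toRingEquiv)

theorem TQ_bc_val {S : Type} [CommRing S] (μ : LF S) (J : Ideal S) (R : Type) [CommRing R]
    [Algebra R S] (R' : Type) [CommRing R'] [Algebra R R'] (I : Ideal R') :
    (μ.bc R R').val ((R' ⊗[R] S) ⧸
      (J.map (Algebra.TensorProduct.includeRight : S →ₐ[R] R' ⊗[R] S) ⊔
        I.map (algebraMap R' (R' ⊗[R] S)))) = tq μ J R (R' ⧸ I) := by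
  let g : R' ⊗[R] S →ₐ[R] (R' ⧸ I) ⊗[R] S :=
    Algebra.TensorProduct.map (Ideal.Quotient.mkₐ R I) (AlgHom.id R S)
  have hg : Function.Surjective g :=
    Algebra.TensorProduct.map_surjective _ _ Ideal.Quotient.mk_surjective Function.surjective_id
  have hk : RingHom.ker g = I.map (algebraMap R' (R' ⊗[R] S)) := by
    have h0 : RingHom.ker (Ideal.Quotient.mkₐ R I) = I := Ideal.mk_ker
    rw [Algebra.TensorProduct.rTensor_ker _ Ideal.Quotient.mk_surjective, h0]
    rfl
  refine TQ_val_comap μ _ _ (((J • ⊤ : Submodule S (S ⊗[R] (R' ⧸ I))).mkQ.toAddMonoidHom.comp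
    (Algebra.TensorProduct.comm R (R' ⧸ I) S).toRingEquiv.toAddMonoidHom).comp
      g.toRingHom.toAddMonoidHom) (fun s x => ?_)
    (((Submodule.mkQ_surjective _).comp (Algebra.TensorProduct.comm R (R' ⧸ I) S).surjective).comp
      hg) fun x => ?_
  · change Submodule.mkQ _ (Algebra.TensorProduct.comm R (R' ⧸ I) S (g ((1 ⊗ₜ s) * x))) =
      s • Submodule.mkQ _ (Algebra.TensorProduct.comm R (R' ⧸ I) S (g x))
    rw [map_mul, map_mul, ← map_smul, Algebra.smul_def]
    rfl
  · change Submodule.mkQ _ (Algebra.TensorProduct.comm R (R' ⧸ I) S (g x)) = 0 ↔ _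
    have h1 : J.map (Algebra.TensorProduct.includeRight : S →ₐ[R] (R' ⧸ I) ⊗[R] S) =
        (J.map (Algebra.TensorProduct.includeRight : S →ₐ[R] R' ⊗[R] S)).map g := by
      rw [Ideal.map_mapₐ]
      rfl
    rw [Submodule.mkQ_apply, Submodule.Quotient.mk_eq_zero, TQ_mem, h1, ← Ideal.mem_comap,
      Ideal.comap_map_of_surjective _ hg, ← hk]
    rfl

section tq

variable {S : Type} [CommRing S] (μ : LF S) (J : Ideal S) (R : Type) [CommRing R] [Algebra R S]
  {M M' : Type} [AddCommGroup M] [Module R M] [AddCommGroup M'] [Module R M']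

theorem tq_self : tq μ J R R = μ.val (S ⧸ J) :=
  (TQ_congr μ J (TensorProduct.AlgebraTensorModule.rid R S S)).trans (TQ_eq μ (by simp))

theorem tq_quot (I : Ideal R) : tq μ J R (R ⧸ I) = μ.val (S ⧸ (J ⊔ I.map (algebraMap R S))) :=
  (TQ_congr μ J (Ideal.qoutMapEquivTensorQout S (I := I)).symm).trans
    ((TQ_qq μ _ _).trans (TQ_eq μ (sup_comm _ _)))

theorem tq_congr (e : M ≃ₗ[R] M') : tq μ J R M = tq μ J R M' :=
  TQ_congr μ J (TensorProduct.AlgebraTensorModule.congr (LinearEquiv.refl S S) e)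

theorem tq_pi (n : ℕ) : tq μ J R (Fin n → R) = n * μ.val (S ⧸ J) :=
  (TQ_congr μ J (TensorProduct.piScalarRight R S S (Fin n))).trans (μ.val_pi_quot n J)

theorem tq_of_subsingleton [Subsingleton M] : tq μ J R M = 0 :=
  μ.zero _

theorem tq_le_of_smul_mem_range (φ : M →ₗ[R] M') (w : R)
    (hw : ∀ v : M', w • v ∈ LinearMap.range φ)
    {n : ℕ} (v : Fin n → M') (hv : Submodule.span R (Set.range v) = ⊤) :
    tq μ J R M' ≤ tq μ J R M + n * μ.val (S ⧸ (J ⊔ Ideal.span {algebraMap R S w})) := by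
  refine μ.val_quot_le_of_smul_mem_range (φ.baseChange S) (algebraMap R S w) (fun x => ?_)
    (fun i => (1 : S) ⊗ₜ[R] v i) ?_ J
  · induction x with
    | zero => rw [smul_zero]; exact Submodule.zero_mem _
    | add a b ha hb => rw [smul_add]; exact Submodule.add_mem _ ha hb
    | tmul s x =>
      obtain ⟨u, hu⟩ := hw x
      refine ⟨s ⊗ₜ u, ?_⟩
      rw [LinearMap.baseChange_tmul, hu, algebraMap_smul, TensorProduct.tmul_smul]
  · rw [← Submodule.baseChange_top, ← hv, Submodule.baseChange_span, ← Set.range_comp]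
    rfl

theorem bc_val_quot (R' : Type) [CommRing R'] [Algebra R R'] :
    (μ.bc R R').val ((R' ⊗[R] S) ⧸
      J.map (Algebra.TensorProduct.includeRight : S →ₐ[R] R' ⊗[R] S)) = tq μ J R R' := by
  rw [← tq_congr μ J R ((Submodule.quotEquivOfEqBot (⊥ : Ideal R') rfl).restrictScalars R),
    ← TQ_bc_val]
  exact TQ_eq _ (by rw [Ideal.map_bot, sup_bot_eq])

theorem bc_val_quot_sp_pow (R' : Type) [CommRing R'] [Algebra R R'] {ι : Type} (y : ι → S)
    (N : ℕ) : (μ.bc R R').val ((R' ⊗[R] S) ⧸ sp (fun k => (1 : R') ⊗ₜ[R] y k) ^ N) =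
      tq μ (sp y ^ N) R R' := by
  rw [← bc_val_quot]
  refine TQ_eq _ ?_
  rw [Ideal.map_pow, Ideal.map_span, ← Set.range_comp]
  rfl

end tq

namespace SH

variable {R : Type} [CommRing R] [IsLocalRing R] {S : Type} [CommRing S] [Algebra R S] {d : ℕ}
  {μ : LF S} {y : Fin d → S} {fin : Prop}

theorem TQ_le [IsNoetherianRing R] (h : SH R μ y fin) : ∃ a : ℕ, ∀ (N : ℕ) (I : Ideal R),
    Module.length R (R ⧸ (maximalIdeal R ^ (a * N) ⊔ I)) ≠ ⊤ ∧
    μ.val (S ⧸ (sp y ^ N ⊔ I.map (algebraMap R S))) ≤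
      μ.val (S ⧸ (maximalIdeal R).map (algebraMap R S)) *
        Module.length R (R ⧸ (maximalIdeal R ^ (a * N) ⊔ I)) := by
  obtain ⟨a, ha⟩ := h.hy
  refine ⟨a, fun N I => ?_⟩
  have h1 : Module.length R (R ⧸ (maximalIdeal R ^ (a * N) ⊔ I)) ≠ ⊤ :=
    ne_top_of_le_ne_top (hs_ne_top R (IsNoetherian.noetherian _) (a * N))
      (Module.length_le_of_surjective _ (Submodule.factor_surjective le_sup_left))
  refine ⟨h1, ?_⟩
  rw [mul_comm (μ.val _)]
  refine le_trans (μ.quot_anti ?_)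
    (μ.val_quot_map_le (maximalIdeal R) _ ⟨a * N, le_sup_left⟩ h1)
  rw [Ideal.map_sup, Ideal.map_pow, pow_mul]
  exact sup_le_sup_right (Ideal.pow_right_mono ha N) _

theorem ne_top [IsNoetherianRing R] (h : SH R μ y fin) (N : ℕ) : μ.val (S ⧸ sp y ^ N) ≠ ⊤ := by
  obtain ⟨a, ha⟩ := h.TQ_le
  obtain ⟨h1, h2⟩ := ha N ⊥
  refine ne_top_of_le_ne_top (ENNReal.mul_ne_top h.ub (ENat.toENNReal_ne_top.2 h1))
    (le_trans (μ.quot_anti ?_) h2)
  rw [Ideal.map_bot, sup_bot_eq]

theorem tq_ne_top [IsNoetherianRing R] (h : SH R μ y fin) (M : Type) [AddCommGroup M]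
    [Module R M] [Module.Finite R M] (N : ℕ) : tq μ (sp y ^ N) R M ≠ ⊤ := by
  obtain ⟨n, v, hv⟩ := Module.Finite.exists_fin (R := R) (M := M)
  have h1 := tq_le_of_smul_mem_range μ (sp y ^ N) R (0 : (Fin 0 → R) →ₗ[R] M) 0
    (fun x => by rw [zero_smul]; exact Submodule.zero_mem _) v hv
  rw [tq_of_subsingleton μ _ R (M := Fin 0 → R), zero_add] at h1
  exact ne_top_of_le_ne_top (ENNReal.mul_ne_top (ENNReal.natCast_ne_top n)
    (ne_top_of_le_ne_top (h.ne_top N) (μ.quot_anti le_sup_left))) h1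

/-- error terms -/
theorem err [IsNoetherianRing R] (h : SH R μ y fin) {e : ℕ} (I : Ideal R)
    (hI : ringKrullDim (R ⧸ I) ≤ e) :
    lsup (e + 1) (fun N => μ.val (S ⧸ (sp y ^ N ⊔ I.map (algebraMap R S)))) = 0 := by
  obtain ⟨a, ha⟩ := h.TQ_le
  refine le_antisymm ((lsup_mono (Filter.Eventually.of_forall fun N => (ha N I).2)).trans ?_)
    zero_le
  rw [lsup_const_mul _ _ h.ub, lsup_length_err' R e I hI (fun N => maximalIdeal R ^ (a * N)) a 0
    fun _ => le_rfl, mul_zero]

theorem err_span [IsNoetherianRing R] (h : SH R μ y fin) {e : ℕ} (w : R)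
    (hw : ringKrullDim (R ⧸ Ideal.span {w}) ≤ e) :
    lsup (e + 1) (fun N => μ.val (S ⧸ (sp y ^ N ⊔ Ideal.span {algebraMap R S w}))) = 0 := by
  have h1 := h.err _ hw
  rwa [Ideal.map_span, Set.image_singleton] at h1

/-- base change along a local map with trivial residue field extension and `m R'` primary -/
theorem baseChange (h : SH R μ y fin) (R' : Type) [CommRing R'] [IsLocalRing R'] [Algebra R R']
    [IsLocalHom (algebraMap R R')]
    (hres : ∀ r : R', ∃ a : R, r - algebraMap R R' a ∈ maximalIdeal R')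
    (hpow : ∃ c : ℕ, maximalIdeal R' ^ c ≤ (maximalIdeal R).map (algebraMap R R')) :
    SH R' (μ.bc R R') (fun k => (1 : R') ⊗ₜ[R] y k) fin := by
  have hy : sp (fun k => (1 : R') ⊗ₜ[R] y k) =
      (sp y).map (Algebra.TensorProduct.includeRight : S →ₐ[R] R' ⊗[R] S) := by
    rw [Ideal.map_span, ← Set.range_comp]
    rfl
  let f : R →ₗ[R] R' ⧸ maximalIdeal R' := Algebra.linearMap R _
  have hf : Function.Surjective f := fun x => by
    obtain ⟨x, rfl⟩ := Ideal.Quotient.mk_surjective x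
    obtain ⟨a, ha⟩ := hres x
    exact ⟨a, (Ideal.Quotient.eq.2 ha).symm⟩
  have hk : maximalIdeal R = LinearMap.ker f := by
    ext a
    change _ ↔ Ideal.Quotient.mk _ (algebraMap R R' a) = 0
    rw [Ideal.Quotient.eq_zero_iff_mem, mem_maximalIdeal, mem_maximalIdeal, mem_nonunits_iff,
      mem_nonunits_iff, isUnit_map_iff]
  have key : ∀ J : Ideal S, (μ.bc R R').val ((R' ⊗[R] S) ⧸
      (J.map (Algebra.TensorProduct.includeRight : S →ₐ[R] R' ⊗[R] S) ⊔
        (maximalIdeal R').map (algebraMap R' (R' ⊗[R] S)))) =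
      μ.val (S ⧸ (J ⊔ (maximalIdeal R).map (algebraMap R S))) := fun J => by
    rw [TQ_bc_val, ← tq_quot]
    exact (tq_congr μ J R ((Submodule.quotEquivOfEq _ _ hk).trans
      (f.quotKerEquivOfSurjective hf))).symm
  have := h.flat
  refine ⟨inferInstance, ?_, ?_, ?_, fun hfin => ?_⟩
  · obtain ⟨a, ha⟩ := h.hy
    obtain ⟨c, hc⟩ := hpow
    refine ⟨c * a, ?_⟩
    have h1 : ((maximalIdeal R).map (algebraMap R R')).map (algebraMap R' (R' ⊗[R] S)) =
        ((maximalIdeal R).map (algebraMap R S)).map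
          (Algebra.TensorProduct.includeRight : S →ₐ[R] R' ⊗[R] S).toRingHom := by
      rw [Ideal.map_map, Ideal.map_map, ← IsScalarTower.algebraMap_eq]
      congr 1
      exact (Algebra.TensorProduct.includeRight : S →ₐ[R] R' ⊗[R] S).comp_algebraMap.symm
    rw [pow_mul, ← Ideal.map_pow, hy]
    refine (Ideal.pow_right_mono (Ideal.map_mono hc) a).trans ?_
    rw [h1, ← Ideal.map_pow]
    exact Ideal.map_mono ha
  · rw [hy, key]
    exact h.b0
  · refine ne_top_of_le_ne_top h.ub (le_trans (LF.quot_anti _ ?_) ((key ⊥).le.trans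
      (μ.quot_anti le_sup_right)))
    rw [Ideal.map_bot, bot_sup_eq]
  · obtain ⟨h1, h2, h3⟩ := h.good hfin
    refine ⟨inferInstance, inferInstance, fun M _ _ _ _ => ?_⟩
    let _ : Module S M :=
      Module.compHom M (Algebra.TensorProduct.includeRight : S →ₐ[R] R' ⊗[R] S).toRingHom
    let _ : Module R M := Module.compHom M (algebraMap R R')
    have : IsScalarTower R R' M := ⟨fun r r' x => by
      rw [Algebra.smul_def, mul_smul]
      rfl⟩
    have : IsScalarTower R S M := ⟨fun r s x => by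
      change (Algebra.TensorProduct.includeRight : S →ₐ[R] R' ⊗[R] S) (r • s) • x =
        algebraMap R R' r • (Algebra.TensorProduct.includeRight : S →ₐ[R] R' ⊗[R] S) s • x
      rw [map_smul, ← smul_assoc, algebraMap_smul]⟩
    rw [← length_eq_of_res hres M, ← h3 M]
    rfl

end SH

/-- the operator `σ` after base change -/
theorem hasSig_baseChange_quot (R R' S : Type) [CommRing R] [IsLocalRing R] [CommRing R']
    [CommRing S] [Algebra R R'] [Algebra R S] [Module.Flat R S] {d : ℕ} (y : Fin d → S)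
    (J : Ideal R') (hJ : ∃ c : ℕ, (maximalIdeal R ^ c).map (algebraMap R R') ≤ J) :
    HasSig ((maximalIdeal R).map (algebraMap R R'))
      (fun k => Ideal.Quotient.mk (J.map (algebraMap R' (R' ⊗[R] S))) ((1 : R') ⊗ₜ[R] y k)) := by
  obtain ⟨c, hc⟩ := hJ
  let g₀ : (S ⧸ (maximalIdeal R ^ c).map (algebraMap R S)) →ₐ[R]
      (R' ⊗[R] S) ⧸ J.map (algebraMap R' (R' ⊗[R] S)) :=
    Ideal.Quotient.liftₐ _ ((Ideal.Quotient.mkₐ R _).comp Algebra.TensorProduct.includeRight) (by
      have h1 : (maximalIdeal R ^ c).map (algebraMap R S) ≤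
          RingHom.ker ((Ideal.Quotient.mkₐ R (J.map (algebraMap R' (R' ⊗[R] S)))).comp
            (Algebra.TensorProduct.includeRight : S →ₐ[R] R' ⊗[R] S)) := by
        rw [Ideal.map_le_iff_le_comap]
        intro a ha
        rw [Ideal.mem_comap, RingHom.mem_ker, AlgHom.comp_apply, AlgHom.commutes,
          IsScalarTower.algebraMap_apply R R' (R' ⊗[R] S)]
        exact Ideal.Quotient.eq_zero_iff_mem.2
          (Ideal.mem_map_of_mem _ (hc (Ideal.mem_map_of_mem _ ha)))
      exact fun a ha => h1 ha)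
  let g : R' ⊗[R] (S ⧸ (maximalIdeal R ^ c).map (algebraMap R S)) →ₐ[R']
      (R' ⊗[R] S) ⧸ J.map (algebraMap R' (R' ⊗[R] S)) :=
    Algebra.TensorProduct.lift (Algebra.ofId R' _) g₀ fun _ _ => Commute.all _ _
  let π : R' ⊗[R] S →ₐ[R'] R' ⊗[R] (S ⧸ (maximalIdeal R ^ c).map (algebraMap R S)) :=
    Algebra.TensorProduct.map (AlgHom.id R' R') (Ideal.Quotient.mkₐ R _)
  have hπ : Function.Surjective π :=
    Algebra.TensorProduct.map_surjective _ _ Function.surjective_id Ideal.Quotient.mk_surjective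
  have hg : ∀ x, g (π x) = Ideal.Quotient.mk _ x := fun x => by
    have : g.comp π = Ideal.Quotient.mkₐ R' _ := by
      ext s
      change g (1 ⊗ₜ Ideal.Quotient.mk _ s) = _
      rw [Algebra.TensorProduct.lift_tmul, map_one, one_mul]
      rfl
    exact DFunLike.congr_fun this x
  have h1 := ((hasSig_of_flat R S y c).baseChange R').quot g
    (fun x => by
      obtain ⟨x, rfl⟩ := Ideal.Quotient.mk_surjective x
      exact ⟨π x, hg x⟩) J (by
    refine le_antisymm (fun x hx => ?_) (Ideal.map_le_iff_le_comap.2 fun a ha => ?_)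
    · obtain ⟨x, rfl⟩ := hπ x
      rw [RingHom.mem_ker, hg, Ideal.Quotient.eq_zero_iff_mem] at hx
      have h2 := Ideal.mem_map_of_mem π.toRingHom hx
      rwa [Ideal.map_map, AlgHom.toRingHom_eq_coe, π.comp_algebraMap] at h2
    · rw [Ideal.mem_comap, RingHom.mem_ker, AlgHom.commutes]
      exact Ideal.Quotient.eq_zero_iff_mem.2 (Ideal.mem_map_of_mem _ ha))
  convert h1 using 2 with k
  exact (hg _).symm

end Crest.Agent.R183
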