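import Crest.Agent.R183.TData
import Crest.Agent.R183.HD
import Crest.Agent.R183.TQ
import Crest.Agent.R183.HSBasic

/-!
# The inequality at level `q`
-/

set_option autoImplicit false

open scoped ENNReal NNReal TensorProduct
open MvPolynomial IsLocalRing

namespace Crest.Agent.R183

theorem Dom1_le_sup_ker {T R' : Type} [CommRing T] [CommRing R'] (φ : T →+* R')
    (hs : Function.Surjective φ) {I J : Ideal T} (h : I.map φ ≤ J.map φ) :
    I ≤ J ⊔ RingHom.ker φ := by
  refine (Ideal.le_comap_map (f := φ)).trans ((Ideal.comap_mono h).trans ?_)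
  rw [Ideal.comap_map_of_surjective φ hs, RingHom.ker_eq_comap_bot]

theorem Dom1_flatMod {T R' S' : Type} [CommRing T] [CommRing R'] [CommRing S'] [Algebra T R']
    [Algebra R' S'] [Algebra T S'] [IsScalarTower T R' S'] [Module.Flat R' S']
    (hs : Function.Surjective (algebraMap T R')) :
    FlatMod (RingHom.ker (algebraMap T R')) S' := by
  have h1 : FlatMod (RingHom.ker (algebraMap T R')) R' := by
    refine LFflatMod_of_surjective (flatMod_of_flat _ T) (Algebra.linearMap T R') hs ?_
    intro x hx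
    have : x ∈ RingHom.ker (algebraMap T R') := hx
    simpa using this
  intro V' V _ _ _ _ f hV hf
  have h3 : Function.Injective (TensorProduct.AlgebraTensorModule.lTensor R' R' f) :=
    h1 V' V f hV hf
  have h4 := Module.Flat.lTensor_preserves_injective_linearMap (M := S') _ h3
  have h5 := TensorProduct.AlgebraTensorModule.lTensor_comp_cancelBaseChange T R' R'
    (M := S') f
  have h6 : Function.Injective ((TensorProduct.AlgebraTensorModule.lTensor R' S' f) ∘ₗ
      (TensorProduct.AlgebraTensorModule.cancelBaseChange T R' R' S' V').toLinearMap) := by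
    rw [h5]
    exact (TensorProduct.AlgebraTensorModule.cancelBaseChange T R' R' S' V).injective.comp h4
  exact Function.Injective.of_comp_right h6
    (TensorProduct.AlgebraTensorModule.cancelBaseChange T R' R' S' V').surjective

theorem Dom1_exists_const {τ A : Type} [CommRing A] (t : MvPolynomial τ A) :
    ∃ a : A, t - C a ∈ sp (fun j => (X j : MvPolynomial τ A)) := by
  induction t using MvPolynomial.induction_on with
  | C a => exact ⟨a, by simp⟩
  | add p q hp hq =>
    obtain ⟨a, ha⟩ := hp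
    obtain ⟨b, hb⟩ := hq
    refine ⟨a + b, ?_⟩
    have : p + q - C (a + b) = (p - C a) + (q - C b) := by rw [map_add]; ring
    rw [this]
    exact Ideal.add_mem _ ha hb
  | mul_X p j _ =>
    refine ⟨0, ?_⟩
    rw [map_zero, sub_zero]
    exact Ideal.mul_mem_left _ _ (Ideal.subset_span ⟨j, rfl⟩)

theorem Dom1_finFree {T R' S : Type} [CommRing T] [CommRing R'] [Nontrivial R'] [CommRing S]
    [Algebra T R'] [Algebra R' S] [Algebra T S] [IsScalarTower T R' S]
    (hs : Function.Surjective (algebraMap T R')) [Module.Finite R' S] [Module.Free R' S] :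
    ∃ ν : ℕ, Nonempty (S ≃ₗ[T] (Fin ν → T ⧸ RingHom.ker (algebraMap T R'))) := by
  let e : (T ⧸ RingHom.ker (algebraMap T R')) ≃ₗ[T] R' :=
    (Algebra.linearMap T R').quotKerEquivOfSurjective hs
  exact ⟨_, ⟨((Module.finBasis R' S).equivFun.restrictScalars T).trans
    (LinearEquiv.piCongrRight fun _ => e.symm)⟩⟩

theorem Dom1_length {T R' S : Type} [CommRing T] [CommRing R'] [CommRing S]
    [Algebra T R'] [Algebra R' S] [Algebra T S] [IsScalarTower T R' S]
    (hs : Function.Surjective (algebraMap T R')) (μ : LF S)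
    (h : ∀ (M : Type) [AddCommGroup M] [Module S M] [Module R' M] [IsScalarTower R' S M],
      μ.val M = Module.length R' M)
    (M : Type) [AddCommGroup M] [Module S M] [Module T M] [IsScalarTower T S M] :
    μ.val M = Module.length T M := by
  let _ : Module R' M := Module.compHom M (algebraMap R' S)
  have hsm : ∀ (r : R') (m : M), r • m = algebraMap R' S r • m := fun _ _ => rfl
  have : IsScalarTower R' S M := ⟨fun r s m => by
    rw [hsm, Algebra.smul_def, mul_smul]⟩
  have : IsScalarTower T R' M := ⟨fun t r m => by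
    rw [hsm, hsm, Algebra.smul_def, map_mul, ← IsScalarTower.algebraMap_apply, mul_smul,
      algebraMap_smul]⟩
  rw [h M, Module.length_eq_of_surjective (S := T) (R := R') (M := M) hs]

theorem Dom1_aux {e s q : ℕ} {A R' : Type} [CommRing A] [IsDomain A] [IsLocalRing A]
    [IsNoetherianRing A] [CommRing R'] [IsDomain R'] [IsLocalRing R'] [IsNoetherianRing R']
    [Algebra A R'] {x' : Fin (e + 1) → A} {fin : Prop} (hA : BaseRing (e + 1) A x' fin)
    (hAR : FinExt A R') [Algebra (TT (e + 1) s A) R'] [IsScalarTower A (TT (e + 1) s A) R']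
    (hs : Function.Surjective (algebraMap (TT (e + 1) s A) R'))
    (hξ : ∀ j, algebraMap (TT (e + 1) s A) R' (X j) ∈ maximalIdeal R')
    (hsep : ∀ j, ∃ f : Polynomial A,
      Polynomial.aeval (algebraMap (TT (e + 1) s A) R' (X j)) f = 0 ∧
      Polynomial.aeval (algebraMap (TT (e + 1) s A) R' (X j)) (Polynomial.derivative f) ≠ 0)
    (hz : ∃ c : ℕ, maximalIdeal R' ^ c ≤
      sp (fun k => algebraMap (TT (e + 1) s A) R' (zz (e + 1) s A k)))
    (𝔪 : Ideal R') (h𝔪 : 𝔪 ≤ maximalIdeal R') {r₀ : ℕ}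
    (hm : 𝔪 ^ (r₀ + 1) ≤
      sp (fun k => algebraMap (TT (e + 1) s A) R' (zz (e + 1) s A k)) ^ q * 𝔪 ^ r₀)
    {S : Type} [CommRing S] [Algebra R' S] [Algebra (TT (e + 1) s A) S]
    [IsScalarTower (TT (e + 1) s A) R' S] {μ : LF S} {y : Fin (e + 1) → S}
    (hS : SH R' μ y fin)
    (hsig : ∀ J : Ideal R', (∃ c : ℕ, maximalIdeal R' ^ c ≤ J) →
      HasSig 𝔪 (fun k => Ideal.Quotient.mk (J.map (algebraMap R' S)) (y k)))
    (q' : ℕ) (hq' : 1 ≤ q') (hq : q' + 2 * (e + 1) + s + 1 ≤ q) :
    (q' : ℝ≥0∞) ^ (e + 1) * lsup (e + 1)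
        (fun N => (Module.length R' (R' ⧸
          sp (fun k => algebraMap (TT (e + 1) s A) R' (zz (e + 1) s A k)) ^ N) : ℝ≥0∞)) ≤
      linf (e + 1) (fun N => μ.val (S ⧸ sp y ^ N)) := by
  obtain ⟨a, mm, Δ, ρ, k, ν, H, c, w, w', ε, w'', ψ, ha, hΔ0, hρ, hk, hw, hw', hw'', HP, Hσ, cσ,
    hz', hx', hc, hε, hΔ, hν, hV1, hψ, hψ'⟩ :=
    exists_tdata x' hA.max (hA.ne_zero 0) hAR hs hξ hz hsep
  have := hS.flat
  have := hAR.loc
  have hC : ∀ t : A, algebraMap (TT (e + 1) s A) R' (C t) = algebraMap A R' t := fun t => by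
    rw [IsScalarTower.algebraMap_apply A (TT (e + 1) s A) R', MvPolynomial.algebraMap_eq]
  have hTS : ∀ t, algebraMap (TT (e + 1) s A) S t =
      algebraMap R' S (algebraMap (TT (e + 1) s A) R' t) := fun t =>
    IsScalarTower.algebraMap_apply _ _ _ t
  have hmap : ∀ I : Ideal (TT (e + 1) s A), I.map (algebraMap (TT (e + 1) s A) S) =
      (I.map (algebraMap (TT (e + 1) s A) R')).map (algebraMap R' S) := fun I => by
    rw [Ideal.map_map, ← IsScalarTower.algebraMap_eq]
  have hσm : ∀ i, algebraMap (TT (e + 1) s A) R' (sig s x' i) ∈ maximalIdeal R' := by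
    rintro (i | j)
    · change algebraMap (TT (e + 1) s A) R' (C (x' i)) ∈ _
      rw [hC]
      refine hAR.map_le (Ideal.mem_map_of_mem _ ?_)
      rw [hA.max]
      exact Ideal.subset_span ⟨i, rfl⟩
    · exact hξ j
  have hσ : (sp (sig s x')).map (algebraMap (TT (e + 1) s A) R') = maximalIdeal R' := by
    apply le_antisymm
    · rw [sp_map, Ideal.span_le]
      rintro _ ⟨i, rfl⟩
      exact hσm i
    · intro r hr
      obtain ⟨t, rfl⟩ := hs r
      obtain ⟨t0, ht0⟩ := Dom1_exists_const t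
      have hX : sp (fun j => (X j : TT (e + 1) s A)) ≤ sp (sig s x') := by
        rw [Ideal.span_le]
        rintro _ ⟨j, rfl⟩
        exact Ideal.subset_span ⟨Sum.inr j, rfl⟩
      have h1 : algebraMap (TT (e + 1) s A) R' (t - C t0) ∈ maximalIdeal R' := by
        have := Ideal.mem_map_of_mem (algebraMap (TT (e + 1) s A) R') (hX ht0)
        rw [sp_map] at this
        refine (Ideal.span_le.2 ?_) this
        rintro _ ⟨i, rfl⟩
        exact hσm i
      have h2 : algebraMap A R' t0 ∈ maximalIdeal R' := by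
        have := Ideal.sub_mem _ hr h1
        rwa [map_sub, sub_sub_cancel, hC] at this
      have h3 : t0 ∈ sp x' := by
        rw [← hA.max]
        exact (mem_maximalIdeal _).2 fun hu => (mem_maximalIdeal _).1 h2 (hu.map _)
      have h4 : (C t0 : TT (e + 1) s A) ∈ sp (sig s x') := by
        have := Ideal.mem_map_of_mem (C : A →+* TT (e + 1) s A) h3
        rw [sp_map] at this
        refine (Ideal.span_le.2 ?_) this
        rintro _ ⟨i, rfl⟩
        exact Ideal.subset_span ⟨Sum.inl i, rfl⟩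
      have h5 : t ∈ sp (sig s x') := by
        have := Ideal.add_mem _ (hX ht0) h4
        rwa [sub_add_cancel] at this
      exact Ideal.mem_map_of_mem _ h5
  obtain ⟨a₂, ha₂⟩ := hS.hy
  obtain ⟨r, g, hg⟩ := Submodule.fg_iff_exists_fin_generating_family.1
    (IsNoetherian.noetherian 𝔪)
  choose mg hmg using fun i => hs (g i)
  have hmg' : (sp mg).map (algebraMap (TT (e + 1) s A) R') = 𝔪 := by
    rw [sp_map]
    simp only [hmg]
    exact hg
  obtain ⟨cz, hcz⟩ := hz
  let W : HD (e + 1) s q A x' μ y :=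
    { r := r
      a := a + a₂
      mm := mm
      r₀ := r₀
      Δ := Δ
      H := H
      c := c
      P := RingHom.ker (algebraMap (TT (e + 1) s A) R')
      mg := mg
      w := w
      w' := w'
      ε := ε
      ha := Nat.add_pos_left ha _
      hΔ0 := hΔ0
      HP := HP
      Hσ := Hσ
      cσ := cσ
      hz := fun i => by
        rw [pow_add]
        exact Ideal.mul_mem_right _ _ (hz' i)
      hx := fun i => by
        rw [pow_add]
        exact Ideal.mul_mem_right _ _ (hx' i)
      hc := hc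
      hm := by
        refine Dom1_le_sup_ker _ hs ?_
        rw [Ideal.map_mul, Ideal.map_pow, Ideal.map_pow, Ideal.map_pow, hmg', sp_map]
        exact hm
      hε := hε
      PS := fun π hπ => by
        rw [hTS, (RingHom.mem_ker).1 hπ, map_zero]
      flat := Dom1_flatMod hs
      hsig := fun b => by
        have h1 := hsig ((win s x' b).map (algebraMap (TT (e + 1) s A) R'))
          ⟨cz * (Fintype.card (Fin (e + 1)) * b + 1), by
            rw [pow_mul]
            refine (Ideal.pow_right_mono hcz _).trans ((sp_pow_le_sp_pow _ b).trans ?_)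
            rw [Ideal.span_le]
            rintro _ ⟨k, rfl⟩
            have : algebraMap (TT (e + 1) s A) R' (zz (e + 1) s A k) ^ b =
                algebraMap (TT (e + 1) s A) R' (sig s x' (Sum.inr (Sum.inl k)) ^ b) := by
              rw [map_pow]; rfl
            change algebraMap (TT (e + 1) s A) R' (zz (e + 1) s A k) ^ b ∈ _
            rw [this]
            exact Ideal.mem_map_of_mem _ (Ideal.subset_span ⟨_, rfl⟩)⟩
        rw [← hmap, ← hmg'] at h1
        exact h1.restrict
      hy := fun i => by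
        rw [pow_add]
        refine Ideal.mul_mem_left _ _ (ha₂ (Ideal.pow_mem_pow ?_ _))
        rw [hTS]
        exact Ideal.mem_map_of_mem _ (hσm i)
      hΔ := hΔ
      b0 := by
        refine hS.b0.trans (μ.quot_anti (sup_le_sup_left ?_ _))
        rw [hmap, Ideal.map_sup, hmg', hσ]
        exact Ideal.map_mono (sup_le h𝔪 le_rfl)
      hub := by
        rw [hmap, hσ]
        exact hS.ub }
  have hfin : fin → W.FinFree := fun hf => by
    obtain ⟨h1, h2, h3⟩ := hS.good hf
    exact ⟨Dom1_finFree hs, fun M _ _ _ _ => Dom1_length hs μ h3 M⟩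
  have hdimA := hA.ringKrullDim_le
  have hdimR : ringKrullDim R' ≤ (e + 1 : ℕ) := hAR.ringKrullDim_le.trans hdimA
  have hU3 : lsup (e + 1) W.U3 = 0 := by
    have h0 : algebraMap A R' w ≠ 0 := fun h => hw (hAR.inj (by rw [h, map_zero]))
    have := hS.err_span (e := e) (algebraMap A R' w)
      (ringKrullDim_quot_le R' e hdimR _ (by simpa using h0))
    rw [← hC, ← hTS] at this
    exact this
  have hV2 : lsup (e + 1) W.V2 = 0 := by
    have := lsup_length_err' A e (Ideal.span {w'})
      (ringKrullDim_quot_le A e hdimA _ (by simpa using hw'))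
      (fun N => sp (fun k => x' k ^ ((a + a₂) * N))) ((e + 1) * (a + a₂)) 1 (fun N => by
        have := sp_pow_le_sp_pow x' ((a + a₂) * N)
        rwa [Fintype.card_fin, ← mul_assoc, ← hA.max] at this)
    rw [← this]
    congr 1
    funext N
    rw [sup_comm]
    rfl
  have herr : lsup (e + 1) (fun N => (ν : ℝ≥0∞) *
      μ.val (S ⧸ (sp y ^ N ⊔ Ideal.span {algebraMap R' S w''}))) = 0 := by
    rw [lsup_const_mul _ _ (ENNReal.natCast_ne_top ν), hS.err_span (e := e) w''
      (ringKrullDim_quot_le R' e hdimR _ (by simpa using hw'')), mul_zero]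
  have hU2 : ∀ N, (ν : ℝ≥0∞) * μ.val (S ⧸ sp y ^ N) ≤ W.U2 N + (ν : ℝ≥0∞) *
      μ.val (S ⧸ (sp y ^ N ⊔ Ideal.span {algebraMap R' S w''})) := fun N => by
    have h1 := u2_le μ _ ψ hψ w'' hψ' (sp y ^ N)
    have h2 : (algebraMap R' S).comp (algebraMap A R') =
        (algebraMap (TT (e + 1) s A) S).comp C := by
      ext t
      rw [RingHom.comp_apply, RingHom.comp_apply, hTS, hC]
    have h3 : (sp (fun j => MvPolynomial.map (algebraMap A R') (H j)) ⊔
        Ideal.span {MvPolynomial.map (algebraMap (TT (e + 1) s A) R') ε}).map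
          (MvPolynomial.map (algebraMap R' S)) =
        sp (fun j => MvPolynomial.map ((algebraMap (TT (e + 1) s A) S).comp C) (H j)) ⊔
          Ideal.span {MvPolynomial.map (algebraMap (TT (e + 1) s A) S) ε} := by
      rw [Ideal.map_sup, sp_map, Ideal.map_span, Set.image_singleton]
      simp only [MvPolynomial.map_map]
      rw [h2, ← IsScalarTower.algebraMap_eq]
    rw [h3] at h1
    exact h1
  have hfinal := asym_final (d := e + 1) (Q := q' ^ (e + 1)) hΔ0 hρ hν
    (U1 := fun N => μ.val (S ⧸ sp y ^ N)) (U2 := W.U2) (U3 := W.U3) (V1 := W.V1) (V2 := W.V2)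
    hS.ne_top hU3 hV2 herr hU2 (fun N N' hN' u1 u2 u3 v1 v2 h1 h3 h2 hv1 hv2 =>
      W.ineq hA.wi hfin q' hq' hq N N' hN' u1 u2 u3 v1 v2 h1 h3 h2 hv1 hv2)
  have hV1' := mul_le_mul_right hV1 ((q' : ℝ≥0∞) ^ (e + 1))
  have hk0 : (k : ℝ≥0∞) ≠ 0 := by exact_mod_cast hk.ne'
  rw [← ENNReal.mul_le_mul_iff_right hk0 (ENNReal.natCast_ne_top k), mul_left_comm]
  refine hV1'.trans ?_
  rw [← mul_assoc]
  rw [Nat.cast_pow] at hfinal
  exact hfinal

theorem dom1 {e s q : ℕ} {A R' : Type} [CommRing A] [IsDomain A] [IsLocalRing A]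
    [IsNoetherianRing A] [CommRing R'] [IsDomain R'] [IsLocalRing R'] [IsNoetherianRing R']
    [Algebra A R'] {x' : Fin (e + 1) → A} {fin : Prop} (hA : BaseRing (e + 1) A x' fin)
    (hAR : FinExt A R') (ξ : Tau (e + 1) s → R') (hξ : ∀ j, ξ j ∈ maximalIdeal R')
    (hadj : Algebra.adjoin A (Set.range ξ) = ⊤)
    (hsep : ∀ j, ∃ f : Polynomial A, Polynomial.aeval (ξ j) f = 0 ∧
      Polynomial.aeval (ξ j) (Polynomial.derivative f) ≠ 0)
    (hz : ∃ c : ℕ, maximalIdeal R' ^ c ≤ sp (fun k => ξ (Sum.inl k)))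
    (𝔪 : Ideal R') (h𝔪 : 𝔪 ≤ maximalIdeal R') {r₀ : ℕ}
    (hm : 𝔪 ^ (r₀ + 1) ≤ sp (fun k => ξ (Sum.inl k)) ^ q * 𝔪 ^ r₀)
    {S : Type} [CommRing S] [Algebra R' S] {μ : LF S} {y : Fin (e + 1) → S}
    (hS : SH R' μ y fin)
    (hsig : ∀ J : Ideal R', (∃ c : ℕ, maximalIdeal R' ^ c ≤ J) →
      HasSig 𝔪 (fun k => Ideal.Quotient.mk (J.map (algebraMap R' S)) (y k)))
    (q' : ℕ) (hq' : 1 ≤ q') (hq : q' + 2 * (e + 1) + s + 1 ≤ q) :
    (q' : ℝ≥0∞) ^ (e + 1) * lsup (e + 1)
        (fun N => (Module.length R' (R' ⧸ sp (fun k => ξ (Sum.inl k)) ^ N) : ℝ≥0∞)) ≤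
      linf (e + 1) (fun N => μ.val (S ⧸ sp y ^ N)) := by
  let _ : Algebra (TT (e + 1) s A) R' := (MvPolynomial.aeval ξ).toRingHom.toAlgebra
  have hφ : ∀ t, algebraMap (TT (e + 1) s A) R' t = MvPolynomial.aeval ξ t := fun _ => rfl
  have : IsScalarTower A (TT (e + 1) s A) R' :=
    IsScalarTower.of_algebraMap_eq fun a => by rw [hφ, AlgHom.commutes]
  let _ : Algebra (TT (e + 1) s A) S :=
    ((algebraMap R' S).comp (algebraMap (TT (e + 1) s A) R')).toAlgebra
  have : IsScalarTower (TT (e + 1) s A) R' S := IsScalarTower.of_algebraMap_eq fun _ => rfl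
  have hX : ∀ j, algebraMap (TT (e + 1) s A) R' (X j) = ξ j := fun j => by
    rw [hφ, MvPolynomial.aeval_X]
  have hzz : (fun k => algebraMap (TT (e + 1) s A) R' (zz (e + 1) s A k)) =
      fun k => ξ (Sum.inl k) := funext fun k => hX _
  have hs : Function.Surjective (algebraMap (TT (e + 1) s A) R') := by
    intro r
    have : r ∈ (MvPolynomial.aeval ξ : TT (e + 1) s A →ₐ[A] R').range := by
      rw [← Algebra.adjoin_range_eq_range_aeval, hadj]
      trivial
    exact this
  have := Dom1_aux (q := q) hA hAR hs (fun j => by rw [hX]; exact hξ j)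
    (fun j => by rw [hX]; exact hsep j) (by rw [hzz]; exact hz) 𝔪 h𝔪 (r₀ := r₀)
    (by rw [hzz]; exact hm) hS hsig q' hq' hq
  rwa [hzz] at this

end Crest.Agent.R183
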