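import Crest.Agent.R183.TopBasic
import Crest.Agent.R183.Complete

/-!
# Adjoining roots of the parameters; generic separability by a Frobenius twist
-/

set_option autoImplicit false

open scoped ENNReal NNReal TensorProduct
open IsLocalRing

namespace Crest.Agent.R183

/-- after a Frobenius twist every element of an algebraic extension is a simple root -/
theorem Ext_sep (A K Ω : Type) [CommRing A] [IsDomain A] [Field K] [Field Ω] [Algebra A K]
    [IsFractionRing A K] [Algebra K Ω] [Algebra A Ω] [IsScalarTower A K Ω]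
    [Algebra.IsAlgebraic K Ω] (p : ℕ) [ExpChar K p] (u : Ω) :
    ∃ n : ℕ, ∀ t : ℕ, n ≤ t → ∃ f : Polynomial A, Polynomial.aeval (u ^ p ^ t) f = 0 ∧
      Polynomial.aeval (u ^ p ^ t) (Polynomial.derivative f) ≠ 0 := by
  have : ExpChar (separableClosure K Ω) p :=
    expChar_of_injective_algebraMap (algebraMap K (separableClosure K Ω)).injective p
  obtain ⟨n, v, hv⟩ := IsPurelyInseparable.pow_mem (separableClosure K Ω) p u
  refine ⟨n, fun t ht => ?_⟩
  have h1 : u ^ p ^ t ∈ separableClosure K Ω := by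
    obtain ⟨c, rfl⟩ := Nat.exists_eq_add_of_le ht
    rw [pow_add, pow_mul, ← hv]
    exact pow_mem v.2 _
  rw [mem_separableClosure_iff] at h1
  set w := u ^ p ^ t
  obtain ⟨b, hb, hf⟩ := IsLocalization.integerNormalization_spec (nonZeroDivisors A) (minpoly K w)
  set f := IsLocalization.integerNormalization (nonZeroDivisors A) (minpoly K w)
  have hb' : algebraMap A Ω b ≠ 0 := by
    rw [IsScalarTower.algebraMap_apply A K Ω, map_ne_zero]
    exact IsFractionRing.to_map_ne_zero_of_mem_nonZeroDivisors hb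
  refine ⟨f, ?_, ?_⟩
  · exact IsLocalization.integerNormalization_aeval_eq_zero _ _ (minpoly.aeval K w)
  · rw [← Polynomial.aeval_map_algebraMap K, ← Polynomial.derivative_map, hf,
      Polynomial.derivative_smul, ← algebraMap_smul K, map_smul, algebraMap_smul, Algebra.smul_def]
    exact mul_ne_zero hb' (Polynomial.Separable.aeval_derivative_ne_zero h1 (minpoly.aeval K w))

/-- generators in the maximal ideal -/
theorem Ext_gens (A R : Type) [CommRing A] [CommRing R] [IsLocalRing R] [Algebra A R]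
    (h : FinExt A R) : ∃ (s : ℕ) (g : Fin s → R), (∀ i, g i ∈ maximalIdeal R) ∧
      ∀ B : Subring R, (∀ a, algebraMap A R a ∈ B) → (∀ i, g i ∈ B) → ∀ r, r ∈ B := by
  have := h.fin
  obtain ⟨s, v, hv⟩ := Module.Finite.exists_fin (R := A) (M := R)
  choose a ha using fun i => h.res (v i)
  refine ⟨s, fun i => v i - algebraMap A R (a i), ha, fun B h1 h2 r => ?_⟩
  have hr : r ∈ Submodule.span A (Set.range v) := hv ▸ Submodule.mem_top
  induction hr using Submodule.span_induction with
  | mem x hx =>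
    obtain ⟨i, rfl⟩ := hx
    simpa using B.add_mem (h2 i) (h1 (a i))
  | zero => exact B.zero_mem
  | add x y _ _ hx hy => exact B.add_mem hx hy
  | smul c x _ hx =>
    rw [Algebra.smul_def]
    exact B.mul_mem (h1 c) hx

/-- `p^t`-th roots modulo the maximal ideal -/
theorem Ext_root (R : Type) [CommRing R] [IsLocalRing R] [PerfectField (ResidueField R)]
    (p : ℕ) [hp : ExpChar R p] (t : ℕ) (r : R) : ∃ r' : R, r - r' ^ p ^ t ∈ maximalIdeal R := by
  cases hp with
  | zero => exact ⟨r, by simp⟩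
  | prime hprime =>
    have : Fact p.Prime := ⟨hprime⟩
    have : CharP (ResidueField R) p := by
      have h0 : ((p : ℕ) : ResidueField R) = 0 := by
        rw [← map_natCast (residue R), CharP.cast_eq_zero, map_zero]
      exact (CharP.charP_iff_prime_eq_zero hprime).2 h0
    obtain ⟨y, hy⟩ := (iterateFrobeniusEquiv (ResidueField R) p t).surjective (residue R r)
    obtain ⟨r', rfl⟩ := residue_surjective y
    refine ⟨r', ?_⟩
    rw [← residue_eq_zero_iff, map_sub, map_pow, ← hy, iterateFrobeniusEquiv_def, sub_self]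

/-- an abstract criterion: `R'` is generated over `A` by elements with a power in `m_R`. -/
theorem Ext_core (A R R' : Type) [CommRing A] [IsLocalRing A] [IsNoetherianRing A]
    [CommRing R] [IsLocalRing R] [IsAdicComplete (maximalIdeal R) R] [CommRing R'] [IsDomain R']
    [Algebra A R'] [Algebra R R'] (φ : A →+* R) [IsLocalHom φ]
    (hA : Function.Injective (algebraMap A R')) (hR : Function.Injective (algebraMap R R'))
    (e : ℕ) (he : 0 < e) (hθ : ∀ a, algebraMap A R' a ^ e = algebraMap R R' (φ a))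
    (hsub : ∀ u v : R', (u - v) ^ e = u ^ e - v ^ e)
    (hroot : ∀ r : R, ∃ r' : R, r - r' ^ e ∈ maximalIdeal R)
    (hint : ∀ r : R, IsIntegral A (algebraMap R R' r))
    {σ : Type} [Finite σ] (ξ : σ → R')
    (hξ : ∀ j, ∃ n : ℕ, 0 < n ∧ ∃ r ∈ maximalIdeal R, ξ j ^ n = algebraMap R R' r)
    (hgen : Algebra.adjoin A (Set.range ξ) = ⊤) :
    ∃ (_ : IsLocalRing R') (_ : IsNoetherianRing R'), FinExt R R' ∧ FinExt A R' ∧
      ∀ j, ξ j ∈ maximalIdeal R' := by
  have hξA : ∀ j, IsIntegral A (ξ j) := fun j => by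
    obtain ⟨n, hn, r, -, hr⟩ := hξ j
    exact IsIntegral.of_pow hn (hr ▸ hint r)
  have hfinA : Module.Finite A R' := by
    have h1 := fg_adjoin_of_finite (R := A) (Set.finite_range ξ) (by
      rintro _ ⟨j, rfl⟩
      exact hξA j)
    rw [hgen] at h1
    exact ⟨h1⟩
  have hnoeth : IsNoetherianRing R' := IsNoetherianRing.of_finite A R'
  have hdec : ∀ u : R', ∃ a : A, u - algebraMap A R' a ∈ Ideal.span (Set.range ξ) := by
    intro u
    have hu : u ∈ Algebra.adjoin A (Set.range ξ) := hgen ▸ Algebra.mem_top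
    induction hu using Algebra.adjoin_induction with
    | mem x hx => exact ⟨0, by simpa using Ideal.subset_span hx⟩
    | algebraMap a => exact ⟨a, by simp⟩
    | add x y _ _ hx hy =>
      obtain ⟨a, ha⟩ := hx
      obtain ⟨b, hb⟩ := hy
      refine ⟨a + b, ?_⟩
      convert Ideal.add_mem _ ha hb using 1
      rw [map_add]; ring
    | mul x y _ _ hx hy =>
      obtain ⟨a, ha⟩ := hx
      obtain ⟨b, hb⟩ := hy
      refine ⟨a * b, ?_⟩
      convert Ideal.add_mem _ (Ideal.mul_mem_right y _ ha)
        (Ideal.mul_mem_left _ (algebraMap A R' a) hb) using 1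
      rw [map_mul]; ring
  have hintR : Algebra.IsIntegral R R' := by
    refine ⟨fun u => ?_⟩
    have hu : u ∈ Algebra.adjoin A (Set.range ξ) := hgen ▸ Algebra.mem_top
    induction hu using Algebra.adjoin_induction with
    | mem x hx =>
      obtain ⟨j, rfl⟩ := hx
      obtain ⟨n, hn, r, -, hr⟩ := hξ j
      exact IsIntegral.of_pow hn (hr ▸ isIntegral_algebraMap)
    | algebraMap a => exact IsIntegral.of_pow he (hθ a ▸ isIntegral_algebraMap)
    | add x y _ _ hx hy => exact hx.add hy
    | mul x y _ _ hx hy => exact hx.mul hy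
  -- primes containing `m_R`
  have key : ∀ P : Ideal R', P.IsPrime → (∀ r ∈ maximalIdeal R, algebraMap R R' r ∈ P) →
      (∀ j, ξ j ∈ P) ∧ ∀ a, algebraMap A R' a ∈ P ↔ a ∈ maximalIdeal A := by
    intro P hP hm
    refine ⟨fun j => ?_, fun a => ⟨fun ha => ?_, fun ha => ?_⟩⟩
    · obtain ⟨n, -, r, hr, e⟩ := hξ j
      exact hP.mem_of_pow_mem n (e ▸ hm r hr)
    · by_contra hn
      rw [mem_maximalIdeal, mem_nonunits_iff, not_not] at hn
      exact hP.ne_top (Ideal.eq_top_of_isUnit_mem _ ha (hn.map _))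
    · refine hP.mem_of_pow_mem e (hθ a ▸ hm _ ?_)
      exact map_nonunit φ a ha
  have uniq : ∀ P Q : Ideal R', P.IsPrime → Q.IsPrime →
      (∀ r ∈ maximalIdeal R, algebraMap R R' r ∈ P) →
      (∀ r ∈ maximalIdeal R, algebraMap R R' r ∈ Q) → P ≤ Q := by
    intro P Q hP hQ h1 h2 u hu
    obtain ⟨a, ha⟩ := hdec u
    have hP' : Ideal.span (Set.range ξ) ≤ P := Ideal.span_le.2 (by
      rintro _ ⟨j, rfl⟩; exact (key P hP h1).1 j)
    have hQ' : Ideal.span (Set.range ξ) ≤ Q := Ideal.span_le.2 (by
      rintro _ ⟨j, rfl⟩; exact (key Q hQ h2).1 j)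
    have h3 : algebraMap A R' a ∈ P := by simpa using P.sub_mem hu (hP' ha)
    have h4 := ((key Q hQ h2).2 a).2 (((key P hP h1).2 a).1 h3)
    simpa using Q.add_mem (hQ' ha) h4
  have hmax : ∀ M : Ideal R', M.IsMaximal → ∀ r ∈ maximalIdeal R, algebraMap R R' r ∈ M := by
    intro M hM r hr
    have h1 := Ideal.isMaximal_comap_of_isIntegral_of_isMaximal (R := R) M
    rw [← eq_maximalIdeal h1] at hr
    exact hr
  have hloc : IsLocalRing R' := by
    obtain ⟨M, hM⟩ := Ideal.exists_maximal R'
    exact IsLocalRing.of_unique_max_ideal ⟨M, hM, fun N hN =>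
      hN.eq_of_le hM.ne_top (uniq N M hN.isPrime hM.isPrime (hmax N hN) (hmax M hM))⟩
  have hm := hmax (maximalIdeal R') inferInstance
  obtain ⟨k1, k2⟩ := key (maximalIdeal R') inferInstance hm
  have hsp : Ideal.span (Set.range ξ) ≤ maximalIdeal R' := Ideal.span_le.2 (by
    rintro _ ⟨j, rfl⟩; exact k1 j)
  have hres : ∀ u : R', ∃ r : R, u - algebraMap R R' r ∈ maximalIdeal R' := by
    intro u
    obtain ⟨a, ha⟩ := hdec u
    obtain ⟨r, hr⟩ := hroot (φ a)
    refine ⟨r, ?_⟩
    have h1 : algebraMap A R' a - algebraMap R R' r ∈ maximalIdeal R' := by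
      refine Ideal.IsPrime.mem_of_pow_mem inferInstance e ?_
      rw [hsub, hθ, ← map_pow, ← map_sub]
      exact hm _ hr
    simpa using Ideal.add_mem _ (hsp ha) h1
  have hle : (maximalIdeal R).map (algebraMap R R') ≤ maximalIdeal R' :=
    Ideal.map_le_iff_le_comap.2 hm
  have hfinR : Module.Finite R R' := by
    set J := (maximalIdeal R).map (algebraMap R R') with hJ
    have hH : IsHausdorff (maximalIdeal R) R' := by
      rw [← IsHausdorff.map_algebraMap_iff (S := R')]
      exact IsHausdorff.of_isLocalRing _ _ (fun h => (maximalIdeal.isMaximal R').ne_top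
        (top_le_iff.1 (h ▸ hle)))
    have h1 : Module.Finite R (R' ⧸ maximalIdeal R') := by
      refine Module.Finite.of_surjective (Algebra.linearMap R (R' ⧸ maximalIdeal R')) fun y => ?_
      obtain ⟨u, rfl⟩ := Ideal.Quotient.mk_surjective y
      obtain ⟨r, hr⟩ := hres u
      exact ⟨r, (Ideal.Quotient.eq.2 hr).symm⟩
    have h2 : Module.Finite R (R' ⧸ J) := by
      refine Module.finite_of_surjective_of_ker_le_nilradical (Ideal.Quotient.factorₐ R hle)
        (Ideal.Quotient.factor_surjective hle) ?_ (Ideal.fg_of_isNoetherianRing _)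
      intro y hy
      obtain ⟨u, rfl⟩ := Ideal.Quotient.mk_surjective y
      have hu : u ∈ maximalIdeal R' := Ideal.Quotient.eq_zero_iff_mem.1 hy
      have h3 : u ∈ J.radical := by
        rw [Ideal.radical_eq_sInf, Submodule.mem_sInf]
        rintro P ⟨hP1, hP2⟩
        exact uniq _ P inferInstance hP2 hm (fun r hr => hP1 (Ideal.mem_map_of_mem _ hr)) hu
      obtain ⟨n, hn⟩ := h3
      exact ⟨n, by rw [← map_pow]; exact Ideal.Quotient.eq_zero_iff_mem.2 hn⟩
    have h3 : Module.Finite R (R' ⧸ (maximalIdeal R • ⊤ : Submodule R R')) := by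
      rw [Ideal.smul_top_eq_map]
      exact Module.Finite.equiv (Submodule.Quotient.restrictScalarsEquiv R J).symm
    exact finite_of_complete (maximalIdeal R) R'
  refine ⟨hloc, hnoeth, ⟨hfinR, hR, ⟨fun r hr => ?_⟩, hres⟩, ⟨hfinA, hA, ⟨fun a ha => ?_⟩,
    fun u => ?_⟩, k1⟩
  · by_contra hn
    exact (mem_maximalIdeal _).1 (hm r hn) hr
  · by_contra hn
    exact (mem_maximalIdeal _).1 ((k2 a).2 hn) ha
  · obtain ⟨a, ha⟩ := hdec u
    exact ⟨a, hsp ha⟩

/-- The algebra structures `A → R'` and `R → R'` need NOT be compatible. -/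
theorem exists_ext (A R : Type) [CommRing A] [IsDomain A] [IsLocalRing A] [IsNoetherianRing A]
    [CommRing R] [IsDomain R] [IsLocalRing R] [IsNoetherianRing R]
    [IsAdicComplete (maximalIdeal R) R] [PerfectField (ResidueField R)] [Algebra A R]
    (h : FinExt A R) {d : ℕ} (x : Fin d → R) (hx : ∀ k, x k ∈ maximalIdeal R) :
    ∃ s : ℕ, ∀ q : ℕ, 0 < q →
      ∃ (R' : Type) (_ : CommRing R') (_ : IsDomain R') (_ : IsLocalRing R')
        (_ : IsNoetherianRing R') (_ : Algebra R R') (_ : Algebra A R') (ξ : Tau d s → R'),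
        FinExt R R' ∧ FinExt A R' ∧ (∀ j, ξ j ∈ maximalIdeal R') ∧
        Algebra.adjoin A (Set.range ξ) = ⊤ ∧
        (∀ j, ∃ f : Polynomial A, Polynomial.aeval (ξ j) f = 0 ∧
          Polynomial.aeval (ξ j) (Polynomial.derivative f) ≠ 0) ∧
        ∀ k, ξ (Sum.inl k) ^ q = algebraMap R R' (x k) := by
  obtain ⟨s, g, hg, hgen⟩ := Ext_gens A R h
  refine ⟨s, fun q hq => ?_⟩
  have hfin := h.fin
  have hloc := h.loc
  have : FaithfulSMul A R := (faithfulSMul_iff_algebraMap_injective A R).2 h.inj
  let K := FractionRing A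
  let Ω := AlgebraicClosure K
  have hAΩ : Function.Injective (algebraMap A Ω) := by
    rw [IsScalarTower.algebraMap_eq A K Ω]
    exact (algebraMap K Ω).injective.comp (IsFractionRing.injective A K)
  have : FaithfulSMul A Ω := (faithfulSMul_iff_algebraMap_injective A Ω).2 hAΩ
  let ι : R →ₐ[A] Ω := IsAlgClosed.lift
  have hι : Function.Injective ι := by
    rw [RingHom.injective_iff_ker_eq_bot]
    refine Ideal.eq_bot_of_comap_eq_bot (R := A) ?_
    rw [eq_bot_iff]
    intro a ha
    rw [Ideal.mem_comap, RingHom.mem_ker, AlgHom.commutes] at ha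
    exact hAΩ (ha.trans (map_zero _).symm)
  obtain ⟨p, hp⟩ := ExpChar.exists A
  have : ExpChar K p := expChar_of_injective_algebraMap (IsFractionRing.injective A K) p
  have : ExpChar Ω p := expChar_of_injective_algebraMap hAΩ p
  have : ExpChar R p := expChar_of_injective_algebraMap h.inj p
  choose z hz using fun k => IsAlgClosed.exists_pow_nat_eq (ι (x k)) hq
  let ξ : Tau d s → Ω := Sum.elim z fun i => ι (g i)
  choose n hn using fun j => Ext_sep A K Ω p (ξ j)
  obtain ⟨t, ht⟩ := (Set.finite_range n).bddAbove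
  have hsep := fun j => hn j t (ht ⟨j, rfl⟩)
  let F := iterateFrobeniusEquiv Ω p t
  have hF : ∀ u, F u = u ^ p ^ t := fun _ => rfl
  let θ : A →+* Ω := F.symm.toRingHom.comp (algebraMap A Ω)
  have hθ : ∀ a, θ a ^ p ^ t = ι (algebraMap A R a) := fun a => by
    rw [← hF, AlgHom.commutes]
    exact F.apply_symm_apply _
  have hψ : θ.comp (iterateFrobenius A p t) = ι.toRingHom.comp (algebraMap A R) :=
    RingHom.ext fun a => by
      change θ (a ^ p ^ t) = _
      rw [map_pow]
      exact hθ a
  have hθinj : Function.Injective θ := F.symm.injective.comp hAΩ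
  have hθF : ∀ (u : Ω) (f : Polynomial A), F (f.eval₂ θ u) = Polynomial.aeval (u ^ p ^ t) f := by
    intro u f
    have h1 := Polynomial.hom_eval₂ f θ F.toRingHom u
    have h2 : F.toRingHom.comp θ = algebraMap A Ω := RingHom.ext fun a => F.apply_symm_apply _
    rw [h2] at h1
    exact h1
  let B : Subring Ω := Subring.closure (Set.range θ ∪ Set.range ξ)
  have hθB : ∀ a, θ a ∈ B := fun a => Subring.subset_closure (Or.inl ⟨a, rfl⟩)
  have hξB : ∀ j, ξ j ∈ B := fun j => Subring.subset_closure (Or.inr ⟨j, rfl⟩)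
  have hιB : ∀ r, ι.toRingHom r ∈ B := hgen (B.comap ι.toRingHom)
    (fun a => by
      change ι (algebraMap A R a) ∈ B
      rw [← hθ]
      exact B.pow_mem (hθB a) _)
    (fun i => hξB (Sum.inr i))
  let algA : Algebra A B := (θ.codRestrict B hθB).toAlgebra
  let algR : Algebra R B := (ι.toRingHom.codRestrict B hιB).toAlgebra
  let ξ' : Tau d s → B := fun j => ⟨ξ j, hξB j⟩
  have hev : ∀ (u : B) (f : Polynomial A), ((Polynomial.aeval u f : B) : Ω) = f.eval₂ θ u :=
    fun u f => Polynomial.hom_eval₂ f (algebraMap A B) B.subtype u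
  have hadj : Algebra.adjoin A (Set.range ξ') = ⊤ := by
    rw [eq_top_iff]
    rintro ⟨u, hu⟩ -
    induction hu using Subring.closure_induction with
    | mem u hu =>
      rcases hu with ⟨a, rfl⟩ | ⟨j, rfl⟩
      · exact Subalgebra.algebraMap_mem _ a
      · exact Algebra.subset_adjoin ⟨j, rfl⟩
    | zero => exact Subalgebra.zero_mem _
    | one => exact Subalgebra.one_mem _
    | add u v _ _ hu hv => exact Subalgebra.add_mem _ hu hv
    | neg u _ hu => exact Subalgebra.neg_mem _ hu
    | mul u v _ _ hu hv => exact Subalgebra.mul_mem _ hu hv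
  obtain ⟨i1, i2, h1, h2, h3⟩ := Ext_core A R B (algebraMap A R)
    (fun a b hab => hθinj (congrArg Subtype.val hab))
    (fun a b hab => hι (congrArg Subtype.val hab)) (p ^ t) (expChar_pow_pos A p t)
    (fun a => Subtype.ext (hθ a)) (fun u v => Subtype.ext (sub_pow_expChar_pow (u : Ω) v t))
    (Ext_root R p t)
    (fun r => by
      obtain ⟨f, hf, hf0⟩ := Algebra.IsIntegral.isIntegral (R := A) r
      refine ⟨f.map (iterateFrobenius A p t), hf.map _, Subtype.ext ?_⟩
      have e1 := hev (algebraMap R B r) (f.map (iterateFrobenius A p t))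
      rw [Polynomial.eval₂_map, hψ] at e1
      have e2 := Polynomial.hom_eval₂ f (algebraMap A R) ι.toRingHom r
      rw [hf0, map_zero] at e2
      exact e1.trans e2.symm)
    ξ'
    (fun j => by
      rcases j with k | i
      · exact ⟨q, hq, x k, hx k, Subtype.ext (hz k)⟩
      · exact ⟨1, one_pos, g i, hg i, Subtype.ext (pow_one _)⟩)
    hadj
  refine ⟨B, inferInstance, inferInstance, i1, i2, algR, algA, ξ', h1, h2, h3, hadj, fun j => ?_,
    fun k => Subtype.ext (hz k)⟩
  obtain ⟨f, hf0, hf1⟩ := hsep j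
  refine ⟨f, Subtype.ext ?_, fun h0 => hf1 ?_⟩
  · rw [hev]
    apply F.injective
    rw [hθF, hf0]
    exact (map_zero F).symm
  · rw [← hθF, ← hev (ξ' j), h0]
    exact map_zero F

end Crest.Agent.R183
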