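import Crest.Agent.R183.Dom1
import Crest.Agent.R183.Base
import Crest.Agent.R183.Ext

/-!
# The inequality for complete local domains
-/

set_option autoImplicit false

open scoped ENNReal NNReal TensorProduct
open IsLocalRing

namespace Crest.Agent.R183

/-- `(z)^{q N + n q + 1} ⊆ (z_i^q)^N` for `n` elements -/
theorem dom2_sp_pow_le {B : Type} [CommRing B] {ι : Type} [Fintype ι] (z : ι → B) {q : ℕ}
    (hq : 0 < q) (N : ℕ) :
    sp z ^ (q * N + (Fintype.card ι * q + 1)) ≤ sp (fun k => z k ^ q) ^ N := by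
  rw [← monI_degGE, monI, Ideal.span_le]
  rintro _ ⟨α, hα, rfl⟩
  have h1 : mon z α = mon (fun k => z k ^ q) (fun k => α k / q) * mon z (fun k => α k % q) := by
    simp only [mon, ← pow_mul, ← Finset.prod_mul_distrib, ← pow_add, Nat.div_add_mod]
  have h2 : ∑ k, α k = q * ∑ k, α k / q + ∑ k, α k % q := by
    rw [Finset.mul_sum, ← Finset.sum_add_distrib]
    exact Finset.sum_congr rfl fun k _ => (Nat.div_add_mod _ _).symm
  have h3 : ∑ k, α k % q ≤ Fintype.card ι * q :=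
    Finset.sum_le_card_nsmul _ _ q fun k _ => (Nat.mod_lt _ hq).le
  have h4 : N ≤ ∑ k, α k / q := by
    have h5 : q * N + (Fintype.card ι * q + 1) ≤ ∑ k, α k := hα
    have h6 : q * N < q * ∑ k, α k / q := by omega
    exact (Nat.lt_of_mul_lt_mul_left h6).le
  rw [SetLike.mem_coe, h1]
  exact Ideal.mul_mem_right _ _ (Ideal.pow_le_pow_right h4 (SL_mon_mem_sp_pow _ _))

/-- the multiplicity of `R` against the multiplicity of the roots of the parameters in `R'` -/
theorem dom2_low {R R' : Type} [CommRing R] [IsDomain R] [IsLocalRing R] [IsNoetherianRing R]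
    [CommRing R'] [IsLocalRing R'] [Algebra R R'] (h : FinExt R R') {e : ℕ}
    (hd : ringKrullDim R ≤ (e + 1 : ℕ)) (x : Fin (e + 1) → R) (hx : ∀ k, x k ∈ maximalIdeal R)
    (z : Fin (e + 1) → R') {q : ℕ} (hq : 0 < q) (hz : ∀ k, z k ^ q = algebraMap R R' (x k)) :
    (Module.finrank R R' : ℝ≥0∞) * lsup (e + 1) (fun N => (HS R N : ℝ≥0∞)) ≤
      (q : ℝ≥0∞) ^ (e + 1) *
        lsup (e + 1) (fun N => (Module.length R' (R' ⧸ sp z ^ N) : ℝ≥0∞)) := by
  have := h.fin
  obtain ⟨w, ψ, φ, hw, hψφ, -⟩ := exists_sandwich R R'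
  have hdim : ringKrullDim (R ⧸ Ideal.span {w}) ≤ e :=
    ringKrullDim_quot_le R e hd _ (by simpa using hw)
  have herr := lsup_length_err' R e (Ideal.span {w}) hdim (fun N => maximalIdeal R ^ N) 1 0
    (fun N => by simp)
  have herr' : lsup (e + 1) (fun N => (Module.finrank R R' : ℝ≥0∞) *
      (Module.length R (R ⧸ (maximalIdeal R ^ N ⊔ Ideal.span {w})) : ℝ≥0∞)) = 0 := by
    rw [lsup_const_mul _ _ (ENNReal.natCast_ne_top _), herr, mul_zero]
  rw [← lsup_const_mul _ _ (ENNReal.natCast_ne_top _)]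
  refine le_trans (lsup_le_of_le_add (Filter.Eventually.of_forall fun N => ?_) herr')
    (lsup_comp_le (e + 1) (fun N => (Module.length R' (R' ⧸ sp z ^ N) : ℝ≥0∞)) hq
      (Fintype.card (Fin (e + 1)) * q + 1))
  have h1 := (LF.length R).val_quot_le_of_smul_mem_range ψ w (fun v => ⟨φ v, hψφ v⟩)
    (Pi.basisFun R (Fin (Module.finrank R R'))) (Pi.basisFun R _).span_eq (maximalIdeal R ^ N)
  rw [LF.val_pi_quot] at h1
  refine h1.trans (add_le_add ?_ le_rfl)
  have hle : (sp z ^ (q * N + (Fintype.card (Fin (e + 1)) * q + 1))).restrictScalars R ≤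
      (maximalIdeal R ^ N • ⊤ : Submodule R R') := by
    rw [Ideal.smul_top_eq_map]
    refine (Submodule.restrictScalars_mono R) ((dom2_sp_pow_le z hq N).trans ?_)
    rw [Ideal.map_pow]
    refine Ideal.pow_right_mono (Ideal.span_le.2 ?_) N
    rintro _ ⟨k, rfl⟩
    simp only [hz]
    exact Ideal.mem_map_of_mem _ (hx k)
  refine ((LF.length R).quot_anti hle).trans (le_of_eq ?_)
  rw [(LF.length R).congr (Submodule.Quotient.restrictScalarsEquiv R _), LF.length_val,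
    h.length_eq]

/-- base change to `R'` multiplies the asymptotic size at most by the rank -/
theorem dom2_up {R : Type} [CommRing R] [IsDomain R] [IsLocalRing R] [IsNoetherianRing R]
    (R' : Type) [AddCommGroup R'] [Module R R'] [Module.Finite R R'] {e : ℕ}
    (hd : ringKrullDim R ≤ (e + 1 : ℕ)) {S : Type} [CommRing S] [Algebra R S] {μ : LF S}
    {d : ℕ} {y : Fin d → S} {fin : Prop} (hS : SH R μ y fin) :
    linf (e + 1) (fun N => tq μ (sp y ^ N) R R') ≤
      (Module.finrank R R' : ℝ≥0∞) * linf (e + 1) (fun N => μ.val (S ⧸ sp y ^ N)) := by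
  obtain ⟨w, ψ, φ, hw, -, hφψ⟩ := exists_sandwich R R'
  obtain ⟨n, v, hv⟩ := Module.Finite.exists_fin (R := R) (M := R')
  have hdim : ringKrullDim (R ⧸ Ideal.span {w}) ≤ e :=
    ringKrullDim_quot_le R e hd _ (by simpa using hw)
  have herr : lsup (e + 1) (fun N => (n : ℝ≥0∞) *
      μ.val (S ⧸ (sp y ^ N ⊔ Ideal.span {algebraMap R S w}))) = 0 := by
    rw [lsup_const_mul _ _ (ENNReal.natCast_ne_top _), hS.err_span w hdim, mul_zero]
  rw [← linf_const_mul _ _ (ENNReal.natCast_ne_top _)]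
  refine linf_le_of_le_add (Filter.Eventually.of_forall fun N => ?_) herr
  have h1 := tq_le_of_smul_mem_range μ (sp y ^ N) R φ w (fun g => ⟨ψ g, hφψ g⟩) v hv
  rwa [tq_pi] at h1

theorem dom2 {R : Type} [CommRing R] [IsDomain R] [IsLocalRing R] [IsNoetherianRing R]
    [IsAdicComplete (maximalIdeal R) R] [PerfectField (ResidueField R)] {e : ℕ}
    (hd : ringKrullDim R = (e + 1 : ℕ)) (x : Fin (e + 1) → R) (hx : IsRed x (maximalIdeal R))
    {S : Type} [CommRing S] [Algebra R S] {μ : LF S} {y : Fin (e + 1) → S} {fin : Prop}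
    (hS : SH R μ y fin) (hfin : CharZero (ResidueField R) → fin) :
    lsup (e + 1) (fun N => (HS R N : ℝ≥0∞)) ≤ linf (e + 1) (fun N => μ.val (S ⧸ sp y ^ N)) := by
  obtain ⟨A, _, _, _, _, _, x', hA, hAR⟩ := exists_base R e hd
  have hA' : BaseRing (e + 1) A x' fin := ⟨hA.max, hA.qr, hA.wi.mono hfin⟩
  obtain ⟨s, hs⟩ := exists_ext A R hAR x hx.1
  refine le_of_forall_pow_mul_le (e + 1) (2 * (e + 1) + s + 1) fun q' hq' => ?_
  set q := q' + (2 * (e + 1) + s + 1) with hqdef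
  have hq : 0 < q := by omega
  obtain ⟨R', _, _, _, _, _, _, ξ, hRR', hAR', hξ, hadj, hsep, hpow⟩ := hs q hq
  have := hRR'.fin
  have := hRR'.loc
  obtain ⟨c, hc⟩ := hRR'.pow_le
  have hxz : sp (fun k => algebraMap R R' (x k)) ≤ sp (fun k => ξ (Sum.inl k)) ^ q := by
    simp only [← hpow]
    exact sp_pow_le_pow _ q
  obtain ⟨-, r₀, hr₀⟩ := hx.map (algebraMap R R')
  have hm : (maximalIdeal R).map (algebraMap R R') ^ (r₀ + 1) ≤
      sp (fun k => ξ (Sum.inl k)) ^ q * (maximalIdeal R).map (algebraMap R R') ^ r₀ :=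
    hr₀.trans (Ideal.mul_mono_left hxz)
  have hz : ∃ c : ℕ, maximalIdeal R' ^ c ≤ sp (fun k => ξ (Sum.inl k)) := by
    refine ⟨c * (r₀ + 1), ?_⟩
    rw [pow_mul]
    exact (Ideal.pow_right_mono hc _).trans
      (hm.trans (Ideal.mul_le_left.trans (Ideal.pow_le_self hq.ne')))
  have h1 := dom1 hA' hAR' ξ hξ hadj hsep hz _ hRR'.map_le hm
    (hS.baseChange R' hRR'.res ⟨c, hc⟩)
    (fun J ⟨c', hJ⟩ => by
      have := hS.flat
      refine hasSig_baseChange_quot R R' S y J ⟨c', ?_⟩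
      rw [Ideal.map_pow]
      exact (Ideal.pow_right_mono hRR'.map_le _).trans hJ) q' hq' (by omega)
  simp only [bc_val_quot_sp_pow] at h1
  have h2 := dom2_low hRR' hd.le x hx.1 (fun k => ξ (Sum.inl k)) hq hpow
  have h3 := dom2_up R' hd.le hS
  have hρ : (Module.finrank R R' : ℝ≥0∞) ≠ 0 := by exact_mod_cast hRR'.finrank_pos.ne'
  refine (ENNReal.mul_le_mul_iff_right hρ (ENNReal.natCast_ne_top _)).1 ?_
  calc _ = (q' : ℝ≥0∞) ^ (e + 1) *
        ((Module.finrank R R' : ℝ≥0∞) * lsup (e + 1) (fun N => (HS R N : ℝ≥0∞))) := by ring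
    _ ≤ (q' : ℝ≥0∞) ^ (e + 1) * ((q : ℝ≥0∞) ^ (e + 1) * lsup (e + 1)
        (fun N => (Module.length R' (R' ⧸ sp (fun k => ξ (Sum.inl k)) ^ N) : ℝ≥0∞))) := by
      gcongr
    _ = (q : ℝ≥0∞) ^ (e + 1) * ((q' : ℝ≥0∞) ^ (e + 1) * lsup (e + 1)
        (fun N => (Module.length R' (R' ⧸ sp (fun k => ξ (Sum.inl k)) ^ N) : ℝ≥0∞))) := by ring
    _ ≤ (q : ℝ≥0∞) ^ (e + 1) * ((Module.finrank R R' : ℝ≥0∞) *
        linf (e + 1) (fun N => μ.val (S ⧸ sp y ^ N))) :=
      mul_le_mul_right (h1.trans h3) _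
    _ = _ := by ring

end Crest.Agent.R183
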