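import Crest.Agent.R183.TopBasic
import Crest.Agent.R183.SL

/-!
# A complete intersection mapping onto `R'`
-/

set_option autoImplicit false

open scoped ENNReal NNReal TensorProduct
open MvPolynomial IsLocalRing

namespace Crest.Agent.R183

namespace DomH

theorem exists_deg {τ A R' : Type} [CommRing A] [CommRing R'] [Algebra A R']
    [Algebra (MvPolynomial τ A) R'] [IsScalarTower A (MvPolynomial τ A) R'] [Module.Finite A R']
    (hs : Function.Surjective (algebraMap (MvPolynomial τ A) R')) :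
    ∃ D₀ : ℕ, ∀ r : R', ∃ β : MvPolynomial τ A, β.totalDegree ≤ D₀ ∧ algebraMap _ R' β = r := by
  obtain ⟨S, hS⟩ := Module.Finite.fg_top (R := A) (M := R')
  choose g hg using hs
  refine ⟨S.sup fun r => (g r).totalDegree, fun r => ?_⟩
  have h : Submodule.span A (S : Set R') ≤
      (restrictTotalDegree τ A (S.sup fun r => (g r).totalDegree)).map
        (IsScalarTower.toAlgHom A (MvPolynomial τ A) R').toLinearMap :=
    Submodule.span_le.2 fun r hr => ⟨g r, (mem_restrictTotalDegree _ _ _).2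
      (Finset.le_sup (f := fun r => (g r).totalDegree) hr), hg r⟩
  obtain ⟨β, h1, h2⟩ := h (hS.ge (Submodule.mem_top (x := r)))
  exact ⟨β, (mem_restrictTotalDegree _ _ _).1 h1, h2⟩

theorem pow_mem {B ι : Type} [CommRing B] (u : ι → B) (i : ι) {n : ℕ} (hn : 0 < n) :
    u i ^ n ∈ sp u :=
  Ideal.pow_mem_of_mem _ (Ideal.subset_span (Set.mem_range_self i)) _ hn

theorem C_le {d s : ℕ} {A : Type} [CommRing A] (x' : Fin d → A) :
    sp (fun k => (C (x' k) : TT d s A)) ≤ sp (sig s x') :=
  Ideal.span_mono (by rintro _ ⟨k, rfl⟩; exact ⟨Sum.inl k, rfl⟩)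

theorem length_sig {d s : ℕ} {A : Type} [CommRing A] [IsLocalRing A] (x' : Fin d → A)
    (hx' : maximalIdeal A = sp x') :
    (LF.length (TT d s A)).val (TT d s A ⧸ (sp (sig s x') • ⊤ : Submodule (TT d s A) (TT d s A))) ≤
      1 := by
  have hm : ((maximalIdeal A).comap (constantCoeff : TT d s A →+* A)).IsMaximal :=
    Ideal.comap_isMaximal_of_surjective _ fun a => ⟨C a, constantCoeff_C _ a⟩
  have h1 : ∀ f : TT d s A, f - C (constantCoeff f) ∈ sp (sig s x') := by
    intro f
    induction f using MvPolynomial.induction_on with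
    | C a => simp
    | add p q hp hq =>
      rw [map_add, map_add, add_sub_add_comm]
      exact add_mem hp hq
    | mul_X p j _ =>
      rw [map_mul, constantCoeff_X, mul_zero, map_zero, sub_zero]
      exact Ideal.mul_mem_left _ _ (Ideal.subset_span ⟨Sum.inr j, rfl⟩)
  have h2 : (maximalIdeal A).comap (constantCoeff : TT d s A →+* A) ≤
      (sp (sig s x') • ⊤ : Submodule (TT d s A) (TT d s A)) := by
    intro f hf
    rw [smul_eq_mul, Ideal.mul_top, ← sub_add_cancel f (C (constantCoeff f))]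
    refine add_mem (h1 f) (C_le x' ?_)
    rw [← sp_map, ← hx']
    exact Ideal.mem_map_of_mem _ hf
  refine ((LF.length _).quot_anti h2).trans_eq ?_
  rw [LF.length_val, Module.length_eq_one_iff.2 (isSimpleModule_iff_isCoatom.2 hm.out),
    ENat.toENNReal_one]

end DomH

open DomH in
theorem exists_domH {d s : ℕ} {A R' : Type} [CommRing A] [IsLocalRing A] [CommRing R']
    [IsLocalRing R'] [IsNoetherianRing R'] [Algebra A R'] [Algebra (TT d s A) R']
    [IsScalarTower A (TT d s A) R'] (x' : Fin d → A) (hx' : maximalIdeal A = sp x')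
    (hAR : FinExt A R') (hs : Function.Surjective (algebraMap (TT d s A) R'))
    (hξ : ∀ j, algebraMap (TT d s A) R' (X j) ∈ maximalIdeal R')
    (hz : ∃ c : ℕ, maximalIdeal R' ^ c ≤ sp (fun k => algebraMap (TT d s A) R' (zz d s A k))) :
    ∃ (D a : ℕ) (H : Tau d s → TT d s A), 0 < D ∧ 0 < a ∧
      (∀ j, (H j - X j ^ D).totalDegree < D) ∧
      (∀ j, H j ∈ RingHom.ker (algebraMap (TT d s A) R')) ∧
      (∀ j, H j ∈ sp (sig s x')) ∧
      (∀ i, sig s x' i ^ a ∈ sp (zz d s A) ⊔ sp H) ∧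
      (∀ i, sig s x' i ^ a ∈ sp (fun k => (C (x' k) : TT d s A)) ⊔ sp H) ∧
      Module.length (TT d s A) (TT d s A ⧸ (sp (fun k => (C (x' k) : TT d s A)) ⊔ sp H)) ≤
        (D ^ (d + s) : ℕ) := by
  have := hAR.fin
  obtain ⟨D₀, hD₀⟩ := exists_deg (A := A) hs
  obtain ⟨c, hc⟩ := hAR.pow_le
  obtain ⟨c', hc'⟩ := hz
  have hC : ∀ a : A, algebraMap (TT d s A) R' (C a) = algebraMap A R' a := fun a =>
    (IsScalarTower.algebraMap_apply A (TT d s A) R' a).symm
  have hxm : ∀ k, algebraMap A R' (x' k) ∈ (maximalIdeal A).map (algebraMap A R') := fun k =>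
    Ideal.mem_map_of_mem _ (hx'.ge (Ideal.subset_span ⟨k, rfl⟩))
  have lift : ∀ r ∈ (maximalIdeal A).map (algebraMap A R'),
      ∃ G ∈ sp (fun k => (C (x' k) : TT d s A)),
        G.totalDegree ≤ D₀ ∧ algebraMap (TT d s A) R' G = r := by
    intro r hr
    rw [hx', sp_map] at hr
    obtain ⟨e, rfl⟩ := Ideal.mem_span_range_iff_exists_fun.1 hr
    choose β h1 h2 using fun k => hD₀ (e k)
    refine ⟨∑ k, β k * C (x' k), Ideal.mem_span_range_iff_exists_fun.2 ⟨β, rfl⟩,
      totalDegree_finsetSum_le fun k _ => (totalDegree_mul _ _).trans ?_, ?_⟩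
    · rw [totalDegree_C]
      exact h1 k
    · simp only [map_sum, map_mul, h2, hC]
  have hG : ∀ j : Tau d s, ∃ G ∈ sp (fun k => (C (x' k) : TT d s A)),
      G.totalDegree ≤ D₀ + 1 ∧ algebraMap (TT d s A) R' (X j ^ (D₀ + c + 2) + G) = 0 ∧
        ∀ k, j = Sum.inl k → G - C (x' k) ^ (c' + 1) ∈ sp (zz d s A) := by
    rintro (k | i)
    · have h1 : -(algebraMap (TT d s A) R' (X (Sum.inl k)) ^ (D₀ + c + 2) +
          algebraMap A R' (x' k) ^ (c' + 1)) ∈
          sp (fun k => algebraMap (TT d s A) R' (zz d s A k)) •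
            (maximalIdeal A).map (algebraMap A R') := by
        refine neg_mem (add_mem ?_ ?_)
        · rw [pow_succ']
          exact Submodule.smul_mem_smul (Ideal.subset_span ⟨k, rfl⟩)
            (hc (Ideal.pow_le_pow_right (by omega) (Ideal.pow_mem_pow (hξ _) (D₀ + c + 1))))
        · rw [pow_succ]
          exact Submodule.smul_mem_smul (hc' (Ideal.pow_mem_pow (hAR.map_le (hxm k)) c')) (hxm k)
      obtain ⟨y, hy, e⟩ := SL_mem_sp_smul h1
      choose Y h2 h3 h4 using fun l => lift _ (hy l)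
      refine ⟨C (x' k) ^ (c' + 1) + ∑ l, zz d s A l * Y l, add_mem
        (pow_mem (fun k => (C (x' k) : TT d s A)) k (by omega))
        (Ideal.sum_mem _ fun l _ => Ideal.mul_mem_left _ _ (h2 l)),
        (totalDegree_add _ _).trans (max_le ?_ (totalDegree_finsetSum_le fun l _ =>
          (totalDegree_mul _ _).trans ?_)), ?_, ?_⟩
      · rw [← map_pow, totalDegree_C]
        omega
      · rw [add_comm]
        exact add_le_add (h3 l) ((totalDegree_X _).le)
      · simp only [smul_eq_mul] at e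
        simp only [map_add, map_pow, map_sum, map_mul, h4, hC, ← e, ← add_assoc, add_neg_cancel]
      · rintro _ ⟨⟩
        rw [add_sub_cancel_left]
        exact Ideal.sum_mem _ fun l _ => Ideal.mul_mem_right _ _ (Ideal.subset_span ⟨l, rfl⟩)
    · obtain ⟨G, h1, h2, h3⟩ := lift _ (neg_mem (hc (Ideal.pow_le_pow_right (by omega)
        (Ideal.pow_mem_pow (hξ (Sum.inr i)) (D₀ + c + 2)))))
      exact ⟨G, h1, by omega, by rw [map_add, map_pow, h3, add_neg_cancel], fun _ h => by cases h⟩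
  choose G h1 h2 h3 h4 using hG
  generalize hD : D₀ + c + 2 = D at h3
  have hH : ∀ j, X j ^ D + G j ∈ sp fun j => X j ^ D + G j := fun j => Ideal.subset_span ⟨j, rfl⟩
  have h5 : ∀ i, sig s x' i ^ D ∈ sp (fun k => (C (x' k) : TT d s A)) ⊔
      sp fun j => X j ^ D + G j := by
    rintro (k | j)
    · exact Ideal.mem_sup_left (pow_mem (fun k => (C (x' k) : TT d s A)) k (by omega))
    · rw [show sig s x' (Sum.inr j) ^ D = -G j + (X j ^ D + G j) by simp [sig]]
      exact Submodule.add_mem_sup (neg_mem (h1 j)) (hH j)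
  refine ⟨D, D * (d * (c' + 1) + 1), fun j => X j ^ D + G j, by omega,
    Nat.mul_pos (by omega) (by omega), fun j => ?_, h3, fun j => ?_, fun i => ?_, fun i => ?_, ?_⟩
  · rw [add_sub_cancel_left]
    have := h2 j
    omega
  · exact add_mem (pow_mem (sig s x') (Sum.inr j) (by omega))
      (C_le x' (h1 j))
  · obtain ⟨u, hu, v, hv, e⟩ := Submodule.mem_sup.1 (h5 i)
    have h6 := sp_pow_le_sp_pow (fun k => (C (x' k) : TT d s A)) (c' + 1)
    rw [Fintype.card_fin] at h6
    rw [pow_mul, ← e, ← add_sub_cancel (u ^ (d * (c' + 1) + 1)) (_ ^ _)]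
    refine add_mem (Ideal.span_le.2 ?_ (h6 (Ideal.pow_mem_pow hu _))) (Ideal.mem_sup_right
      (Ideal.mem_of_dvd _ (sub_dvd_pow_sub_pow _ _ _) (by rwa [add_sub_cancel_left])))
    rintro _ ⟨k, rfl⟩
    dsimp only
    rw [show (C (x' k) : TT d s A) ^ (c' + 1) = -(X (Sum.inl k) ^ D +
      (G (Sum.inl k) - C (x' k) ^ (c' + 1))) + (X (Sum.inl k) ^ D + G (Sum.inl k)) by ring]
    exact Submodule.add_mem_sup (neg_mem (add_mem (pow_mem (zz d s A) k (by omega))
      (h4 _ k rfl))) (hH _)
  · rw [pow_mul]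
    exact Ideal.pow_mem_of_mem _ (h5 i) _ (by omega)
  · have h6 : (monI (sig s x') (boxGE (Sum.elim (fun _ => 1) fun _ => D)) • ⊤ :
        Submodule (TT d s A) (TT d s A)) ≤
        sp (fun k => (C (x' k) : TT d s A)) ⊔ sp fun j => X j ^ D + G j := by
      rw [smul_eq_mul, Ideal.mul_top, monI_boxGE, Ideal.span_le]
      rintro _ ⟨k | j, rfl⟩
      · exact Ideal.mem_sup_left (Ideal.subset_span ⟨k, (pow_one _).symm⟩)
      · exact h5 (Sum.inr j)
    have h7 := ((LF.length _).quot_anti h6).trans ((val_monI_le _ _ (isUpperSet_boxGE _)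
      (finite_compl_boxGE _)).trans (mul_le_of_le_one_right' (length_sig x' hx')))
    rw [ncard_compl_boxGE, LF.length_val, ← ENat.toENNReal_coe, ENat.toENNReal_le] at h7
    simpa using h7

end Crest.Agent.R183
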