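import Crest.Agent.R183.LF

/-!
# Idempotents at a separable point of a finite algebra
-/

set_option autoImplicit false

open scoped TensorProduct

namespace Crest.Agent.R183

/-- the idempotent cutting out the local factor at an ideal of an Artinian algebra -/
theorem idem_exists_pow (K Y : Type) [Field K] [CommRing Y] [Algebra K Y] [FiniteDimensional K Y]
    (P : Ideal Y) : ∃ (e : Y) (m : ℕ), 0 < m ∧ IsIdempotentElem e ∧ P ^ m = Ideal.span {1 - e} := by
  have : IsArtinianRing Y := IsArtinianRing.of_finite K Y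
  have : IsNoetherianRing Y := IsNoetherianRing.of_finite K Y
  obtain ⟨n, hn⟩ := IsArtinian.monotone_stabilizes (R := Y) (M := Y)
    ⟨fun k => OrderDual.toDual (P ^ k), fun _ _ h => Ideal.pow_le_pow_right h⟩
  have h : IsIdempotentElem (P ^ (n + 1)) := by
    rw [IsIdempotentElem, ← pow_add]
    exact (hn _ (by omega)).symm.trans (hn (n + 1) (by omega))
  obtain ⟨e, he, he'⟩ := (Ideal.isIdempotentElem_iff_of_fg _ (IsNoetherian.noetherian _)).1 h
  exact ⟨1 - e, n + 1, n.succ_pos, he.one_sub, by rw [sub_sub_cancel]; exact he'⟩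

theorem exists_idem (K L Y : Type) [Field K] [Field L] [Algebra K L] [FiniteDimensional K L]
    [Algebra.IsSeparable K L] [CommRing Y] [Algebra K Y] [FiniteDimensional K Y]
    (φ : Y →ₐ[K] L) (hφ : Function.Surjective φ) :
    ∃ (e : Y) (m : ℕ) (ε : L ⊗[K] Y), IsIdempotentElem e ∧ φ e = 1 ∧
      Ideal.span {e} * RingHom.ker φ ^ m = ⊥ ∧
      Algebra.TensorProduct.productMap (AlgHom.id K L) φ ε = 1 ∧
      Module.finrank K L * Module.finrank L (L ⊗[K] Y) ≤
        Module.finrank K L * Module.finrank L ((L ⊗[K] Y) ⧸ Ideal.span {ε}) +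
          Module.finrank K (Y ⧸ Ideal.span {1 - e}) := by
  obtain ⟨e, m, hm, he, hP⟩ := idem_exists_pow K Y (RingHom.ker φ)
  have hle : Ideal.span {1 - e} ≤ RingHom.ker φ := hP ▸ Ideal.pow_le_self hm.ne'
  have hφe : φ e = 1 := by
    have : φ (1 - e) = 0 := hle (Ideal.mem_span_singleton_self _)
    rw [map_sub, map_one, sub_eq_zero] at this
    exact this.symm
  have := Algebra.FormallyEtale.of_isSeparable K L
  -- a section of the residue map of the local factor
  let φ' : (Y ⧸ Ideal.span {1 - e}) →ₐ[K] L := Ideal.Quotient.liftₐ _ φ fun a ha => hle ha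
  have hφ' : Function.Surjective φ' := fun l => by
    obtain ⟨y, rfl⟩ := hφ l
    exact ⟨Ideal.Quotient.mk _ y, rfl⟩
  have hnil : IsNilpotent (RingHom.ker φ') := by
    refine ⟨m, le_bot_iff.1 ?_⟩
    have h1 : RingHom.ker φ' ≤ (RingHom.ker φ).map (Ideal.Quotient.mk (Ideal.span {1 - e})) := by
      intro x hx
      obtain ⟨y, rfl⟩ := Ideal.Quotient.mk_surjective x
      exact Ideal.mem_map_of_mem _ hx
    refine (Ideal.pow_right_mono h1 m).trans ?_
    rw [← Ideal.map_pow, hP, Ideal.map_quotient_self]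
  let σ : L →ₐ[K] Y ⧸ Ideal.span {1 - e} :=
    Algebra.FormallySmooth.liftOfSurjective (AlgHom.id K L) φ' hφ' hnil
  have hσ : ∀ a, φ' (σ a) = a :=
    Algebra.FormallySmooth.liftOfSurjective_apply (AlgHom.id K L) φ' hφ' hnil
  let μ : (Y ⧸ Ideal.span {1 - e}) →ₗ[K] Y :=
    (Submodule.liftQ (Ideal.span {1 - e}) (LinearMap.mulLeft Y e) (by
      rw [Ideal.span_le, Set.singleton_subset_iff]
      exact he.mul_one_sub_self)).restrictScalars K
  have hμ : ∀ y, μ (Ideal.Quotient.mk _ y) = e * y := fun _ => rfl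
  have hμm : ∀ x y, μ (x * Ideal.Quotient.mk _ y) = μ x * y := fun x y => by
    obtain ⟨x, rfl⟩ := Ideal.Quotient.mk_surjective x
    rw [← map_mul, hμ, hμ, mul_assoc]
  have hμμ : ∀ x x', μ (x * x') = μ x * μ x' := fun x x' => by
    obtain ⟨x, rfl⟩ := Ideal.Quotient.mk_surjective x
    obtain ⟨x', rfl⟩ := Ideal.Quotient.mk_surjective x'
    rw [← map_mul, hμ, hμ, hμ, mul_mul_mul_comm, he.eq]
  have hφμ : ∀ x, φ (μ x) = φ' x := fun x => by
    obtain ⟨x, rfl⟩ := Ideal.Quotient.mk_surjective x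
    rw [hμ, map_mul, hφe, one_mul]
    rfl
  let τ : L →ₗ[K] Y := μ ∘ₗ σ.toLinearMap
  have hτ : ∀ a, τ a = μ (σ a) := fun _ => rfl
  let T : L ⊗[K] L →ₗ[K] L ⊗[K] Y := τ.lTensor L
  have hT1 : ∀ (a : L) u, T ((a ⊗ₜ 1) * u) = (a ⊗ₜ 1) * T u := fun a u => by
    induction u using TensorProduct.induction_on with
    | zero => simp
    | tmul b c => simp [T]
    | add u v hu hv => rw [mul_add, map_add, map_add, hu, hv, mul_add]
  have hT2 : ∀ (a : L) u, T ((1 ⊗ₜ a) * u) = (1 ⊗ₜ τ a) * T u := fun a u => by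
    induction u using TensorProduct.induction_on with
    | zero => simp
    | tmul b c => simp [T, hτ, hμμ]
    | add u v hu hv => rw [mul_add, map_add, map_add, hu, hv, mul_add]
  have hT3 : ∀ u, Algebra.TensorProduct.productMap (AlgHom.id K L) φ (T u) =
      Algebra.TensorProduct.lmul' K u := fun u => by
    induction u using TensorProduct.induction_on with
    | zero => simp
    | tmul b c => simp [T, hτ, hφμ, hσ]
    | add u v hu hv => rw [map_add, map_add, map_add, hu, hv]
  obtain ⟨ε, hε⟩ : ∃ ε, ε = T (Algebra.FormallyUnramified.elem K L) := ⟨_, rfl⟩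
  have hεa : ∀ a : L, (a ⊗ₜ 1) * ε = (1 ⊗ₜ τ a) * ε := fun a => by
    rw [hε, ← hT1, ← hT2, Algebra.FormallyUnramified.one_tmul_mul_elem]
  refine ⟨e, m, ε, he, hφe, ?_, ?_, ?_⟩
  · rw [hP, Ideal.span_singleton_mul_span_singleton, he.mul_one_sub_self, Ideal.span_singleton_zero]
  · rw [hε, hT3, Algebra.FormallyUnramified.lmul_elem]
  · let f : (Y ⧸ Ideal.span {1 - e}) →ₗ[K] L ⊗[K] Y :=
      LinearMap.mulRight K ε ∘ₗ TensorProduct.mk K L Y 1 ∘ₗ μ
    let g : L ⊗[K] Y →ₗ[K] (L ⊗[K] Y) ⧸ Ideal.span {ε} :=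
      (Ideal.Quotient.mkₐ K (Ideal.span {ε})).toLinearMap
    have hfg : LinearMap.ker g ≤ LinearMap.range f := by
      intro x hx
      obtain ⟨z, rfl⟩ := Ideal.mem_span_singleton'.1 (Ideal.Quotient.eq_zero_iff_mem.1 hx)
      clear hx
      induction z using TensorProduct.induction_on with
      | zero => simp
      | tmul a y =>
        refine ⟨σ a * Ideal.Quotient.mk _ y, ?_⟩
        have h1 : (a ⊗ₜ[K] y : L ⊗[K] Y) = (1 ⊗ₜ y) * (a ⊗ₜ 1) := by simp
        rw [h1, mul_assoc, hεa, ← mul_assoc]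
        simp [f, hμm, hτ, mul_comm y]
      | add u v hu hv => rw [add_mul]; exact add_mem hu hv
    rw [Module.finrank_mul_finrank, Module.finrank_mul_finrank,
      ← LinearMap.finrank_range_add_finrank_ker g]
    exact add_le_add (Submodule.finrank_le _)
      ((Submodule.finrank_mono hfg).trans (LinearMap.finrank_range_le f))

end Crest.Agent.R183
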