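import Crest.Agent.R183.TopBasic
import Crest.Agent.R183.Idem

/-!
# The generic idempotents, with denominators cleared
-/

set_option autoImplicit false

open scoped ENNReal NNReal TensorProduct

namespace Crest.Agent.R183

theorem domIdem_finrank_le {A K M V : Type} [CommRing A] [IsDomain A] [Field K] [Algebra A K]
    [IsFractionRing A K] [AddCommGroup M] [Module A M] [Module.Finite A M] [AddCommGroup V]
    [Module A V] [Module K V] [IsScalarTower A K V] (f : M →ₗ[A] V)
    (hf : ∀ v, ∃ w : A, w ≠ 0 ∧ ∃ m, f m = w • v) : Module.finrank K V ≤ Module.finrank A M := by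
  have h1 : Module.rank A (V ⧸ LinearMap.range f) = 0 := by
    rw [rank_eq_zero_iff]
    intro x
    obtain ⟨v, rfl⟩ := Submodule.Quotient.mk_surjective _ x
    obtain ⟨w, hw, m, hm⟩ := hf v
    refine ⟨w, hw, ?_⟩
    rw [← Submodule.Quotient.mk_smul, Submodule.Quotient.mk_eq_zero]
    exact ⟨m, hm⟩
  have h2 := rank_quotient_add_rank_of_isDomain (LinearMap.range f)
  rw [h1, zero_add] at h2
  have h3 : Module.rank K V ≤ Module.rank A M := by
    rw [IsLocalization.rank_eq K (nonZeroDivisors A) le_rfl, ← h2]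
    exact rank_range_le f
  exact Cardinal.toNat_le_toNat h3 (Module.rank_lt_aleph0 A M)

theorem domIdem_quot_le {A K M V : Type} [CommRing A] [IsDomain A] [Field K] [Algebra A K]
    [IsFractionRing A K] [CommRing M] [Algebra A M] [Module.Finite A M] [CommRing V]
    [Algebra A V] [Algebra K V] [IsScalarTower A K V] (f : M →ₐ[A] V)
    (hf : ∀ v, ∃ w : A, w ≠ 0 ∧ ∃ m, f m = w • v) (a : M) (b : V) (hab : f a ∈ Ideal.span {b}) :
    Module.finrank K (V ⧸ Ideal.span {b}) ≤ Module.finrank A (M ⧸ Ideal.span {a}) := by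
  refine domIdem_finrank_le (Ideal.quotientMapₐ (I := Ideal.span {a}) (Ideal.span {b}) f
    ((Ideal.span_singleton_le_iff_mem _).2 hab)).toLinearMap fun v => ?_
  obtain ⟨v, rfl⟩ := Ideal.Quotient.mk_surjective v
  obtain ⟨w, hw, m, hm⟩ := hf v
  refine ⟨w, hw, Ideal.Quotient.mk _ m, ?_⟩
  change Ideal.Quotient.mk _ (f m) = _
  rw [hm]
  rfl

theorem domIdem_sep {A K R' L : Type} [CommRing A] [Field K] [Algebra A K] [CommRing R']
    [Field L] [Algebra R' L] [IsFractionRing R' L] [Algebra A R'] [Algebra A L] [Algebra K L]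
    [IsScalarTower A K L] [IsScalarTower A R' L] [FiniteDimensional K L] {ι : Type} (ξ : ι → R')
    (hadj : Algebra.adjoin A (Set.range ξ) = ⊤)
    (hsep : ∀ j, ∃ f : Polynomial A, Polynomial.aeval (ξ j) f = 0 ∧
      Polynomial.aeval (ξ j) (Polynomial.derivative f) ≠ 0) : Algebra.IsSeparable K L := by
  have h1 : ∀ j, IsSeparable K (algebraMap R' L (ξ j)) := by
    intro j
    obtain ⟨f, hf, hf'⟩ := hsep j
    have hint : IsIntegral K (algebraMap R' L (ξ j)) := Algebra.IsIntegral.isIntegral _
    have e1 : Polynomial.aeval (algebraMap R' L (ξ j)) (f.map (algebraMap A K)) = 0 := by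
      rw [Polynomial.aeval_map_algebraMap, Polynomial.aeval_algebraMap_apply, hf, map_zero]
    have e2 : Polynomial.aeval (algebraMap R' L (ξ j))
        (Polynomial.derivative (f.map (algebraMap A K))) ≠ 0 := by
      rw [Polynomial.derivative_map, Polynomial.aeval_map_algebraMap,
        Polynomial.aeval_algebraMap_apply]
      exact fun h => hf' (IsFractionRing.injective R' L (h.trans (map_zero _).symm))
    obtain ⟨g, hg⟩ := minpoly.dvd K _ e1
    rw [IsSeparable, Polynomial.separable_iff_derivative_ne_zero (minpoly.irreducible hint)]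
    intro h0
    apply e2
    rw [hg, Polynomial.derivative_mul, h0, zero_mul, zero_add, map_mul, minpoly.aeval, zero_mul]
  have h2 : ∀ r : R', algebraMap R' L r ∈ separableClosure K L := by
    intro r
    have hr : r ∈ Algebra.adjoin A (Set.range ξ) := hadj ▸ Algebra.mem_top
    induction hr using Algebra.adjoin_induction with
    | mem x hx =>
      obtain ⟨j, rfl⟩ := hx
      exact h1 j
    | algebraMap a =>
      rw [← IsScalarTower.algebraMap_apply, IsScalarTower.algebraMap_apply A K L]
      exact IntermediateField.algebraMap_mem _ _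
    | add x y _ _ hx hy => rw [map_add]; exact add_mem hx hy
    | mul x y _ _ hx hy => rw [map_mul]; exact mul_mem hx hy
  refine ⟨fun l => ?_⟩
  obtain ⟨r, s, -, rfl⟩ := IsFractionRing.div_surjective R' l
  exact (div_mem (h2 r) (h2 s) : _ ∈ separableClosure K L)

theorem domIdem_aux {A R' Y : Type} (K L : Type) [CommRing A] [IsDomain A] [CommRing R']
    [IsDomain R'] [CommRing Y] [Algebra A R'] [Algebra A Y] [Module.Finite A Y] [Module.Free A Y]
    [Field K] [Algebra A K] [IsFractionRing A K] [Field L] [Algebra R' L] [IsFractionRing R' L]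
    [Algebra A L] [Algebra K L] [IsScalarTower A K L] [IsScalarTower A R' L]
    (hinj : Function.Injective (algebraMap A R')) {ι : Type} (ξ : ι → R')
    (hadj : Algebra.adjoin A (Set.range ξ) = ⊤)
    (hsep : ∀ j, ∃ f : Polynomial A, Polynomial.aeval (ξ j) f = 0 ∧
      Polynomial.aeval (ξ j) (Polynomial.derivative f) ≠ 0)
    (φ : Y →ₐ[A] R') (hφ : Function.Surjective φ) :
    ∃ (c : Y) (w w' : A) (mm : ℕ) (ε : R' ⊗[A] Y), w ≠ 0 ∧ w' ≠ 0 ∧
      φ c = algebraMap A R' w' ∧ Ideal.span {c} * RingHom.ker φ ^ mm = ⊥ ∧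
      Algebra.TensorProduct.productMap (AlgHom.id A R') φ ε = algebraMap A R' w ∧
      Module.finrank A R' * Module.finrank A Y ≤
        Module.finrank A R' * Module.finrank R' ((R' ⊗[A] Y) ⧸ Ideal.span {ε}) +
          Module.finrank A (Y ⧸ Ideal.span {algebraMap A Y w' - c}) := by
  have : Module.Finite A R' := Module.Finite.of_surjective φ.toLinearMap hφ
  have : FaithfulSMul A R' := (faithfulSMul_iff_algebraMap_injective A R').2 hinj
  have hL : ∀ l : L, ∃ w : A, w ≠ 0 ∧ ∃ r : R', algebraMap R' L r = w • l := by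
    intro l
    obtain ⟨r, s, hs, rfl⟩ := IsFractionRing.div_surjective R' l
    have hs0 := nonZeroDivisors.ne_zero hs
    obtain ⟨c, d, hd, h⟩ := Algebra.IsAlgebraic.exists_smul_eq_mul A r hs0
    refine ⟨d, hd, c, ?_⟩
    have hs1 : algebraMap R' L s ≠ 0 := fun h =>
      hs0 (IsFractionRing.injective R' L (h.trans (map_zero _).symm))
    have h' := congrArg (algebraMap R' L) h
    rw [map_mul, Algebra.smul_def, map_mul, ← IsScalarTower.algebraMap_apply] at h'
    rw [Algebra.smul_def, ← mul_div_assoc, h', mul_div_cancel_left₀ _ hs1]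
  have : FiniteDimensional K L := Module.Finite.of_isLocalizedModule (nonZeroDivisors A)
    (IsScalarTower.toAlgHom A R' L).toLinearMap
  have : Algebra.IsSeparable K L := domIdem_sep ξ hadj hsep
  let φK : K ⊗[A] Y →ₐ[K] L := Algebra.TensorProduct.lift (Algebra.ofId K L)
    ((IsScalarTower.toAlgHom A R' L).comp φ) fun _ _ => Commute.all _ _
  have hφK : ∀ k y, φK (k ⊗ₜ y) = algebraMap K L k * algebraMap R' L (φ y) := fun _ _ => rfl
  have hKw : ∀ w : A, w ≠ 0 → algebraMap A K w ≠ 0 := fun w hw h =>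
    hw (IsFractionRing.injective A K (h.trans (map_zero _).symm))
  have hsurj : Function.Surjective φK := by
    intro l
    obtain ⟨w, hw, r, hr⟩ := hL l
    obtain ⟨y, rfl⟩ := hφ r
    refine ⟨(algebraMap A K w)⁻¹ ⊗ₜ y, ?_⟩
    rw [hφK, hr, Algebra.smul_def, IsScalarTower.algebraMap_apply A K L, ← mul_assoc, ← map_mul,
      inv_mul_cancel₀ (hKw w hw), map_one, one_mul]
  obtain ⟨e, m, εL, he, hφe, hker, hε, hrk⟩ := exists_idem K L (K ⊗[A] Y) φK hsurj
  -- the two localization maps
  let i1 : Y →ₐ[A] K ⊗[A] Y := Algebra.TensorProduct.includeRight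
  have hi1 : ∀ y, i1 y = 1 ⊗ₜ y := fun _ => rfl
  have hi1inj : Function.Injective i1 :=
    Algebra.TensorProduct.includeRight_injective (IsFractionRing.injective A K)
  have hcl1 : ∀ v : K ⊗[A] Y, ∃ w : A, w ≠ 0 ∧ ∃ y, i1 y = w • v := by
    intro v
    induction v using TensorProduct.induction_on with
    | zero => exact ⟨1, one_ne_zero, 0, by simp⟩
    | tmul k y =>
      obtain ⟨a, s, hs, rfl⟩ := IsFractionRing.div_surjective A k
      have hs0 := nonZeroDivisors.ne_zero hs
      refine ⟨s, hs0, a • y, ?_⟩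
      rw [hi1, TensorProduct.smul_tmul', Algebra.smul_def s, mul_div_cancel₀ _ (hKw s hs0),
        ← TensorProduct.smul_tmul, Algebra.smul_def, mul_one]
    | add u v hu hv =>
      obtain ⟨w, hw, y, hy⟩ := hu
      obtain ⟨w', hw', y', hy'⟩ := hv
      refine ⟨w * w', mul_ne_zero hw hw', w' • y + w • y', ?_⟩
      rw [map_add, map_smul, map_smul, hy, hy', smul_add, smul_smul, smul_smul, mul_comm w' w]
  have : SMulCommClass K R' L := SMulCommClass.of_commMonoid K R' L
  have : SMulCommClass K A L := SMulCommClass.of_commMonoid K A L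
  let θ : R' ⊗[A] Y →ₐ[R'] L ⊗[K] (K ⊗[A] Y) := Algebra.TensorProduct.lift (Algebra.ofId R' _)
    ((Algebra.TensorProduct.includeRight.restrictScalars A).comp i1) fun _ _ => Commute.all _ _
  have hθ : ∀ r y, θ (r ⊗ₜ y) = algebraMap R' L r ⊗ₜ (1 ⊗ₜ y) := fun r y => by
    simp [θ, hi1, Algebra.ofId_apply]
  have hcl2 : ∀ v : L ⊗[K] (K ⊗[A] Y), ∃ w : A, w ≠ 0 ∧ ∃ z, θ z = algebraMap A R' w • v := by
    intro v
    induction v using TensorProduct.induction_on with
    | zero => exact ⟨1, one_ne_zero, 0, by simp⟩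
    | tmul l u =>
      obtain ⟨w, hw, r, hr⟩ := hL l
      obtain ⟨w', hw', y, hy⟩ := hcl1 u
      refine ⟨w * w', mul_ne_zero hw hw', r ⊗ₜ y, ?_⟩
      rw [hθ, ← hi1, hy, hr, ← algebraMap_smul K w', ← TensorProduct.smul_tmul,
        TensorProduct.smul_tmul', algebraMap_smul, algebraMap_smul, smul_smul, mul_comm]
    | add u v hu hv =>
      obtain ⟨w, hw, y, hy⟩ := hu
      obtain ⟨w', hw', y', hy'⟩ := hv
      refine ⟨w * w', mul_ne_zero hw hw', algebraMap A R' w' • y + algebraMap A R' w • y', ?_⟩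
      rw [map_add, map_smul, map_smul, hy, hy', smul_add, smul_smul, smul_smul, map_mul,
        mul_comm (algebraMap A R' w')]
  have hpm : ∀ z, Algebra.TensorProduct.productMap (AlgHom.id K L) φK (θ z) =
      algebraMap R' L (Algebra.TensorProduct.productMap (AlgHom.id A R') φ z) := by
    intro z
    induction z using TensorProduct.induction_on with
    | zero => simp
    | tmul r y => rw [hθ]; simp [hφK]
    | add u v hu hv => simp only [map_add, hu, hv]
  obtain ⟨w', hw', c, hc⟩ := hcl1 e
  obtain ⟨w, hw, ε, hεθ⟩ := hcl2 εL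
  replace hεθ : θ ε = (algebraMap R' L (algebraMap A R' w) ⊗ₜ 1) * εL :=
    hεθ.trans (Algebra.smul_def (R := R') (A := L ⊗[K] (K ⊗[A] Y)) _ εL)
  have hφi : ∀ y, φK (i1 y) = algebraMap R' L (φ y) := fun y => by rw [hi1, hφK, map_one, one_mul]
  refine ⟨c, w, w', m, ε, hw, hw', ?_, ?_, ?_, ?_⟩
  · apply IsFractionRing.injective R' L
    rw [← hφi, hc, ← algebraMap_smul K, map_smul, hφe, ← IsScalarTower.algebraMap_apply,
      IsScalarTower.algebraMap_apply A K L, Algebra.smul_def, mul_one]
  · rw [eq_bot_iff, Ideal.span_singleton_mul_le_iff]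
    intro z hz
    have h1 : i1 z ∈ RingHom.ker φK ^ m := by
      have h2 : (RingHom.ker φ).map i1 ≤ RingHom.ker φK := by
        rw [Ideal.map_le_iff_le_comap]
        intro y hy
        change φK (i1 y) = 0
        rw [hφi, (RingHom.mem_ker).1 hy, map_zero]
      have h3 := Ideal.mem_map_of_mem i1 hz
      rw [Ideal.map_pow] at h3
      exact Ideal.pow_right_mono h2 m h3
    have h4 : e * i1 z = 0 := by
      have := Ideal.mul_mem_mul (Ideal.mem_span_singleton_self e) h1
      rwa [hker] at this
    rw [Ideal.mem_bot]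
    apply hi1inj
    rw [map_mul, hc, smul_mul_assoc, h4, smul_zero, map_zero]
  · apply IsFractionRing.injective R' L
    rw [← hpm, hεθ, map_mul, hε, mul_one]
    simp
  · have r1 := IsFractionRing.finrank_eq A K R' L
    have r2 : Module.finrank L (L ⊗[K] (K ⊗[A] Y)) = Module.finrank A Y := by
      rw [Module.finrank_baseChange, Module.finrank_baseChange]
    have r3 := domIdem_quot_le (K := L) θ (fun v => by
      obtain ⟨w, hw, z, hz⟩ := hcl2 v
      exact ⟨_, fun h => hw (hinj (h.trans (map_zero _).symm)), z, hz⟩) ε εL (by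
        rw [hεθ]
        exact Ideal.mul_mem_left _ _ (Ideal.mem_span_singleton_self _))
    have r4 := domIdem_quot_le (K := K) i1 hcl1 (algebraMap A Y w' - c) (1 - e) (by
      rw [map_sub, AlgHom.commutes, hc, Algebra.algebraMap_eq_smul_one, ← smul_sub,
        Algebra.smul_def]
      exact Ideal.mul_mem_left _ _ (Ideal.mem_span_singleton_self _))
    rw [r1, r2] at hrk
    exact hrk.trans (add_le_add (Nat.mul_le_mul_left _ r3) r4)

theorem exists_idem_int {A R' Y : Type} [CommRing A] [IsDomain A] [CommRing R'] [IsDomain R']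
    [CommRing Y] [Algebra A R'] [Algebra A Y] [Module.Finite A Y] [Module.Free A Y]
    (hinj : Function.Injective (algebraMap A R')) {ι : Type} (ξ : ι → R')
    (hadj : Algebra.adjoin A (Set.range ξ) = ⊤)
    (hsep : ∀ j, ∃ f : Polynomial A, Polynomial.aeval (ξ j) f = 0 ∧
      Polynomial.aeval (ξ j) (Polynomial.derivative f) ≠ 0)
    (φ : Y →ₐ[A] R') (hφ : Function.Surjective φ) :
    ∃ (c : Y) (w w' : A) (mm : ℕ) (ε : R' ⊗[A] Y), w ≠ 0 ∧ w' ≠ 0 ∧
      φ c = algebraMap A R' w' ∧ Ideal.span {c} * RingHom.ker φ ^ mm = ⊥ ∧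
      Algebra.TensorProduct.productMap (AlgHom.id A R') φ ε = algebraMap A R' w ∧
      Module.finrank A R' * Module.finrank A Y ≤
        Module.finrank A R' * Module.finrank R' ((R' ⊗[A] Y) ⧸ Ideal.span {ε}) +
          Module.finrank A (Y ⧸ Ideal.span {algebraMap A Y w' - c}) := by
  have : FaithfulSMul A (FractionRing R') := (faithfulSMul_iff_algebraMap_injective _ _).2 (by
    rw [IsScalarTower.algebraMap_eq A R' (FractionRing R')]
    exact (IsFractionRing.injective R' _).comp hinj)
  let _ : Algebra (FractionRing A) (FractionRing R') := FractionRing.liftAlgebra A _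
  have := FractionRing.isScalarTower_liftAlgebra A (FractionRing R')
  exact domIdem_aux (FractionRing A) (FractionRing R') hinj ξ hadj hsep φ hφ

end Crest.Agent.R183
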