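import Crest.Agent.R183.TopBasic

/-!
# Lower bound for the multiplicity of a module generically supported on a prime
-/

set_option autoImplicit false

open scoped ENNReal NNReal TensorProduct
open IsLocalRing

namespace Crest.Agent.R183

theorem domV_finrank_le {A T M : Type} [CommRing A] [IsDomain A] [CommRing T] [Algebra A T]
    [AddCommGroup M] [Module A M] [Module T M] [IsScalarTower A T M] (P : Submodule T M) :
    Module.finrank A M ≤ Module.finrank A P + Module.finrank A (M ⧸ P) := by
  have h := rank_quotient_add_rank_of_isDomain (P.restrictScalars A)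
  rw [(Submodule.Quotient.restrictScalarsEquiv A P).rank_eq,
    ((Submodule.restrictScalarsEquiv A T M P).restrictScalars A).rank_eq] at h
  unfold Module.finrank
  rcases lt_or_ge (Module.rank A M) Cardinal.aleph0 with h1 | h1
  · rw [← h] at h1 ⊢
    rw [Cardinal.toNat_add (le_self_add.trans_lt h1) (le_add_self.trans_lt h1), add_comm]
  · rw [Cardinal.toNat_apply_of_aleph0_le h1]
    exact Nat.zero_le _

theorem domV_mono {T : Type} [CommRing T] (μ : LF T) (I : Ideal T) (M : Type) [AddCommGroup M]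
    [Module T M] (N c : ℕ) :
    μ.val (M ⧸ (I ^ N • ⊤ : Submodule T M)) ≤ μ.val (M ⧸ (I ^ (N + c) • ⊤ : Submodule T M)) :=
  μ.quot_anti (Submodule.smul_mono_left (Ideal.pow_le_pow_right (Nat.le_add_right N c)))

/-- superadditivity up to a shift, by Artin–Rees -/
theorem domV_artin {T : Type} [CommRing T] [IsNoetherianRing T] (μ : LF T) (I : Ideal T)
    {M : Type} [AddCommGroup M] [Module T M] [Module.Finite T M] (P : Submodule T M) :
    ∃ k : ℕ, ∀ N, μ.val (P ⧸ (I ^ N • ⊤ : Submodule T P)) +
      μ.val ((M ⧸ P) ⧸ (I ^ (N + k) • ⊤ : Submodule T (M ⧸ P))) ≤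
        μ.val (M ⧸ (I ^ (N + k) • ⊤ : Submodule T M)) := by
  obtain ⟨k, hk⟩ := Ideal.exists_pow_inf_eq_pow_smul I P
  refine ⟨k, fun N => ?_⟩
  rw [← μ.sz_top (I ^ (N + k) • ⊤ : Submodule T M), μ.sz_tower_left (le_top (a := P))]
  refine add_le_add ?_ ?_
  · rw [μ.sz_eq_quot]
    refine μ.quot_anti fun x hx => ?_
    have h1 : (x : M) ∈ (I ^ (N + k) • ⊤ : Submodule T M) ⊓ P := ⟨hx, x.2⟩
    rw [hk (N + k) (Nat.le_add_left k N), Nat.add_sub_cancel] at h1
    exact (Submodule.mem_smul_top_iff _ P x).2 (Submodule.smul_mono le_rfl inf_le_right h1)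
  · rw [← μ.sz_top, ← P.range_mkQ, ← Submodule.map_top, μ.sz_map_eq]
    refine μ.sz_mono le_rfl (sup_le (fun x hx => ?_) ?_)
    · rw [Submodule.mem_comap, Submodule.mkQ_apply, (Submodule.Quotient.mk_eq_zero P).2 hx]
      exact Submodule.zero_mem _
    · rw [← Submodule.map_le_iff_le_comap, Submodule.map_smul'']

theorem domV_length_le {T R' : Type} [CommRing T] [CommRing R'] [Algebra T R']
    (hs : Function.Surjective (algebraMap T R')) (J : Ideal T) (G : Type) [AddCommGroup G]
    [Module T G] [Module R' G] [IsScalarTower T R' G] :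
    Module.length R' (G ⧸ (J.map (algebraMap T R') • ⊤ : Submodule R' G)) ≤
      Module.length T (G ⧸ (J • ⊤ : Submodule T G)) := by
  set Q : Submodule R' G := J.map (algebraMap T R') • ⊤ with hQ
  rw [← Module.length_eq_of_surjective hs]
  have h1 : Function.Surjective (Q.mkQ.restrictScalars T) := Q.mkQ_surjective
  refine hsBasic_length_le (Q.mkQ.restrictScalars T) h1 J fun a ha v => ?_
  rw [← algebraMap_smul R' a v]
  exact hsBasic_smul_quot (Ideal.mem_map_of_mem _ ha) v

section

variable {A T R' : Type} [CommRing A] [IsDomain A] [CommRing T] [IsNoetherianRing T]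
  [CommRing R'] [IsDomain R'] [IsLocalRing R'] [Algebra A T] [Algebra A R'] [Algebra T R']
  [IsScalarTower A T R'] [Module.Finite A R'] (hinj : Function.Injective (algebraMap A R'))
  (hs : Function.Surjective (algebraMap T R')) {e : ℕ} (hdim : ringKrullDim R' ≤ (e + 1 : ℕ))
  (I : Ideal T) (hI : ∃ c : ℕ, maximalIdeal R' ^ c ≤ I.map (algebraMap T R'))

include hinj hs hdim hI

omit [Algebra A T] [IsScalarTower A T R'] in
theorem domV_base0 (G : Type) [AddCommGroup G] [Module A G] [Module T G] [Module R' G]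
    [IsScalarTower A R' G] [IsScalarTower T R' G] [Module.Finite R' G] :
    ∃ err : ℕ → ℝ≥0∞, lsup (e + 1) err = 0 ∧ ∀ N,
      Module.finrank A G * (Module.length R' (R' ⧸ I.map (algebraMap T R') ^ N) : ℝ≥0∞) ≤
        Module.finrank A R' * (Module.length T (G ⧸ (I ^ N • ⊤ : Submodule T G)) : ℝ≥0∞) +
          err N := by
  have : IsNoetherianRing R' := isNoetherianRing_of_surjective T R' _ hs
  obtain ⟨w, ψ, φ, hw, h1, -⟩ := exists_sandwich R' G
  obtain ⟨c, hc⟩ := hI
  have h2 := lsup_length_err' R' e (Ideal.span {w})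
    (ringKrullDim_quot_le R' e hdim _ (by simpa using hw))
    (fun N => I.map (algebraMap T R') ^ N) c 0 fun N => by
      rw [add_zero, pow_mul]
      exact Ideal.pow_right_mono hc N
  refine ⟨fun N => Module.finrank A R' * (Module.finrank R' G *
    (Module.length R' (R' ⧸ (I.map (algebraMap T R') ^ N ⊔ Ideal.span {w})) : ℝ≥0∞)), ?_,
    fun N => ?_⟩
  · rw [lsup_const_mul _ _ (ENNReal.natCast_ne_top _),
      lsup_const_mul _ _ (ENNReal.natCast_ne_top _), h2, mul_zero, mul_zero]
  · have h3 := (LF.length R').val_quot_le_of_smul_mem_range ψ w (fun v => ⟨φ v, h1 v⟩)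
      (Pi.basisFun R' _) (Pi.basisFun R' _).span_eq (I.map (algebraMap T R') ^ N)
    rw [LF.val_pi_quot] at h3
    simp only [LF.length_val] at h3
    have h4 := domV_length_le hs (I ^ N) G
    rw [Ideal.map_pow] at h4
    rw [finrank_eq_mul_of_isDomain A R' G hinj, Nat.cast_mul, mul_assoc, ← mul_add]
    refine mul_le_mul_right (h3.trans (add_le_add_left ?_ _)) _
    exact_mod_cast h4

theorem domV_base (G : Type) [AddCommGroup G] [Module A G] [Module T G] [IsScalarTower A T G]
    [Module.Finite T G] (hG : ∀ π ∈ RingHom.ker (algebraMap T R'), ∀ v : G, π • v = 0) :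
    ∃ err : ℕ → ℝ≥0∞, lsup (e + 1) err = 0 ∧ ∀ N,
      Module.finrank A G * (Module.length R' (R' ⧸ I.map (algebraMap T R') ^ N) : ℝ≥0∞) ≤
        Module.finrank A R' * (Module.length T (G ⧸ (I ^ N • ⊤ : Submodule T G)) : ℝ≥0∞) +
          err N := by
  let : SMul R' G := ⟨fun s v => Function.surjInv hs s • v⟩
  have h1 : ∀ (c : T) (v : G), algebraMap T R' c • v = c • v := fun c v => by
    have h2 := hG (Function.surjInv hs (algebraMap T R' c) - c)
      (by rw [RingHom.mem_ker, map_sub, Function.surjInv_eq hs, sub_self]) v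
    rwa [sub_smul, sub_eq_zero] at h2
  let : Module R' G := hs.moduleLeft _ h1
  have : IsScalarTower T R' G := .of_algebraMap_smul h1
  have : IsScalarTower A R' G := .of_algebraMap_smul fun a v => by
    rw [IsScalarTower.algebraMap_apply A T R', h1, algebraMap_smul]
  have : Module.Finite R' G := Module.Finite.of_restrictScalars_finite T R' G
  exact domV_base0 hinj hs hdim I hI G

theorem domV_ind (w₀ : A) (hw₀ : w₀ ≠ 0) (m : ℕ) : ∀ (M : Type) [AddCommGroup M] [Module A M]
    [Module T M] [IsScalarTower A T M] [Module.Finite T M],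
    (∀ π ∈ RingHom.ker (algebraMap T R') ^ m, ∀ v : M, w₀ • π • v = 0) →
    ∃ (c₀ : ℕ) (err : ℕ → ℝ≥0∞), lsup (e + 1) err = 0 ∧ ∀ N,
      Module.finrank A M * (Module.length R' (R' ⧸ I.map (algebraMap T R') ^ N) : ℝ≥0∞) ≤
        Module.finrank A R' *
          (Module.length T (M ⧸ (I ^ (N + c₀) • ⊤ : Submodule T M)) : ℝ≥0∞) + err N := by
  induction m with
  | zero =>
    intro M _ _ _ _ _ hM
    have h1 : Module.rank A M = 0 :=
      rank_eq_zero_iff.2 fun v => ⟨w₀, hw₀, by simpa using hM 1 (by simp) v⟩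
    exact ⟨0, fun _ => 0, lsup_zero _, fun N => by simp [Module.finrank, h1]⟩
  | succ m ih =>
    intro M _ _ _ _ _ hM
    set P : Submodule T M := RingHom.ker (algebraMap T R') • ⊤ with hP
    obtain ⟨c₁, err₁, a1, a2⟩ := ih P fun π hπ v => by
      refine Subtype.ext (Submodule.smul_induction_on (p := fun x : M => w₀ • π • x = 0) v.2
        (fun p hp x _ => ?_) fun x y hx hy => ?_)
      · rw [← mul_smul]
        exact hM _ (by rw [pow_succ]; exact Ideal.mul_mem_mul hπ hp) x
      · rw [smul_add, smul_add, hx, hy, add_zero]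
    obtain ⟨err₂, b1, b2⟩ := domV_base hinj hs hdim I hI (M ⧸ P) fun π hπ v =>
      hsBasic_smul_quot hπ v
    obtain ⟨k, hk⟩ := domV_artin (LF.length T) I P
    refine ⟨c₁ + k, fun N => err₁ N + err₂ N, ?_, fun N => ?_⟩
    · refine le_antisymm ((lsup_add_le _ _ _).trans ?_) zero_le
      rw [a1, b1, add_zero]
    · have h1 : (Module.finrank A M : ℝ≥0∞) ≤ Module.finrank A P + Module.finrank A (M ⧸ P) := by
        exact_mod_cast domV_finrank_le (A := A) P
      have h2 := domV_mono (LF.length T) I (M ⧸ P) N (c₁ + k)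
      have h3 := hk (N + c₁)
      rw [add_assoc] at h3
      simp only [LF.length_val] at h2 h3
      refine (mul_le_mul_left h1 _).trans ?_
      rw [add_mul]
      refine (add_le_add (a2 N) ((b2 N).trans (add_le_add_left (mul_le_mul_right h2 _) _))).trans ?_
      rw [add_add_add_comm, ← mul_add]
      exact add_le_add_left (mul_le_mul_right h3 _) _

end

theorem domV {A T R' : Type} [CommRing A] [IsDomain A] [IsNoetherianRing A] [CommRing T]
    [IsNoetherianRing T]
    [CommRing R'] [IsDomain R'] [IsLocalRing R'] [Algebra A T] [Algebra A R'] [Algebra T R']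
    [IsScalarTower A T R'] [Module.Finite A R'] (hinj : Function.Injective (algebraMap A R'))
    (hs : Function.Surjective (algebraMap T R')) {e : ℕ} (hdim : ringKrullDim R' ≤ (e + 1 : ℕ))
    (I : Ideal T) (hI : ∃ c : ℕ, maximalIdeal R' ^ c ≤ I.map (algebraMap T R'))
    (m : ℕ) (w₀ : A) (hw₀ : w₀ ≠ 0) (M : Type) [AddCommGroup M] [Module A M] [Module T M]
    [IsScalarTower A T M] [Module.Finite A M]
    (hM : ∀ π ∈ RingHom.ker (algebraMap T R') ^ m, ∀ v : M, w₀ • π • v = 0) :
    Module.finrank A M * lsup (e + 1)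
        (fun N => (Module.length R' (R' ⧸ I.map (algebraMap T R') ^ N) : ℝ≥0∞)) ≤
      Module.finrank A R' * lsup (e + 1)
        (fun N => (Module.length T (M ⧸ (I ^ N • ⊤ : Submodule T M)) : ℝ≥0∞)) := by
  have : Module.Finite T M := Module.Finite.of_restrictScalars_finite A T M
  obtain ⟨c₀, err, h1, h2⟩ := domV_ind hinj hs hdim I hI w₀ hw₀ m M hM
  rw [← lsup_shift (e + 1) (fun N => (Module.length T (M ⧸ (I ^ N • ⊤ : Submodule T M)) : ℝ≥0∞))
      c₀, ← lsup_const_mul _ _ (ENNReal.natCast_ne_top _),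
    ← lsup_const_mul _ _ (ENNReal.natCast_ne_top _)]
  exact lsup_le_of_le_add (Filter.Eventually.of_forall h2) h1

end Crest.Agent.R183
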