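import Crest.Agent.R183.Base

/-!
# Systems of parameters of a complete local domain are uniformly almost regular
-/

set_option autoImplicit false

open scoped ENNReal NNReal TensorProduct
open IsLocalRing

namespace Crest.Agent.R183

theorem dom_wr {R : Type} [CommRing R] [IsDomain R] [IsLocalRing R] [IsNoetherianRing R]
    [IsAdicComplete (maximalIdeal R) R] [PerfectField (ResidueField R)] {e : ℕ}
    (hd : ringKrullDim R = (e + 1 : ℕ)) (x : Fin (e + 1) → R)
    (hx : ∃ c : ℕ, maximalIdeal R ^ c ≤ sp x) :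
    ∃ w : R, w ≠ 0 ∧ ∀ b : ℕ, WR (fun i => x i ^ b) R w := by
  obtain ⟨A, _, _, _, _, _, x', hB, hF⟩ := exists_base R e hd
  have := hF.fin
  obtain ⟨w₀, ψ, φ, hw₀, -, hφψ⟩ := exists_sandwich A R
  have hWR : ∀ t : ℕ, WR (fun i => algebraMap A R (x' i ^ t)) R (algebraMap A R w₀) := by
    intro t
    have h1 := ((SL.wr hB.qr (fun _ => t) fun _ => Set.empty_subset _).pi _).retract ψ φ w₀ hφψ
    rw [one_pow, mul_one] at h1
    exact (wr_algebraMap_iff _ _).2 h1
  obtain ⟨c, hc⟩ := sl_of_wr (Fin (e + 1)) (Fin (e + 1)) rfl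
  obtain ⟨c₀, hc₀⟩ := hx
  refine ⟨algebraMap A R w₀ ^ c, pow_ne_zero _ ((map_ne_zero_iff _ hF.inj).2 hw₀), fun b => ?_⟩
  have h2 := hc (fun i => x i ^ b) _ _ (boxGE fun _ => 2)
    (hWR (c₀ * (Fintype.card (Fin (e + 1)) * (b * 2) + 1))) (by
      intro r
      refine Ideal.mul_mem_left _ _ ?_
      rw [monI_boxGE, map_pow]
      simp only [← pow_mul]
      refine sp_pow_le_sp_pow x (b * 2) (Ideal.pow_right_mono hc₀ _ ?_)
      rw [← pow_mul]
      refine Ideal.pow_mem_pow (hF.map_le (Ideal.mem_map_of_mem _ ?_)) _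
      rw [hB.max]
      exact Ideal.subset_span ⟨r, rfl⟩)
  have h3 := h2.wr (fun _ => 1) (by
    rintro j α ⟨i, hi⟩
    refine ⟨i, le_trans ?_ hi⟩
    by_cases h : i = j
    · subst h; simp
    · simp [Function.update_of_ne h])
  simpa using h3

end Crest.Agent.R183
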