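import Crest.Agent.R183.LF

/-!
# Extension of a length function along a surjective ring homomorphism
-/

set_option autoImplicit false

open scoped ENNReal TensorProduct

namespace Crest.Agent.R183.FolnerAux

variable {B Ω : Type} [CommRing B] [CommRing Ω] [Algebra B Ω]

/-- `a` is the total size of a family of successive subquotients of `M` that are `Ω`-modules. -/
inductive Rch (B : Type) {Ω : Type} [CommRing B] [CommRing Ω] [Algebra B Ω] (μ : LF Ω) :
    (M : Type) → [AddCommGroup M] → [Module B M] → ℝ≥0∞ → Prop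
  | zero (M : Type) [AddCommGroup M] [Module B M] : Rch B μ M 0
  | base (M : Type) [AddCommGroup M] [Module B M] [Module Ω M] [IsScalarTower B Ω M] :
      Rch B μ M (μ.val M)
  | congr {M N : Type} [AddCommGroup M] [Module B M] [AddCommGroup N] [Module B N]
      (e : M ≃ₗ[B] N) {a : ℝ≥0∞} : Rch B μ M a → Rch B μ N a
  | ext {M : Type} [AddCommGroup M] [Module B M] (P : Submodule B M) {a b : ℝ≥0∞} :
      Rch B μ P a → Rch B μ (M ⧸ P) b → Rch B μ M (a + b)

theorem exists_restrict (hφ : Function.Surjective (algebraMap B Ω)) {M : Type} [AddCommGroup M]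
    [Module B M] [Module Ω M] [IsScalarTower B Ω M] (P : Submodule B M) :
    ∃ P' : Submodule Ω M, P'.restrictScalars B = P := by
  refine ⟨⟨P.toAddSubmonoid, fun c x hx => ?_⟩, rfl⟩
  obtain ⟨b, rfl⟩ := hφ c
  rw [algebraMap_smul]
  exact P.smul_mem b hx

/-- second isomorphism theorem -/
noncomputable def iso2 {M : Type} [AddCommGroup M] [Module B M] (P Q : Submodule B M) :
    (P ⧸ Q.comap P.subtype) ≃ₗ[B] P.map Q.mkQ :=
  (Submodule.quotEquivOfEq _ _ (by rw [LinearMap.ker_comp, Submodule.ker_mkQ])).trans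
    ((Q.mkQ ∘ₗ P.subtype).quotKerEquivRange.trans
      (LinearEquiv.ofEq _ _ (by rw [LinearMap.range_comp, Submodule.range_subtype])))

/-- both sides are `P ⊓ Q` -/
noncomputable def isoInf {M : Type} [AddCommGroup M] [Module B M] (P Q : Submodule B M) :
    P.comap Q.subtype ≃ₗ[B] Q.comap P.subtype where
  toFun x := ⟨⟨x.1.1, x.2⟩, x.1.2⟩
  invFun x := ⟨⟨x.1.1, x.2⟩, x.1.2⟩
  map_add' _ _ := rfl
  map_smul' _ _ := rfl
  left_inv _ := rfl
  right_inv _ := rfl

/-- third isomorphism theorem -/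
noncomputable def iso3 {M : Type} [AddCommGroup M] [Module B M] (P Q : Submodule B M) :
    ((M ⧸ Q) ⧸ P.map Q.mkQ) ≃ₗ[B] ((M ⧸ P) ⧸ Q.map P.mkQ) :=
  (Submodule.quotientQuotientEquivQuotientSup Q P).trans
    ((Submodule.quotEquivOfEq _ _ (sup_comm Q P)).trans
      (Submodule.quotientQuotientEquivQuotientSup P Q).symm)

variable {μ : LF Ω}

theorem Rch.split (hφ : Function.Surjective (algebraMap B Ω)) {M : Type} [AddCommGroup M]
    [Module B M] {a : ℝ≥0∞} (h : Rch B μ M a) (P : Submodule B M) :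
    ∃ a' a'', Rch B μ P a' ∧ Rch B μ (M ⧸ P) a'' ∧ a ≤ a' + a'' := by
  induction h with
  | zero M => exact ⟨0, 0, .zero _, .zero _, zero_le⟩
  | base M =>
    obtain ⟨P', rfl⟩ := exists_restrict hφ P
    exact ⟨_, _, .congr ((P'.restrictScalarsEquiv B).symm.restrictScalars B) (.base P'),
      .congr (Submodule.Quotient.restrictScalarsEquiv B P').symm (.base (M ⧸ P')), (μ.add P').le⟩
  | congr e _ ih =>
    obtain ⟨a', a'', h1, h2, h3⟩ := ih (P.comap e.toLinearMap)
    exact ⟨a', a'', .congr (e.ofSubmodule' P) h1, .congr (Submodule.Quotient.equiv _ _ e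
      (Submodule.map_comap_eq_of_surjective e.surjective P)) h2, h3⟩
  | ext Q _ _ ih1 ih2 =>
    obtain ⟨a₁, a₂, h1, h2, h3⟩ := ih1 (P.comap Q.subtype)
    obtain ⟨b₁, b₂, k1, k2, k3⟩ := ih2 (P.map Q.mkQ)
    refine ⟨a₁ + b₁, a₂ + b₂,
      .ext (Q.comap P.subtype) (.congr (isoInf P Q) h1) (.congr (iso2 P Q).symm k1),
      .ext (Q.map P.mkQ) (.congr (iso2 Q P) h2) (.congr (iso3 P Q) k2), ?_⟩
    rw [add_add_add_comm]
    exact add_le_add h3 k3

theorem Rch.le (hφ : Function.Surjective (algebraMap B Ω)) {M : Type} [AddCommGroup M]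
    [Module B M] {a : ℝ≥0∞} (h : Rch B μ M a) (N : Type) [AddCommGroup N] [Module B N]
    [Module Ω N] [IsScalarTower B Ω N] (e : M ≃ₗ[B] N) : a ≤ μ.val N := by
  induction h generalizing N with
  | zero M => exact zero_le
  | base M => exact (μ.congr (e.extendScalarsOfSurjective hφ)).le
  | congr e' _ ih => exact ih N (e'.trans e)
  | ext Q _ _ ih1 ih2 =>
    obtain ⟨P', hP⟩ := exists_restrict hφ (Q.map e.toLinearMap)
    rw [μ.add P']
    exact add_le_add
      (ih1 P' ((e.submoduleMap Q).trans ((LinearEquiv.ofEq _ _ hP.symm).trans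
        ((P'.restrictScalarsEquiv B).restrictScalars B))))
      (ih2 (N ⧸ P') ((Submodule.Quotient.equiv _ _ e hP.symm).trans
        (Submodule.Quotient.restrictScalarsEquiv B P')))

theorem exists_extend (hφ : Function.Surjective (algebraMap B Ω)) (μ : LF Ω) :
    ∃ μ' : LF B, ∀ (M : Type) [AddCommGroup M] [Module B M] [Module Ω M] [IsScalarTower B Ω M],
      μ'.val M = μ.val M := by
  refine ⟨⟨fun M _ _ => ⨆ a : {a // Rch B μ M a}, a.1, ?_, ?_, ?_⟩, ?_⟩
  · intro M N _ _ _ _ e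
    exact le_antisymm
      (iSup_le fun a => le_iSup (fun a : {a // Rch B μ N a} => a.1) ⟨a.1, .congr e a.2⟩)
      (iSup_le fun a => le_iSup (fun a : {a // Rch B μ M a} => a.1) ⟨a.1, .congr e.symm a.2⟩)
  · intro M _ _ P
    refine le_antisymm (iSup_le fun a => ?_) ?_
    · obtain ⟨a', a'', h1, h2, h3⟩ := a.2.split hφ P
      exact h3.trans (add_le_add (le_iSup (fun a : {a // Rch B μ P a} => a.1) ⟨a', h1⟩)
        (le_iSup (fun a : {a // Rch B μ (M ⧸ P) a} => a.1) ⟨a'', h2⟩))
    · have : Nonempty {a // Rch B μ P a} := ⟨⟨0, .zero _⟩⟩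
      have : Nonempty {a // Rch B μ (M ⧸ P) a} := ⟨⟨0, .zero _⟩⟩
      exact ENNReal.iSup_add_iSup_le fun a b =>
        le_iSup (fun a : {a // Rch B μ M a} => a.1) ⟨_, .ext P a.2 b.2⟩
  · intro M _ _ _
    refine le_antisymm (iSup_le fun a => ?_) zero_le
    exact (a.2.le hφ PUnit (LinearEquiv.ofSubsingleton M PUnit)).trans (μ.zero _).le
  · intro M _ _ _ _
    exact le_antisymm (iSup_le fun a => a.2.le hφ M (LinearEquiv.refl B M))
      (le_iSup (fun a : {a // Rch B μ M a} => a.1) ⟨_, .base M⟩)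

end Crest.Agent.R183.FolnerAux
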