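import Crest.Agent.R183.FolnerAux1
import Crest.Agent.R183.FolnerAux2

/-!
# Normalized length on `l ⊗[k] K` (Følner averaging) and extension along nilpotent thickenings
-/

set_option autoImplicit false

open scoped ENNReal TensorProduct

namespace Crest.Agent.R183

namespace FolnerAux

section

variable (k K l : Type) [Field k] [Field K] [Field l] [Algebra k K] [Algebra k l]

/-- The image of `l ⊗ F`. -/
noncomputable def tA (F : {F : IntermediateField k K // FiniteDimensional k F}) :
    Submodule l (l ⊗[k] K) :=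
  LinearMap.range (F.1.val.toLinearMap.baseChange l)

variable {k K l}

theorem tmul_mem_tA (F : {F : IntermediateField k K // FiniteDimensional k F}) (a : l) {c : K}
    (hc : c ∈ F.1) : a ⊗ₜ[k] c ∈ tA k K l F :=
  ⟨a ⊗ₜ ⟨c, hc⟩, rfl⟩

theorem tA_induction (F : {F : IntermediateField k K // FiniteDimensional k F})
    {p : l ⊗[k] K → Prop} (h0 : p 0) (h1 : ∀ a, ∀ c ∈ F.1, p (a ⊗ₜ c))
    (h2 : ∀ x y, p x → p y → p (x + y)) : ∀ x ∈ tA k K l F, p x := by
  rintro _ ⟨x, rfl⟩
  induction x using TensorProduct.induction_on with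
  | zero => rwa [map_zero]
  | tmul a c => exact h1 a c.1 c.2
  | add x y hx hy =>
    rw [map_add]
    exact h2 _ _ hx hy

theorem tA_mono {F F' : {F : IntermediateField k K // FiniteDimensional k F}} (h : F.1 ≤ F'.1) :
    tA k K l F ≤ tA k K l F' :=
  tA_induction F (zero_mem _) (fun a _ hc => tmul_mem_tA F' a (h hc)) fun _ _ => add_mem

theorem tA_ext {F F' : {F : IntermediateField k K // FiniteDimensional k F}} (h : F.1 ≤ F'.1) :
    Ext (tA k K l) (fun F => Module.finrank k F.1) F F' := by
  have h1 : Module.Finite k (IntermediateField.extendScalars h) := F'.2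
  have h2 : Module.Finite F.1 (IntermediateField.extendScalars h) :=
    Module.Finite.of_restrictScalars_finite k _ _
  let b := Module.finBasis F.1 (IntermediateField.extendScalars h)
  refine ⟨_, fun t => 1 ⊗ₜ (b t).1, ?_, fun t => tmul_mem_tA F' 1 (b t).2, ?_⟩
  · rw [mul_comm]
    exact (Module.finrank_mul_finrank k F.1 (IntermediateField.extendScalars h)).symm
  · refine tA_induction F' ⟨0, fun _ => zero_mem _, by simp⟩ (fun a c hc => ?_) ?_
    · refine ⟨fun t => a ⊗ₜ (b.repr ⟨c, hc⟩ t).1, fun t => tmul_mem_tA F a (Subtype.prop _), ?_⟩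
      have h3 := congrArg Subtype.val (b.sum_repr ⟨c, hc⟩)
      simp only [Algebra.TensorProduct.tmul_mul_tmul, one_mul, ← TensorProduct.tmul_sum]
      congr 1
      refine h3.symm.trans ?_
      rw [IntermediateField.coe_sum]
      exact Finset.sum_congr rfl fun t _ => mul_comm _ _
    · rintro _ _ ⟨c, hc, rfl⟩ ⟨c', hc', rfl⟩
      exact ⟨c + c', fun t => add_mem (hc t) (hc' t), by simp [mul_add, Finset.sum_add_distrib]⟩

theorem sys [Algebra.IsAlgebraic k K] : Sys (tA k K l) (fun F => Module.finrank k F.1) where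
  ne := ⟨⟨⊥, inferInstance⟩⟩
  pos F := by
    have := F.2
    exact Module.finrank_pos
  fg F := by
    have := F.2
    exact Submodule.fg_range _
  dim F := by
    have := F.2
    have hinj : Function.Injective (F.1.val.toLinearMap.baseChange l) :=
      Module.Flat.lTensor_preserves_injective_linearMap (M := l) F.1.val.toLinearMap
        Subtype.val_injective
    rw [tA, ← (LF.length l).congr (LinearEquiv.ofInjective _ hinj), LF.length_val,
      Module.length_eq_finrank, Module.finrank_baseChange]
    rfl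
  mul_mem F := by
    refine tA_induction F (fun b _ => by simp) (fun a c hc => ?_) fun x y hx hy b hb => ?_
    · refine tA_induction F (by simp) (fun a' c' hc' => ?_) fun x y hx hy => ?_
      · rw [Algebra.TensorProduct.tmul_mul_tmul]
        exact tmul_mem_tA F _ (mul_mem hc hc')
      · rw [mul_add]
        exact add_mem hx hy
    · rw [add_mul]
      exact add_mem (hx b hb) (hy b hb)
  dir F F' := by
    have := F.2
    have := F'.2
    exact ⟨⟨F.1 ⊔ F'.1, inferInstance⟩, tA_ext le_sup_left, tA_ext le_sup_right⟩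
  cover X hX := by
    have hsup : ∀ F F' : {F : IntermediateField k K // FiniteDimensional k F},
        ∃ F'', tA k K l F ≤ tA k K l F'' ∧ tA k K l F' ≤ tA k K l F'' := fun F F' => by
      have := F.2
      have := F'.2
      exact ⟨⟨F.1 ⊔ F'.1, inferInstance⟩, tA_mono le_sup_left, tA_mono le_sup_right⟩
    induction X, hX using Submodule.fg_induction with
    | singleton x =>
      simp only [Submodule.span_singleton_le_iff_mem]
      induction x using TensorProduct.induction_on with
      | zero => exact ⟨⟨⊥, inferInstance⟩, zero_mem _⟩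
      | tmul a c =>
        exact ⟨⟨IntermediateField.adjoin k {c}, IntermediateField.adjoin.finiteDimensional
          (Algebra.IsIntegral.isIntegral c)⟩,
          tmul_mem_tA _ a (IntermediateField.mem_adjoin_simple_self k c)⟩
      | add x y hx hy =>
        obtain ⟨F, hF⟩ := hx
        obtain ⟨F', hF'⟩ := hy
        obtain ⟨F'', h1, h2⟩ := hsup F F'
        exact ⟨F'', add_mem (h1 hF) (h2 hF')⟩
    | sup X Y _ _ hX hY =>
      obtain ⟨F, hF⟩ := hX
      obtain ⟨F', hF'⟩ := hY
      obtain ⟨F'', h1, h2⟩ := hsup F F'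
      exact ⟨F'', sup_le (hF.trans h1) (hF'.trans h2)⟩

end

end FolnerAux

theorem exists_lf_tensor (k K l : Type) [Field k] [Field K] [Field l] [Algebra k K] [Algebra k l]
    [Algebra.IsAlgebraic k K] : ∃ μ : LF (l ⊗[k] K), μ.val (l ⊗[k] K) = 1 := by
  exact FolnerAux.exists_lf FolnerAux.sys

theorem exists_lf_extend {B Ω : Type} [CommRing B] [CommRing Ω] (φ : B →+* Ω)
    (hφ : Function.Surjective φ) (μ : LF Ω) :
    ∃ μ' : LF B, ∀ (M : Type) [AddCommGroup M] [Module B M] [Module Ω M],
      (∀ (b : B) (x : M), b • x = φ b • x) → μ'.val M = μ.val M := by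
  let := φ.toAlgebra
  obtain ⟨μ', h⟩ := FolnerAux.exists_extend (B := B) hφ μ
  refine ⟨μ', fun M _ _ _ hM => ?_⟩
  have : IsScalarTower B Ω M := IsScalarTower.of_algebraMap_smul fun b x => (hM b x).symm
  exact h M

/-- The normalized length on `R' ⊗[R] S` for a local map `R → S` and a local map `R → R'` with
`m R' = m'` and algebraic residue field extension. -/
theorem exists_lf_baseChange (R R' S : Type) [CommRing R] [CommRing R'] [CommRing S]
    [IsLocalRing R] [IsLocalRing R'] [IsLocalRing S] [Algebra R R'] [Algebra R S]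
    [IsLocalHom (algebraMap R R')] [IsLocalHom (algebraMap R S)]
    (hm : (IsLocalRing.maximalIdeal R).map (algebraMap R R') = IsLocalRing.maximalIdeal R')
    [Algebra.IsAlgebraic (IsLocalRing.ResidueField R) (IsLocalRing.ResidueField R')] :
    ∃ μ : LF (R' ⊗[R] S), μ.val ((R' ⊗[R] S) ⧸ (IsLocalRing.maximalIdeal S).map
      (Algebra.TensorProduct.includeRight : S →ₐ[R] R' ⊗[R] S)) = 1 := by
  set k := IsLocalRing.ResidueField R
  set K := IsLocalRing.ResidueField R'
  set l := IsLocalRing.ResidueField S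
  set J := (IsLocalRing.maximalIdeal S).map
    (Algebra.TensorProduct.includeRight : S →ₐ[R] R' ⊗[R] S) with hJ
  obtain ⟨μ, hμ⟩ := exists_lf_tensor k K l
  -- the map to the tensor product of the residue fields
  let f : R' →ₐ[R] l ⊗[k] K :=
    { (Algebra.TensorProduct.includeRight : K →ₐ[k] l ⊗[k] K).toRingHom.comp
        (IsLocalRing.residue R') with
      commutes' := fun r =>
        (Algebra.TensorProduct.includeRight : K →ₐ[k] l ⊗[k] K).commutes
          (IsLocalRing.residue R r) }
  let g : S →ₐ[R] l ⊗[k] K :=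
    { (Algebra.TensorProduct.includeLeftRingHom : l →+* l ⊗[k] K).comp
        (IsLocalRing.residue S) with
      commutes' := fun r => rfl }
  let φ : R' ⊗[R] S →ₐ[R] l ⊗[k] K := Algebra.TensorProduct.lift f g fun _ _ => .all _ _
  have hφ : ∀ r s, φ (r ⊗ₜ s) = IsLocalRing.residue S s ⊗ₜ IsLocalRing.residue R' r := by
    intro r s
    change (1 ⊗ₜ IsLocalRing.residue R' r : l ⊗[k] K) * IsLocalRing.residue S s ⊗ₜ 1 = _
    rw [Algebra.TensorProduct.tmul_mul_tmul, one_mul, mul_one]
  have hsurj : Function.Surjective φ := by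
    intro x
    induction x using TensorProduct.induction_on with
    | zero => exact ⟨0, map_zero _⟩
    | tmul a c =>
      obtain ⟨s, rfl⟩ := IsLocalRing.residue_surjective a
      obtain ⟨r, rfl⟩ := IsLocalRing.residue_surjective c
      exact ⟨_, hφ r s⟩
    | add x y hx hy =>
      obtain ⟨x, rfl⟩ := hx
      obtain ⟨y, rfl⟩ := hy
      exact ⟨x + y, map_add _ _ _⟩
  -- the map back
  let gl : l →+* (R' ⊗[R] S) ⧸ J :=
    Ideal.Quotient.lift _ ((Ideal.Quotient.mk J).comp
      (Algebra.TensorProduct.includeRight : S →ₐ[R] R' ⊗[R] S).toRingHom) fun s hs =>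
        Ideal.Quotient.eq_zero_iff_mem.2 (Ideal.mem_map_of_mem _ hs)
  have hcomm : ∀ r : R, (algebraMap R R' r ⊗ₜ 1 : R' ⊗[R] S) = 1 ⊗ₜ algebraMap R S r :=
    fun r => (Algebra.TensorProduct.includeRight : S →ₐ[R] R' ⊗[R] S).commutes r |>.symm
  let gK : K →+* (R' ⊗[R] S) ⧸ J :=
    Ideal.Quotient.lift _ ((Ideal.Quotient.mk J).comp
      Algebra.TensorProduct.includeLeftRingHom) fun r hr => by
        rw [← hm] at hr
        refine (Ideal.map_le_iff_le_comap.2 fun r hr => ?_ :
          _ ≤ RingHom.ker ((Ideal.Quotient.mk J).comp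
            Algebra.TensorProduct.includeLeftRingHom)) hr
        refine Ideal.Quotient.eq_zero_iff_mem.2 ?_
        change (algebraMap R R' r ⊗ₜ 1 : R' ⊗[R] S) ∈ J
        rw [hcomm]
        exact Ideal.mem_map_of_mem _ (map_nonunit (algebraMap R S) r hr)
  let : Algebra k ((R' ⊗[R] S) ⧸ J) := (gl.comp (algebraMap k l)).toAlgebra
  let gl' : l →ₐ[k] (R' ⊗[R] S) ⧸ J := { gl with commutes' := fun _ => rfl }
  let gK' : K →ₐ[k] (R' ⊗[R] S) ⧸ J :=
    { gK with
      commutes' := fun c => by
        obtain ⟨r, rfl⟩ := IsLocalRing.residue_surjective c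
        exact congrArg (Ideal.Quotient.mk J) (hcomm r) }
  let ψ : l ⊗[k] K →ₐ[k] (R' ⊗[R] S) ⧸ J := Algebra.TensorProduct.lift gl' gK' fun _ _ => .all _ _
  have hψ : ∀ x, ψ (φ x) = Ideal.Quotient.mk J x := by
    intro x
    induction x using TensorProduct.induction_on with
    | zero => simp
    | tmul r s =>
      rw [hφ]
      change Ideal.Quotient.mk J (1 ⊗ₜ s) * Ideal.Quotient.mk J (r ⊗ₜ 1) = _
      rw [← map_mul, Algebra.TensorProduct.tmul_mul_tmul, one_mul, mul_one]
    | add x y hx hy => rw [map_add, map_add, map_add, hx, hy]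
  have hker : J = RingHom.ker φ.toRingHom := by
    refine le_antisymm (Ideal.map_le_iff_le_comap.2 fun s hs => ?_) fun x hx => ?_
    · change φ (1 ⊗ₜ s) = 0
      rw [hφ, (IsLocalRing.residue_eq_zero_iff s).2 hs, TensorProduct.zero_tmul]
    · have hx' : φ x = 0 := hx
      rw [← Ideal.Quotient.eq_zero_iff_mem, ← hψ, hx', map_zero]
  obtain ⟨μ', h⟩ := exists_lf_extend φ.toRingHom hsurj μ
  refine ⟨μ', ?_⟩
  let := φ.toRingHom.toAlgebra
  rw [← hμ, ← h (l ⊗[k] K) fun _ _ => rfl, hker]
  exact μ'.congr (Ideal.quotientKerAlgEquivOfSurjective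
    (f := Algebra.ofId (R' ⊗[R] S) (l ⊗[k] K)) hsurj).toLinearEquiv

end Crest.Agent.R183
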