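import Crest.Agent.R183.LF

/-!
# Følner averaging of dimensions along a directed family of finite-dimensional subalgebras
-/

set_option autoImplicit false

open scoped ENNReal TensorProduct

namespace Crest.Agent.R183.FolnerAux

variable {l Ω ι : Type} [Field l] [CommRing Ω] [Algebra l Ω]

/-- `A m` is generated by `n m / n i` elements over `A i`. -/
def Ext (A : ι → Submodule l Ω) (n : ι → ℕ) (i m : ι) : Prop :=
  ∃ (d : ℕ) (b : Fin d → Ω), n m = d * n i ∧ (∀ t, b t ∈ A m) ∧
    ∀ a ∈ A m, ∃ c : Fin d → Ω, (∀ t, c t ∈ A i) ∧ a = ∑ t, b t * c t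

/-- A directed exhaustion of `Ω` by finite-dimensional subalgebras. -/
structure Sys (A : ι → Submodule l Ω) (n : ι → ℕ) : Prop where
  ne : Nonempty ι
  pos : ∀ i, 0 < n i
  fg : ∀ i, (A i).FG
  dim : ∀ i, (LF.length l).val (A i) = n i
  mul_mem : ∀ i, ∀ a ∈ A i, ∀ b ∈ A i, a * b ∈ A i
  dir : ∀ i j, ∃ m, Ext A n i m ∧ Ext A n j m
  cover : ∀ X : Submodule l Ω, X.FG → ∃ i, X ≤ A i

section

variable (A : ι → Submodule l Ω) (n : ι → ℕ)

/-- Normalised dimension of a finite-dimensional subspace. -/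
noncomputable def lam {M : Type} [AddCommGroup M] [Module Ω M] [Module l M] [IsScalarTower l Ω M]
    (X : Submodule l M) : ℝ≥0∞ :=
  ⨅ i, (LF.length l).val ↥(A i • X) / n i

/-- Normalised dimension of a module. -/
noncomputable def val0 (M : Type) [AddCommGroup M] [Module Ω M] [Module l M]
    [IsScalarTower l Ω M] : ℝ≥0∞ :=
  ⨆ X : {X : Submodule l M // X.FG}, lam A n X.1

end

variable {A : ι → Submodule l Ω} {n : ι → ℕ}
  {M M' M'' : Type} [AddCommGroup M] [Module Ω M] [Module l M] [IsScalarTower l Ω M]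
  [AddCommGroup M'] [Module Ω M'] [Module l M'] [IsScalarTower l Ω M']
  [AddCommGroup M''] [Module Ω M''] [Module l M''] [IsScalarTower l Ω M'']

theorem map_smul_eq (f : M →ₗ[Ω] M') (I : Submodule l Ω) (X : Submodule l M) :
    (I • X).map (f.restrictScalars l) = I • X.map (f.restrictScalars l) := by
  refine le_antisymm (Submodule.map_le_iff_le_comap.2 (Submodule.smul_le.2 fun a ha x hx => ?_))
    (Submodule.smul_le.2 ?_)
  · rw [Submodule.mem_comap, LinearMap.restrictScalars_apply, map_smul]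
    exact Submodule.smul_mem_smul ha ⟨x, hx, rfl⟩
  · rintro a ha _ ⟨x, hx, rfl⟩
    exact ⟨a • x, Submodule.smul_mem_smul ha hx, map_smul f a x⟩

theorem fg_smul {I : Submodule l Ω} {X : Submodule l M} (hI : I.FG) (hX : X.FG) : (I • X).FG := by
  let φ : Ω →ₗ[l] M →ₗ[l] M := LinearMap.mk₂ l (fun a x => a • x) add_smul smul_assoc smul_add
    fun c a x => smul_comm a c x
  refine (hI.map₂ φ hX).of_le (Submodule.smul_le.2 fun a ha x hx => ?_)
  exact Submodule.apply_mem_map₂ φ ha hx

omit [Module Ω M] [IsScalarTower l Ω M] [Module Ω M'] [IsScalarTower l Ω M'] in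
theorem val_map_of_injective (f : M →ₗ[l] M') (hf : Function.Injective f) (X : Submodule l M) :
    (LF.length l).val (X.map f) = (LF.length l).val X := by
  rw [← LF.sz_bot, LF.sz_map_eq, Submodule.comap_bot, LinearMap.ker_eq_bot.2 hf, LF.sz_bot]

omit [Module Ω M] [IsScalarTower l Ω M] [Module Ω M'] [IsScalarTower l Ω M'] in
theorem val_map_eq_sz (f : M →ₗ[l] M') (X : Submodule l M) :
    (LF.length l).val (X.map f) = (LF.length l).sz X (LinearMap.ker f) := by
  rw [← LF.sz_bot, LF.sz_map_eq, Submodule.comap_bot]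

theorem key {i m d : _} {b : Fin d → Ω} (hb : ∀ t, b t ∈ A m)
    (h : ∀ a ∈ A m, ∃ c : Fin d → Ω, (∀ t, c t ∈ A i) ∧ a = ∑ t, b t * c t)
    (X W : Submodule l M) :
    (LF.length l).sz (A m • X) (A m • W) ≤ d * (LF.length l).sz (A i • X) W := by
  let σ : (Fin d → M) →ₗ[l] M :=
    { toFun := fun y => ∑ t, b t • y t
      map_add' := fun y y' => by simp [Finset.sum_add_distrib]
      map_smul' := fun c y => by
        simp only [Pi.smul_apply, RingHom.id_apply, Finset.smul_sum]
        exact Finset.sum_congr rfl fun t _ => smul_comm _ _ _ }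
  have h1 : A m • X ≤ (Submodule.pi Set.univ fun _ => A i • X).map σ := by
    refine Submodule.smul_le.2 fun a ha x hx => ?_
    obtain ⟨c, hc, rfl⟩ := h a ha
    refine ⟨fun t => c t • x, fun t _ => Submodule.smul_mem_smul (hc t) hx, ?_⟩
    simp [σ, Finset.sum_smul, mul_smul]
  have h2 : (Submodule.pi Set.univ fun _ => W).map σ ≤ A m • W := by
    rintro _ ⟨y, hy, rfl⟩
    change ∑ t, b t • y t ∈ A m • W
    exact Submodule.sum_mem _ fun t _ => Submodule.smul_mem_smul (hb t) (hy t trivial)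
  refine ((LF.length l).sz_mono h1 h2).trans (((LF.length l).sz_map_le _ _ _).trans ?_)
  rw [LF.sz_pi]
  simp

theorem div_le_of_le (hS : Sys A n) {i m d : _} (hn : n m = d * n i) {x y : ℝ≥0∞}
    (h : x ≤ d * y) : x / n m ≤ y / n i := by
  have hd : (d : ℝ≥0∞) ≠ 0 := by
    have := hS.pos m
    rw [hn] at this
    exact Nat.cast_ne_zero.2 (Nat.pos_of_mul_pos_right this).ne'
  rw [hn, Nat.cast_mul, ← ENNReal.mul_div_mul_left y (n i) hd (ENNReal.natCast_ne_top d)]
  exact ENNReal.div_le_div_right h _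

theorem anti (hS : Sys A n) {i m : ι} (h : Ext A n i m) (X : Submodule l M) :
    (LF.length l).val ↥(A m • X) / n m ≤ (LF.length l).val ↥(A i • X) / n i := by
  obtain ⟨d, b, hn, hb, h⟩ := h
  have := key hb h X ⊥
  rw [Submodule.smul_bot, LF.sz_bot, LF.sz_bot] at this
  exact div_le_of_le hS hn this

theorem lam_le_val0 {X : Submodule l M} (hX : X.FG) : lam A n X ≤ val0 A n M :=
  le_iSup (fun X : {X : Submodule l M // X.FG} => lam A n X.1) ⟨X, hX⟩

theorem val0_le_of_injective (f : M →ₗ[Ω] M') (hf : Function.Injective f) :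
    val0 A n M ≤ val0 A n M' := by
  refine iSup_le fun X => le_trans (le_of_eq ?_) (lam_le_val0 (X.2.map (f.restrictScalars l)))
  refine iInf_congr fun i => ?_
  rw [← map_smul_eq, val_map_of_injective _ hf]

theorem val0_congr (e : M ≃ₗ[Ω] M') : val0 A n M = val0 A n M' :=
  le_antisymm (val0_le_of_injective e.toLinearMap e.injective)
    (val0_le_of_injective e.symm.toLinearMap e.symm.injective)

theorem val0_zero (hS : Sys A n) [Subsingleton M] : val0 A n M = 0 := by
  obtain ⟨i⟩ := hS.ne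
  refine le_antisymm (iSup_le fun X => (iInf_le _ i).trans ?_) zero_le
  rw [(LF.length l).zero, ENNReal.zero_div]

theorem add_le_val0 (f : M' →ₗ[Ω] M) (g : M →ₗ[Ω] M'') (hf : Function.Injective f)
    (hg : Function.Surjective g) (h : Function.Exact f g) :
    val0 A n M' + val0 A n M'' ≤ val0 A n M := by
  have : Nonempty {X : Submodule l M' // X.FG} := ⟨⟨⊥, Submodule.fg_bot⟩⟩
  have : Nonempty {X : Submodule l M'' // X.FG} := ⟨⟨⊥, Submodule.fg_bot⟩⟩
  refine ENNReal.iSup_add_iSup_le ?_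
  rintro ⟨X', hX'⟩ ⟨X'', hX''⟩
  obtain ⟨X₀, hX₀, hmap⟩ : ∃ X₀ : Submodule l M, X₀.FG ∧ X₀.map (g.restrictScalars l) = X'' := by
    obtain ⟨s, hs, rfl⟩ := Submodule.fg_def.1 hX''
    obtain ⟨σ, hσ⟩ := hg.hasRightInverse
    refine ⟨Submodule.span l (σ '' s), Submodule.fg_span (hs.image _), ?_⟩
    rw [Submodule.map_span, Set.image_image]
    congr 1
    simp [hσ _]
  refine le_trans ?_ (lam_le_val0 ((hX'.map (f.restrictScalars l)).sup hX₀))
  refine le_iInf fun i => (add_le_add (iInf_le _ i) (iInf_le _ i)).trans ?_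
  rw [← ENNReal.add_div]
  refine ENNReal.div_le_div_right ?_ _
  set X := X'.map (f.restrictScalars l) ⊔ X₀
  rw [← LF.sz_bot _ (A i • X),
    LF.sz_tower_right _ _ (bot_le (a := LinearMap.ker (g.restrictScalars l))), add_comm,
    ← val_map_eq_sz, LF.sz_bot]
  refine add_le_add ((LF.length l).val_mono ?_) ?_
  · rw [map_smul_eq]
    exact Submodule.smul_mono le_rfl (hmap.ge.trans (Submodule.map_mono le_sup_right))
  · rw [← val_map_of_injective (f.restrictScalars l) hf]
    refine (LF.length l).val_mono (le_inf ?_ ?_)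
    · rw [map_smul_eq]
      exact Submodule.smul_mono le_rfl le_sup_left
    · rintro _ ⟨x, -, rfl⟩
      exact h.apply_apply_eq_zero x

theorem val0_le_add (hS : Sys A n) (f : M' →ₗ[Ω] M) (g : M →ₗ[Ω] M'')
    (hf : Function.Injective f) (h : Function.Exact f g) :
    val0 A n M ≤ val0 A n M' + val0 A n M'' := by
  refine iSup_le ?_
  rintro ⟨X, hX⟩
  refine le_trans ?_ (add_le_add le_rfl (lam_le_val0 (hX.map (g.restrictScalars l))))
  rw [lam, lam, ENNReal.add_iInf]
  refine le_iInf fun i => ?_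
  set X' := (A i • X).comap (f.restrictScalars l)
  have hmap : X'.map (f.restrictScalars l) = (A i • X) ⊓ LinearMap.ker (g.restrictScalars l) := by
    rw [Submodule.map_comap_eq, inf_comm]
    congr 1
    ext x
    exact (h x).symm
  have hX' : X'.FG := by
    refine Submodule.fg_of_fg_map_injective (f.restrictScalars l) hf ?_
    rw [hmap]
    exact (fg_smul (hS.fg i) hX).of_le inf_le_left
  refine le_trans ?_ (add_le_add (lam_le_val0 hX') le_rfl)
  rw [lam, ENNReal.iInf_add]
  refine le_iInf fun j => ?_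
  obtain ⟨m, ⟨d, b, hn, hb, hbi⟩, hj⟩ := hS.dir i j
  refine (iInf_le _ m).trans (le_trans ?_ (add_le_add (anti hS hj X') (div_le_of_le hS hn le_rfl)))
  rw [← ENNReal.add_div]
  refine ENNReal.div_le_div_right ?_ _
  rw [← LF.sz_bot _ (A m • X), add_comm]
  refine ((LF.length l).sz_triangle _ (A m • X'.map (f.restrictScalars l)) _).trans
    (add_le_add ((key hb hbi _ _).trans (le_of_eq ?_)) (le_of_eq ?_))
  · rw [hmap, LF.sz_inf_right, ← val_map_eq_sz, map_smul_eq]
  · rw [LF.sz_bot, ← map_smul_eq, val_map_of_injective _ hf]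

theorem val0_self (hS : Sys A n) : val0 A n Ω = 1 := by
  have h1 : ∀ i, (LF.length l).val (A i) / n i = 1 := fun i => by
    rw [hS.dim, ENNReal.div_self (Nat.cast_ne_zero.2 (hS.pos i).ne') (ENNReal.natCast_ne_top _)]
  refine le_antisymm (iSup_le ?_) ?_
  · rintro ⟨X, hX⟩
    obtain ⟨i, hi⟩ := hS.cover X hX
    refine (iInf_le _ i).trans ?_
    rw [← h1 i]
    refine ENNReal.div_le_div_right ((LF.length l).val_mono ?_) _
    exact Submodule.smul_le.2 fun a ha x hx => hS.mul_mem i a ha x (hi hx)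
  · refine le_trans (le_iInf fun i => ?_) (lam_le_val0 (Submodule.fg_span_singleton (1 : Ω)))
    rw [← h1 i]
    refine ENNReal.div_le_div_right ((LF.length l).val_mono fun a ha => ?_) _
    have := Submodule.smul_mem_smul ha (Submodule.mem_span_singleton_self (R := l) (1 : Ω))
    rwa [smul_eq_mul a, mul_one] at this

theorem exists_lf (hS : Sys A n) : ∃ μ : LF Ω, μ.val Ω = 1 := by
  refine ⟨⟨fun M _ _ => @val0 l Ω ι _ _ _ A n M _ _ (Module.compHom M (algebraMap l Ω))
    (IsScalarTower.of_compHom l Ω M), ?_, ?_, ?_⟩, ?_⟩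
  · intro M N _ _ _ _ e
    exact @val0_congr l Ω ι _ _ _ A n M N _ _ (Module.compHom _ (algebraMap l Ω))
      (IsScalarTower.of_compHom l Ω _) _ _ (Module.compHom _ (algebraMap l Ω))
      (IsScalarTower.of_compHom l Ω _) e
  · intro M _ _ P
    exact le_antisymm
      (@val0_le_add l Ω ι _ _ _ A n M P (M ⧸ P) _ _ (Module.compHom _ (algebraMap l Ω))
        (IsScalarTower.of_compHom l Ω _) _ _ (Module.compHom _ (algebraMap l Ω))
        (IsScalarTower.of_compHom l Ω _) _ _ (Module.compHom _ (algebraMap l Ω))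
        (IsScalarTower.of_compHom l Ω _) hS P.subtype P.mkQ P.injective_subtype
        (LinearMap.exact_subtype_mkQ P))
      (@add_le_val0 l Ω ι _ _ _ A n M P (M ⧸ P) _ _ (Module.compHom _ (algebraMap l Ω))
        (IsScalarTower.of_compHom l Ω _) _ _ (Module.compHom _ (algebraMap l Ω))
        (IsScalarTower.of_compHom l Ω _) _ _ (Module.compHom _ (algebraMap l Ω))
        (IsScalarTower.of_compHom l Ω _) P.subtype P.mkQ P.injective_subtype P.mkQ_surjective
        (LinearMap.exact_subtype_mkQ P))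
  · intro M _ _ _
    exact @val0_zero l Ω ι _ _ _ A n M _ _ (Module.compHom _ (algebraMap l Ω))
      (IsScalarTower.of_compHom l Ω _) hS _
  · rw [← val0_self hS]
    exact @val0_congr l Ω ι _ _ _ A n Ω Ω _ _ (Module.compHom _ (algebraMap l Ω))
      (IsScalarTower.of_compHom l Ω _) _ _ _ _ (LinearEquiv.refl Ω Ω)

end Crest.Agent.R183.FolnerAux
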