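import Crest.Agent.R183.GonflAux1

/-!
# Triangular systems for the lexicographic order
-/

set_option autoImplicit false

open IsLocalRing MvPolynomial MonomialOrder
open scoped MonomialOrder

namespace Crest.Agent.R183

section lex

variable {σ : Type} [LinearOrder σ] [WellFoundedGT σ]

theorem Gonfl_lex_lt {γ β : σ →₀ ℕ} :
    γ ≺[lex] β ↔ ∃ i, (∀ j, j < i → γ j = β j) ∧ γ i < β i := Iff.rfl

theorem Gonfl_lexA {γ β : σ →₀ ℕ} {a : σ} (h : γ ≼[lex] β) (hβ : ∀ b, b < a → β b = 0) :
    (∀ b, b < a → γ b = 0) ∧ γ a ≤ β a := by
  rcases h.eq_or_lt with h | h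
  · have := lex.toSyn.injective h
    subst this
    exact ⟨hβ, le_rfl⟩
  · obtain ⟨i, h1, h2⟩ := Gonfl_lex_lt.1 h
    have hai : a ≤ i := by
      by_contra hlt
      have := hβ i (not_le.1 hlt)
      omega
    refine ⟨fun b hb => (h1 b (lt_of_lt_of_le hb hai)).trans (hβ b hb), ?_⟩
    rcases hai.eq_or_lt with rfl | hlt
    · exact h2.le
    · exact (h1 a hlt).le

theorem Gonfl_lexB {γ : σ →₀ ℕ} {a : σ} {n : ℕ} (h : ∀ b, b < a → γ b = 0) (hn : γ a < n) :
    γ ≺[lex] Finsupp.single a n :=
  Gonfl_lex_lt.2 ⟨a, fun j hj => by rw [h j hj, Finsupp.single_eq_of_ne hj.ne], by simpa using hn⟩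

theorem Gonfl_lexC {γ : σ →₀ ℕ} {a : σ} {n : ℕ} (h : γ ≺[lex] Finsupp.single a n) :
    (∀ b, b < a → γ b = 0) ∧ γ a < n := by
  obtain ⟨i, h1, h2⟩ := Gonfl_lex_lt.1 h
  have hia : i = a := by
    by_contra hne
    rw [Finsupp.single_eq_of_ne hne] at h2
    omega
  subst hia
  exact ⟨fun b hb => by rw [h1 b hb, Finsupp.single_eq_of_ne hb.ne], by simpa using h2⟩

/-- A triangular monic system defines an integral extension. -/
theorem Gonfl_isIntegral {B : Type} [CommRing B] (f : σ → MvPolynomial σ B) (D : σ → ℕ)
    (hD : ∀ a, 0 < D a) (hm : ∀ a, lex.Monic (f a))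
    (hdeg : ∀ a, lex.degree (f a) = Finsupp.single a (D a)) :
    Algebra.IsIntegral B (MvPolynomial σ B ⧸ sp f) := by
  classical
  set π := Ideal.Quotient.mkₐ B (sp f) with hπ
  have hmon : ∀ (γ : σ →₀ ℕ) (c : B), (∀ b ∈ γ.support, IsIntegral B (π (X b))) →
      IsIntegral B (π (monomial γ c)) := by
    intro γ c h
    rw [monomial_eq, map_mul, Finsupp.prod, map_prod]
    refine IsIntegral.mul ?_ (IsIntegral.prod _ fun b hb => ?_)
    · rw [← algebraMap_eq, AlgHom.commutes]; exact isIntegral_algebraMap
    · rw [map_pow]; exact (h b hb).pow _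
  have hX : ∀ a, IsIntegral B (π (X a)) := by
    intro a
    induction a using WellFoundedGT.induction with
    | ind a ih =>
      rcases subsingleton_or_nontrivial (MvPolynomial σ B ⧸ sp f) with hs | hs
      · rw [Subsingleton.elim (π (X a)) 0]; exact isIntegral_zero
      set h := f a - monomial (Finsupp.single a (D a)) 1 with hh
      have hsupp : ∀ γ ∈ h.support, (∀ b, b < a → γ b = 0) ∧ γ a < D a := by
        intro γ hγ
        apply Gonfl_lexC
        rw [mem_support_iff, hh, coeff_sub, coeff_monomial] at hγ
        have h1 := (hm a).coeff_degree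
        rw [hdeg] at h1
        by_cases he : Finsupp.single a (D a) = γ
        · rw [if_pos he, ← he, h1, sub_self] at hγ
          exact absurd rfl hγ
        · rw [if_neg he, sub_zero] at hγ
          have h2 := lex.le_degree (mem_support_iff.2 hγ)
          rw [hdeg] at h2
          exact lt_of_le_of_ne h2 (fun h3 => he (lex.toSyn.injective h3).symm)
      set q : Polynomial (MvPolynomial σ B ⧸ sp f) := ∑ γ ∈ h.support,
        Polynomial.monomial (γ a) (π (monomial (γ.erase a) (coeff γ h))) with hq
      have hqd : q.degree < (D a : ℕ) := by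
        rw [hq]
        refine lt_of_le_of_lt (Polynomial.degree_sum_le _ _) ?_
        rw [Finset.sup_lt_iff (WithBot.bot_lt_coe _)]
        intro γ hγ
        refine lt_of_le_of_lt (Polynomial.degree_monomial_le _ _) ?_
        exact_mod_cast (hsupp γ hγ).2
      refine IsIntegral.of_aeval_monic_of_isIntegral_coeff (p := Polynomial.X ^ D a + q)
        (Polynomial.monic_X_pow_add hqd) ?_ ?_ ?_
      · rw [Polynomial.natDegree_add_eq_left_of_degree_lt (by rwa [Polynomial.degree_X_pow]),
          Polynomial.natDegree_X_pow]
        exact (hD a).ne'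
      · have h1 : Polynomial.eval (π (X a)) q = π h := by
          rw [hq, Polynomial.eval_finsetSum]
          conv_rhs => rw [as_sum h, map_sum]
          refine Finset.sum_congr rfl fun γ _ => ?_
          rw [Polynomial.eval_monomial, ← map_pow, ← map_mul, ← monomial_add_single,
            Finsupp.erase_add_single]
        have h2 : π (f a) = 0 :=
          Ideal.Quotient.eq_zero_iff_mem.2 (Ideal.subset_span ⟨a, rfl⟩)
        rw [Polynomial.eval_add, Polynomial.eval_pow, Polynomial.eval_X, h1, hh, map_sub, h2,
          ← map_pow, X_pow_eq_monomial, zero_sub, add_neg_cancel]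
        exact isIntegral_zero
      · intro i
        rw [Polynomial.coeff_add, Polynomial.coeff_X_pow, hq, Polynomial.finsetSum_coeff]
        refine IsIntegral.add ?_ (IsIntegral.sum _ fun γ hγ => ?_)
        · split_ifs
          · exact isIntegral_one
          · exact isIntegral_zero
        · rw [Polynomial.coeff_monomial]
          split_ifs
          · refine hmon _ _ fun b hb => ih b ?_
            rw [Finsupp.support_erase, Finset.mem_erase, Finsupp.mem_support_iff] at hb
            rcases lt_trichotomy a b with h1 | h1 | h1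
            · exact h1
            · exact absurd h1.symm hb.1
            · exact absurd ((hsupp γ hγ).1 b h1) hb.2
          · exact isIntegral_zero
  constructor
  intro x
  obtain ⟨p, rfl⟩ := Ideal.Quotient.mk_surjective x
  change IsIntegral B (π p)
  rw [as_sum p, map_sum]
  exact IsIntegral.sum _ fun γ _ => hmon _ _ fun b _ => hX b

/-- The kernel of evaluation at a family of algebraic elements is generated by a triangular
monic system. -/
theorem Gonfl_exists_system {k K : Type} [Field k] [Field K] [Algebra k K]
    [Algebra.IsAlgebraic k K] (x : σ → K) :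
    ∃ (g : σ → MvPolynomial σ k) (D : σ → ℕ), (∀ a, 0 < D a) ∧ (∀ a, lex.Monic (g a)) ∧
      (∀ a, lex.degree (g a) = Finsupp.single a (D a)) ∧
      ∀ p, p ∈ sp g ↔ aeval x p = 0 := by
  classical
  -- a monic polynomial from a leading pure power and lower terms
  have hmk : ∀ (a : σ) (n : ℕ) (r : MvPolynomial σ k), 0 < n →
      (∀ γ ∈ r.support, (∀ b, b < a → γ b = 0) ∧ γ a < n) →
      lex.Monic (X a ^ n + r) ∧ lex.degree (X a ^ n + r) = Finsupp.single a n := by
    intro a n r hn hr
    have h1 : lex.degree (X a ^ n : MvPolynomial σ k) = Finsupp.single a n := by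
      rw [X_pow_eq_monomial, degree_monomial, if_neg one_ne_zero]
    have h2 : lex.degree r ≺[lex] lex.degree (X a ^ n : MvPolynomial σ k) := by
      rw [h1, degree_lt_iff (Gonfl_lexB (by simp) (by simpa using hn))]
      intro γ hγ
      exact Gonfl_lexB (hr γ hγ).1 (hr γ hγ).2
    exact ⟨Monic.add_of_lt (Monic.pow monic_X) h2, by rw [degree_add_of_lt h2, h1]⟩
  have hex : ∀ a, ∃ d : ℕ, ∃ p : MvPolynomial σ k, aeval x p = 0 ∧ lex.Monic p ∧
      lex.degree p = Finsupp.single a d := by
    intro a
    have hint : IsIntegral k (x a) := Algebra.IsIntegral.isIntegral _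
    set μ := minpoly k (x a) with hμ
    have hμm : μ.Monic := minpoly.monic hint
    have hμd : 0 < μ.natDegree := minpoly.natDegree_pos hint
    obtain ⟨h1, h2⟩ := hmk a μ.natDegree
      (∑ i ∈ Finset.range μ.natDegree, monomial (Finsupp.single a i) (μ.coeff i)) hμd (by
        intro γ hγ
        obtain ⟨i, hi, hγ'⟩ := Finset.mem_biUnion.1 (support_sum hγ)
        have := Finset.mem_singleton.1 (support_monomial_subset hγ')
        subst this
        exact ⟨fun b hb => Finsupp.single_eq_of_ne hb.ne, by simpa using hi⟩)
    refine ⟨_, _, ?_, h1, h2⟩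
    have h3 : Polynomial.aeval (x a) μ = 0 := minpoly.aeval k (x a)
    rw [hμm.as_sum] at h3
    simpa [aeval_monomial] using h3
  set D : σ → ℕ := fun a => Nat.find (hex a) with hD
  choose g hg0 hgm hgd using fun a => Nat.find_spec (hex a)
  have hDpos : ∀ a, 0 < D a := by
    intro a
    by_contra h0
    have h0' : Nat.find (hex a) = 0 := Nat.eq_zero_of_not_pos h0
    have h1 := hgd a
    rw [h0', Finsupp.single_zero] at h1
    have h2 := eq_C_of_degree_eq_zero h1
    have h3 := hg0 a
    rw [h2, (hgm a).leadingCoeff_eq_one] at h3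
    simp at h3
  have key : ∀ (s : (lex (σ := σ)).syn) (p : MvPolynomial σ k), lex.toSyn (lex.degree p) = s →
      aeval x p = 0 → p ≠ 0 → ∃ a, D a ≤ lex.degree p a := by
    intro s
    induction s using WellFoundedLT.induction with
    | ind s ih =>
      intro p hs hp hp0
      subst hs
      set β := lex.degree p with hβ
      by_cases hβ0 : β = 0
      · exfalso
        have h2 := eq_C_of_degree_eq_zero (hβ.symm.trans hβ0)
        rw [h2] at hp
        simp only [algHom_C, map_eq_zero, leadingCoeff_eq_zero_iff] at hp
        exact hp0 hp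
      have hne : β.support.Nonempty := Finsupp.support_nonempty_iff.2 hβ0
      set a := β.support.min' hne with ha
      have haβ : β a ≠ 0 := Finsupp.mem_support_iff.1 (β.support.min'_mem hne)
      have hβa : ∀ b, b < a → β b = 0 := by
        intro b hb
        by_contra h
        exact absurd (β.support.min'_le b (Finsupp.mem_support_iff.2 h)) (not_le.2 hb)
      set n := β a with hn
      set c := p.divMonomial (Finsupp.single a n) with hc
      set r := p.modMonomial (Finsupp.single a n) with hr
      have hpcr : p = X a ^ n * c + r := by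
        rw [X_pow_eq_monomial]; exact (divMonomial_add_modMonomial p _).symm
      have hcs : ∀ δ ∈ c.support, Finsupp.single a n + δ ≼[lex] β := by
        intro δ hδ
        rw [mem_support_iff, hc, coeff_divMonomial] at hδ
        exact lex.le_degree (mem_support_iff.2 hδ)
      have hβe : Finsupp.single a n + β.erase a = β := Finsupp.single_add_erase a β
      have hc1 : β.erase a ∈ c.support := by
        rw [mem_support_iff, hc, coeff_divMonomial, hβe]
        exact coeff_degree_ne_zero_iff.2 hp0
      have hc0 : c ≠ 0 := by
        intro h; rw [h] at hc1; simp at hc1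
      have hcd : lex.degree c = β.erase a := by
        refine lex.toSyn.injective (le_antisymm ?_ (lex.le_degree hc1))
        have h1 := hcs _ (degree_mem_support (m := lex) hc0)
        conv_rhs at h1 => rw [← hβe]
        rw [map_add, map_add] at h1
        exact le_of_add_le_add_left h1
      by_cases hcx : aeval x c = 0
      · have hlt : lex.toSyn (lex.degree c) < lex.toSyn β := by
          rw [hcd]
          apply lex.toSyn_strictMono
          refine lt_of_le_of_ne ?_ ?_
          · conv_rhs => rw [← hβe]
            exact le_add_self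
          · intro h
            have := DFunLike.congr_fun h a
            rw [Finsupp.erase_same] at this
            exact haβ this.symm
        obtain ⟨b, hb⟩ := ih _ hlt c rfl hcx hc0
        refine ⟨b, hb.trans ?_⟩
        rw [hcd]
        conv_rhs => rw [← hβe]
        simp
      · have hcS : c ∈ supported k (Set.Ioi a) := by
          rw [mem_supported]
          intro b hb
          obtain ⟨δ, hδ, hbδ⟩ := (mem_vars_iff_mem_support b).1 hb
          obtain ⟨h1, h2⟩ := Gonfl_lexA (hcs δ hδ) hβa
          rw [Finsupp.mem_support_iff] at hbδ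
          rcases lt_trichotomy a b with h3 | h3 | h3
          · exact h3
          · subst h3
            simp only [Finsupp.add_apply, Finsupp.single_eq_same] at h2
            omega
          · have := h1 b h3
            simp only [Finsupp.add_apply] at this
            omega
        have hinv := ((supported k (Set.Ioi a)).map (aeval x)).inv_mem_of_algebraic
          (x := ⟨aeval x c, c, hcS, rfl⟩) (Algebra.IsAlgebraic.isAlgebraic _)
        obtain ⟨c', hc'S, hc'⟩ := hinv
        have hc'' : aeval x c' = (aeval x c)⁻¹ := hc'
        obtain ⟨h1, h2⟩ := hmk a n (c' * r) (Nat.pos_of_ne_zero haβ) (by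
          intro γ hγ
          obtain ⟨δ, hδ, ε, hε, rfl⟩ := Finset.mem_add.1 (support_mul _ _ hγ)
          have hδ' : ∀ b, b ≤ a → δ b = 0 := by
            intro b hb
            by_contra h
            have : b ∈ Set.Ioi a := (mem_supported.1 hc'S)
              ((mem_vars_iff_mem_support b).2 ⟨δ, hδ, Finsupp.mem_support_iff.2 h⟩)
            exact absurd this (not_lt.2 hb)
          rw [mem_support_iff] at hε
          have hε1 : ¬ Finsupp.single a n ≤ ε := fun h => hε (coeff_modMonomial_of_le _ h)
          rw [hr, coeff_modMonomial_of_not_le _ hε1] at hε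
          obtain ⟨h3, -⟩ := Gonfl_lexA (lex.le_degree (mem_support_iff.2 hε)) hβa
          rw [Finsupp.single_le_iff, not_le] at hε1
          refine ⟨fun b hb => ?_, ?_⟩
          · rw [Finsupp.add_apply, hδ' b hb.le, h3 b hb]
          · rw [Finsupp.add_apply, hδ' a le_rfl, zero_add]; exact hε1)
        refine ⟨a, Nat.find_min' (hex a) ⟨_, ?_, h1, h2⟩⟩
        rw [hpcr] at hp
        simp only [map_add, map_mul, map_pow, aeval_X] at hp ⊢
        rw [hc'']
        field_simp
        linear_combination hp
  have hle : ∀ p ∈ sp g, aeval x p = 0 := by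
    intro p hp
    have : sp g ≤ RingHom.ker (aeval x : MvPolynomial σ k →ₐ[k] K) := by
      rw [Ideal.span_le]
      rintro _ ⟨a, rfl⟩
      exact hg0 a
    exact this hp
  refine ⟨g, D, hDpos, hgm, hgd, fun p => ⟨hle p, fun hp => ?_⟩⟩
  obtain ⟨r, h1, h2⟩ := Gonfl_exists_reduced lex g D hgm hgd p
  have hr : r = 0 := by
    by_contra hr0
    have h3 := hle _ h1
    rw [map_sub, hp, zero_sub, neg_eq_zero] at h3
    obtain ⟨a, ha⟩ := key _ r rfl h3 hr0
    have := h2 _ (degree_mem_support (m := lex) hr0) a
    omega
  rwa [hr, sub_zero] at h1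

end lex

/-- Lifting monic polynomials along a surjection. -/
theorem Gonfl_exists_lift {σ B k : Type} [CommRing B] [CommRing k] [Nontrivial k]
    (m : MonomialOrder σ) (φ : B →+* k) (hφ : Function.Surjective φ) (g : MvPolynomial σ k)
    (hg : m.Monic g) : ∃ f : MvPolynomial σ B, map φ f = g ∧ m.Monic f ∧
      m.degree f = m.degree g := by
  classical
  let s : k → B := fun y => if y = 1 then 1 else (hφ y).choose
  have hs : ∀ y, φ (s y) = y := by
    intro y
    by_cases h : y = 1
    · simp [s, h]
    · simp only [s, if_neg h]; exact (hφ y).choose_spec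
  set f : MvPolynomial σ B := ∑ γ ∈ g.support, monomial γ (s (coeff γ g)) with hf
  have hcoeff : ∀ γ, coeff γ f = if γ ∈ g.support then s (coeff γ g) else 0 := by
    intro γ
    rw [hf, coeff_sum]
    simp only [coeff_monomial]
    rw [Finset.sum_ite_eq']
  have hmap : map φ f = g := by
    ext γ
    rw [coeff_map, hcoeff]
    split_ifs with h
    · exact hs _
    · rw [map_zero, notMem_support_iff.1 h]
  have hsupp : f.support = g.support := by
    apply Finset.Subset.antisymm
    · intro γ hγ
      rw [mem_support_iff, hcoeff] at hγ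
      by_contra h
      exact hγ (if_neg h)
    · conv_lhs => rw [← hmap]
      exact support_map_subset _ _
  have hd : m.degree f = m.degree g :=
    m.toSyn.injective (le_antisymm
      (m.degree_le_iff.2 fun γ hγ => m.le_degree (hsupp ▸ hγ))
      (m.degree_le_iff.2 fun γ hγ => m.le_degree (hsupp ▸ hγ)))
  refine ⟨f, hmap, ?_, hd⟩
  show coeff (m.degree f) f = 1
  rw [hd, hcoeff, if_pos (degree_mem_support hg.ne_zero), hg.coeff_degree]
  simp [s]

end Crest.Agent.R183
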