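import Crest.Agent.R183.Defs
import Crest.Agent.R183.GonflAux2

/-!
# Unitriangular bases and residue field extensions ("gonflement")
-/

set_option autoImplicit false

open IsLocalRing MvPolynomial
open scoped MonomialOrder

namespace Crest.Agent.R183

/-- If `f a` is monic with leading monomial `X_a ^ D a`, the reduced monomials form a basis of the
quotient by the `f a`. -/
theorem exists_basis_quot {σ B : Type} [CommRing B] (m : MonomialOrder σ)
    (f : σ → MvPolynomial σ B) (D : σ → ℕ) (hD : ∀ a, 0 < D a) (hm : ∀ a, m.Monic (f a))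
    (hdeg : ∀ a, m.degree (f a) = Finsupp.single a (D a)) :
    ∃ b : Module.Basis {β : σ →₀ ℕ // ∀ a, β a < D a} B (MvPolynomial σ B ⧸ sp f),
      ∀ β, b β = Ideal.Quotient.mk (sp f) (monomial β.1 1) :=
  Gonfl_exists_basis m f D hD hm hdeg

/-- Bounded exponents. -/
noncomputable def Gonfl_equiv (τ : Type) [Fintype τ] (D : ℕ) :
    {β : τ →₀ ℕ // ∀ a, β a < D} ≃ (τ → Fin D) where
  toFun β := fun a => ⟨β.1 a, β.2 a⟩
  invFun β := ⟨Finsupp.equivFunOnFinite.symm (fun a => (β a : ℕ)), fun a => by simp⟩
  left_inv β := by ext a; simp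
  right_inv β := by ext a; simp

/-- The case of `X_j ^ D +` terms of lower total degree. -/
theorem exists_basis_quot_totalDegree {τ B : Type} [Fintype τ] [CommRing B] (D : ℕ) (hD : 0 < D)
    (H : τ → MvPolynomial τ B) (hH : ∀ j, (H j - X j ^ D).totalDegree < D) :
    ∃ b : Module.Basis (τ → Fin D) B (MvPolynomial τ B ⧸ sp H),
      ∀ β, b β = Ideal.Quotient.mk (sp H) (∏ j, X j ^ (β j : ℕ)) := by
  classical
  rcases subsingleton_or_nontrivial B with hB | hB
  · have : Subsingleton (MvPolynomial τ B ⧸ sp H) := Module.subsingleton B _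
    exact ⟨Module.Basis.mk (v := fun _ => 0) (linearIndependent_of_subsingleton)
      (fun x _ => by rw [Subsingleton.elim x 0]; exact Submodule.zero_mem _),
      fun β => Subsingleton.elim _ _⟩
  obtain ⟨_, _⟩ := exists_wellFoundedGT τ
  have key : ∀ j, MonomialOrder.degLex.Monic (H j) ∧
      MonomialOrder.degLex.degree (H j) = Finsupp.single j D := by
    intro j
    have h0 : H j = X j ^ D + (H j - X j ^ D) := by ring
    have h1 : MonomialOrder.degLex.degree (X j ^ D : MvPolynomial τ B) = Finsupp.single j D := by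
      rw [X_pow_eq_monomial, MonomialOrder.degree_monomial, if_neg one_ne_zero]
    have h2 : MonomialOrder.degLex.degree (H j - X j ^ D) ≺[MonomialOrder.degLex]
        MonomialOrder.degLex.degree (X j ^ D : MvPolynomial τ B) := by
      rw [h1, MonomialOrder.degLex_lt_iff, Finsupp.DegLex.lt_iff]
      left
      rw [ofDegLex_toDegLex, ofDegLex_toDegLex, degree_degLexDegree,
        Finsupp.degree_single]
      exact hH j
    rw [h0]
    exact ⟨MonomialOrder.Monic.add_of_lt (MonomialOrder.Monic.pow MonomialOrder.monic_X) h2,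
      by rw [MonomialOrder.degree_add_of_lt h2, h1]⟩
  obtain ⟨b, hb⟩ := exists_basis_quot MonomialOrder.degLex H (fun _ => D) (fun _ => hD)
    (fun j => (key j).1) (fun j => (key j).2)
  refine ⟨b.reindex (Gonfl_equiv τ D), fun β => ?_⟩
  rw [Module.Basis.reindex_apply, hb, monomial_eq, C_1, one_mul,
    Finsupp.prod_fintype _ _ (by simp)]
  rfl

/-- Every local ring has a free local extension with the same maximal ideal and algebraically
closed residue field, algebraic over the original one. -/
theorem exists_gonflement (B : Type) [CommRing B] [IsLocalRing B] :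
    ∃ (B' : Type) (_ : CommRing B') (_ : IsLocalRing B') (_ : Algebra B B')
      (_ : IsLocalHom (algebraMap B B')), Module.Free B B' ∧
      (maximalIdeal B).map (algebraMap B B') = maximalIdeal B' ∧ IsAlgClosed (ResidueField B') ∧
      Algebra.IsAlgebraic (ResidueField B) (ResidueField B') := by
  classical
  let k := ResidueField B
  let K := AlgebraicClosure k
  obtain ⟨_, _⟩ := exists_wellFoundedGT K
  obtain ⟨g, D, hD, hgm, hgd, hg⟩ := Gonfl_exists_system (k := k) (fun a : K => a)
  choose f hf hfm hfd using fun a =>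
    Gonfl_exists_lift MonomialOrder.lex (residue B) residue_surjective (g a) (hgm a)
  have hfd' : ∀ a, MonomialOrder.lex.degree (f a) = Finsupp.single a (D a) :=
    fun a => (hfd a).trans (hgd a)
  let B' := MvPolynomial K B ⧸ sp f
  have hint : Algebra.IsIntegral B B' := Gonfl_isIntegral f D hD hfm hfd'
  obtain ⟨b, -⟩ := exists_basis_quot MonomialOrder.lex f D hD hfm hfd'
  let ψ : MvPolynomial K B →+* K :=
    (aeval (fun a : K => a) : MvPolynomial K k →ₐ[k] K).toRingHom.comp (map (residue B))
  have hψ : ∀ p, ψ p = aeval (fun a : K => a) (map (residue B) p) := fun _ => rfl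
  have hspg : sp g = (sp f).map (map (residue B)) := by
    rw [Ideal.map_span, ← Set.range_comp]
    congr 2
    funext a
    exact (hf a).symm
  have hker : ∀ p ∈ sp f, ψ p = 0 := by
    intro p hp
    rw [hψ, ← hg, hspg]
    exact Ideal.mem_map_of_mem _ hp
  let π : B' →+* K := Ideal.Quotient.lift (sp f) ψ hker
  have hπ : ∀ p, π (Ideal.Quotient.mk (sp f) p) = ψ p := fun _ => rfl
  have hsurj : Function.Surjective π := fun a =>
    ⟨Ideal.Quotient.mk (sp f) (X a), by rw [hπ, hψ]; simp⟩
  have hπC : ∀ c : B, π (algebraMap B B' c) = algebraMap k K (residue B c) := by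
    intro c
    have : algebraMap B B' c = Ideal.Quotient.mk (sp f) (C c) := rfl
    rw [this, hπ, hψ, map_C, algHom_C]
  have hkerπ : RingHom.ker π = (maximalIdeal B).map (algebraMap B B') := by
    apply le_antisymm
    · intro y hy
      obtain ⟨p, rfl⟩ := Ideal.Quotient.mk_surjective y
      rw [RingHom.mem_ker, hπ, hψ, ← hg, hspg, ← Ideal.mem_comap,
        Ideal.comap_map_of_surjective _ (map_surjective _ residue_surjective),
        ← RingHom.ker_eq_comap_bot, MvPolynomial.ker_map, ker_residue] at hy
      obtain ⟨u, hu, v, hv, rfl⟩ := Submodule.mem_sup.1 hy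
      rw [map_add, Ideal.Quotient.eq_zero_iff_mem.2 hu, zero_add]
      have h1 := Ideal.mem_map_of_mem (Ideal.Quotient.mk (sp f)) hv
      rw [Ideal.map_map] at h1
      exact h1
    · rw [Ideal.map_le_iff_le_comap]
      intro c hc
      rw [Ideal.mem_comap, RingHom.mem_ker, hπC, (residue_eq_zero_iff c).2 hc, map_zero]
  have hmax : (RingHom.ker π).IsMaximal := RingHom.ker_isMaximal_of_surjective π hsurj
  have hloc : IsLocalRing B' := by
    refine IsLocalRing.of_unique_max_ideal ⟨RingHom.ker π, hmax, fun I hI => ?_⟩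
    have h1 : (I.comap (algebraMap B B')).IsMaximal :=
      Ideal.isMaximal_comap_of_isIntegral_of_isMaximal I
    refine (hmax.eq_of_le hI.ne_top ?_).symm
    rw [hkerπ, Ideal.map_le_iff_le_comap, IsLocalRing.eq_maximalIdeal h1]
  have hlh : IsLocalHom (algebraMap B B') := by
    constructor
    intro c hc
    have h1 := hc.map π
    rw [hπC] at h1
    rw [← residue_ne_zero_iff_isUnit]
    intro h0
    rw [h0, map_zero] at h1
    exact not_isUnit_zero h1
  have hmm : RingHom.ker π = maximalIdeal B' := IsLocalRing.eq_maximalIdeal hmax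
  refine ⟨B', inferInstance, hloc, inferInstance, hlh, Module.Free.of_basis b,
    hkerπ.symm.trans hmm, ?_, ?_⟩
  · have e : ResidueField B' ≃+* K :=
      (Ideal.quotEquivOfEq hmm.symm).trans (RingHom.quotientKerEquivOfSurjective hsurj)
    exact IsAlgClosed.of_ringEquiv K _ e.symm
  · constructor
    intro y
    obtain ⟨z, rfl⟩ := residue_surjective y
    have h1 : IsIntegral B (residue B' z) :=
      (Algebra.IsIntegral.isIntegral (R := B) z).map (IsScalarTower.toAlgHom B B' (ResidueField B'))
    exact (h1.tower_top (A := ResidueField B)).isAlgebraic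

end Crest.Agent.R183
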