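import Crest.Agent.R183.Defs

/-!
# Unitriangular families of polynomials
-/

set_option autoImplicit false

open IsLocalRing MvPolynomial
open scoped MonomialOrder

namespace Crest.Agent.R183

section tri

variable {σ B : Type} [CommRing B] (m : MonomialOrder σ)

theorem Gonfl_span_top (Θ : (σ →₀ ℕ) → MvPolynomial σ B) (hm : ∀ γ, m.Monic (Θ γ))
    (hd : ∀ γ, m.degree (Θ γ) = γ) (p : MvPolynomial σ B) :
    p ∈ Submodule.span B (Set.range Θ) := by
  induction h : m.toSyn (m.degree p) using WellFoundedLT.induction generalizing p with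
  | ind s ih =>
    subst h
    set q := p - m.leadingCoeff p • Θ (m.degree p) with hq
    have hp : p = q + m.leadingCoeff p • Θ (m.degree p) := by rw [hq]; ring
    have hmem : m.leadingCoeff p • Θ (m.degree p) ∈ Submodule.span B (Set.range Θ) :=
      Submodule.smul_mem _ _ (Submodule.subset_span ⟨_, rfl⟩)
    by_cases hq0 : q = 0
    · rw [hp, hq0, zero_add]; exact hmem
    have hle : m.degree q ≼[m] m.degree p := by
      refine le_trans m.degree_sub_le ?_
      refine sup_le le_rfl ?_
      refine le_trans m.degree_smul_le ?_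
      rw [hd]
    have hc : coeff (m.degree p) q = 0 := by
      have h1 := (hm (m.degree p)).coeff_degree
      rw [hd] at h1
      rw [hq, coeff_sub, coeff_smul, h1, smul_eq_mul, mul_one]
      exact sub_self _
    have hne : m.toSyn (m.degree q) ≠ m.toSyn (m.degree p) := by
      intro h
      have h' := m.toSyn.injective h
      rw [← h', m.coeff_degree_eq_zero_iff] at hc
      exact hq0 hc
    rw [hp]
    exact Submodule.add_mem _ (ih _ (lt_of_le_of_ne hle hne) q rfl) hmem

theorem Gonfl_degree_mem (Θ : (σ →₀ ℕ) → MvPolynomial σ B) (hm : ∀ γ, m.Monic (Θ γ))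
    (hd : ∀ γ, m.degree (Θ γ) = γ) (S : Set (σ →₀ ℕ)) {q : MvPolynomial σ B}
    (hq : q ∈ Submodule.span B (Θ '' S)) (hq0 : q ≠ 0) : m.degree q ∈ S := by
  classical
  obtain ⟨c, hcS, rfl⟩ := (Finsupp.mem_span_image_iff_linearCombination B).1 hq
  have hc0 : c.support.Nonempty := by
    rw [Finsupp.support_nonempty_iff]
    rintro rfl
    exact hq0 (map_zero _)
  obtain ⟨γ₀, hγ₀, hmax⟩ := c.support.exists_max_image (fun γ => m.toSyn γ) hc0
  have hcoeff : coeff γ₀ (Finsupp.linearCombination B Θ c) = c γ₀ := by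
    rw [Finsupp.linearCombination_apply, Finsupp.sum, coeff_sum, Finset.sum_eq_single γ₀]
    · have h1 := (hm γ₀).coeff_degree
      rw [hd] at h1
      rw [coeff_smul, h1, smul_eq_mul, mul_one]
    · intro γ hγ hne
      have hlt : m.degree (Θ γ) ≺[m] γ₀ := by
        rw [hd]
        exact lt_of_le_of_ne (hmax γ hγ) (fun h => hne (m.toSyn.injective h))
      rw [coeff_smul, m.coeff_eq_zero_of_lt hlt, smul_zero]
    · intro h; exact absurd hγ₀ h
  have hle : m.degree (Finsupp.linearCombination B Θ c) ≼[m] γ₀ := by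
    rw [Finsupp.linearCombination_apply, Finsupp.sum]
    refine le_trans m.degree_sum_le ?_
    refine Finset.sup_le fun γ hγ => ?_
    refine le_trans m.degree_smul_le ?_
    rw [hd]
    exact hmax γ hγ
  have hge : γ₀ ≼[m] m.degree (Finsupp.linearCombination B Θ c) := by
    apply m.le_degree
    rw [mem_support_iff, hcoeff]
    exact Finsupp.mem_support_iff.1 hγ₀
  have : m.degree (Finsupp.linearCombination B Θ c) = γ₀ := m.toSyn.injective (le_antisymm hle hge)
  rw [this]
  exact hcS hγ₀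

/-- Coordinatewise quotient. -/
noncomputable def Gonfl_q (D : σ → ℕ) (γ : σ →₀ ℕ) : σ →₀ ℕ :=
  Finsupp.onFinset γ.support (fun a => γ a / D a) (fun a h => by
    rw [Finsupp.mem_support_iff]; intro h0; apply h; simp [h0])

/-- Coordinatewise remainder. -/
noncomputable def Gonfl_r (D : σ → ℕ) (γ : σ →₀ ℕ) : σ →₀ ℕ :=
  Finsupp.onFinset γ.support (fun a => γ a % D a) (fun a h => by
    rw [Finsupp.mem_support_iff]; intro h0; apply h; simp [h0])

/-- The unitriangular family attached to `f`. -/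
noncomputable def Gonfl_Θ (f : σ → MvPolynomial σ B) (D : σ → ℕ) (γ : σ →₀ ℕ) :
    MvPolynomial σ B :=
  monomial (Gonfl_r D γ) 1 * (Gonfl_q D γ).prod (fun a n => f a ^ n)

theorem Gonfl_Θ_monic (f : σ → MvPolynomial σ B) (D : σ → ℕ) (hm : ∀ a, m.Monic (f a))
    (γ : σ →₀ ℕ) : m.Monic (Gonfl_Θ f D γ) :=
  MonomialOrder.Monic.mul m.monic_monomial_one
    (MonomialOrder.Monic.prod fun a _ => (hm a).pow)

theorem Gonfl_Θ_degree [Nontrivial B] (f : σ → MvPolynomial σ B) (D : σ → ℕ)
    (hm : ∀ a, m.Monic (f a)) (hdeg : ∀ a, m.degree (f a) = Finsupp.single a (D a))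
    (γ : σ →₀ ℕ) : m.degree (Gonfl_Θ f D γ) = γ := by
  classical
  unfold Gonfl_Θ
  rw [Finsupp.prod, m.degree_mul_of_isRegular_left (by rw [m.leadingCoeff_monomial]; exact isRegular_one)
    (MonomialOrder.Monic.ne_zero (m := m) (MonomialOrder.Monic.prod fun a _ => (hm a).pow)),
    m.degree_monomial, if_neg one_ne_zero,
    m.degree_prod_of_regular (fun a _ => by
      rw [((hm a).pow).leadingCoeff_eq_one]; exact isRegular_one)]
  have h1 : ∀ a n, m.degree (f a ^ n) = Finsupp.single a (n * D a) := by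
    intro a n
    rw [m.degree_pow_of_pow_leadingCoeff_ne_zero (by rw [(hm a).leadingCoeff_eq_one]; simp), hdeg,
      Finsupp.smul_single, smul_eq_mul]
  simp only [h1]
  ext b
  rw [Finsupp.add_apply, Finsupp.finsetSum_apply, Finset.sum_eq_single b]
  · simp only [Gonfl_q, Gonfl_r, Finsupp.onFinset_apply, Finsupp.single_eq_same]
    rw [mul_comm]; exact Nat.mod_add_div _ _
  · intro a _ hab
    exact Finsupp.single_eq_of_ne hab.symm
  · intro hb
    rw [Finsupp.notMem_support_iff.1 hb]; simp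

theorem Gonfl_Θ_mul (f : σ → MvPolynomial σ B) (D : σ → ℕ) (hD : ∀ a, 0 < D a) (a : σ)
    (γ : σ →₀ ℕ) : Gonfl_Θ f D γ * f a = Gonfl_Θ f D (γ + Finsupp.single a (D a)) := by
  classical
  have h1 : Gonfl_r D (γ + Finsupp.single a (D a)) = Gonfl_r D γ := by
    ext b
    simp only [Gonfl_r, Finsupp.onFinset_apply, Finsupp.add_apply, Finsupp.single_apply]
    split_ifs with h
    · subst h; simp
    · simp
  have h2 : Gonfl_q D (γ + Finsupp.single a (D a)) = Gonfl_q D γ + Finsupp.single a 1 := by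
    ext b
    simp only [Gonfl_q, Finsupp.onFinset_apply, Finsupp.add_apply, Finsupp.single_apply]
    split_ifs with h
    · subst h; exact Nat.add_div_right _ (hD _)
    · simp
  unfold Gonfl_Θ
  rw [h1, h2, Finsupp.prod_add_index' (by simp) (fun _ _ _ => pow_add _ _ _),
    Finsupp.prod_single_index (by simp), pow_one, mul_assoc]

theorem Gonfl_degree_not_reduced (f : σ → MvPolynomial σ B) (D : σ → ℕ) (hD : ∀ a, 0 < D a)
    (hm : ∀ a, m.Monic (f a)) (hdeg : ∀ a, m.degree (f a) = Finsupp.single a (D a))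
    {q : MvPolynomial σ B} (hq : q ∈ sp f) (hq0 : q ≠ 0) : ∃ a, D a ≤ m.degree q a := by
  have : Nontrivial B := by
    by_contra h
    rw [not_nontrivial_iff_subsingleton] at h
    exact hq0 (Subsingleton.elim _ _)
  have hM := Gonfl_Θ_monic m f D hm
  have hDg := Gonfl_Θ_degree m f D hm hdeg
  refine Gonfl_degree_mem m (Gonfl_Θ f D) hM hDg {γ | ∃ a, D a ≤ γ a} ?_ hq0
  obtain ⟨c, rfl⟩ := (Finsupp.mem_ideal_span_range_iff_exists_finsupp).1 hq
  refine Submodule.sum_mem _ fun a _ => ?_
  have hc := Gonfl_span_top m _ hM hDg (c a)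
  show c a * f a ∈ _
  generalize c a = p at hc
  induction hc using Submodule.span_induction with
  | mem x hx =>
    obtain ⟨γ, rfl⟩ := hx
    rw [Gonfl_Θ_mul f D hD]
    exact Submodule.subset_span ⟨_, ⟨a, by simp⟩, rfl⟩
  | zero => simp
  | add x y _ _ hx hy => rw [add_mul]; exact Submodule.add_mem _ hx hy
  | smul b x _ hx => rw [smul_mul_assoc]; exact Submodule.smul_mem _ _ hx

theorem Gonfl_exists_reduced (f : σ → MvPolynomial σ B) (D : σ → ℕ)
    (hm : ∀ a, m.Monic (f a)) (hdeg : ∀ a, m.degree (f a) = Finsupp.single a (D a))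
    (p : MvPolynomial σ B) : ∃ r : MvPolynomial σ B, p - r ∈ sp f ∧
      ∀ γ ∈ r.support, ∀ a, γ a < D a := by
  obtain ⟨g, r, h1, -, h3⟩ := m.div (b := f)
    (fun a => by rw [(hm a).leadingCoeff_eq_one]; exact isUnit_one) p
  refine ⟨r, ?_, fun γ hγ a => ?_⟩
  · rw [h1, add_sub_cancel_right, Finsupp.linearCombination_apply, Finsupp.sum]
    exact Submodule.sum_mem _ fun a _ =>
      Submodule.smul_mem _ _ (Submodule.subset_span ⟨a, rfl⟩)
  · have := h3 γ hγ a
    rw [hdeg, Finsupp.single_le_iff] at this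
    omega

theorem Gonfl_exists_basis (f : σ → MvPolynomial σ B) (D : σ → ℕ) (hD : ∀ a, 0 < D a)
    (hm : ∀ a, m.Monic (f a)) (hdeg : ∀ a, m.degree (f a) = Finsupp.single a (D a)) :
    ∃ b : Module.Basis {β : σ →₀ ℕ // ∀ a, β a < D a} B (MvPolynomial σ B ⧸ sp f),
      ∀ β, b β = Ideal.Quotient.mk (sp f) (monomial β.1 1) := by
  set π : MvPolynomial σ B →ₗ[B] MvPolynomial σ B ⧸ sp f :=
    (Ideal.Quotient.mkₐ B (sp f)).toLinearMap with hπ
  set v : {β : σ →₀ ℕ // ∀ a, β a < D a} → MvPolynomial σ B := fun β => monomial β.1 1 with hv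
  have hspan : Submodule.span B (Set.range v) = restrictSupport B {β | ∀ a, β a < D a} := by
    rw [restrictSupport_eq_span]
    congr 1
    ext p
    simp [hv]
  have hli : LinearIndependent B v := by
    have := (basisMonomials σ B).linearIndependent.comp
      (Subtype.val : {β : σ →₀ ℕ // ∀ a, β a < D a} → _) Subtype.val_injective
    rw [coe_basisMonomials] at this
    exact this
  have hli' : LinearIndependent B (π ∘ v) := by
    refine hli.map ?_
    rw [hspan, Submodule.disjoint_def]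
    intro r hr hr'
    by_contra hr0
    have hrI : r ∈ sp f := Ideal.Quotient.eq_zero_iff_mem.1 hr'
    obtain ⟨a, ha⟩ := Gonfl_degree_not_reduced m f D hD hm hdeg hrI hr0
    have : m.degree r a < D a := (mem_restrictSupport_iff B).1 hr (m.degree_mem_support hr0) a
    omega
  have hsp : ⊤ ≤ Submodule.span B (Set.range (π ∘ v)) := by
    rintro x -
    obtain ⟨p, rfl⟩ := Ideal.Quotient.mk_surjective x
    obtain ⟨r, h1, h2⟩ := Gonfl_exists_reduced m f D hm hdeg p
    rw [Set.range_comp, ← Submodule.map_span, hspan]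
    exact ⟨r, h2, (Ideal.Quotient.eq.2 h1).symm⟩
  exact ⟨Module.Basis.mk hli' hsp, fun β => by rw [Module.Basis.mk_apply]; rfl⟩

end tri

end Crest.Agent.R183
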