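import Crest.Agent.R183.Defs

/-!
# Koszul operators, almost acyclicity (AA) and regularity transfer (RT, module form)
-/

set_option autoImplicit false

open scoped ENNReal NNReal TensorProduct

namespace Crest.Agent.R183

section ops

variable {B : Type} [CommRing B] {ι : Type} [Fintype ι] [LinearOrder ι]
  {M N : Type} [AddCommGroup M] [Module B M] [AddCommGroup N] [Module B N]

theorem kd_apply (y : ι → B) (x : Finset ι → M) (S : Finset ι) :
    kd y M x S = ∑ i ∈ Sᶜ, ksgn i S • y i • x (insert i S) := rfl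

theorem kh_apply (i : ι) (x : Finset ι → M) (S : Finset ι) :
    kh B M i x S = if i ∈ S then ksgn i S • x (S.erase i) else 0 := rfl

theorem kπ_apply (k : ℕ) (x : Finset ι → M) (S : Finset ι) :
    kπ B M k x S = if S.card = k then x S else 0 := rfl

namespace KoszulAux

/-- The sign of a pair of indices. -/
def eps (j i : ι) : ℤ := if j < i then -1 else 1

omit [Fintype ι] in
theorem eps_self (i : ι) : eps i i = 1 := if_neg (lt_irrefl i)

omit [Fintype ι] in
theorem eps_swap {i j : ι} (h : i ≠ j) : eps i j = -eps j i := by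
  unfold eps
  rcases lt_or_gt_of_ne h with h | h
  · rw [if_pos h, if_neg h.not_gt]
  · rw [if_neg h.not_gt, if_pos h, neg_neg]

omit [Fintype ι] in
theorem eps_mul_self (j i : ι) : eps j i * eps j i = 1 := by
  unfold eps
  split_ifs <;> norm_num

omit [Fintype ι] in
theorem ksgn_empty (i : ι) : ksgn i ∅ = 1 := rfl

omit [Fintype ι] in
theorem ksgn_mul_self (i : ι) (S : Finset ι) : ksgn i S * ksgn i S = 1 := by
  show (-1 : ℤ) ^ _ * (-1) ^ _ = 1
  rw [← mul_pow]
  norm_num

omit [Fintype ι] in
theorem ksgn_insert (i : ι) {j : ι} {S : Finset ι} (h : j ∉ S) :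
    ksgn i (insert j S) = ksgn i S * eps j i := by
  show (-1 : ℤ) ^ _ = (-1) ^ _ * _
  unfold eps
  rw [Finset.filter_insert]
  split_ifs with hji
  · rw [Finset.card_insert_of_notMem (fun h' => h (Finset.mem_filter.1 h').1), pow_succ]
  · rw [mul_one]

omit [Fintype ι] in
theorem ksgn_erase (i : ι) {j : ι} {S : Finset ι} (h : j ∈ S) :
    ksgn i (S.erase j) = ksgn i S * eps j i := by
  conv_rhs => rw [← Finset.insert_erase h, ksgn_insert i (Finset.notMem_erase j S)]
  rw [mul_assoc, eps_mul_self, mul_one]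

variable (B M) in
/-- The annihilation operator. -/
def ka (i : ι) : (Finset ι → M) →ₗ[B] (Finset ι → M) where
  toFun x := fun S => if i ∈ S then 0 else ksgn i S • x (insert i S)
  map_add' x x' := by
    funext S
    by_cases h : i ∈ S <;> simp [h, smul_add]
  map_smul' c x := by
    funext S
    by_cases h : i ∈ S
    · simp [h]
    · simp only [h, if_false, Pi.smul_apply, RingHom.id_apply]
      rw [smul_comm c (ksgn i S)]

theorem anchor : True := by
  have := @eps.eq_1; have := @eps.eq_def; have := @ka.eq_1; have := @ka.eq_def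
  trivial

omit [Fintype ι] in
theorem ka_apply (i : ι) (x : Finset ι → M) (S : Finset ι) :
    ka B M i x S = if i ∈ S then 0 else ksgn i S • x (insert i S) := rfl

theorem kd_eq_sum (y : ι → B) (x : Finset ι → M) : kd y M x = ∑ i, y i • ka B M i x := by
  funext S
  rw [kd_apply, Finset.sum_apply, ← Finset.sum_subset (Finset.subset_univ Sᶜ)]
  · refine Finset.sum_congr rfl fun i hi => ?_
    rw [Pi.smul_apply, ka_apply, if_neg (Finset.mem_compl.1 hi), smul_comm]
  · intro i _ hi
    rw [Pi.smul_apply, ka_apply, if_pos (by simpa using hi), smul_zero]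

theorem kd_kd_eq (y y' : ι → B) (x : Finset ι → M) :
    kd y M (kd y' M x) = ∑ i, ∑ j, (y i * y' j) • ka B M i (ka B M j x) := by
  rw [kd_eq_sum y]
  refine Finset.sum_congr rfl fun i _ => ?_
  rw [kd_eq_sum y', map_sum, Finset.smul_sum]
  refine Finset.sum_congr rfl fun j _ => ?_
  rw [map_smul, smul_smul]

omit [Fintype ι] in
theorem ka_ka (i : ι) (x : Finset ι → M) : ka B M i (ka B M i x) = 0 := by
  funext S
  simp [ka_apply]

omit [Fintype ι] in
theorem ka_ka_add (i j : ι) (x : Finset ι → M) :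
    ka B M i (ka B M j x) + ka B M j (ka B M i x) = 0 := by
  by_cases hij : i = j
  · subst hij
    rw [ka_ka, add_zero]
  funext S
  simp only [Pi.add_apply, ka_apply, Pi.zero_apply, Finset.mem_insert]
  by_cases hi : i ∈ S <;> by_cases hj : j ∈ S <;> simp only [hi, hj, hij, Ne.symm hij,
    if_true, if_false, smul_zero, add_zero, or_true, or_false]
  rw [ksgn_insert j hi, ksgn_insert i hj, Finset.insert_comm, smul_smul, smul_smul, ← add_smul,
    eps_swap hij]
  have : ksgn i S * (ksgn j S * -eps j i) + ksgn j S * (ksgn i S * eps j i) = 0 := by ring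
  rw [this, zero_smul]

omit [Fintype ι] in
theorem ka_kh_self (i : ι) (x : Finset ι → M) :
    ka B M i (kh B M i x) + kh B M i (ka B M i x) = x := by
  funext S
  have e₁ : ∀ (x : Finset ι → M) (S : Finset ι),
      kh B M i x S = if i ∈ S then ksgn i S • x (S.erase i) else 0 := fun _ _ => rfl
  simp only [Pi.add_apply, ka_apply, e₁]
  by_cases hi : i ∈ S
  · simp only [hi, if_true, Finset.notMem_erase, if_false, zero_add]
    rw [ksgn_erase i hi, eps_self, mul_one, smul_smul, ksgn_mul_self, one_smul,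
      Finset.insert_erase hi]
  · simp only [hi, if_false, Finset.mem_insert_self, if_true, add_zero]
    rw [ksgn_insert i hi, eps_self, mul_one, smul_smul, ksgn_mul_self, one_smul,
      Finset.erase_insert hi]

omit [Fintype ι] in
theorem ka_kh_ne {i j : ι} (hji : j ≠ i) (x : Finset ι → M) :
    ka B M j (kh B M i x) + kh B M i (ka B M j x) = 0 := by
  funext S
  have e₁ : ∀ (x : Finset ι → M) (S : Finset ι),
      kh B M i x S = if i ∈ S then ksgn i S • x (S.erase i) else 0 := fun _ _ => rfl
  simp only [Pi.add_apply, ka_apply, e₁, Pi.zero_apply, Finset.mem_insert, Finset.mem_erase]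
  by_cases hi : i ∈ S <;> by_cases hj : j ∈ S <;> simp only [hi, hj, hji, Ne.symm hji, ne_eq,
    not_false_eq_true, if_true, if_false, smul_zero, add_zero, or_true, or_false, and_true,
    and_false]
  rw [ksgn_insert i hj, ksgn_erase j hi, Finset.erase_insert_of_ne hji, smul_smul, smul_smul,
    ← add_smul, eps_swap hji]
  have : ksgn j S * (ksgn i S * -eps i j) + ksgn i S * (ksgn j S * eps i j) = 0 := by ring
  rw [this, zero_smul]

theorem kd_mem_smul (y : ι → B) {P : Submodule B M} {x : Finset ι → M} (hx : x ∈ KK ι P)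
    (S : Finset ι) : kd y M x S ∈ sp y • P := by
  rw [kd_apply]
  exact Submodule.sum_mem _ fun i _ => (sp y • P).toAddSubgroup.zsmul_mem
    (Submodule.smul_mem_smul (Ideal.subset_span ⟨i, rfl⟩) (hx _ trivial)) _

end KoszulAux

theorem kd_kd (y : ι → B) (x : Finset ι → M) : kd y M (kd y M x) = 0 := by
  rw [KoszulAux.kd_kd_eq, ← Finset.sum_product']
  refine Finset.sum_ninvolution Prod.swap (fun p => ?_) (fun p hp h => hp ?_)
    (fun p => by simp) Prod.swap_swap
  · rw [Prod.fst_swap, Prod.snd_swap, mul_comm (y p.2), ← smul_add, KoszulAux.ka_ka_add, smul_zero]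
  · have h' : p.2 = p.1 := congrArg Prod.fst h
    rw [h', KoszulAux.ka_ka, smul_zero]

/-- two Koszul differentials anticommute -/
theorem kd_kd_add (y y' : ι → B) (x : Finset ι → M) :
    kd y M (kd y' M x) + kd y' M (kd y M x) = 0 := by
  rw [KoszulAux.kd_kd_eq, KoszulAux.kd_kd_eq, Finset.sum_comm (s := Finset.univ) (t := Finset.univ)
    (f := fun i j => (y' i * y j) • KoszulAux.ka B M i (KoszulAux.ka B M j x)),
    ← Finset.sum_add_distrib]
  refine Finset.sum_eq_zero fun i _ => ?_
  rw [← Finset.sum_add_distrib]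
  refine Finset.sum_eq_zero fun j _ => ?_
  rw [mul_comm (y' j), ← smul_add, KoszulAux.ka_ka_add, smul_zero]

theorem kd_kh_add (y : ι → B) (i : ι) (x : Finset ι → M) :
    kd y M (kh B M i x) + kh B M i (kd y M x) = y i • x := by
  rw [KoszulAux.kd_eq_sum, KoszulAux.kd_eq_sum, map_sum, ← Finset.sum_add_distrib,
    Finset.sum_eq_single i]
  · rw [map_smul, ← smul_add, KoszulAux.ka_kh_self]
  · intro j _ hj
    rw [map_smul, ← smul_add, KoszulAux.ka_kh_ne hj, smul_zero]
  · simp

theorem kh_kh_add (i j : ι) (x : Finset ι → M) :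
    kh B M i (kh B M j x) + kh B M j (kh B M i x) = 0 := by
  funext S
  simp only [Pi.add_apply, kh_apply, Pi.zero_apply, Finset.mem_erase]
  by_cases hij : i = j
  · subst hij; simp
  by_cases hi : i ∈ S <;> by_cases hj : j ∈ S <;> simp only [hi, hj, hij, Ne.symm hij, ne_eq,
    not_false_eq_true, true_and, if_true, if_false, smul_zero, add_zero, and_false]
  rw [KoszulAux.ksgn_erase j hi, KoszulAux.ksgn_erase i hj, Finset.erase_right_comm, smul_smul,
    smul_smul, ← add_smul, KoszulAux.eps_swap hij]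
  have : ksgn i S * (ksgn j S * -KoszulAux.eps j i) + ksgn j S * (ksgn i S * KoszulAux.eps j i) =
      0 := by ring
  rw [this, zero_smul]

theorem kh_kh (i : ι) (x : Finset ι → M) : kh B M i (kh B M i x) = 0 := by
  funext S
  simp [kh_apply]

theorem kπ_kd (y : ι → B) (k : ℕ) (x : Finset ι → M) :
    kπ B M k (kd y M x) = kd y M (kπ B M (k + 1) x) := by
  funext S
  simp only [kπ_apply, kd_apply]
  split_ifs with h
  · refine Finset.sum_congr rfl fun i hi => ?_
    rw [if_pos (by rw [Finset.card_insert_of_notMem (Finset.mem_compl.1 hi), h])]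
  · refine (Finset.sum_eq_zero fun i hi => ?_).symm
    rw [if_neg (by rw [Finset.card_insert_of_notMem (Finset.mem_compl.1 hi)]; omega), smul_zero,
      smul_zero]

theorem kd_kπ_zero (y : ι → B) (x : Finset ι → M) : kd y M (kπ B M 0 x) = 0 := by
  funext S
  simp only [kπ_apply, kd_apply]
  refine Finset.sum_eq_zero fun i hi => ?_
  rw [if_neg (by rw [Finset.card_insert_of_notMem (Finset.mem_compl.1 hi)]; omega), smul_zero,
    smul_zero]

theorem kπ_kh (i : ι) (k : ℕ) (x : Finset ι → M) :
    kπ B M (k + 1) (kh B M i x) = kh B M i (kπ B M k x) := by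
  funext S
  simp only [kπ_apply, kh_apply]
  by_cases hi : i ∈ S
  · have h := Finset.card_erase_add_one hi
    simp only [hi, if_true]
    by_cases hk : S.card = k + 1
    · rw [if_pos hk, if_pos (by omega)]
    · rw [if_neg hk, if_neg (by omega), smul_zero]
  · simp [hi]

theorem kπ_zero_kh (i : ι) (x : Finset ι → M) : kπ B M 0 (kh B M i x) = 0 := by
  funext S
  simp only [kπ_apply, kh_apply]
  split_ifs with h hi
  · rw [Finset.card_eq_zero] at h
    subst h
    simp at hi
  · rfl
  · rfl

theorem kπ_kπ (k : ℕ) (x : Finset ι → M) : kπ B M k (kπ B M k x) = kπ B M k x := by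
  funext S
  simp only [kπ_apply]
  split_ifs <;> rfl

theorem kπ_eq_zero_of_lt {k : ℕ} (hk : Fintype.card ι < k) (x : Finset ι → M) :
    kπ B M k x = 0 := by
  funext S
  have := Finset.card_le_univ S
  rw [kπ_apply, if_neg (by omega)]
  rfl

theorem sum_kπ (x : Finset ι → M) :
    ∑ k ∈ Finset.range (Fintype.card ι + 1), kπ B M k x = x := by
  funext S
  have := Finset.card_le_univ S
  rw [Finset.sum_apply]
  simp only [kπ_apply]
  rw [Finset.sum_ite_eq, if_pos (Finset.mem_range.2 (by omega))]

/-- naturality of `kd` for additive maps intertwining two sequences -/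
theorem kd_comp {B' : Type} [CommRing B'] {M' : Type} [AddCommGroup M'] [Module B' M']
    (y : ι → B) (y' : ι → B') (f : M →+ M') (hf : ∀ i v, f (y i • v) = y' i • f v)
    (x : Finset ι → M) : kd y' M' (fun S => f (x S)) = fun S => f (kd y M x S) := by
  funext S
  simp only [kd_apply, map_sum, map_zsmul, hf]

theorem kh_comp {B' : Type} [CommRing B'] {M' : Type} [AddCommGroup M'] [Module B' M']
    (i : ι) (f : M →+ M') (x : Finset ι → M) :
    kh B' M' i (fun S => f (x S)) = fun S => f (kh B M i x S) := by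
  funext S
  simp only [kh_apply]
  split_ifs
  · rw [map_zsmul]
  · rw [map_zero]

theorem kd_mem_KK (y : ι → B) {P : Submodule B M} {x : Finset ι → M} (hx : x ∈ KK ι P) :
    kd y M x ∈ KK ι P := by
  intro S _
  rw [kd_apply]
  exact P.sum_mem fun i _ => P.toAddSubgroup.zsmul_mem (P.smul_mem _ (hx _ trivial)) _

theorem kh_mem_KK (i : ι) {P : Submodule B M} {x : Finset ι → M} (hx : x ∈ KK ι P) :
    kh B M i x ∈ KK ι P := by
  intro S _
  rw [kh_apply]
  split_ifs
  · exact P.toAddSubgroup.zsmul_mem (hx _ trivial) _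
  · exact P.zero_mem

theorem kπ_mem_KK (k : ℕ) {P : Submodule B M} {x : Finset ι → M} (hx : x ∈ KK ι P) :
    kπ B M k x ∈ KK ι P := by
  intro S _
  rw [kπ_apply]
  split_ifs
  · exact hx _ trivial
  · exact P.zero_mem

omit [LinearOrder ι] in
theorem KK_smul (J : Ideal B) (P : Submodule B M) : KK ι (J • P) = J • KK ι P := by
  classical
  refine le_antisymm (fun x hx => ?_) (Submodule.smul_le.2 fun r hr x hx S _ =>
    Submodule.smul_mem_smul hr (hx S trivial))
  rw [← Finset.univ_sum_single x]
  refine Submodule.sum_mem _ fun S _ => ?_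
  refine Submodule.smul_induction_on (p := fun v => (Pi.single S v : Finset ι → M) ∈ J • KK ι P)
    (hx S trivial) (fun r hr v hv => ?_) (fun v w hv hw => ?_)
  · rw [Pi.single_smul]
    refine Submodule.smul_mem_smul hr fun T _ => ?_
    by_cases h : T = S
    · subst h; simpa using hv
    · simp [h]
  · rw [Pi.single_add]
    exact Submodule.add_mem _ hv hw

theorem kd_empty_mem (y : ι → B) (x : Finset ι → M) :
    kd y M x ∅ ∈ (sp y • ⊤ : Submodule B M) := by
  exact KoszulAux.kd_mem_smul y (P := ⊤) (fun _ _ => trivial) ∅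

theorem kd_single_empty (y : ι → B) (i : ι) (v : M) :
    kd y M (Pi.single {i} v) = Pi.single ∅ (y i • v) := by
  funext S
  rw [kd_apply]
  by_cases hS : S = ∅
  · subst hS
    rw [Finset.sum_eq_single i]
    · simp [KoszulAux.ksgn_empty]
    · intro j _ hj
      rw [Pi.single_eq_of_ne (by simpa using hj), smul_zero, smul_zero]
    · simp
  · rw [Pi.single_eq_of_ne hS]
    refine Finset.sum_eq_zero fun j hj => ?_
    rw [Pi.single_eq_of_ne, smul_zero, smul_zero]
    intro h
    have := congrArg Finset.card h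
    rw [Finset.card_insert_of_notMem (Finset.mem_compl.1 hj), Finset.card_singleton] at this
    exact hS (Finset.card_eq_zero.1 (by omega))

/-- every element of the ideal `(y)` is null-homotopic on the Koszul complex, by a homotopy of
degree one which preserves all `KK P` -/
theorem exists_homotopy (y : ι → B) {a : B} (ha : a ∈ sp y) :
    ∃ c : ι → B, ∀ x : Finset ι → M,
      kd y M (∑ i, c i • kh B M i x) + ∑ i, c i • kh B M i (kd y M x) = a • x := by
  obtain ⟨c, rfl⟩ := Ideal.mem_span_range_iff_exists_fun.1 ha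
  refine ⟨c, fun x => ?_⟩
  rw [map_sum, ← Finset.sum_add_distrib, Finset.sum_smul]
  refine Finset.sum_congr rfl fun i _ => ?_
  rw [map_smul, ← smul_add, kd_kh_add, smul_smul]

end ops

namespace KoszulAux

section aa

variable {B : Type} [CommRing B] {ι : Type} {X : Type} [AddCommGroup X] [Module B X]

theorem mem_sp_smul_top [Fintype ι] {g : ι → B} {x : X} :
    x ∈ (sp g • ⊤ : Submodule B X) ↔ ∃ v : ι → X, ∑ i, g i • v i = x := by
  constructor
  · intro hx
    refine Submodule.smul_induction_on (p := fun x => ∃ v : ι → X, ∑ i, g i • v i = x) hx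
      (fun r hr w _ => ?_) ?_
    · obtain ⟨c, rfl⟩ := Ideal.mem_span_range_iff_exists_fun.1 hr
      refine ⟨fun i => c i • w, ?_⟩
      rw [Finset.sum_smul]
      exact Finset.sum_congr rfl fun i _ => by rw [smul_smul, mul_comm]
    · rintro _ _ ⟨v, rfl⟩ ⟨w, rfl⟩
      exact ⟨v + w, by simp [Finset.sum_add_distrib]⟩
  · rintro ⟨v, rfl⟩
    exact Submodule.sum_mem _ fun i _ =>
      Submodule.smul_mem_smul (Ideal.subset_span ⟨i, rfl⟩) trivial

theorem map_mem_smul_top {Y : Type} [AddCommGroup Y] [Module B Y] (φ : X →ₗ[B] Y) {J : Ideal B}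
    {x : X} (hx : x ∈ (J • ⊤ : Submodule B X)) : φ x ∈ (J • ⊤ : Submodule B Y) := by
  have h : φ x ∈ (J • ⊤ : Submodule B X).map φ := ⟨x, hx, rfl⟩
  rw [Submodule.map_smul''] at h
  exact Submodule.smul_mono le_rfl le_top h

/-- Almost acyclicity, abstract form. -/
theorem aa [Fintype ι] [DecidableEq ι] (d : X →ₗ[B] X) (hdd : ∀ x, d (d x) = 0)
    (deg : ℕ → Submodule B X) (n : ℕ) (hn : ∀ i, n < i → ∀ x ∈ deg i, x = 0) (g : ι → B) (γ : B)
    (hWR : WR g X γ) (h : ι → X →ₗ[B] X) (hh : ∀ j x, d (h j x) + h j (d x) = (γ * g j) • x)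
    (hdeg : ∀ j i, ∀ x ∈ deg i, h j x ∈ deg (i + 1)) (T : Finset ι) :
    ∀ i, n < i + T.card → ∀ u ∈ deg i,
      d u ∈ (sp (fun l => if l ∈ T then g l ^ 2 else g l) • ⊤ : Submodule B X) →
      ∃ v, γ ^ (2 * T.card) • u - d v ∈ (sp g • ⊤ : Submodule B X) := by
  induction T using Finset.induction_on with
  | empty =>
    intro i hi u hu _
    exact ⟨0, by rw [hn i (by simpa using hi) u hu]; simp⟩
  | insert j T hj ih =>
    intro i hi u hu hdu
    rw [Finset.card_insert_of_notMem hj] at hi ⊢
    have hsq : ∀ {J : Ideal B} {a : B}, a ∈ J → a ^ 2 ∈ J := fun ha =>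
      Ideal.pow_mem_of_mem _ ha 2 two_pos
    have hle₁ : sp (fun l => if l ∈ insert j T then g l ^ 2 else g l) ≤
        sp (fun l => if l ∈ T then g l ^ 2 else g l) := by
      refine Ideal.span_le.2 ?_
      rintro _ ⟨l, rfl⟩
      have hl : (if l ∈ T then g l ^ 2 else g l) ∈
          sp (fun l => if l ∈ T then g l ^ 2 else g l) := Ideal.subset_span ⟨l, rfl⟩
      by_cases h₁ : l ∈ T
      · simpa [h₁] using hl
      · rw [if_neg h₁] at hl
        show (if l ∈ insert j T then g l ^ 2 else g l) ∈ _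
        split_ifs
        exacts [hsq hl, hl]
    have hle₂ : sp (fun l => if l ∈ insert j T then g l ^ 2 else g l) ≤
        sp (Function.update g j (g j ^ 2)) := by
      refine Ideal.span_le.2 ?_
      rintro _ ⟨l, rfl⟩
      have hl : Function.update g j (g j ^ 2) l ∈ sp (Function.update g j (g j ^ 2)) :=
        Ideal.subset_span ⟨l, rfl⟩
      by_cases h₁ : l = j
      · subst h₁
        simpa using hl
      · rw [Function.update_of_ne h₁] at hl
        show (if l ∈ insert j T then g l ^ 2 else g l) ∈ _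
        split_ifs
        exacts [hsq hl, hl]
    have e : d (h j u) = (γ * g j) • u - h j (d u) := eq_sub_of_add_eq (hh j u)
    have hgj : g j ∈ sp (fun l => if l ∈ T then g l ^ 2 else g l) := by
      have hl : (if j ∈ T then g j ^ 2 else g j) ∈
          sp (fun l => if l ∈ T then g l ^ 2 else g l) := Ideal.subset_span ⟨j, rfl⟩
      rwa [if_neg hj] at hl
    obtain ⟨v, hv⟩ := ih (i + 1) (by omega) (h j u) (hdeg j i u hu) (by
      rw [e]
      exact Submodule.sub_mem _ (Submodule.smul_mem_smul (Ideal.mul_mem_left _ _ hgj) trivial)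
        (Submodule.smul_mono_left hle₁ (map_mem_smul_top _ hdu)))
    obtain ⟨w, hw⟩ := mem_sp_smul_top.1 hv
    have hw' := congrArg d hw
    rw [map_sub, hdd, sub_zero, map_smul, e, map_sum,
      ← Finset.add_sum_erase _ _ (Finset.mem_univ j), map_smul] at hw'
    have key : g j • (γ ^ (2 * T.card + 1) • u - d (w j)) ∈
        (sp (Function.update g j (g j ^ 2)) • ⊤ : Submodule B X) := by
      have e' : g j • (γ ^ (2 * T.card + 1) • u - d (w j)) =
          γ ^ (2 * T.card) • h j (d u) + ∑ l ∈ Finset.univ.erase j, d (g l • w l) := by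
        rw [eq_sub_of_add_eq' hw']
        simp only [smul_sub, smul_smul]
        rw [show g j * γ ^ (2 * T.card + 1) = γ ^ (2 * T.card) * (γ * g j) by ring]
        abel
      rw [e']
      refine Submodule.add_mem _ (Submodule.smul_mem _ _
        (Submodule.smul_mono_left hle₂ (map_mem_smul_top _ hdu))) ?_
      refine Submodule.sum_mem _ fun l hl => ?_
      rw [map_smul]
      refine Submodule.smul_mem_smul (Ideal.subset_span ⟨l, ?_⟩) trivial
      exact Function.update_of_ne (Finset.ne_of_mem_erase hl) _ _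
    refine ⟨γ • w j, ?_⟩
    have := hWR j _ key
    rwa [smul_sub, smul_smul, ← map_smul, ← pow_succ'] at this

end aa

theorem WR.pi {B : Type} [CommRing B] {ι : Type} [Fintype ι] [DecidableEq ι] {V : Type}
    [AddCommGroup V] [Module B V] {g : ι → B} {γ : B} (h : WR g V γ) :
    WR g (Finset ι → V) γ := by
  have e : (⊤ : Submodule B (Finset ι → V)) = KK ι ⊤ := (Submodule.pi_top _).symm
  intro j x hx
  rw [e, ← KK_smul] at hx ⊢
  exact fun S _ => h j (x S) (hx S trivial)

theorem rt_aux {ι : Type} [Fintype ι] [LinearOrder ι] {B : Type} [CommRing B] {W : Type}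
    [AddCommGroup W] [Module B W] (W' : Submodule B W) (f g : ι → B) (γ : B)
    (hWR : WR g (W ⧸ W') γ) (ha : ∀ r, ∃ a ∈ sp f, ∀ x : W, (γ * g r - a) • x ∈ W')
    (hb : ∀ x ∈ W' ⊓ (sp g • ⊤ : Submodule B W), γ • x ∈ sp f • W') :
    ∀ x ∈ W' ⊓ (sp f • ⊤ : Submodule B W), γ ^ (2 * Fintype.card ι + 1) • x ∈ sp f • W' := by
  rintro x ⟨hx, hx'⟩
  obtain ⟨y, rfl⟩ := mem_sp_smul_top.1 hx'
  choose a haf ha using ha
  choose c hc using fun r => exists_homotopy (M := W ⧸ W') f (haf r)
  have hkill : ∀ (r : ι) (u : Finset ι → W ⧸ W'), a r • u = (γ * g r) • u := by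
    intro r u
    funext S
    obtain ⟨w, hw⟩ := W'.mkQ_surjective (u S)
    rw [Pi.smul_apply, Pi.smul_apply, ← hw, eq_comm, ← sub_eq_zero, ← sub_smul, ← map_smul]
    exact (Submodule.Quotient.mk_eq_zero _).2 (ha r w)
  set Y : Finset ι → W := ∑ i, Pi.single {i} (y i) with hY
  have hdY : kd f W Y = Pi.single ∅ (∑ i, f i • y i) := by
    rw [hY, map_sum]
    refine (Finset.sum_congr rfl fun i _ => kd_single_empty f i (y i)).trans ?_
    exact (map_sum (LinearMap.single B (fun _ : Finset ι => W) ∅) _ _).symm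
  have hq : ∀ u : Finset ι → W, kd f (W ⧸ W') (fun S => W'.mkQ (u S)) =
      fun S => W'.mkQ (kd f W u S) := fun u =>
    kd_comp f f W'.mkQ.toAddMonoidHom (fun i v => map_smul W'.mkQ _ _) u
  obtain ⟨v, hv⟩ := aa (kd f (W ⧸ W')) (kd_kd f)
    (fun k => LinearMap.eqLocus (kπ B (W ⧸ W') k) LinearMap.id) (Fintype.card ι)
    (fun i hi u hu => (LinearMap.mem_eqLocus.1 hu).symm.trans (kπ_eq_zero_of_lt hi u)) g γ
    (WR.pi hWR) (fun r => ∑ i, c r i • kh B (W ⧸ W') i)
    (fun r u => by
      simp only [LinearMap.sum_apply, LinearMap.smul_apply]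
      rw [hc r u, hkill])
    (fun r i u hu => by
      have hu' : kπ B (W ⧸ W') i u = u := LinearMap.mem_eqLocus.1 hu
      rw [LinearMap.mem_eqLocus]
      simp only [LinearMap.sum_apply, LinearMap.smul_apply, map_sum, map_smul, kπ_kh, hu',
        LinearMap.id_apply])
    Finset.univ 1 (by rw [Finset.card_univ]; omega) (fun S => W'.mkQ (Y S))
    (by
      rw [LinearMap.mem_eqLocus]
      funext S
      rw [kπ_apply, LinearMap.id_apply]
      split_ifs with hS
      · rfl
      · rw [hY, Finset.sum_apply, Finset.sum_eq_zero, map_zero]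
        intro i _
        exact Pi.single_eq_of_ne (by rintro rfl; simp at hS) _)
    (by
      rw [hq, hdY]
      have : (fun S => W'.mkQ ((Pi.single ∅ (∑ i, f i • y i) : Finset ι → W) S)) = 0 := by
        funext S
        by_cases hS : S = ∅
        · subst hS
          rw [Pi.single_eq_same]
          exact (Submodule.Quotient.mk_eq_zero _).2 hx
        · rw [Pi.single_eq_of_ne hS, map_zero]
          rfl
      rw [this]
      exact Submodule.zero_mem _)
  rw [Finset.card_univ, ← Submodule.pi_top (Set.univ : Set (Finset ι)), ← KK_smul] at hv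
  choose v' hv' using fun S => W'.mkQ_surjective (v S)
  have hmap : (sp g • ⊤ : Submodule B (W ⧸ W')) = (sp g • ⊤ : Submodule B W).map W'.mkQ := by
    rw [Submodule.map_smul'', Submodule.map_top, Submodule.range_mkQ]
  have hw : ∀ S, ∃ w ∈ (sp g • ⊤ : Submodule B W),
      W'.mkQ w = W'.mkQ ((γ ^ (2 * Fintype.card ι) • Y - kd f W v') S) := by
    intro S
    have h₁ := hv S trivial
    rw [hmap] at h₁
    obtain ⟨w, hw, hw'⟩ := h₁
    refine ⟨w, hw, ?_⟩
    have h₂ : v = fun S => W'.mkQ (v' S) := funext fun S => (hv' S).symm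
    rw [hw', h₂, hq]
    simp
  choose w hwg hw using hw
  set z : Finset ι → W := γ ^ (2 * Fintype.card ι) • Y - kd f W v' - w with hz
  have hzW : z ∈ KK ι W' := fun S _ => by
    refine (Submodule.Quotient.mk_eq_zero W').1 ?_
    show W'.mkQ _ = 0
    rw [hz, Pi.sub_apply, map_sub, hw, sub_self]
  have hdz : kd f W z ∅ ∈ sp f • W' := kd_mem_smul f hzW ∅
  have hdz' : kd f W z ∅ = γ ^ (2 * Fintype.card ι) • ∑ i, f i • y i - kd f W w ∅ := by
    rw [hz, map_sub, map_sub, kd_kd, sub_zero, map_smul, hdY, Pi.sub_apply, Pi.smul_apply,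
      Pi.single_eq_same]
  have hdw : kd f W w ∅ ∈ W' ⊓ (sp g • ⊤ : Submodule B W) := by
    refine ⟨?_, kd_mem_KK f (P := sp g • ⊤) (fun S _ => hwg S) ∅ trivial⟩
    rw [eq_sub_iff_add_eq, ← eq_sub_iff_add_eq'] at hdz'
    rw [hdz']
    exact W'.sub_mem (W'.smul_mem _ hx) (Submodule.smul_le_right hdz)
  have e : γ ^ (2 * Fintype.card ι + 1) • ∑ i, f i • y i =
      γ • kd f W z ∅ + γ • kd f W w ∅ := by
    rw [hdz', ← smul_add, sub_add_cancel, smul_smul, pow_succ']
  rw [e]
  exact Submodule.add_mem _ (Submodule.smul_mem _ _ hdz) (hb _ hdw)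

end KoszulAux

/-- **Regularity transfer, module form.**  `f`, `g` are sequences indexed by the same finite type,
`g` is weakly regular on `W / W'` up to `γ`, and `γ g_r` lies in `(f)` up to an element mapping
`W` into `W'`.  Then `W' ∩ (f) W ⊆ (f) W'` up to a power of `γ` depending only on `ι`.

Proof: almost acyclicity (AA) of the Koszul complex of `f` on `W / W'`, see the task text. -/
theorem rt_module (ι : Type) [Fintype ι] [DecidableEq ι] : ∃ c : ℕ,
    ∀ {B : Type} [CommRing B] {W : Type} [AddCommGroup W] [Module B W] (W' : Submodule B W)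
      (f g : ι → B) (γ : B), WR g (W ⧸ W') γ →
      (∀ r, ∃ a ∈ sp f, ∀ x : W, (γ * g r - a) • x ∈ W') →
      (∀ x ∈ W' ⊓ (sp g • ⊤ : Submodule B W), γ • x ∈ sp f • W') →
      ∀ x ∈ W' ⊓ (sp f • ⊤ : Submodule B W), γ ^ c • x ∈ sp f • W' := by
  refine ⟨2 * Fintype.card ι + 1, fun W' f g γ hWR ha hb => ?_⟩
  letI : LinearOrder ι := LinearOrder.lift' (Fintype.equivFin ι) (Fintype.equivFin ι).injective
  refine KoszulAux.rt_aux W' f g γ ?_ ha hb
  convert hWR

end Crest.Agent.R183
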