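import Crest.Agent.R183.WDefs
import Crest.Agent.R183.LF

/-!
# The level attached to window data and a cover: definitions

`Cb` and `DD` are `def`s (for fast instance search); they unfold by `rfl` to a quotient ring and a
tensor product, see `Cb.mk`, `DD.tmul`, `DD.equiv`.
-/

set_option autoImplicit false

open scoped ENNReal NNReal TensorProduct

namespace Crest.Agent.R183

variable {d : ℕ} {p : Par} {A : Type} [CommRing A] {x' : Fin d → A} {b n N₀ q' : ℕ}

/-- the ideal `(w, P)` of `E` -/
noncomputable def CbI (W : WD d p A x' b) (V : Cover W.toTD n N₀ q') : Ideal V.E :=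
  sp V.w ⊔ W.P.map (algebraMap (TT d p.s A) V.E)

/-- `C̄ = E / (w, P)` -/
def Cb (W : WD d p A x' b) (V : Cover W.toTD n N₀ q') : Type := V.E ⧸ CbI W V

section

variable (W : WD d p A x' b) (V : Cover W.toTD n N₀ q')

noncomputable instance : CommRing (Cb W V) := inferInstanceAs (CommRing (V.E ⧸ CbI W V))

noncomputable instance : Algebra V.E (Cb W V) := inferInstanceAs (Algebra V.E (V.E ⧸ CbI W V))

noncomputable instance : Algebra (TT d p.s A) (Cb W V) :=
  inferInstanceAs (Algebra (TT d p.s A) (V.E ⧸ CbI W V))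

instance : IsScalarTower (TT d p.s A) V.E (Cb W V) :=
  inferInstanceAs (IsScalarTower (TT d p.s A) V.E (V.E ⧸ CbI W V))

/-- the quotient map -/
noncomputable def Cb.mk : V.E →+* Cb W V := Ideal.Quotient.mk (CbI W V)

/-- `D = C̄ ⊗_T S` -/
def DD : Type := Cb W V ⊗[TT d p.s A] W.S

noncomputable instance : CommRing (DD W V) :=
  inferInstanceAs (CommRing (Cb W V ⊗[TT d p.s A] W.S))

noncomputable instance : Algebra (Cb W V) (DD W V) :=
  inferInstanceAs (Algebra (Cb W V) (Cb W V ⊗[TT d p.s A] W.S))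

noncomputable instance : Algebra (TT d p.s A) (DD W V) :=
  inferInstanceAs (Algebra (TT d p.s A) (Cb W V ⊗[TT d p.s A] W.S))

instance : IsScalarTower (TT d p.s A) (Cb W V) (DD W V) :=
  inferInstanceAs (IsScalarTower (TT d p.s A) (Cb W V) (Cb W V ⊗[TT d p.s A] W.S))

/-- pure tensors -/
noncomputable def DD.tmul (c : Cb W V) (s : W.S) : DD W V :=
  (c ⊗ₜ s : Cb W V ⊗[TT d p.s A] W.S)

/-- the identity -/
noncomputable def DD.equiv : DD W V ≃ₐ[Cb W V] Cb W V ⊗[TT d p.s A] W.S := AlgEquiv.refl

/-- the map `S → D` -/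
noncomputable def DD.inr : W.S →ₐ[TT d p.s A] DD W V :=
  (Algebra.TensorProduct.includeRight : W.S →ₐ[TT d p.s A] Cb W V ⊗[TT d p.s A] W.S)

/-- the length function on `D`-modules -/
noncomputable def lamD : LF (DD W V) := W.μ.comap (DD.inr W V).toRingHom

/-- the image of `y` -/
noncomputable def yD : Fin d → DD W V := fun i => DD.inr W V (W.y i)

/-- the image of `γ` -/
noncomputable def gD : DD W V := algebraMap (Cb W V) (DD W V) (Cb.mk W V V.γ)

end

end Crest.Agent.R183
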