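import Crest.Agent.R183.LVDefs
import Crest.Agent.R183.SL
import Crest.Agent.R183.SLTransfer

/-!
# Regularity properties of a cover
-/

set_option autoImplicit false

open scoped ENNReal NNReal TensorProduct
open MvPolynomial

namespace Crest.Agent.R183

section abstract

variable {T E : Type} [CommRing T] [CommRing E] [Algebra T E]

theorem LVReg_pow_mem {I J : Ideal E} {x : E} (hx : x ∈ I ⊔ J) (N : ℕ) : x ^ N ∈ I ^ N ⊔ J := by
  obtain ⟨i, hi, j, hj, rfl⟩ := Submodule.mem_sup.1 hx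
  have h1 : (i + j) ^ N - i ^ N ∈ J := by
    have := sub_dvd_pow_sub_pow (i + j) i N
    rw [add_sub_cancel_left] at this
    exact Ideal.mem_of_dvd _ this hj
  rw [← add_sub_cancel (i ^ N) ((i + j) ^ N)]
  exact Submodule.add_mem_sup (Ideal.pow_mem_pow hi N) h1

theorem LVReg_win_zero {W : Ideal T} {ρ : ℕ} (e : E ≃ₗ[T] (Fin ρ → T ⧸ W)) {t : T}
    (ht : t ∈ W) : algebraMap T E t = 0 := by
  rw [Algebra.algebraMap_eq_smul_one]
  apply e.injective
  rw [map_smul, map_zero]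
  funext i
  obtain ⟨y, hy⟩ := Ideal.Quotient.mk_surjective (e 1 i)
  rw [Pi.smul_apply, ← hy, Pi.zero_apply]
  change Ideal.Quotient.mk W (t * y) = 0
  exact Ideal.Quotient.eq_zero_iff_mem.2 (Ideal.mul_mem_right _ _ ht)

theorem LVReg_wr {ι : Type} [Fintype ι] [DecidableEq ι] (σ : ι → T) (h : QR σ T) {b b' ρ : ℕ}
    (e : E ≃ₗ[T] (Fin ρ → T ⧸ sp (fun i => σ i ^ b))) (hb : 2 * b' ≤ b) :
    WR (fun i => algebraMap T E (σ i ^ b')) E 1 := by
  have h1 : SL σ T (boxGE fun _ => b) (1 * 1) := SL.mono h (Set.empty_subset _) 1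
  have h2 := h1.quot (sp fun i => σ i ^ b) 1 (fun x hx => by
    rw [SLT.mem_smul_top, monI_boxGE, one_smul]
    exact hx)
  have h3 := h2.wr (fun _ => b') (fun j => by
    rintro α ⟨i, hi⟩
    refine ⟨i, le_trans ?_ hi⟩
    by_cases hij : i = j
    · subst hij
      simpa using hb
    · simp only [ne_eq, hij, not_false_eq_true, Function.update_of_ne]
      omega)
  simp only [mul_one, one_pow] at h3
  have h4 := (h3.pi (Fin ρ)).of_equiv e.symm
  have h5 := (wr_algebraMap_iff (B' := E) (V := E) (fun i => σ i ^ b') 1).2 h4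
  rwa [map_one] at h5

theorem LVReg_sl_z {ι κ : Type} [Fintype ι] [Fintype κ] [DecidableEq ι] [DecidableEq κ]
    (g : ι ⊕ κ → E) (hg : WR g E 1) (z : ι → E) (w : κ → E) (N : ℕ)
    (hz : ∀ r, g r ∈ sp z ^ N ⊔ sp w) : SL z (E ⧸ sp w) (degGE ι N) 1 := by
  obtain ⟨c, hc⟩ := sl_of_wr (ι ⊕ κ) (ι ⊕ κ) rfl
  set I : Set (ι ⊕ κ → ℕ) :=
    {α | (fun i => α (Sum.inl i)) ∈ degGE ι N ∨ ∃ k, α (Sum.inr k) ≠ 0} with hI
  have hle : sp z ^ N ⊔ sp w ≤ monI (Sum.elim z w) I := by
    refine sup_le ?_ (Ideal.span_le.2 ?_)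
    · rw [← monI_degGE]
      refine Ideal.span_le.2 ?_
      rintro _ ⟨β, hβ, rfl⟩
      have h := SL_mon_mem_monI (Sum.elim z w) (I := I) (α := Sum.elim β 0) (Or.inl hβ)
      rw [SLT.mon_sum] at h
      have e : mon w (fun k => (Sum.elim β 0 : ι ⊕ κ → ℕ) (Sum.inr k)) = 1 := SL_mon_zero w
      rw [e, mul_one] at h
      exact h
    · rintro _ ⟨k, rfl⟩
      have h := SL_mon_mem_monI (Sum.elim z w) (I := I) (α := Pi.single (Sum.inr k) 1)
        (Or.inr ⟨k, by simp⟩)
      rw [SL_mon_single, pow_one] at h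
      exact h
  have h1 := hc (Sum.elim z w) g 1 I hg (fun r => by rw [one_mul]; exact hle (hz r))
  rw [one_pow] at h1
  have h2 := h1.quot_sum (degGE ι N) (fun α hα => hα)
  exact h2.of_equiv (Submodule.quotEquivOfEq _ _ (by rw [smul_eq_mul, Ideal.mul_top]))

theorem LVReg_length {ι κ : Type} [Fintype ι] [Fintype κ] [DecidableEq ι] [DecidableEq κ]
    (g : ι ⊕ κ → E) (hg : WR g E 1) (x : ι → T) (H : κ → T) (w : κ → E) (Q : ℕ)
    (hw : ∀ j, w j ^ Q = algebraMap T E (H j)) (W : Ideal T) {ρ : ℕ}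
    (e : E ≃ₗ[T] (Fin ρ → T ⧸ W))
    (hx : ∀ r, g r ∈ (sp x ⊔ sp H ⊔ W).map (algebraMap T E)) :
    (Q : ℕ∞) ^ (Fintype.card κ) *
        Module.length T (E ⧸ (sp (fun k => algebraMap T E (x k)) ⊔ sp w)) ≤
      ρ * Module.length T (T ⧸ (sp x ⊔ sp H ⊔ W)) := by
  obtain ⟨c, hc⟩ := sl_of_wr (ι ⊕ κ) (ι ⊕ κ) rfl
  set u : ι ⊕ κ → E := Sum.elim (fun k => algebraMap T E (x k)) w with hu
  set I : Set (ι ⊕ κ → ℕ) := boxGE (Sum.elim (fun _ => 1) (fun _ => Q)) with hI
  have hmon : monI u I = (sp x ⊔ sp H ⊔ W).map (algebraMap T E) := by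
    have hW : W.map (algebraMap T E) = ⊥ := by
      rw [eq_bot_iff, Ideal.map_le_iff_le_comap]
      intro t ht
      exact LVReg_win_zero e ht
    rw [Ideal.map_sup, Ideal.map_sup, hW, sup_bot_eq, sp_map, sp_map, ← SLT.sp_sum, hI,
      monI_boxGE]
    congr 1
    funext i
    cases i with
    | inl i => simp [hu]
    | inr k => simp [hu, hw]
  have h1 := hc u g 1 I hg (fun r => by rw [one_mul, hmon]; exact hx r)
  rw [one_pow] at h1
  have h2 := h1.val_monI ((LF.length T).comap (algebraMap T E)) (LF.null_one _)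
    (isUpperSet_boxGE _) subset_rfl (finite_compl_boxGE _)
  rw [ncard_compl_boxGE, LF.comap_algebraMap_val, LF.comap_algebraMap_val] at h2
  have e1 : (sp u • ⊤ : Submodule E E) = sp (fun k => algebraMap T E (x k)) ⊔ sp w := by
    rw [smul_eq_mul, Ideal.mul_top, hu, SLT.sp_sum]
  have h3 : (LF.length T).val (E ⧸ (sp u • ⊤ : Submodule E E)) =
      (LF.length T).val (E ⧸ (sp (fun k => algebraMap T E (x k)) ⊔ sp w)) :=
    (LF.length T).congr ((Submodule.quotEquivOfEq _ _ e1).restrictScalars T)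
  have h4 : (LF.length T).val (E ⧸ (monI u I • ⊤ : Submodule E E)) ≤
      ρ * (LF.length T).val (T ⧸ (sp x ⊔ sp H ⊔ W)) := by
    let f : (Fin ρ → T) →ₗ[T] (E ⧸ (monI u I • ⊤ : Submodule E E)) :=
      ((monI u I • ⊤ : Submodule E E).mkQ.restrictScalars T) ∘ₗ e.symm.toLinearMap ∘ₗ
        (W.mkQ.compLeft (Fin ρ))
    have hf : Function.Surjective f := by
      refine (Submodule.mkQ_surjective _).comp (e.symm.surjective.comp ?_)
      intro y
      choose y' hy' using fun i => W.mkQ_surjective (y i)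
      exact ⟨y', funext hy'⟩
    refine (LF.length T).val_le_of_span _ (fun i => f (Pi.single i 1)) ?_ ?_
    · have : Set.range (fun i => f (Pi.single i 1)) = f '' Set.range (Pi.basisFun T (Fin ρ)) := by
        rw [← Set.range_comp]
        congr 1
        funext i
        simp
      rw [this, ← Submodule.map_span, (Pi.basisFun T (Fin ρ)).span_eq, Submodule.map_top,
        LinearMap.range_eq_top.2 hf]
    · intro a ha y
      obtain ⟨y, rfl⟩ := Submodule.mkQ_surjective _ y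
      rw [← algebraMap_smul E a, ← map_smul, Submodule.mkQ_apply,
        Submodule.Quotient.mk_eq_zero]
      refine Submodule.smul_mem_smul ?_ Submodule.mem_top
      rw [hmon]
      exact Ideal.mem_map_of_mem _ ha
  rw [h2, h3, LF.length_val, LF.length_val, Fintype.prod_sum_type] at h4
  simp only [Sum.elim_inl, Sum.elim_inr, Finset.prod_const_one, one_mul, Finset.prod_const,
    Finset.card_univ] at h4
  rw [← ENat.toENNReal_le]
  simpa using h4

theorem LVReg_sl_quot {ι : Type} [Fintype ι] (z : ι → E) (J : Ideal E) (P : Ideal T) (N : ℕ)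
    (γ : E) (h : SL z (E ⧸ J) (degGE ι N) 1)
    (hP : ∀ π ∈ P, γ * algebraMap T E π ∈ sp z ^ N ⊔ J) :
    SL z (E ⧸ (J ⊔ P.map (algebraMap T E))) (degGE ι N) γ := by
  have h1 := h.quot (Submodule.map J.mkQ (P.map (algebraMap T E))) γ (by
    rintro _ ⟨y, hy, rfl⟩
    rw [← map_smul, SLT.mem_quot_iff, monI_degGE, smul_eq_mul, smul_eq_mul, Ideal.mul_top]
    have : P.map (algebraMap T E) ≤ Submodule.comap (LinearMap.lsmul E E γ) (sp z ^ N ⊔ J) := by
      rw [Ideal.map_le_iff_le_comap]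
      intro π hπ
      exact hP π hπ
    exact this hy)
  rw [mul_one] at h1
  exact h1.of_equiv (Submodule.quotientQuotientEquivQuotientSup J (P.map (algebraMap T E)))

end abstract

variable {d : ℕ} {p : Par} {A : Type} [CommRing A] {x' : Fin d → A} {b n N₀ q' : ℕ}

theorem LVReg_sp_sig (s : ℕ) : sp (sig s x') = (sp x').comap (constantCoeff : TT d s A →+* A) := by
  have e : sp (sig s x') = (sp x').map (C : A →+* TT d s A) ⊔ sp (X : Tau d s → TT d s A) := by
    rw [sig, SLT.sp_sum, sp_map]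
  apply le_antisymm
  · refine Ideal.span_le.2 ?_
    rintro _ ⟨i, rfl⟩
    cases i with
    | inl i =>
      change constantCoeff (C (x' i) : TT d s A) ∈ sp x'
      rw [constantCoeff_C]
      exact Ideal.subset_span ⟨i, rfl⟩
    | inr k =>
      change constantCoeff (X k : TT d s A) ∈ sp x'
      rw [constantCoeff_X]
      exact Ideal.zero_mem _
  · intro t ht
    rw [e, ← add_sub_cancel (C (coeff 0 t)) t]
    exact Submodule.add_mem_sup (Ideal.mem_map_of_mem _ ht) (SLT.sub_C_mem _ t)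

theorem isMaximal_sp_sig (s : ℕ) (hmax : (sp x').IsMaximal) : (sp (sig s x')).IsMaximal := by
  rw [LVReg_sp_sig]
  exact Ideal.comap_isMaximal_of_surjective _ fun a => ⟨C a, constantCoeff_C _ a⟩

theorem exists_sub_C_mem_sp_sig (s : ℕ) (t : TT d s A) :
    ∃ a : A, t - algebraMap A (TT d s A) a ∈ sp (sig s x') := by
  refine ⟨coeff 0 t, ?_⟩
  rw [sig, SLT.sp_sum]
  exact Submodule.mem_sup_right (SLT.sub_C_mem _ t)

theorem sp_sig_pow_le_win (s : ℕ) (b : ℕ) : ∃ c : ℕ, sp (sig s x') ^ c ≤ win s x' b :=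
  ⟨_, sp_pow_le_sp_pow _ b⟩

theorem Cover.win_eq_zero {W : TD d p A x' b} (V : Cover W n N₀ q') :
    ∀ t ∈ win p.s x' b, algebraMap (TT d p.s A) V.E t = 0 :=
  fun _ ht => LVReg_win_zero V.free.some ht

theorem Cover.finite {W : TD d p A x' b} (V : Cover W n N₀ q') :
    Module.Finite (TT d p.s A) V.E :=
  Module.Finite.equiv V.free.some.symm

theorem Cover.LVReg_wr {W : TD d p A x' b} (V : Cover W n N₀ q') (hqr : QR x' A) {b' : ℕ}
    (hb : 2 * b' ≤ b) :
    WR (fun i => algebraMap (TT d p.s A) V.E (sig p.s x' i ^ b')) V.E 1 :=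
  R183.LVReg_wr (sig p.s x') (hqr.mvPolynomial (Tau d p.s)) V.free.some hb

/-- `z` is quasi-regular on `C = E / (w)` in degrees `< N₀` -/
theorem Cover.sl_z {W : TD d p A x' b} (V : Cover W n N₀ q') (hqr : QR x' A)
    (hb : 2 * (p.a * N₀) ≤ b) :
    SL (fun k => algebraMap (TT d p.s A) V.E (zz d p.s A k)) (V.E ⧸ sp V.w)
      (degGE (Fin d) N₀) 1 := by
  refine LVReg_sl_z _ (V.LVReg_wr hqr hb) _ _ _ fun r => ?_
  rw [pow_mul, map_pow]
  refine LVReg_pow_mem ?_ N₀
  have h : (sp (zz d p.s A) ⊔ sp W.H ⊔ win p.s x' b).map (algebraMap (TT d p.s A) V.E) ≤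
      sp (fun k => algebraMap (TT d p.s A) V.E (zz d p.s A k)) ⊔ sp V.w := by
    rw [Ideal.map_sup, Ideal.map_sup, sp_map, sp_map]
    refine sup_le (sup_le le_sup_left (le_sup_of_le_right (Ideal.span_le.2 ?_))) ?_
    · rintro _ ⟨j, rfl⟩
      have h1 : V.w j ^ V.Q ∈ sp V.w :=
        Ideal.pow_mem_of_mem _ (Ideal.subset_span (Set.mem_range_self j)) _ V.hQ
      rw [V.hw] at h1
      exact h1
    · rw [Ideal.map_le_iff_le_comap]
      intro t ht
      rw [Ideal.mem_comap, V.win_eq_zero t ht]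
      exact Ideal.zero_mem _
  exact h (Ideal.mem_map_of_mem _ (W.hz r))

/-- the number of generators of `C = E / (w)` over `A` -/
theorem Cover.length_le {W : TD d p A x' b} (V : Cover W n N₀ q') (hqr : QR x' A)
    (hb : 2 * p.a ≤ b) :
    (V.Q : ℕ∞) ^ (d + p.s) * Module.length (TT d p.s A)
        (V.E ⧸ (sp (fun k => algebraMap (TT d p.s A) V.E (C (x' k))) ⊔ sp V.w)) ≤
      V.ρ * Module.length (TT d p.s A) (TT d p.s A ⧸
        (sp (fun k => (C (x' k) : TT d p.s A)) ⊔ sp W.H ⊔ win p.s x' b)) := by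
  have h := LVReg_length _ (V.LVReg_wr hqr hb) (fun k => (C (x' k) : TT d p.s A)) W.H V.w V.Q
    V.hw (win p.s x' b) V.free.some (fun r => Ideal.mem_map_of_mem _ (W.hx r))
  rwa [Fintype.card_sum, Fintype.card_fin, Fintype.card_fin] at h

theorem sl_DD (W : WD d p A x' b) (V : Cover W.toTD n N₀ q') (hqr : QR x' A)
    (hb : 2 * (p.a * N₀) ≤ b) :
    SL (fun k => algebraMap (TT d p.s A) (DD W V) (zz d p.s A k)) (DD W V)
      (degGE (Fin d) N₀) (gD W V) := by
  have h1 : SL (fun k => algebraMap (TT d p.s A) V.E (zz d p.s A k)) (Cb W V)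
      (degGE (Fin d) N₀) V.γ :=
    LVReg_sl_quot _ (sp V.w) W.P N₀ V.γ (V.sl_z hqr hb) V.hP
  have h2 := (sl_algebraMap_iff (B' := Cb W V) (V := Cb W V) _ _ _).2 h1
  have h3 := h2.tensor W.P W.S W.flat (fun π hπ v => by
    rw [Algebra.smul_def, IsScalarTower.algebraMap_apply (TT d p.s A) V.E (Cb W V)]
    have : algebraMap V.E (Cb W V) (algebraMap (TT d p.s A) V.E π) = 0 :=
      Ideal.Quotient.eq_zero_iff_mem.2 (Submodule.mem_sup_right (Ideal.mem_map_of_mem _ hπ))
    rw [this, zero_mul])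
  have h4 : SL (fun k => algebraMap V.E (Cb W V) (algebraMap (TT d p.s A) V.E (zz d p.s A k)))
      (DD W V) (degGE (Fin d) N₀) (algebraMap V.E (Cb W V) V.γ) :=
    h3.of_equiv (DD.equiv W V).symm.toLinearEquiv
  have h5 := (sl_algebraMap_iff (B' := DD W V) (V := DD W V) _ _ _).2 h4
  simp only [← IsScalarTower.algebraMap_apply (TT d p.s A) V.E (Cb W V),
    ← IsScalarTower.algebraMap_apply (TT d p.s A) (Cb W V) (DD W V)] at h5
  exact h5

end Crest.Agent.R183
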