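import Crest.Agent.R183.LF
import Crest.Agent.R183.SL

/-!
# Upper bounds at a level: the abstract part
-/

set_option autoImplicit false

open scoped ENNReal NNReal TensorProduct

namespace Crest.Agent.R183

theorem LVUp_sub {B M : Type} [CommRing B] [AddCommGroup M] [Module B M] (μ : LF B)
    (I A A' : Submodule B M) :
    μ.val (M ⧸ (I ⊔ A)) + μ.val (M ⧸ (I ⊔ A')) ≤ μ.val (M ⧸ I) + μ.val (M ⧸ (I ⊔ A ⊔ A')) := by
  have h := μ.quot_add_quot_le (A.map I.mkQ) (A'.map I.mkQ)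
  rwa [← Submodule.map_sup, μ.congr (Submodule.quotientQuotientEquivQuotientSup I A),
    μ.congr (Submodule.quotientQuotientEquivQuotientSup I A'),
    μ.congr (Submodule.quotientQuotientEquivQuotientSup I (A ⊔ A')), ← sup_assoc] at h

theorem LVUp_box {B τ : Type} [CommRing B] [Fintype τ] (μ : LF B) (u : τ → B) (J : Ideal B)
    (Q : ℕ) : μ.val (B ⧸ (J ⊔ sp fun j => u j ^ Q)) ≤
      (Q : ℝ≥0∞) ^ Fintype.card τ * μ.val (B ⧸ (J ⊔ sp u)) := by
  have e : ∀ I : Ideal B, μ.val ((B ⧸ J) ⧸ (I • ⊤ : Submodule B (B ⧸ J))) = μ.val (B ⧸ (J ⊔ I)) :=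
    fun I => by
      rw [← μ.congr (Submodule.quotientQuotientEquivQuotientSup J I)]
      refine μ.congr (Submodule.quotEquivOfEq _ _ ?_)
      rw [← Submodule.range_mkQ J, ← Submodule.map_top, ← Submodule.map_smul'', smul_eq_mul,
        Ideal.mul_top]
  have h := val_monI_le (V := B ⧸ J) μ u (isUpperSet_boxGE fun _ => Q) (finite_compl_boxGE _)
  rw [e, e, monI_boxGE, ncard_compl_boxGE] at h
  simpa using h

theorem LVUp_kill {S F N : Type} [CommRing S] [CommRing F] [Algebra S F] [AddCommGroup N]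
    [Module S N] (μ : LF S) (J : Ideal F) (f : F →ₗ[S] N) (hf : Function.Surjective f)
    (hJ : ∀ x ∈ J, f x = 0) : μ.val N ≤ μ.val (F ⧸ J) := by
  rw [← μ.congr (Submodule.Quotient.restrictScalarsEquiv S J)]
  refine μ.le_of_surjective ((J.restrictScalars S).liftQ f hJ) fun y => ?_
  obtain ⟨x, rfl⟩ := hf y
  exact ⟨Submodule.Quotient.mk x, rfl⟩

theorem LVUp_span {S F : Type} [CommRing S] [CommRing F] [Algebra S F] (μ : LF S) (J : Ideal F)
    (Y : Ideal S) (hY : ∀ y ∈ Y, algebraMap S F y ∈ J) {r : ℕ} (v : Fin r → F)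
    (hv : Submodule.span S (Set.range v) ⊔ J.restrictScalars S = ⊤) :
    μ.val (F ⧸ J) ≤ r * μ.val (S ⧸ Y) := by
  rw [← μ.congr (Submodule.Quotient.restrictScalarsEquiv S J)]
  refine μ.val_le_of_span Y (fun i => (J.restrictScalars S).mkQ (v i)) ?_ fun a ha x => ?_
  · rw [← Function.comp_def, Set.range_comp, ← Submodule.map_span, Submodule.map_mkQ_eq_top,
      sup_comm, hv]
  · obtain ⟨x, rfl⟩ := Submodule.Quotient.mk_surjective _ x
    rw [← Submodule.Quotient.mk_smul, Submodule.Quotient.mk_eq_zero, Algebra.smul_def]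
    exact J.mul_mem_right _ (hY a ha)

/-- generators of `E / J` over `A` -/
theorem LVUp_gens {A E ι : Type} [CommRing A] [CommRing E] [Algebra A E] {x : ι → A}
    (hmax : (sp x).IsMaximal) (J : Ideal E) (hx : ∃ c, ∀ a ∈ sp x ^ c, algebraMap A E a = 0) {r : ℕ}
    (hr : Module.length A (E ⧸ (sp (fun k => algebraMap A E (x k)) ⊔ J)) ≤ r) :
    ∃ v : Fin r → E, ∀ e, ∃ c : Fin r → A, e - ∑ i, algebraMap A E (c i) * v i ∈ J := by
  obtain ⟨c, hc⟩ := hx
  refine (exists_span_of_length_le (sp x) (E ⧸ J.restrictScalars A) (n := r)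
    ⟨c, fun a ha y => by
      obtain ⟨y, rfl⟩ := Submodule.Quotient.mk_surjective _ y
      rw [← Submodule.Quotient.mk_smul, Algebra.smul_def, hc a ha, zero_mul,
        Submodule.Quotient.mk_zero]⟩ (le_trans ?_ hr)).elim fun v hv => ?_
  swap
  · choose v' hv' using fun i => Submodule.Quotient.mk_surjective _ (v i)
    refine ⟨v', fun e => ?_⟩
    obtain ⟨c, hc⟩ := (Submodule.mem_span_range_iff_exists_fun A).1
      (hv ▸ Submodule.mem_top : (J.restrictScalars A).mkQ e ∈ _)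
    refine ⟨c, (Submodule.Quotient.eq (J.restrictScalars A)).1 ?_⟩
    rw [← Submodule.mkQ_apply, ← hc, ← Submodule.mkQ_apply, map_sum]
    exact Finset.sum_congr rfl fun i _ => by rw [← Algebra.smul_def, map_smul, ← hv' i]; rfl
  · rw [← ENat.toENNReal_le]
    refine LVUp_kill (LF.length A) _ (Submodule.mkQ _ ∘ₗ Submodule.mkQ _)
      ((Submodule.mkQ_surjective _).comp (Submodule.mkQ_surjective _)) fun y hy => ?_
    obtain ⟨y, hy', z, hz, rfl⟩ := Submodule.mem_sup.1 hy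
    rw [← sp_map, ← Submodule.restrictScalars_mem A, ← Ideal.smul_top_eq_map] at hy'
    rw [LinearMap.comp_apply, map_add, (Submodule.Quotient.mk_eq_zero _).2 hz |> (show
      (J.restrictScalars A).mkQ z = 0 from ·), add_zero, Submodule.mkQ_apply,
      Submodule.Quotient.mk_eq_zero]
    have h1 := Submodule.mem_map_of_mem (f := (J.restrictScalars A).mkQ) hy'
    rw [Submodule.map_smul''] at h1
    exact Submodule.smul_mono le_rfl le_top h1

theorem LVUp_F {T S E R D : Type} [CommRing T] [CommRing S] [CommRing E] [CommRing R] [CommRing D]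
    [Algebra T E] [Algebra S R] [Algebra S D] (θ : T →+* R)
    (hR : Submodule.span S (Set.range θ) = ⊤) {win : Ideal T} {ρ : ℕ}
    (free : E ≃ₗ[T] (Fin ρ → T ⧸ win)) (K : Ideal R) (hwin : ∀ t ∈ win, θ t ∈ K)
    (α : R →ₐ[S] D) (β : E →+* D) (hαβ : ∀ t, α (θ t) = β (algebraMap T E t)) :
    ∃ (F : Type) (_ : CommRing F) (_ : Algebra S F) (i₁ : R →ₐ[S] F) (i₂ : E →+* F)
      (ψ : F →ₐ[S] D) (Φ : F →ₗ[S] (Fin ρ → R ⧸ K)), (∀ t, i₁ (θ t) = i₂ (algebraMap T E t)) ∧
      Submodule.span S (Set.range i₂) = ⊤ ∧ (∀ r, ψ (i₁ r) = α r) ∧ (∀ e, ψ (i₂ e) = β e) ∧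
      Function.Surjective Φ ∧ ∀ k ∈ K, ∀ f, Φ (i₁ k * f) = 0 := by
  let _ : Algebra T R := θ.toAlgebra
  let _ : Algebra R D := α.toRingHom.toAlgebra
  let _ : Algebra T D := (β.comp (algebraMap T E)).toAlgebra
  have : IsScalarTower T R D := .of_algebraMap_eq fun t => (hαβ t).symm
  have : IsScalarTower S R D := .of_algebraMap_eq fun s => (α.commutes s).symm
  let ψ : R ⊗[T] E →ₐ[R] D :=
    Algebra.TensorProduct.lift (Algebra.ofId R D) ⟨β, fun _ => rfl⟩ fun _ _ => Commute.all _ _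
  let q : (T ⧸ win) →ₗ[T] R ⧸ K := Submodule.liftQ win (Algebra.linearMap T (R ⧸ K))
    fun t ht => Ideal.Quotient.eq_zero_iff_mem.2 (hwin t ht)
  let Φ : R ⊗[T] E →ₗ[R] (Fin ρ → R ⧸ K) :=
    LinearMap.liftBaseChange R (q.compLeft (Fin ρ) ∘ₗ free.toLinearMap)
  refine ⟨R ⊗[T] E, inferInstance, inferInstance, IsScalarTower.toAlgHom S R _,
    Algebra.TensorProduct.includeRight.toRingHom, ψ.restrictScalars S, Φ.restrictScalars S,
    fun t => ?_, ?_, fun r => ψ.commutes r, fun e => by simp [ψ], fun y => ?_, fun k hk f => ?_⟩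
  · exact (IsScalarTower.algebraMap_apply T R (R ⊗[T] E) t).symm.trans
      (Algebra.TensorProduct.includeRight.commutes t).symm
  · refine eq_top_iff.2 fun f _ => ?_
    induction f using TensorProduct.induction_on with
    | zero => exact zero_mem _
    | add x y hx hy => exact add_mem (hx trivial) (hy trivial)
    | tmul r e =>
      have hr : r ∈ Submodule.span S (Set.range θ) := hR ▸ Submodule.mem_top
      induction hr using Submodule.span_induction with
      | mem r hr =>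
        obtain ⟨t, rfl⟩ := hr
        refine Submodule.subset_span ⟨t • e, ?_⟩
        change (1 : R) ⊗ₜ[T] (t • e) = _
        rw [← TensorProduct.smul_tmul, Algebra.smul_def, mul_one]
        rfl
      | zero => rw [TensorProduct.zero_tmul]; exact zero_mem _
      | add x y _ _ hx hy =>
        rw [TensorProduct.add_tmul]; exact add_mem (hx trivial) (hy trivial)
      | smul s x _ hx =>
        have := Submodule.smul_mem _ s (hx trivial)
        rwa [← algebraMap_smul R s, TensorProduct.smul_tmul', algebraMap_smul] at this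
  · choose z hz using fun i => Ideal.Quotient.mk_surjective (y i)
    refine ⟨∑ i, z i ⊗ₜ free.symm (Pi.single i 1), funext fun j => ?_⟩
    have hq : q 1 = 1 := map_one (algebraMap T (R ⧸ K))
    simp only [LinearMap.restrictScalars_apply, map_sum, Φ, LinearMap.liftBaseChange_tmul,
      LinearMap.comp_apply, LinearEquiv.coe_coe, LinearEquiv.apply_symm_apply, Finset.sum_apply,
      Pi.smul_apply, LinearMap.compLeft_apply, Function.comp_apply]
    rw [Finset.sum_eq_single j (fun i _ hi => by simp [hi.symm]) (by simp), Pi.single_eq_same, hq,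
      ← hz j, Algebra.smul_def, mul_one]
    rfl
  · rw [IsScalarTower.toAlgHom_apply, ← Algebra.smul_def, LinearMap.restrictScalars_apply, map_smul]
    funext j
    rw [Pi.smul_apply, Algebra.smul_def, Ideal.Quotient.algebraMap_eq,
      Ideal.Quotient.eq_zero_iff_mem.2 hk, zero_mul, Pi.zero_apply]

/-- the complement trick -/
theorem LVUp_abs {A T S E R D τ : Type} [CommRing A] [CommRing T] [CommRing S] [CommRing E]
    [CommRing R] [CommRing D] [Fintype τ] [Algebra T E] [Algebra S R] [Algebra S D] (μ : LF S)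
    (θ : T →+* R) (ι : A →+* T) (κ : A →+* S) (hκ : ∀ a, θ (ι a) = algebraMap S R (κ a))
    (hR : Submodule.span S (Set.range θ) = ⊤) {w : τ → E} {H : τ → T} {Q : ℕ}
    (hw : ∀ j, w j ^ Q = algebraMap T E (H j)) {r : ℕ} (v : Fin r → E)
    (hv : ∀ e, ∃ c : Fin r → A, e - ∑ i, algebraMap T E (ι (c i)) * v i ∈ sp w)
    {win : Ideal T} {ρ : ℕ} (free : E ≃ₗ[T] (Fin ρ → T ⧸ win)) (Y : Ideal S) (ε : R) (ω : S)
    (K : Ideal R) (hwin : ∀ t ∈ win, θ t ∈ K) (hH : ∀ j, θ (H j) ∈ K) (hεK : ε ∈ K)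
    (hY : ∀ y ∈ Y, algebraMap S R y ∈ K)
    (α : R →ₐ[S] D) (β : E →+* D) (hαβ : ∀ t, α (θ t) = β (algebraMap T E t))
    (hβ : ∀ j, β (w j) = 0) (hD : Submodule.span S (Set.range β) = ⊤)
    (hε : α ε = algebraMap S D ω) :
    (Q : ℝ≥0∞) ^ Fintype.card τ * μ.val (D ⧸ Y.map (algebraMap S D)) + ρ * μ.val (R ⧸ K) ≤
      (Q : ℝ≥0∞) ^ Fintype.card τ * r * (μ.val (S ⧸ Y) + μ.val (S ⧸ (Y ⊔ Ideal.span {ω}))) := by
  obtain ⟨F, _, _, i₁, i₂, ψ, Φ, h12, hF, hψ₁, hψ₂, hΦ, hΦK⟩ :=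
    LVUp_F θ hR free K hwin α β hαβ
  have hν : ∀ J : Ideal F, (μ.comap (algebraMap S F)).val (F ⧸ J) = μ.val (F ⧸ J) := fun J =>
    μ.comap_algebraMap_val _
  have hsp : ∀ J : Ideal F, sp (fun j => i₂ (w j)) ≤ J →
      Submodule.span S (Set.range fun i => i₂ (v i)) ⊔ J.restrictScalars S = ⊤ := fun J hJ => by
    rw [eq_top_iff, ← hF, Submodule.span_le]
    rintro _ ⟨e, rfl⟩
    obtain ⟨c, hc⟩ := hv e
    rw [← add_sub_cancel (∑ i, algebraMap T E (ι (c i)) * v i) e, map_add]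
    refine Submodule.add_mem_sup ?_ (hJ (sp_map i₂ w ▸ Ideal.mem_map_of_mem i₂ hc))
    rw [map_sum]
    refine sum_mem fun i _ => ?_
    rw [map_mul, ← h12, hκ, i₁.commutes, ← Algebra.smul_def]
    exact Submodule.smul_mem _ _ (Submodule.subset_span ⟨i, rfl⟩)
  have h0 := LVUp_sub (μ.comap (algebraMap S F))
    (Y.map (algebraMap S F) ⊔ sp fun j => i₂ (w j))
    (Ideal.span {i₁ ε - algebraMap S F ω}) (Ideal.span {i₁ ε})
  have h1 := LVUp_span μ (Y.map (algebraMap S F) ⊔ sp fun j => i₂ (w j)) Y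
    (fun y hy => Ideal.mem_sup_left (Ideal.mem_map_of_mem _ hy)) _ (hsp _ le_sup_right)
  have h2 := LVUp_span μ ((Y.map (algebraMap S F) ⊔ sp fun j => i₂ (w j)) ⊔
    Ideal.span {i₁ ε - algebraMap S F ω} ⊔ Ideal.span {i₁ ε}) (Y ⊔ Ideal.span {ω})
    (fun y hy => ?_) _ (hsp _ (le_sup_of_le_left (le_sup_of_le_left le_sup_right)))
  swap
  · refine Ideal.mem_comap.1 ((sup_le (fun y hy => ?_) ((Ideal.span_singleton_le_iff_mem _).2 ?_) :
      _ ≤ Ideal.comap (algebraMap S F) _) hy)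
    · exact Ideal.mem_sup_left (Ideal.mem_sup_left
        (Ideal.mem_sup_left (Ideal.mem_map_of_mem _ hy)))
    · simpa only [sub_sub_cancel, Ideal.mem_comap] using
        sub_mem (Ideal.mem_sup_right (Ideal.mem_span_singleton_self (i₁ ε)))
          (Ideal.mem_sup_left (Ideal.mem_sup_right
            (Ideal.mem_span_singleton_self (i₁ ε - algebraMap S F ω))))
  have hψ : Function.Surjective ψ := by
    change Function.Surjective ψ.toLinearMap
    rw [← LinearMap.range_eq_top, eq_top_iff, ← hD, Submodule.span_le]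
    rintro _ ⟨e, rfl⟩
    exact ⟨i₂ e, hψ₂ e⟩
  have h3 := LVUp_kill μ ((Y.map (algebraMap S F) ⊔ sp fun j => i₂ (w j)) ⊔
    Ideal.span {i₁ ε - algebraMap S F ω})
    ((Ideal.Quotient.mkₐ S (Y.map (algebraMap S D))).comp ψ).toLinearMap
    (Ideal.Quotient.mk_surjective.comp hψ) fun x hx => Ideal.Quotient.eq_zero_iff_mem.2 ?_
  swap
  · refine Ideal.mem_comap.1 ((sup_le (sup_le ?_ ?_) ?_ : _ ≤ Ideal.comap ψ _) hx)
    · refine Ideal.map_le_iff_le_comap.2 fun y hy => ?_
      rw [Ideal.mem_comap, Ideal.mem_comap, ψ.commutes]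
      exact Ideal.mem_map_of_mem _ hy
    · refine Ideal.span_le.2 ?_
      rintro _ ⟨j, rfl⟩
      rw [SetLike.mem_coe, Ideal.mem_comap, hψ₂, hβ]
      exact zero_mem _
    · rw [Ideal.span_singleton_le_iff_mem, Ideal.mem_comap, map_sub, hψ₁, hε, ψ.commutes, sub_self]
      exact zero_mem _
  have h4 := LVUp_box (μ.comap (algebraMap S F)) (fun j => i₂ (w j))
    (Y.map (algebraMap S F) ⊔ Ideal.span {i₁ ε}) Q
  have h5 := LVUp_kill μ ((Y.map (algebraMap S F) ⊔ Ideal.span {i₁ ε}) ⊔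
    sp fun j => i₂ (w j) ^ Q) Φ hΦ fun x hx => ?_
  swap
  · have hx' : x ∈ K.map i₁ := by
      refine (sup_le (sup_le ?_ ?_) ?_ : _ ≤ K.map i₁) hx
      · refine Ideal.map_le_iff_le_comap.2 fun y hy => ?_
        rw [Ideal.mem_comap, ← i₁.commutes]
        exact Ideal.mem_map_of_mem _ (hY y hy)
      · exact (Ideal.span_singleton_le_iff_mem _).2 (Ideal.mem_map_of_mem _ hεK)
      · refine Ideal.span_le.2 ?_
        rintro _ ⟨j, rfl⟩
        dsimp only
        rw [← map_pow, hw, ← h12]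
        exact Ideal.mem_map_of_mem _ (hH j)
    suffices h : ∀ f, Φ (x * f) = 0 by simpa using h 1
    clear hx
    induction hx' using Submodule.span_induction with
    | mem x hx => obtain ⟨k, hk, rfl⟩ := hx; exact hΦK k hk
    | zero => simp
    | add x y _ _ hx hy => intro f; rw [add_mul, map_add, hx, hy, add_zero]
    | smul s x _ hx => intro f; rw [smul_eq_mul, mul_comm s, mul_assoc, hx]
  rw [μ.val_pi, Fintype.card_fin] at h5
  rw [hν, hν, sup_right_comm _ (Ideal.span {i₁ ε}) (sp fun j => i₂ (w j))] at h4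
  rw [hν, hν, hν, hν] at h0
  rw [mul_assoc, mul_add (r : ℝ≥0∞)]
  refine le_trans ?_ (mul_le_mul_right (h0.trans (add_le_add h1 h2)) _)
  rw [mul_add]
  exact add_le_add (mul_le_mul_right h3 _) (h5.trans h4)

theorem LVUp_fin {T S E D : Type} [CommRing T] [CommRing S] [CommRing E] [CommRing D]
    [Algebra T S] [Algebra T E] [Algebra S D] (μ : LF S) (𝔫 : Ideal T) [𝔫.IsMaximal]
    (β : E →+* D) (hβ : ∀ t, β (algebraMap T E t) = algebraMap S D (algebraMap T S t))
    (hD : Submodule.span S (Set.range β) = ⊤) (J : Ideal E) (J' : Ideal D)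
    (hJ : ∀ e ∈ J, β e ∈ J') (hn : ∃ c, ∀ a ∈ 𝔫 ^ c, algebraMap T E a = 0)
    (hlen : Module.length T (E ⧸ J) ≠ ⊤) :
    μ.val (D ⧸ J') ≤ Module.length T (E ⧸ J) * μ.val (S ⧸ 𝔫.map (algebraMap T S)) := by
  obtain ⟨c, hc⟩ := hn
  let _ : Algebra T D := (β.comp (algebraMap T E)).toAlgebra
  have : IsScalarTower T S D := .of_algebraMap_eq hβ
  have h := μ.val_tensor_le 𝔫 S (E ⧸ J) ⟨c, fun a ha x => by
    rw [Algebra.smul_def, IsScalarTower.algebraMap_apply T E, hc a ha, map_zero, zero_mul]⟩ hlen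
  rw [μ.congr (Submodule.quotEquivOfEq (𝔫.map (algebraMap T S) • ⊤ : Submodule S S)
    (𝔫.map (algebraMap T S)) (by simp))] at h
  refine le_trans (μ.le_of_surjective (LinearMap.liftBaseChange S
    (Ideal.quotientMapₐ J' (⟨β, fun _ => rfl⟩ : E →ₐ[T] D) hJ).toLinearMap) ?_) h
  rw [← LinearMap.range_eq_top, LinearMap.range_liftBaseChange, eq_top_iff]
  intro y _
  obtain ⟨y, rfl⟩ := Ideal.Quotient.mkₐ_surjective S J' y
  refine (?_ : (Submodule.span S (Set.range β)).map (Ideal.Quotient.mkₐ S J').toLinearMap ≤ _)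
    (Submodule.mem_map_of_mem (hD ▸ Submodule.mem_top))
  rw [Submodule.map_span]
  refine Submodule.span_mono ?_
  rintro _ ⟨_, ⟨e, rfl⟩, rfl⟩
  exact ⟨Ideal.Quotient.mk J e, rfl⟩

end Crest.Agent.R183
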