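import Crest.Agent.R183.LVReg
import Crest.Agent.R183.LVUpAux

/-!
# Upper bounds at a level
-/

set_option autoImplicit false

open scoped ENNReal NNReal TensorProduct
open MvPolynomial

namespace Crest.Agent.R183

variable {d : ℕ} {p : Par} {A : Type} [CommRing A] {x' : Fin d → A} {b n N₀ q' : ℕ}

theorem LVUp_len (W : WD d p A x' b) (V : Cover W.toTD n N₀ q') (hqr : QR x' A)
    (hb : 2 * p.a ≤ b) : ∃ r : ℕ, Module.length (TT d p.s A)
      (V.E ⧸ (sp (fun k => algebraMap (TT d p.s A) V.E (C (x' k))) ⊔ sp V.w)) = r ∧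
      (V.Q : ℝ≥0∞) ^ (d + p.s) * r ≤ V.ρ * p.Δ := by
  have h := (V.length_le hqr hb).trans (mul_le_mul_right W.hΔ _)
  generalize Module.length (TT d p.s A)
    (V.E ⧸ (sp (fun k => algebraMap (TT d p.s A) V.E (C (x' k))) ⊔ sp V.w)) = l at h ⊢
  induction l using ENat.recTopCoe with
  | top =>
    rw [ENat.mul_top (pow_ne_zero _ (by exact_mod_cast V.hQ.ne')), top_le_iff] at h
    exact absurd h (by exact_mod_cast ENat.natCast_ne_top _)
  | coe r => exact ⟨r, rfl, by exact_mod_cast h⟩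

theorem LVUp_nil {W : TD d p A x' b} (V : Cover W n N₀ q') :
    ∃ c, ∀ a ∈ sp (sig p.s x') ^ c, algebraMap (TT d p.s A) V.E a = 0 :=
  (sp_sig_pow_le_win p.s b).imp fun _ hc a ha => V.win_eq_zero a (hc ha)

theorem LVUp_v {W : TD d p A x' b} (V : Cover W n N₀ q') (hmax : (sp x').IsMaximal) {r : ℕ}
    (hr : Module.length (TT d p.s A)
      (V.E ⧸ (sp (fun k => algebraMap (TT d p.s A) V.E (C (x' k))) ⊔ sp V.w)) = r) :
    ∃ v : Fin r → V.E, ∀ e, ∃ c : Fin r → A,
      e - ∑ i, algebraMap (TT d p.s A) V.E (C (c i)) * v i ∈ sp V.w := by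
  let _ : Algebra A V.E := ((algebraMap (TT d p.s A) V.E).comp C).toAlgebra
  have : IsScalarTower A (TT d p.s A) V.E := .of_algebraMap_eq fun _ => rfl
  have := isMaximal_sp_sig p.s hmax
  obtain ⟨c, hc⟩ := LVUp_nil V
  refine LVUp_gens hmax (sp V.w) ⟨c, fun a ha => hc (C a) ?_⟩
    ((length_eq_of_residue_surj (sp (sig p.s x')) (exists_sub_C_mem_sp_sig p.s) _
      ⟨c, fun a ha x => ?_⟩).trans hr).le
  · have h := Ideal.mem_map_of_mem (C : A →+* TT d p.s A) ha
    rw [Ideal.map_pow, sp_map] at h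
    refine Ideal.pow_right_mono (Ideal.span_mono ?_) c h
    rintro _ ⟨k, rfl⟩
    exact ⟨Sum.inl k, rfl⟩
  · rw [Algebra.smul_def, IsScalarTower.algebraMap_apply (TT d p.s A) V.E, hc a ha, map_zero,
      zero_mul]

theorem LVUp_beta (W : WD d p A x' b) (V : Cover W.toTD n N₀ q') (t : TT d p.s A) :
    ((algebraMap (Cb W V) (DD W V)).comp (Cb.mk W V)) (algebraMap (TT d p.s A) V.E t) =
      algebraMap (TT d p.s A) (DD W V) t :=
  (IsScalarTower.algebraMap_apply (TT d p.s A) (Cb W V) (DD W V) t).symm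

theorem LVUp_beta_w (W : WD d p A x' b) (V : Cover W.toTD n N₀ q') (j : Tau d p.s) :
    ((algebraMap (Cb W V) (DD W V)).comp (Cb.mk W V)) (V.w j) = 0 := by
  rw [RingHom.comp_apply, show Cb.mk W V (V.w j) = 0 from Ideal.Quotient.eq_zero_iff_mem.2
    (Ideal.mem_sup_left (Ideal.subset_span ⟨j, rfl⟩)), map_zero]

theorem LVUp_spanD (W : WD d p A x' b) (V : Cover W.toTD n N₀ q') :
    letI : Algebra W.S (DD W V) := (DD.inr W V).toRingHom.toAlgebra
    Submodule.span W.S (Set.range ((algebraMap (Cb W V) (DD W V)).comp (Cb.mk W V))) = ⊤ := by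
  let _ : Algebra W.S (DD W V) := (DD.inr W V).toRingHom.toAlgebra
  refine eq_top_iff.2 fun f hf => ?_
  clear hf
  refine TensorProduct.induction_on (motive := fun f : DD W V => f ∈ Submodule.span W.S
    (Set.range ((algebraMap (Cb W V) (DD W V)).comp (Cb.mk W V)))) f (zero_mem _)
    (fun c s => ?_) fun x y hx hy => add_mem hx hy
  obtain ⟨e, rfl⟩ := Ideal.Quotient.mk_surjective c
  have h : s • ((algebraMap (Cb W V) (DD W V)).comp (Cb.mk W V)) e =
      DD.tmul W V (Cb.mk W V e) s :=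
    (Algebra.TensorProduct.tmul_mul_tmul 1 (Cb.mk W V e) s 1).trans (by
      rw [one_mul, mul_one]; rfl)
  change DD.tmul W V (Cb.mk W V e) s ∈ _
  exact h ▸ Submodule.smul_mem _ s (Submodule.subset_span ⟨e, rfl⟩)

theorem LVUp_spanR {τ S : Type} [CommRing S] (κ : A →+* S) :
    Submodule.span S (Set.range (MvPolynomial.map κ : MvPolynomial τ A →+* MvPolynomial τ S)) =
      ⊤ := by
  refine eq_top_iff.2 fun f hf => ?_
  clear hf
  induction f using MvPolynomial.induction_on' with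
  | monomial m s =>
    have h : monomial m s = s • MvPolynomial.map κ (monomial m 1) := by
      rw [map_monomial, map_one, smul_monomial, smul_eq_mul, mul_one]
    exact h ▸ Submodule.smul_mem _ s (Submodule.subset_span ⟨_, rfl⟩)
  | add f g hf hg => exact add_mem hf hg

theorem level_upper (W : WD d p A x' b) (V : Cover W.toTD n N₀ q') (hqr : QR x' A)
    (hmax : (sp x').IsMaximal) (hb : 2 * p.a ≤ b) :
    (V.Q : ℝ≥0∞) ^ (d + p.s) * (lamD W V).val (DD W V ⧸ sp (yD W V) ^ p.N) + V.ρ * p.u2 ≤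
      V.ρ * p.Δ * (p.u1 + p.u3) := by
  obtain ⟨r, hr, hle⟩ := LVUp_len W V hqr hb
  obtain ⟨v, hv⟩ := LVUp_v V hmax hr
  obtain ⟨free⟩ := V.free
  let _ : Algebra W.S (DD W V) := (DD.inr W V).toRingHom.toAlgebra
  have hc : ∀ t, algebraMap W.S (DD W V) (algebraMap (TT d p.s A) W.S t) =
      algebraMap (TT d p.s A) (DD W V) t := (DD.inr W V).commutes
  have h := LVUp_abs W.μ (MvPolynomial.map ((algebraMap (TT d p.s A) W.S).comp C)) C
    ((algebraMap (TT d p.s A) W.S).comp C) (fun a => map_C _ _) (LVUp_spanR _) V.hw v hv free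
    (sp W.y ^ p.N) (MvPolynomial.map (algebraMap (TT d p.s A) W.S) W.ε)
    (algebraMap (TT d p.s A) W.S (C W.w))
    (sp (fun j => MvPolynomial.map ((algebraMap (TT d p.s A) W.S).comp C) (W.H j)) ⊔
      Ideal.span {MvPolynomial.map (algebraMap (TT d p.s A) W.S) W.ε} ⊔
      (sp W.y ^ p.N).map (C : W.S →+* MvPolynomial (Tau d p.s) W.S) ⊔
      sp (fun j => (X j : MvPolynomial (Tau d p.s) W.S) ^ b))
    (fun t ht => ?_)
    (fun j => Ideal.mem_sup_left (Ideal.mem_sup_left (Ideal.mem_sup_left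
      (Ideal.subset_span ⟨j, rfl⟩))))
    (Ideal.mem_sup_left (Ideal.mem_sup_left (Ideal.mem_sup_right
      (Ideal.mem_span_singleton_self _))))
    (fun y hy => Ideal.mem_sup_left (Ideal.mem_sup_right (Ideal.mem_map_of_mem _ hy)))
    (aeval fun j => algebraMap (TT d p.s A) (DD W V) (X j))
    ((algebraMap (Cb W V) (DD W V)).comp (Cb.mk W V)) (fun t => ?_) (LVUp_beta_w W V)
    (LVUp_spanD W V) ?_
  · rw [Ideal.map_pow, sp_map, Fintype.card_sum, Fintype.card_fin, Fintype.card_fin,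
      ← W.μ.comap_algebraMap_val (D := DD W V)] at h
    exact (add_le_add le_rfl (mul_le_mul_right W.hu2 _)).trans
      (h.trans (mul_le_mul' hle (add_le_add W.hu1 W.hu3)))
  · refine Ideal.mem_comap.1 ((Ideal.span_le.2 ?_ : _ ≤ Ideal.comap _ _) ht)
    rintro _ ⟨k | j, rfl⟩
    · have h0 := W.PS _ (W.winP (Ideal.subset_span ⟨Sum.inl k, rfl⟩))
      rw [SetLike.mem_coe, Ideal.mem_comap]
      change MvPolynomial.map _ (C (x' k) ^ b) ∈ _
      change algebraMap _ _ (C (x' k) ^ b) = 0 at h0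
      rw [← map_pow] at h0 ⊢
      rw [map_C, RingHom.comp_apply, h0, map_zero]
      exact zero_mem _
    · rw [SetLike.mem_coe, Ideal.mem_comap]
      change MvPolynomial.map _ (X j ^ b) ∈ _
      rw [map_pow, map_X]
      exact Ideal.mem_sup_right (Ideal.subset_span ⟨j, rfl⟩)
  · rw [LVUp_beta]
    induction t using MvPolynomial.induction_on with
    | C a => rw [map_C, aeval_C, RingHom.comp_apply, hc]
    | add f g hf hg => simp only [map_add, hf, hg]
    | mul_X f j hf => simp only [map_mul, hf, map_X, aeval_X]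
  · rw [← sub_eq_zero.1 ((map_sub _ _ _).symm.trans (W.PS _ W.hε)), hc]
    induction W.ε using MvPolynomial.induction_on with
    | C a => rw [map_C, aeval_C, aeval_C, hc]; rfl
    | add f g hf hg => simp only [map_add, hf, hg]
    | mul_X f j hf => simp only [map_mul, hf, map_X, aeval_X]

theorem level_fin (W : WD d p A x' b) (V : Cover W.toTD n N₀ q') (hqr : QR x' A)
    (hmax : (sp x').IsMaximal) (hb : 2 * p.a ≤ b) :
    (V.Q : ℝ≥0∞) ^ (d + p.s) * (lamD W V).val (DD W V ⧸
        sp (fun k => algebraMap (TT d p.s A) (DD W V) (zz d p.s A k))) ≤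
      V.ρ * p.Δ * (p.a ^ d * p.ub) := by
  obtain ⟨r, hr, hle⟩ := LVUp_len W V hqr hb
  let _ : Algebra W.S (DD W V) := (DD.inr W V).toRingHom.toAlgebra
  have hc : ∀ t, algebraMap W.S (DD W V) (algebraMap (TT d p.s A) W.S t) =
      algebraMap (TT d p.s A) (DD W V) t := (DD.inr W V).commutes
  have := isMaximal_sp_sig p.s hmax
  have h1 := LVUp_box (lamD W V) (fun k => algebraMap (TT d p.s A) (DD W V) (C (x' k)))
    (sp fun k => algebraMap (TT d p.s A) (DD W V) (zz d p.s A k)) p.a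
  have h2 := LVUp_fin W.μ (sp (sig p.s x')) ((algebraMap (Cb W V) (DD W V)).comp (Cb.mk W V))
    (fun t => (LVUp_beta W V t).trans (hc t).symm) (LVUp_spanD W V)
    (sp (fun k => algebraMap (TT d p.s A) V.E (C (x' k))) ⊔ sp V.w)
    ((sp fun k => algebraMap (TT d p.s A) (DD W V) (zz d p.s A k)) ⊔
      sp fun k => algebraMap (TT d p.s A) (DD W V) (C (x' k))) (fun e he => ?_) (LVUp_nil V)
    (hr ▸ ENat.natCast_ne_top r)
  · rw [sup_eq_left.2, Fintype.card_fin] at h1
    · rw [hr, ← W.μ.comap_algebraMap_val (D := DD W V)] at h2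
      refine (mul_le_mul_right (h1.trans (mul_le_mul_right
        (h2.trans (mul_le_mul_right W.hub _)) _)) _).trans ?_
      rw [mul_left_comm ((p.a : ℝ≥0∞) ^ d), ← mul_assoc]
      exact mul_le_mul_left hle _
    · refine Ideal.span_le.2 ?_
      rintro _ ⟨k, rfl⟩
      have h3 := Ideal.mem_map_of_mem (algebraMap (TT d p.s A) (DD W V)) (W.hz (Sum.inl k))
      rw [map_pow] at h3
      refine (Ideal.map_le_iff_le_comap.2 ?_ : _ ≤ sp _) h3
      have h4 : ∀ t ∈ W.P, t ∈ (sp fun k => algebraMap (TT d p.s A) (DD W V)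
          (zz d p.s A k)).comap (algebraMap (TT d p.s A) (DD W V)) := fun t ht => by
        rw [Ideal.mem_comap, ← hc, W.PS t ht, map_zero]
        exact zero_mem _
      refine sup_le (sup_le (Ideal.map_le_iff_le_comap.1 (sp_map _ _).le) (Ideal.span_le.2 ?_))
        fun t ht => h4 t (W.winP ht)
      rintro _ ⟨j, rfl⟩
      exact h4 _ (W.HP j)
  · refine Ideal.mem_comap.1 ((sup_le (Ideal.span_le.2 ?_) (Ideal.span_le.2 ?_) :
      _ ≤ Ideal.comap _ _) he)
    · rintro _ ⟨k, rfl⟩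
      rw [SetLike.mem_coe, Ideal.mem_comap, LVUp_beta]
      exact Ideal.mem_sup_right (Ideal.subset_span ⟨k, rfl⟩)
    · rintro _ ⟨j, rfl⟩
      rw [SetLike.mem_coe, Ideal.mem_comap, LVUp_beta_w]
      exact zero_mem _

end Crest.Agent.R183
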