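import Crest.Agent.R183.HSBasic

/-!
# Localization at a prime with regular one-dimensional quotient
-/

set_option autoImplicit false

open IsLocalRing

namespace Crest.Agent.R183

section aux

variable {S : Type} [CommRing S] [IsLocalRing S] [IsNoetherianRing S] (𝔓 : Ideal S) [𝔓.IsPrime]

omit [IsLocalRing S] [IsNoetherianRing S] in
theorem LocDVR_cancel {z : S} (hz : z ∉ 𝔓) (I : Ideal (Localization.AtPrime 𝔓)) {a : S}
    (h : z * a ∈ I.under S) : a ∈ I.under S := by
  rw [Ideal.under, Ideal.mem_comap] at h ⊢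
  rw [map_mul] at h
  exact (Ideal.unit_mul_mem_iff_mem I
    (IsLocalization.map_units (Localization.AtPrime 𝔓) (⟨z, hz⟩ : 𝔓.primeCompl))).mp h

/-- `ℓ(S_𝔓 / I) ≤ ℓ(S / (I ∩ S + z))` for `z ∈ n \ 𝔓`. -/
theorem LocDVR_length_le {z : S} (hz : z ∉ 𝔓) (hzm : z ∈ maximalIdeal S)
    (I : Ideal (Localization.AtPrime 𝔓)) :
    Module.length (Localization.AtPrime 𝔓) (Localization.AtPrime 𝔓 ⧸ I) ≤
      Module.length S (S ⧸ (I.under S ⊔ Ideal.span {z})) := by
  rw [Module.length_quotient, Module.length_quotient]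
  refine Order.coheight_le_coheight_apply_of_strictMono
    (fun I : Ideal (Localization.AtPrime 𝔓) => I.under S ⊔ Ideal.span {z}) ?_ I
  intro I J hIJ
  refine lt_of_le_of_ne (sup_le_sup_right (Ideal.comap_mono hIJ.le) _) fun he => hIJ.not_ge ?_
  have h1 : J.under S ≤ I.under S := by
    refine Submodule.le_of_le_smul_of_le_jacobson_bot (I := maximalIdeal S)
      (IsNoetherian.noetherian _) (maximalIdeal_le_jacobson _) fun a ha => ?_
    have ha' : a ∈ I.under S ⊔ Ideal.span {z} := by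
      have he' : I.under S ⊔ Ideal.span {z} = J.under S ⊔ Ideal.span {z} := he
      rw [he']; exact Submodule.mem_sup_left ha
    obtain ⟨q, hq, c, hc, rfl⟩ := Submodule.mem_sup.mp ha'
    obtain ⟨b, rfl⟩ := Ideal.mem_span_singleton'.mp hc
    have hb : b ∈ J.under S := by
      refine LocDVR_cancel 𝔓 hz J ?_
      have := (J.under S).sub_mem ha (Ideal.comap_mono hIJ.le hq)
      rwa [add_sub_cancel_left, mul_comm] at this
    refine Submodule.add_mem_sup hq ?_
    rw [mul_comm]
    exact Submodule.smul_mem_smul hzm hb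
  rw [← IsLocalization.map_under 𝔓.primeCompl _ I, ← IsLocalization.map_under 𝔓.primeCompl _ J]
  exact Ideal.map_mono h1

omit [IsLocalRing S] [IsNoetherianRing S] in
/-- `ℓ(S / K) ≥ ℓ(S / (K + z)) + ℓ(S / J)` if `K : z ≤ J`. -/
theorem LocDVR_length_add_le (z : S) (J K : Ideal S) (h : ∀ a, z * a ∈ K → a ∈ J) :
    Module.length S (S ⧸ J) + Module.length S (S ⧸ (K ⊔ Ideal.span {z})) ≤
      Module.length S (S ⧸ K) := by
  set f : S →ₗ[S] S ⧸ K := K.mkQ ∘ₗ LinearMap.lsmul S S z with hf
  have hker : LinearMap.ker f ≤ J := fun a ha =>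
    h a ((Submodule.Quotient.mk_eq_zero K).mp ha)
  have e1 : Module.length S (S ⧸ J) ≤ Module.length S (S ⧸ LinearMap.ker f) :=
    Module.length_le_of_surjective (Submodule.factor hker) (Submodule.factor_surjective hker)
  have e2 := Module.length_eq_add_of_exact ((LinearMap.ker f).liftQ f le_rfl)
    (Submodule.factor (le_sup_left : K ≤ K ⊔ Ideal.span {z}))
    (by rw [← LinearMap.ker_eq_bot]; exact Submodule.ker_liftQ_eq_bot _ _ _ le_rfl)
    (Submodule.factor_surjective _) (by
      intro y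
      obtain ⟨y, rfl⟩ := K.mkQ_surjective y
      constructor
      · intro hy
        have hy' : y ∈ K ⊔ Ideal.span {z} := by
          simpa [Ideal.Quotient.eq_zero_iff_mem] using hy
        obtain ⟨q, hq, c, hc, rfl⟩ := Submodule.mem_sup.mp hy'
        obtain ⟨b, rfl⟩ := Ideal.mem_span_singleton'.mp hc
        refine ⟨(LinearMap.ker f).mkQ b, ?_⟩
        rw [Submodule.mkQ_apply, Submodule.liftQ_apply, map_add, Submodule.mkQ_apply,
          (Submodule.Quotient.mk_eq_zero K).mpr hq, zero_add, mul_comm]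
        rfl
      · rintro ⟨b, hb⟩
        obtain ⟨b, rfl⟩ := (LinearMap.ker f).mkQ_surjective b
        rw [Submodule.mkQ_apply, Submodule.liftQ_apply] at hb
        rw [← hb]
        change (K ⊔ Ideal.span {z}).mkQ (z * b) = 0
        rw [Submodule.mkQ_apply, Submodule.Quotient.mk_eq_zero]
        exact Submodule.mem_sup_right (Ideal.mul_mem_right _ _ (Ideal.mem_span_singleton_self z)))
  rw [e2]
  gcongr

/-- The ideals `∑_{i ≤ N} 𝔓^{(i)} z^{N - i}`. -/
noncomputable def LocDVR_J (z : S) : ℕ → Ideal S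
  | 0 => ⊤
  | N + 1 => Ideal.span {z} * LocDVR_J z N ⊔
      (maximalIdeal (Localization.AtPrime 𝔓) ^ (N + 1)).under S

omit [IsLocalRing S] [IsNoetherianRing S] in
theorem LocDVR_under_le (z : S) (N : ℕ) :
    (maximalIdeal (Localization.AtPrime 𝔓) ^ (N + 1)).under S ≤ LocDVR_J 𝔓 z N := by
  cases N with
  | zero => exact le_top
  | succ N =>
    exact le_trans (Ideal.comap_mono (Ideal.pow_le_pow_right (Nat.le_succ _))) le_sup_right

omit [IsLocalRing S] [IsNoetherianRing S] in
theorem LocDVR_mul_under_le (N : ℕ) :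
    𝔓 * (maximalIdeal (Localization.AtPrime 𝔓) ^ N).under S ≤
      (maximalIdeal (Localization.AtPrime 𝔓) ^ (N + 1)).under S := by
  refine Ideal.mul_le.mpr fun a ha b hb => ?_
  rw [Ideal.under, Ideal.mem_comap] at hb ⊢
  rw [map_mul, pow_succ']
  exact Ideal.mul_mem_mul
    ((IsLocalization.AtPrime.to_map_mem_maximal_iff (Localization.AtPrime 𝔓) 𝔓 a).mpr ha) hb

omit [IsLocalRing S] [IsNoetherianRing S] in
theorem LocDVR_mul_J_le (z : S) (N : ℕ) : 𝔓 * LocDVR_J 𝔓 z N ≤ LocDVR_J 𝔓 z (N + 1) := by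
  induction N with
  | zero =>
    have := LocDVR_mul_under_le 𝔓 0
    rw [pow_zero, Ideal.one_eq_top, Ideal.under, Ideal.comap_top] at this
    exact this.trans le_sup_right
  | succ N ih =>
    rw [LocDVR_J, Ideal.mul_sup, mul_left_comm]
    exact sup_le_sup (Ideal.mul_mono_right ih) (LocDVR_mul_under_le 𝔓 (N + 1))

theorem LocDVR_main {z : S} (hz : z ∉ 𝔓) (hm : maximalIdeal S = 𝔓 ⊔ Ideal.span {z}) (N : ℕ) :
    psum (HS (Localization.AtPrime 𝔓)) N ≤ HS S N := by
  have hzm : z ∈ maximalIdeal S := by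
    rw [hm]; exact Submodule.mem_sup_right (Ideal.mem_span_singleton_self z)
  have h1 : ∀ N, maximalIdeal S ^ N ≤ LocDVR_J 𝔓 z N := by
    intro N
    induction N with
    | zero => exact le_top
    | succ N ih =>
      rw [pow_succ']
      refine (Ideal.mul_mono_right ih).trans ?_
      rw [hm, Ideal.sup_mul]
      exact sup_le (LocDVR_mul_J_le 𝔓 z N) le_sup_left
  have h2 : ∀ N, psum (HS (Localization.AtPrime 𝔓)) N ≤
      Module.length S (S ⧸ LocDVR_J 𝔓 z N) := by
    intro N
    induction N with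
    | zero =>
      have : Subsingleton (Localization.AtPrime 𝔓 ⧸
          maximalIdeal (Localization.AtPrime 𝔓) ^ 0) := by
        rw [pow_zero, Ideal.one_eq_top]; infer_instance
      simp [psum, HS]
    | succ N ih =>
      have e : psum (HS (Localization.AtPrime 𝔓)) (N + 1) =
          psum (HS (Localization.AtPrime 𝔓)) N + HS (Localization.AtPrime 𝔓) (N + 1) := by
        rw [psum, Finset.sum_range_succ]; rfl
      rw [e]
      refine le_trans ?_ (LocDVR_length_add_le z (LocDVR_J 𝔓 z N) (LocDVR_J 𝔓 z (N + 1)) ?_)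
      · refine add_le_add ih ?_
        refine (LocDVR_length_le 𝔓 hz hzm _).trans (le_of_eq ?_)
        have : (maximalIdeal (Localization.AtPrime 𝔓) ^ (N + 1)).under S ⊔ Ideal.span {z} =
            LocDVR_J 𝔓 z (N + 1) ⊔ Ideal.span {z} := by
          rw [LocDVR_J]
          refine le_antisymm (sup_le_sup_right le_sup_right _) (sup_le (sup_le ?_ le_sup_left)
            le_sup_right)
          exact Ideal.mul_le_left.trans le_sup_right
        rw [this]
      · intro a ha
        rw [LocDVR_J] at ha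
        obtain ⟨c, hc, p, hp, he⟩ := Submodule.mem_sup.mp ha
        obtain ⟨b, hb, rfl⟩ := Ideal.mem_span_singleton_mul.mp hc
        have : a - b ∈ LocDVR_J 𝔓 z N := by
          refine LocDVR_under_le 𝔓 z N (LocDVR_cancel 𝔓 hz _ ?_)
          have : z * (a - b) = p := by linear_combination -he
          rwa [this]
        simpa using (LocDVR_J 𝔓 z N).add_mem this hb
  exact (h2 N).trans (Module.length_le_of_surjective (Submodule.factor (h1 N))
    (Submodule.factor_surjective _))

end aux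

/-- If `S / 𝔓` is a discrete valuation ring, `∑_{j ≤ N} ℓ(S_𝔓 / 𝔓^j) ≤ ℓ(S / n^N)`. -/
theorem psum_hs_localization_le (S : Type) [CommRing S] [IsLocalRing S] [IsNoetherianRing S]
    (𝔓 : Ideal S) [𝔓.IsPrime] [IsDiscreteValuationRing (S ⧸ 𝔓)] (N : ℕ) :
    psum (HS (Localization.AtPrime 𝔓)) N ≤ HS S N := by
  obtain ⟨ϖ, hϖ⟩ := IsDiscreteValuationRing.exists_irreducible (S ⧸ 𝔓)
  obtain ⟨z, rfl⟩ := Ideal.Quotient.mk_surjective ϖ
  have hz : z ∉ 𝔓 := fun h => hϖ.ne_zero (Ideal.Quotient.eq_zero_iff_mem.mpr h)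
  refine LocDVR_main 𝔓 hz ?_ N
  have h1 := hϖ.maximalIdeal_eq
  have h2 : (maximalIdeal (S ⧸ 𝔓)).comap (Ideal.Quotient.mk 𝔓) = maximalIdeal S :=
    eq_maximalIdeal (Ideal.comap_isMaximal_of_surjective _ Ideal.Quotient.mk_surjective)
  rw [← h2, h1, ← Set.image_singleton, ← Ideal.map_span,
    Ideal.comap_map_of_surjective _ Ideal.Quotient.mk_surjective, ← RingHom.ker_eq_comap_bot,
    Ideal.mk_ker, sup_comm]

end Crest.Agent.R183
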