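import Crest.Agent.R183.Complete

/-!
# A complete one-dimensional local domain has a finite birational discrete valuation ring
-/

set_option autoImplicit false

open IsLocalRing

namespace Crest.Agent.R183

/-- descending chains of ideals stabilise modulo a nonzero element -/
theorem locNorm_stab {D : Type} [CommRing D] [IsDomain D] [IsNoetherianRing D]
    [Ring.KrullDimLE 1 D] {t : D} (ht : t ≠ 0) (I : ℕ → Ideal D) (hI : Antitone I) :
    ∃ l, ∀ k, l ≤ k → I k ≤ Ideal.span {t} ⊔ I (k + 1) := by
  have := (isFiniteLength_iff_isNoetherian_isArtinian.1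
    (isFiniteLength_quotient_span_singleton D (mem_nonZeroDivisors_of_ne_zero ht))).2
  obtain ⟨l, hl⟩ := IsArtinian.monotone_stabilizes (R := D) (M := D ⧸ Ideal.span {t})
    ⟨fun k => OrderDual.toDual (Submodule.map (Submodule.mkQ (Ideal.span {t})) (I k)),
      fun _ _ h => Submodule.map_mono (hI h)⟩
  refine ⟨l, fun k hk => ?_⟩
  have e : Submodule.map (Submodule.mkQ (Ideal.span {t})) (I k) =
      Submodule.map (Submodule.mkQ (Ideal.span {t})) (I (k + 1)) :=
    (hl k hk).symm.trans (hl (k + 1) (by omega))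
  rw [← Submodule.comap_map_mkQ, ← e]
  exact Submodule.le_comap_map _ _

/-- Krull-Akizuki in rank one -/
theorem locNorm_noeth {D V M : Type} [CommRing D] [IsDomain D] [IsNoetherianRing D]
    [Ring.KrullDimLE 1 D] [CommRing V] [IsDomain V] [Algebra D V]
    (hinj : Function.Injective (algebraMap D V))
    (hbir : ∀ v : V, ∃ a b : D, b ≠ 0 ∧ algebraMap D V b * v = algebraMap D V a)
    {t : D} (ht : t ≠ 0) [AddCommGroup M] [Module D M] (g : V →ₗ[D] M)
    (hg : Function.Surjective g) (hgt : ∀ x, g (algebraMap D V t * x) = 0) :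
    IsNoetherian D M := by
  set s := algebraMap D V t with hs
  have hs0 : s ≠ 0 := fun h => ht (hinj (h.trans (map_zero _).symm))
  obtain ⟨l, hl⟩ := locNorm_stab ht (fun k => (Ideal.span {s ^ k}).comap (algebraMap D V))
    fun i j h => Ideal.comap_mono (Ideal.span_singleton_le_span_singleton.2 (pow_dvd_pow s h))
  have down : ∀ (x : V) (k : ℕ), l ≤ k →
      (∃ u x', s ^ (k + 1) * x = algebraMap D V u + s ^ (k + 2) * x') →
      ∃ u x', s ^ k * x = algebraMap D V u + s ^ (k + 1) * x' := by
    rintro x k hk ⟨u, x', h⟩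
    have hu : u ∈ (Ideal.span {s ^ (k + 1)}).comap (algebraMap D V) :=
      Ideal.mem_span_singleton.2 ⟨x - s * x', by linear_combination -h⟩
    obtain ⟨_, hu', w, hw, rfl⟩ := Submodule.mem_sup.1 (hl (k + 1) (by omega) hu)
    obtain ⟨u', rfl⟩ := Ideal.mem_span_singleton.1 hu'
    obtain ⟨x'', hx⟩ := Ideal.mem_span_singleton.1 (Ideal.mem_comap.1 hw)
    refine ⟨u', x' + x'', mul_left_cancel₀ hs0 ?_⟩
    rw [map_add, map_mul, hx] at h
    linear_combination h
  have key : ∀ x : V, ∃ u x', s ^ l * x = algebraMap D V u + s ^ (l + 1) * x' := fun x => by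
    obtain ⟨a, b, hb, hab⟩ := hbir x
    obtain ⟨n, hn⟩ := locNorm_stab hb (fun k => Ideal.span {t ^ k})
      fun i j h => Ideal.span_singleton_le_span_singleton.2 (pow_dvd_pow t h)
    obtain ⟨_, h1, _, h2, e⟩ := Submodule.mem_sup.1
      (hn (l + n) (by omega) (Ideal.mem_span_singleton_self _))
    obtain ⟨v, rfl⟩ := Ideal.mem_span_singleton.1 h1
    obtain ⟨w, rfl⟩ := Ideal.mem_span_singleton.1 h2
    have e' := congrArg (algebraMap D V) e
    rw [map_add, map_mul, map_mul, map_pow, map_pow] at e'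
    have h0 : ∃ u x', s ^ (l + n) * x = algebraMap D V u + s ^ (l + n + 1) * x' :=
      ⟨a * v, algebraMap D V w * x, by
        rw [map_mul]
        linear_combination (-x) * e' + algebraMap D V v * hab⟩
    clear e e' hn h2
    induction n with
    | zero => exact h0
    | succ n ih => exact ih (down x (l + n) (by omega) h0)
  let q : V →ₗ[D] V ⧸ Ideal.span {s ^ (l + 1)} := (Ideal.Quotient.mkₐ D _).toLinearMap
  let φ : V →ₗ[D] V ⧸ Ideal.span {s ^ (l + 1)} := q ∘ₗ LinearMap.mulLeft D (s ^ l)
  have hle : LinearMap.range φ ≤ LinearMap.range (q ∘ₗ Algebra.linearMap D V) := by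
    rintro _ ⟨x, rfl⟩
    obtain ⟨u, x', h⟩ := key x
    refine ⟨u, Ideal.Quotient.eq.2 (Ideal.mem_span_singleton.2 ⟨-x', ?_⟩)⟩
    change algebraMap D V u - s ^ l * x = _
    linear_combination -h
  have h1 : IsNoetherian D (LinearMap.range φ) := isNoetherian_of_le hle
  have h2 : IsNoetherian D (V ⧸ LinearMap.ker φ) :=
    isNoetherian_of_linearEquiv φ.quotKerEquivRange.symm
  have hker : LinearMap.ker φ ≤ LinearMap.ker g := fun x hx => by
    obtain ⟨y, hy⟩ := Ideal.mem_span_singleton.1 (Ideal.Quotient.eq_zero_iff_mem.1 hx)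
    have hy' : s ^ l * x = s ^ (l + 1) * y := hy
    have : x = s * y := mul_left_cancel₀ (pow_ne_zero l hs0) (by linear_combination hy')
    rw [LinearMap.mem_ker, this, hgt]
  exact isNoetherian_of_surjective ((LinearMap.ker φ).liftQ g hker)
    (by rw [Submodule.range_liftQ, LinearMap.range_eq_top.2 hg])

theorem locNorm_main {D V : Type} [CommRing D] [IsDomain D] [IsLocalRing D]
    [IsNoetherianRing D] [IsAdicComplete (maximalIdeal D) D] (h : ringKrullDim D = 1)
    [CommRing V] [IsDomain V] [ValuationRing V] [Algebra D V] [IsLocalHom (algebraMap D V)]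
    (hinj : Function.Injective (algebraMap D V))
    (hbir : ∀ v : V, ∃ a b : D, b ≠ 0 ∧ algebraMap D V b * v = algebraMap D V a) :
    IsDiscreteValuationRing V ∧ Module.Finite D V := by
  have : Ring.KrullDimLE 1 D := Ring.krullDimLE_iff.2 h.le
  have hm : maximalIdeal D ≠ ⊥ := fun hm => by
    rw [ringKrullDim_eq_zero_of_isField (isField_iff_maximalIdeal_eq.2 hm)] at h
    exact zero_ne_one h
  obtain ⟨t, htm, ht⟩ := Submodule.exists_mem_ne_zero_of_ne_bot hm
  have hN : IsNoetherianRing V := by
    refine (isNoetherianRing_iff_ideal_fg V).2 fun J => ?_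
    by_cases hJ : J = ⊥
    · rw [hJ]; exact Submodule.fg_bot
    obtain ⟨v, hv, hv0⟩ := Submodule.exists_mem_ne_zero_of_ne_bot hJ
    obtain ⟨a, b, hb, hab⟩ := hbir v
    have ha : a ≠ 0 := by
      rintro rfl
      rw [map_zero, mul_eq_zero] at hab
      exact hab.elim (fun h => hb (hinj (h.trans (map_zero _).symm))) hv0
    have h1 : IsNoetherian D (V ⧸ Ideal.span {algebraMap D V a}) :=
      locNorm_noeth hinj hbir ha (Ideal.Quotient.mkₐ D _).toLinearMap Ideal.Quotient.mk_surjective
        fun x => Ideal.Quotient.eq_zero_iff_mem.2 (Ideal.mem_span_singleton.2 ⟨x, rfl⟩)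
    have h2 : IsNoetherian V (V ⧸ Ideal.span {algebraMap D V a}) := isNoetherian_of_tower D h1
    refine Submodule.fg_of_fg_map_of_fg_inf_ker (Submodule.mkQ (Ideal.span {algebraMap D V a}))
      (IsNoetherian.noetherian _) ?_
    rw [Submodule.ker_mkQ, inf_eq_right.2 ((Ideal.span_singleton_le_iff_mem _).2
      (hab ▸ J.mul_mem_left _ hv))]
    exact Submodule.fg_span_singleton _
  have hF : ¬ IsField V := fun hF => by
    obtain ⟨y, hy⟩ := hF.mul_inv_cancel (a := algebraMap D V t)
      fun h => ht (hinj (h.trans (map_zero _).symm))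
    exact htm (IsUnit.of_map (algebraMap D V) t (IsUnit.of_mul_eq_one y hy))
  refine ⟨((IsDiscreteValuationRing.TFAE V hF).out 1 0).1 ‹ValuationRing V›, ?_⟩
  have h1 : IsNoetherian D (V ⧸ (maximalIdeal D • ⊤ : Submodule D V)) :=
    locNorm_noeth hinj hbir ht (Submodule.mkQ _) (Submodule.mkQ_surjective _) fun x => by
      rw [Submodule.mkQ_apply, Submodule.Quotient.mk_eq_zero, ← Algebra.smul_def]
      exact Submodule.smul_mem_smul htm trivial
  have h2 : IsHausdorff (maximalIdeal D) V := ⟨fun x hx => by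
    have : x ∈ ⨅ n : ℕ, maximalIdeal V ^ n := by
      refine Submodule.mem_iInf _ |>.2 fun n => ?_
      have := SModEq.zero.1 (hx n)
      rw [Ideal.smul_top_eq_map, Ideal.map_pow] at this
      exact Ideal.pow_right_mono (map_maximalIdeal_le _) n this
    rwa [Ideal.iInf_pow_eq_bot_of_isLocalRing _ (maximalIdeal.isMaximal V).ne_top] at this⟩
  exact finite_of_complete (maximalIdeal D) V

theorem exists_finite_dvr (D : Type) [CommRing D] [IsDomain D] [IsLocalRing D]
    [IsNoetherianRing D] [IsAdicComplete (maximalIdeal D) D] (h : ringKrullDim D = 1) :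
    ∃ (V : Type) (_ : CommRing V) (_ : IsDomain V) (_ : IsDiscreteValuationRing V)
      (_ : Algebra D V), Module.Finite D V ∧ Function.Injective (algebraMap D V) ∧
      ∀ v : V, ∃ a b : D, b ≠ 0 ∧ algebraMap D V b * v = algebraMap D V a := by
  obtain ⟨A, hA, hloc⟩ := exists_factor_valuationRing (algebraMap D (FractionRing D))
  let alg : Algebra D A := ((algebraMap D (FractionRing D)).codRestrict A.toSubring hA).toAlgebra
  have : IsLocalHom (algebraMap D A) := hloc
  have hinj : Function.Injective (algebraMap D A) := fun a b e =>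
    IsFractionRing.injective D (FractionRing D) (congrArg Subtype.val e)
  have hbir : ∀ v : A, ∃ a b : D, b ≠ 0 ∧ algebraMap D A b * v = algebraMap D A a := fun v => by
    obtain ⟨⟨a, b⟩, e⟩ := IsLocalization.surj (nonZeroDivisors D) v.1
    exact ⟨a, b, nonZeroDivisors.ne_zero b.2, Subtype.ext ((mul_comm _ _).trans e)⟩
  obtain ⟨h1, h2⟩ := locNorm_main h hinj hbir
  exact ⟨A, inferInstance, inferInstance, h1, alg, h2, hinj, hbir⟩

end Crest.Agent.R183
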