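import Crest.Agent.R183.HSBasic

/-!
# Hilbert–Samuel functions of localized polynomial rings
-/

set_option autoImplicit false

open IsLocalRing Polynomial

namespace Crest.Agent.R183

theorem locPoly_anti {R : Type} [CommRing R] {I J : Ideal R} (h : I ≤ J) :
    Module.length R (R ⧸ J) ≤ Module.length R (R ⧸ I) :=
  Module.length_le_of_surjective (Submodule.factor h) (Submodule.factor_surjective h)

theorem locPoly_comap {R S : Type} [CommRing R] [CommRing S] (f : R →+* S)
    (hf : Function.Surjective f) (I : Ideal S) :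
    Module.length R (R ⧸ I.comap f) = Module.length S (S ⧸ I) := by
  rw [Module.length_quotient, Module.length_quotient, Ideal.coheight_comap_of_surjective f hf]

theorem locPoly_exact {R : Type} [CommRing R] (I J : Ideal R) (t : R)
    (h : ∀ x, x ∈ I ↔ t * x ∈ J) :
    Module.length R (R ⧸ J) =
      Module.length R (R ⧸ I) + Module.length R (R ⧸ (J ⊔ Ideal.span {t})) := by
  have h1 : I ≤ Submodule.comap (LinearMap.mulLeft R t) J := fun x hx => (h x).1 hx
  refine Module.length_eq_add_of_exact (Submodule.mapQ I J (LinearMap.mulLeft R t) h1)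
    (Submodule.factor (le_sup_left : J ≤ J ⊔ Ideal.span {t})) ?_
    (Submodule.factor_surjective _) ?_
  · rw [← LinearMap.ker_eq_bot, eq_bot_iff]
    intro x hx
    obtain ⟨x, rfl⟩ := Submodule.mkQ_surjective I x
    rw [LinearMap.mem_ker, Submodule.mkQ_apply, Submodule.mapQ_apply,
      Submodule.Quotient.mk_eq_zero] at hx
    rw [Submodule.mem_bot, Submodule.mkQ_apply, Submodule.Quotient.mk_eq_zero]
    exact (h x).2 hx
  · intro y
    obtain ⟨y, rfl⟩ := Submodule.mkQ_surjective J y
    rw [Submodule.factor_mk, Submodule.mkQ_apply, Submodule.Quotient.mk_eq_zero]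
    constructor
    · intro hy
      obtain ⟨u, hu, v, hv, rfl⟩ := Submodule.mem_sup.1 hy
      obtain ⟨w, rfl⟩ := Ideal.mem_span_singleton'.1 hv
      refine ⟨Submodule.Quotient.mk w, ?_⟩
      rw [Submodule.mapQ_apply, Submodule.mkQ_apply, Submodule.Quotient.eq]
      simpa [mul_comm] using J.neg_mem hu
    · rintro ⟨w, hw⟩
      obtain ⟨w, rfl⟩ := Submodule.mkQ_surjective I w
      rw [Submodule.mkQ_apply, Submodule.mapQ_apply, Submodule.mkQ_apply,
        Submodule.Quotient.eq] at hw
      have e : y = -(t * w - y) + w * t := by ring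
      rw [e]
      exact Submodule.add_mem_sup (J.neg_mem hw) (Ideal.mem_span_singleton'.2 ⟨w, rfl⟩)

theorem locPoly_hs_zero (B : Type) [CommRing B] [IsLocalRing B] : HS B 0 = 0 := by
  rw [HS, pow_zero, Ideal.one_eq_top, Module.length_eq_zero_iff]
  infer_instance

theorem locPoly_upper {B B' : Type} [CommRing B] [IsLocalRing B] [CommRing B'] [IsLocalRing B']
    (φ : B →+* B') (g : B') (h : maximalIdeal B' = (maximalIdeal B).map φ ⊔ Ideal.span {g})
    (N : ℕ) : HS B' N ≤ psum (HS B) N := by
  have hg : g ∈ maximalIdeal B' := by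
    rw [h]; exact Ideal.mem_sup_right (Ideal.mem_span_singleton_self g)
  have hne : Ideal.span {g} ≠ ⊤ := by
    rw [Ne, Ideal.span_singleton_eq_top]; exact hg
  have : Nontrivial (B' ⧸ Ideal.span {g}) := Ideal.Quotient.nontrivial_iff.2 hne
  have : IsLocalRing (B' ⧸ Ideal.span {g}) :=
    IsLocalRing.of_surjective' (Ideal.Quotient.mk _) Ideal.Quotient.mk_surjective
  have hm : (maximalIdeal B').map (Ideal.Quotient.mk (Ideal.span {g})) =
      maximalIdeal (B' ⧸ Ideal.span {g}) :=
    IsLocalRing.map_maximalIdeal_of_surjective _ Ideal.Quotient.mk_surjective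
  have hA : ∀ j, Module.length B' (B' ⧸ (maximalIdeal B' ^ j ⊔ Ideal.span {g})) ≤ HS B j := by
    intro j
    let _ : Algebra B (B' ⧸ Ideal.span {g}) := ((Ideal.Quotient.mk _).comp φ).toAlgebra
    have h1 := hs_le_of_map_eq B (B' ⧸ Ideal.span {g}) (by
      rw [← hm, h, Ideal.map_sup, Ideal.map_quotient_self, sup_bot_eq, Ideal.map_map]
      rfl) j
    refine le_trans (le_of_eq ?_) h1
    rw [HS, ← locPoly_comap (Ideal.Quotient.mk (Ideal.span {g})) Ideal.Quotient.mk_surjective,
      ← hm, ← Ideal.map_pow, Ideal.comap_map_of_surjective' _ Ideal.Quotient.mk_surjective,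
      Ideal.mk_ker]
  induction N with
  | zero => rw [locPoly_hs_zero]; exact zero_le
  | succ N ih =>
    rw [psum, Finset.sum_range_succ, HS,
      locPoly_exact (Submodule.comap (LinearMap.mulLeft B' g) (maximalIdeal B' ^ (N + 1)))
        (maximalIdeal B' ^ (N + 1)) g fun _ => Iff.rfl]
    refine add_le_add (le_trans (locPoly_anti fun x hx => ?_) ih) (hA _)
    change g * x ∈ maximalIdeal B' ^ (N + 1)
    rw [pow_succ']
    exact Ideal.mul_mem_mul hg hx

/-- upper bound at any maximal ideal of `B[X]` over the maximal ideal of `B` -/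
theorem hs_poly_le (B : Type) [CommRing B] [IsLocalRing B] [IsNoetherianRing B]
    (𝔫 : Ideal B[X]) [𝔫.IsMaximal] (h : (maximalIdeal B).map (C : B →+* B[X]) ≤ 𝔫) (N : ℕ) :
    HS (Localization.AtPrime 𝔫) N ≤ psum (HS B) N := by
  set φ : B[X] →+* (ResidueField B)[X] := Polynomial.mapRingHom (residue B) with hφ
  have hs : Function.Surjective φ := Polynomial.map_surjective _ residue_surjective
  have hk : RingHom.ker φ = (maximalIdeal B).map (C : B →+* B[X]) := by
    rw [hφ, Polynomial.ker_mapRingHom, ker_residue]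
  obtain ⟨g', hg'⟩ := (IsPrincipalIdealRing.principal (𝔫.map φ)).principal
  obtain ⟨g, rfl⟩ := hs g'
  have h1 : 𝔫 = (maximalIdeal B).map (C : B →+* B[X]) ⊔ Ideal.span {g} := by
    have h2 := congrArg (Ideal.comap φ) hg'
    rw [Ideal.submodule_span_eq, ← Set.image_singleton, ← Ideal.map_span,
      Ideal.comap_map_of_surjective' _ hs, Ideal.comap_map_of_surjective' _ hs, hk,
      sup_eq_left.2 h] at h2
    rw [sup_comm]
    exact h2
  refine locPoly_upper ((algebraMap B[X] (Localization.AtPrime 𝔫)).comp C)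
    (algebraMap B[X] _ g) ?_ N
  rw [← Localization.AtPrime.map_eq_maximalIdeal, ← Ideal.map_map, ← Set.image_singleton,
    ← Ideal.map_span, ← Ideal.map_sup, ← h1]

theorem locPoly_W_mul {B : Type} [CommRing B] (m : Ideal B) {a b : ℕ} {f g : PowerSeries B}
    (hf : ∀ i, PowerSeries.coeff i f ∈ m ^ (a - i))
    (hg : ∀ i, PowerSeries.coeff i g ∈ m ^ (b - i)) (k : ℕ) :
    PowerSeries.coeff k (f * g) ∈ m ^ (a + b - k) := by
  rw [PowerSeries.coeff_mul]
  refine Ideal.sum_mem _ fun p hp => ?_
  have h1 := Ideal.mul_mem_mul (hf p.1) (hg p.2)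
  rw [← pow_add] at h1
  refine Ideal.pow_le_pow_right ?_ h1
  have : p.1 + p.2 = k := by simpa using hp
  omega

/-- Power series whose `i`-th coefficient lies in `m ^ (N - i)`. -/
def locPoly_W {B : Type} [CommRing B] (m : Ideal B) (N : ℕ) : Ideal (PowerSeries B) where
  carrier := {f | ∀ i, PowerSeries.coeff i f ∈ m ^ (N - i)}
  add_mem' hf hg i := by rw [map_add]; exact Ideal.add_mem _ (hf i) (hg i)
  zero_mem' i := by rw [map_zero]; exact Ideal.zero_mem _
  smul_mem' c f hf i := by
    have := locPoly_W_mul m (a := 0) (f := c) (fun i => by simp) hf i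
    rwa [zero_add] at this

theorem locPoly_lower {B B' : Type} [CommRing B] [IsLocalRing B] [CommRing B'] [IsLocalRing B']
    (Θ : B' →+* PowerSeries B) (t : B') (ht : Θ t = PowerSeries.X)
    (hs : Function.Surjective ((PowerSeries.constantCoeff (R := B)).comp Θ)) (N : ℕ) :
    psum (HS B) N ≤ HS B' N := by
  set m := maximalIdeal B
  have hloc := IsLocalHom.of_surjective _ hs
  have h1 : ∀ N, maximalIdeal B' ^ N ≤ (locPoly_W m N).comap Θ := by
    intro N
    induction N with
    | zero => intro x _ i; simp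
    | succ N ih =>
      rw [pow_succ, Ideal.mul_le]
      intro x hx y hy
      rw [Ideal.mem_comap, map_mul]
      refine locPoly_W_mul m (ih hx) fun i => ?_
      cases i with
      | zero =>
        rw [PowerSeries.coeff_zero_eq_constantCoeff_apply, Nat.sub_zero, pow_one]
        exact map_nonunit ((PowerSeries.constantCoeff (R := B)).comp Θ) y hy
      | succ i => simp
  refine le_trans ?_ (locPoly_anti (h1 N))
  induction N with
  | zero => simp [psum, locPoly_hs_zero]
  | succ N ih =>
    rw [psum, Finset.sum_range_succ,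
      locPoly_exact ((locPoly_W m N).comap Θ) ((locPoly_W m (N + 1)).comap Θ) t]
    · refine add_le_add ih ?_
      rw [HS, ← locPoly_comap _ hs]
      refine locPoly_anti (sup_le (fun x hx => ?_) ?_)
      · have := hx 0
        rwa [PowerSeries.coeff_zero_eq_constantCoeff_apply] at this
      · rw [Ideal.span_le, Set.singleton_subset_iff, SetLike.mem_coe, Ideal.mem_comap,
          RingHom.comp_apply, ht, PowerSeries.constantCoeff_X]
        exact Ideal.zero_mem _
    · intro x
      rw [Ideal.mem_comap, Ideal.mem_comap, map_mul, ht]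
      constructor
      · intro hx i
        cases i with
        | zero => rw [PowerSeries.coeff_zero_X_mul]; exact Ideal.zero_mem _
        | succ i => rw [PowerSeries.coeff_succ_X_mul, Nat.add_sub_add_right]; exact hx i
      · intro hx i
        have := hx (i + 1)
        rwa [PowerSeries.coeff_succ_X_mul, Nat.add_sub_add_right] at this

/-- lower bound at a prime `𝔔` of `S[X]` over `𝔓` which is a rational point over the residue
field of `𝔓`: it contains a linear polynomial `b X - a` with `b ∉ 𝔓`. -/
theorem psum_hs_le_poly (S : Type) [CommRing S] [IsNoetherianRing S] (𝔓 : Ideal S) [𝔓.IsPrime]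
    (𝔔 : Ideal S[X]) [𝔔.IsPrime] (h : 𝔔.comap (C : S →+* S[X]) = 𝔓) (a b : S) (hb : b ∉ 𝔓)
    (hab : C b * X - C a ∈ 𝔔) (N : ℕ) :
    psum (HS (Localization.AtPrime 𝔓)) N ≤ HS (Localization.AtPrime 𝔔) N := by
  set B := Localization.AtPrime 𝔓
  set B' := Localization.AtPrime 𝔔
  let ψ : B →+* B' := Localization.localRingHom 𝔓 𝔔 C h.symm
  have hψ : ∀ s, ψ (algebraMap S B s) = algebraMap S[X] B' (C s) :=
    Localization.localRingHom_to_map 𝔓 𝔔 C h.symm
  let c : B := IsLocalization.mk' B a (⟨b, hb⟩ : 𝔓.primeCompl)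
  have hc : c * algebraMap S B b = algebraMap S B a := IsLocalization.mk'_spec B a ⟨b, hb⟩
  let t : B' := algebraMap S[X] B' X - ψ c
  have ht : t ∈ maximalIdeal B' := by
    have hbu : IsUnit (ψ (algebraMap S B b)) :=
      (IsLocalization.map_units B (⟨b, hb⟩ : 𝔓.primeCompl)).map ψ
    rw [← Ideal.unit_mul_mem_iff_mem _ hbu]
    have e : ψ (algebraMap S B b) * t = algebraMap S[X] B' (C b * X - C a) := by
      rw [map_sub, map_mul, ← hψ, ← hψ, ← hc, map_mul]
      ring
    rw [e]
    exact (IsLocalization.AtPrime.to_map_mem_maximal_iff B' 𝔔 _).2 hab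
  let θ : S[X] →+* PowerSeries B :=
    Polynomial.eval₂RingHom ((PowerSeries.C (R := B)).comp (algebraMap S B))
      (PowerSeries.X + PowerSeries.C c)
  have hθC : ∀ s, θ (C s) = PowerSeries.C (algebraMap S B s) := fun s => by simp [θ]
  have hθX : θ X = PowerSeries.X + PowerSeries.C c := by simp [θ]
  have key : (residue B').comp (ψ.comp ((PowerSeries.constantCoeff (R := B)).comp θ)) =
      (residue B').comp (algebraMap S[X] B') := by
    refine Polynomial.ringHom_ext (fun s => ?_) ?_
    · simp only [RingHom.comp_apply, hθC, PowerSeries.constantCoeff_C, hψ]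
    · simp only [RingHom.comp_apply, hθX, map_add, PowerSeries.constantCoeff_C,
        PowerSeries.constantCoeff_X, zero_add]
      rw [eq_comm, ← sub_eq_zero, ← map_sub, residue_eq_zero_iff]
      exact ht
  have hu : ∀ y : 𝔔.primeCompl, IsUnit (θ y) := by
    intro y
    have hloc : IsLocalHom ψ := Localization.isLocalHom_localRingHom 𝔓 𝔔 C h.symm
    rw [PowerSeries.isUnit_iff_constantCoeff, ← isUnit_map_iff ψ, ← isUnit_map_iff (residue B')]
    have := RingHom.congr_fun key y
    simp only [RingHom.comp_apply] at this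
    rw [this]
    exact (IsLocalization.map_units B' y).map _
  let Θ : B' →+* PowerSeries B := IsLocalization.lift hu
  have hΘ : ∀ f, Θ (algebraMap S[X] B' f) = θ f := IsLocalization.lift_eq hu
  have hΘψ : Θ.comp ψ = PowerSeries.C := by
    refine IsLocalization.ringHom_ext 𝔓.primeCompl (RingHom.ext fun s => ?_)
    simp only [RingHom.comp_apply, hψ, hΘ, hθC]
  have hΘψ' : ∀ x, Θ (ψ x) = PowerSeries.C x := RingHom.congr_fun hΘψ
  refine locPoly_lower Θ t ?_ (fun x => ⟨ψ x, ?_⟩) N
  · rw [map_sub, hΘ, hθX, hΘψ', add_sub_cancel_right]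
  · rw [RingHom.comp_apply, hΘψ', PowerSeries.constantCoeff_C]

end Crest.Agent.R183
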