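import Crest.Agent.R183.LocDVR
import Crest.Agent.R183.LocPoly
import Crest.Agent.R183.LocNorm

/-!
# Reduction to fibre dimension zero
-/

set_option autoImplicit false

open IsLocalRing

namespace Crest.Agent.R183

/-- Nagata's localization inequality for a prime with a finite birational DVR. -/
theorem psum_localization_le_of_dvr (k : ℕ) : ∀ (S : Type) [CommRing S] [IsLocalRing S]
    [IsNoetherianRing S] (V : Type) [CommRing V] [IsDomain V] [IsDiscreteValuationRing V]
    [Algebra S V] [Module.Finite S V] (v : Fin k → V),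
    Algebra.adjoin S (Set.range v) = ⊤ →
    (∀ x : V, ∃ a b : S, algebraMap S V b ≠ 0 ∧ algebraMap S V b * x = algebraMap S V a) →
    ∀ (𝔓 : Ideal S) [𝔓.IsPrime], 𝔓 = RingHom.ker (algebraMap S V) → ∀ N : ℕ,
      psum^[k + 1] (HS (Localization.AtPrime 𝔓)) N ≤ psum^[k] (HS S) N := by
  induction k with
  | zero =>
    intro S _ _ _ V _ _ _ _ _ v hv _ 𝔓 _ h𝔓 N
    have hsurj : Function.Surjective (algebraMap S V) := by
      rw [Set.range_eq_empty, Algebra.adjoin_empty] at hv
      intro x
      exact Algebra.mem_bot.1 (hv ▸ Algebra.mem_top)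
    have e : V ≃+* S ⧸ 𝔓 :=
      (RingHom.quotientKerEquivOfSurjective hsurj).symm.trans (Ideal.quotEquivOfEq h𝔓.symm)
    have := IsDiscreteValuationRing.RingEquivClass.isDiscreteValuationRing e
    exact psum_hs_localization_le S 𝔓 N
  | succ k ih =>
    intro S _ _ _ V _ _ _ _ _ v hv hbir 𝔓 _ h𝔓 N
    obtain ⟨φ, hφC, hφX⟩ : ∃ φ : Polynomial S →+* V,
        (∀ a, φ (Polynomial.C a) = algebraMap S V a) ∧ φ Polynomial.X = v 0 :=
      ⟨(Polynomial.aeval (v 0)).toRingHom, fun a => by simp, by simp⟩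
    have hcomp : φ.comp Polynomial.C = algebraMap S V := RingHom.ext hφC
    have hfin : (algebraMap S V).Finite := RingHom.finite_algebraMap.2 inferInstance
    have hφ : φ.Finite := RingHom.Finite.of_comp_finite (f := Polynomial.C) (hcomp ▸ hfin)
    obtain ⟨𝔫, h𝔫⟩ : ∃ 𝔫, 𝔫 = (maximalIdeal V).comap φ := ⟨_, rfl⟩
    have : 𝔫.IsMaximal :=
      h𝔫 ▸ Ideal.isMaximal_comap_of_isIntegral_of_isMaximal' φ hφ.to_isIntegral _
    have hle : (maximalIdeal S).map (Polynomial.C : S →+* Polynomial S) ≤ 𝔫 := by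
      rw [Ideal.map_le_iff_le_comap, h𝔫, Ideal.comap_comap, hcomp]
      exact (eq_maximalIdeal
        (Ideal.isMaximal_comap_of_isIntegral_of_isMaximal' _ hfin.to_isIntegral _)).ge
    have hunit : ∀ y : 𝔫.primeCompl, IsUnit (φ y) := fun y => by
      by_contra h
      exact y.2 (h𝔫.ge h)
    let ψ : Localization.AtPrime 𝔫 →+* V := IsLocalization.lift hunit
    have hψ : ∀ x, ψ (algebraMap _ _ x) = φ x := IsLocalization.lift_eq hunit
    let _ := ψ.toAlgebra
    have : Module.Finite (Localization.AtPrime 𝔫) V :=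
      RingHom.Finite.of_comp_finite (f := algebraMap (Polynomial S) _) (g := ψ)
        (by rwa [IsLocalization.lift_comp])
    have := RingHom.ker_isPrime ψ
    have key := ih (Localization.AtPrime 𝔫) V (fun i => v i.succ) ?_ ?_ (RingHom.ker ψ) rfl N
    · obtain ⟨a, b, hb, hab⟩ := hbir (v 0)
      have h1 := psum_hs_le_poly S 𝔓 ((RingHom.ker ψ).comap (algebraMap (Polynomial S) _))
        (by ext x; simp [hψ, hφC, h𝔓]) a b (by simpa [h𝔓] using hb)
        (by simp [hψ, hφC, hφX, hab])
      have h2 := hs_congr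
        (B := Localization.AtPrime ((RingHom.ker ψ).comap (algebraMap (Polynomial S) _)))
        (B' := Localization.AtPrime (RingHom.ker ψ))
        (IsLocalization.localizationLocalizationAtPrimeIsoLocalization
          𝔫.primeCompl (RingHom.ker ψ)).toRingEquiv
      rw [h2] at h1
      exact (psum_mono h1 (k + 1) N).trans (key.trans (psum_mono (hs_poly_le S 𝔫 hle) k N))
    · rw [eq_top_iff]
      intro x hx
      clear hx
      have hx : x ∈ Algebra.adjoin S (Set.range v) := hv ▸ Algebra.mem_top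
      induction hx using Algebra.adjoin_induction with
      | mem x hx =>
        obtain ⟨i, rfl⟩ := hx
        refine Fin.cases ?_ (fun i => Algebra.subset_adjoin ⟨i, rfl⟩) i
        rw [← hφX, ← hψ]
        exact Subalgebra.algebraMap_mem _ _
      | algebraMap r =>
        rw [← hφC, ← hψ]
        exact Subalgebra.algebraMap_mem _ _
      | add x y _ _ hx hy => exact add_mem hx hy
      | mul x y _ _ hx hy => exact mul_mem hx hy
    · intro x
      obtain ⟨a, b, hb, hab⟩ := hbir x
      refine ⟨algebraMap _ _ (Polynomial.C a), algebraMap _ _ (Polynomial.C b), ?_, ?_⟩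
      · show ψ _ ≠ 0
        rwa [hψ, hφC]
      · show ψ _ * x = ψ _
        rwa [hψ, hψ, hφC, hφC]

theorem exists_psum_localization_le (S : Type) [CommRing S] [IsLocalRing S] [IsNoetherianRing S]
    [IsAdicComplete (maximalIdeal S) S] (𝔓 : Ideal S) [𝔓.IsPrime]
    (h : ringKrullDim (S ⧸ 𝔓) = 1) : ∃ k : ℕ, ∀ N : ℕ,
      psum^[k + 1] (HS (Localization.AtPrime 𝔓)) N ≤ psum^[k] (HS S) N := by
  have : IsLocalRing (S ⧸ 𝔓) :=
    IsLocalRing.of_surjective' (Ideal.Quotient.mk 𝔓) Ideal.Quotient.mk_surjective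
  have := isAdicComplete_quotient S 𝔓
  obtain ⟨V, _, _, _, _, hfin, hinj, hbir⟩ := exists_finite_dvr (S ⧸ 𝔓) h
  let ψ : S →+* V := (algebraMap (S ⧸ 𝔓) V).comp (Ideal.Quotient.mk 𝔓)
  let _ := ψ.toAlgebra
  have : Module.Finite S V := RingHom.Finite.comp (RingHom.finite_algebraMap.2 hfin)
    (RingHom.Finite.of_surjective _ Ideal.Quotient.mk_surjective)
  obtain ⟨s, hs⟩ := (inferInstance : Algebra.FiniteType S V).out
  refine ⟨s.card, psum_localization_le_of_dvr s.card S V (fun i => (s.equivFin.symm i : V)) ?_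
    (fun x => ?_) 𝔓 ?_⟩
  · rw [← hs]
    congr 1
    ext x
    constructor
    · rintro ⟨i, rfl⟩
      exact (s.equivFin.symm i).2
    · intro hx
      exact ⟨s.equivFin ⟨x, hx⟩, by simp⟩
  · obtain ⟨a, b, hb, hab⟩ := hbir x
    obtain ⟨a, rfl⟩ := Ideal.Quotient.mk_surjective a
    obtain ⟨b, rfl⟩ := Ideal.Quotient.mk_surjective b
    exact ⟨a, b, fun h0 => hb ((injective_iff_map_eq_zero _).1 hinj _ h0), hab⟩
  · ext x
    rw [RingHom.mem_ker, ← Ideal.Quotient.eq_zero_iff_mem]
    exact (map_eq_zero_iff _ hinj).symm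

section

variable (R : Type) [CommRing R] [IsNoetherianRing R] [IsLocalRing R]

omit [IsNoetherianRing R] in
theorem Localize_liesOver {S : Type} [CommRing S] [Algebra R S] (P : Ideal S) [P.IsPrime]
    (h : (maximalIdeal R).map (algebraMap R S) ≤ P) : P.LiesOver (maximalIdeal R) :=
  ⟨(maximalIdeal.isMaximal R).eq_of_le (Ideal.comap_ne_top _ Ideal.IsPrime.ne_top')
    (Ideal.map_le_iff_le_comap.1 h)⟩

theorem Localize_prime (S : Type) [CommRing S] [IsNoetherianRing S] [IsLocalRing S] [Algebra R S]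
    [IsLocalHom (algebraMap R S)] [Module.Flat R S] (d f : ℕ)
    (hd : (maximalIdeal R).height = d) (hS : (maximalIdeal S).height = (d + (f + 1) : ℕ)) :
    ∃ (P : Ideal S) (_ : P.IsPrime), (maximalIdeal R).map (algebraMap R S) ≤ P ∧
      P.height = (d + f : ℕ) ∧ ringKrullDim (S ⧸ P) = 1 := by
  have hm : (maximalIdeal R).map (algebraMap R S) ≤ maximalIdeal S := map_maximalIdeal_le _
  have h1 := Ideal.height_eq_height_add_of_liesOver_of_hasGoingDown (maximalIdeal R)
    (maximalIdeal S)
  have hp : ((maximalIdeal S).map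
      (Ideal.Quotient.mk ((maximalIdeal R).map (algebraMap R S)))).IsPrime :=
    Ideal.map_isPrime_of_surjective Ideal.Quotient.mk_surjective (by simpa using hm)
  rw [hS, hd, Nat.cast_add, (ENat.addLECancellable_natCast d).inj,
    PrimeSpectrum.height_eq_orderHeight ⟨_, hp⟩, eq_comm, Nat.cast_add, Nat.cast_one,
    Order.height_eq_coe_add_one_iff] at h1
  obtain ⟨-, ⟨y, -, hy⟩, -⟩ := h1
  rw [← PrimeSpectrum.height_eq_orderHeight] at hy
  obtain ⟨P, hP⟩ : ∃ P, P = y.asIdeal.comap (Ideal.Quotient.mk _) := ⟨_, rfl⟩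
  have : P.IsPrime := hP ▸ inferInstance
  have hle : (maximalIdeal R).map (algebraMap R S) ≤ P := by
    rw [hP, ← Ideal.map_le_iff_le_comap]
    simp
  have := Localize_liesOver R P hle
  have h2 := Ideal.height_eq_height_add_of_liesOver_of_hasGoingDown (maximalIdeal R) P
  rw [hd, show P.map (Ideal.Quotient.mk _) = y.asIdeal from
    hP ▸ Ideal.map_comap_of_surjective _ Ideal.Quotient.mk_surjective _, hy, ← Nat.cast_add] at h2
  refine ⟨P, inferInstance, hle, h2, le_antisymm ?_ ?_⟩
  · refine (Ring.krullDimLE_iff (n := 1)).1 (Ring.KrullDimLE.mk₁' fun I hI hI' => ?_)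
    have h3 : P < I.comap (Ideal.Quotient.mk P) := by
      refine lt_of_le_of_ne (by rw [← Ideal.map_le_iff_le_comap]; simp) fun e => hI ?_
      rw [← Ideal.map_comap_of_surjective _ Ideal.Quotient.mk_surjective I, ← e]
      simp
    have h4 := Ideal.height_add_one_le_of_lt_of_isPrime h3
    have h5 : I.comap (Ideal.Quotient.mk P) = maximalIdeal S :=
      Ideal.eq_of_le_of_height_le _ (le_maximalIdeal Ideal.IsPrime.ne_top')
        (by rw [hS]; rw [h2] at h4; exact_mod_cast h4)
    have : (I.comap (Ideal.Quotient.mk P)).IsMaximal := h5 ▸ inferInstance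
    rw [← Ideal.map_comap_of_surjective _ Ideal.Quotient.mk_surjective I]
    exact Ideal.IsMaximal.map_of_surjective_of_ker_le Ideal.Quotient.mk_surjective
      (by simpa using h3.le)
  · by_contra h
    have h0 : Ring.KrullDimLE 0 (S ⧸ P) :=
      Ring.krullDimLE_iff.2 (by simpa using ENat.WithBot.lt_add_one_iff.1 (not_le.1 h))
    have := Ideal.Quotient.maximal_of_isField P Ring.KrullDimLE.isField_of_isDomain
    rw [eq_maximalIdeal this, hS] at h2
    have := Nat.cast_injective h2
    omega

theorem Localize_ind (d : ℕ) (hd : (maximalIdeal R).height = d) (f : ℕ) :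
    ∀ (S : Type) [CommRing S] [IsNoetherianRing S] [IsLocalRing S] [Algebra R S]
    [IsLocalHom (algebraMap R S)] [Module.Flat R S], (maximalIdeal S).height = (d + f : ℕ) →
    ∃ (S₁ : Type) (_ : CommRing S₁) (_ : IsLocalRing S₁) (_ : IsNoetherianRing S₁)
      (_ : Algebra R S₁) (_ : IsLocalHom (algebraMap R S₁)) (_ : Module.Flat R S₁) (k : ℕ),
      (∃ c : ℕ, maximalIdeal S₁ ^ c ≤ (maximalIdeal R).map (algebraMap R S₁)) ∧
      ∀ N : ℕ, psum^[k + f] (HS S₁) N ≤ psum^[k] (HS S) N := by
  induction f with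
  | zero =>
    intro S _ _ _ _ _ _ hS
    refine ⟨S, inferInstance, inferInstance, inferInstance, inferInstance, inferInstance,
      inferInstance, 0, Ideal.exists_pow_le_of_le_radical_of_fg ?_
        (maximalIdeal S).fg_of_isNoetherianRing, fun N => le_rfl⟩
    rw [Ideal.radical_eq_sInf]
    refine le_sInf fun P ⟨h1, h2⟩ => ?_
    have := Localize_liesOver R P h1
    refine (Ideal.eq_of_le_of_height_le P (le_maximalIdeal h2.ne_top) ?_).ge
    rw [hS, Ideal.height_eq_height_add_of_liesOver_of_hasGoingDown (maximalIdeal R) P, hd]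
    simp
  | succ f ih =>
    intro S _ _ _ _ _ _ hS
    have := isNoetherianRing_adicCompletion S
    have : Module.Flat R (AdicCompletion (maximalIdeal S) S) := Module.Flat.trans R S _
    have : IsLocalHom (algebraMap R (AdicCompletion (maximalIdeal S) S)) := by
      rw [IsScalarTower.algebraMap_eq R S]
      infer_instance
    have hT : (maximalIdeal (AdicCompletion (maximalIdeal S) S)).height = (d + (f + 1) : ℕ) := by
      rw [Ideal.height_eq_height_add_of_liesOver_of_hasGoingDown (maximalIdeal S), hS,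
        ← AdicCompletion.maximalIdeal_eq_map, Ideal.map_quotient_self, Ideal.height_bot, add_zero]
    obtain ⟨P, _, h1, h2, h3⟩ := Localize_prime R _ d f hd hT
    obtain ⟨k₂, hk₂⟩ := exists_psum_localization_le _ P h3
    have : Module.Flat R (Localization.AtPrime P) :=
      Module.Flat.trans R (AdicCompletion (maximalIdeal S) S) _
    have : IsLocalHom (algebraMap R (Localization.AtPrime P)) := by
      refine ((local_hom_TFAE _).out 0 2).2 ?_
      rw [IsScalarTower.algebraMap_eq R (AdicCompletion (maximalIdeal S) S), ← Ideal.map_map,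
        ← Localization.AtPrime.map_eq_maximalIdeal]
      exact Ideal.map_mono h1
    obtain ⟨S₁, _, _, _, _, _, _, k₁, hc, hk₁⟩ := ih (Localization.AtPrime P) (by
      have e1 := IsLocalization.AtPrime.ringKrullDim_eq_height P (Localization.AtPrime P)
      rw [← maximalIdeal_height_eq_ringKrullDim, h2] at e1
      exact WithBot.coe_injective e1)
    refine ⟨S₁, inferInstance, inferInstance, inferInstance, inferInstance, inferInstance,
      inferInstance, k₁ + k₂, hc, fun N => ?_⟩
    have e1 : HS (AdicCompletion (maximalIdeal S) S) = HS S :=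
      funext (hs_adicCompletion S (maximalIdeal S).fg_of_isNoetherianRing)
    have g1 := psum_mono hk₁ (k₂ + 1) N
    have g2 := psum_mono hk₂ k₁ N
    rw [← Function.iterate_add_apply, ← Function.iterate_add_apply] at g1 g2
    rw [show k₁ + k₂ + (f + 1) = k₂ + 1 + (k₁ + f) by omega, ← e1]
    rw [add_comm k₁ (k₂ + 1)] at g2
    exact g1.trans g2

end

/-- **Reduction to fibre dimension zero.** -/
theorem localize (R S : Type) [CommRing R] [CommRing S] [IsNoetherianRing R] [IsNoetherianRing S]
    [IsLocalRing R] [IsLocalRing S] [Algebra R S] [IsLocalHom (algebraMap R S)] [Module.Flat R S]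
    (d d' : ℕ) (hd : ringKrullDim R = d) (hd' : ringKrullDim S = d') :
    ∃ (S₁ : Type) (_ : CommRing S₁) (_ : IsLocalRing S₁) (_ : IsNoetherianRing S₁)
      (_ : Algebra R S₁) (_ : IsLocalHom (algebraMap R S₁)) (_ : Module.Flat R S₁) (f k : ℕ),
      d' ≤ d + f ∧ (∃ c : ℕ, maximalIdeal S₁ ^ c ≤ (maximalIdeal R).map (algebraMap R S₁)) ∧
      ∀ N : ℕ, psum^[k + f] (HS S₁) N ≤ psum^[k] (HS S) N := by
  rw [← maximalIdeal_height_eq_ringKrullDim] at hd hd'
  have h1 : (maximalIdeal R).height = d := WithBot.coe_injective hd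
  have h2 : (maximalIdeal S).height = d' := WithBot.coe_injective hd'
  have h3 : d ≤ d' := by
    have := Ideal.height_eq_height_add_of_liesOver_of_hasGoingDown (maximalIdeal R)
      (maximalIdeal S)
    rw [h1, h2] at this
    exact_mod_cast this ▸ (le_self_add : (d : ℕ∞) ≤ _)
  obtain ⟨f, rfl⟩ := Nat.exists_eq_add_of_le h3
  obtain ⟨S₁, _, _, _, _, _, _, k, hc, hk⟩ := Localize_ind R d h1 f S h2
  exact ⟨S₁, inferInstance, inferInstance, inferInstance, inferInstance, inferInstance,
    inferInstance, f, k, le_rfl, hc, hk⟩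

end Crest.Agent.R183
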