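import Crest.Agent.R183.HSBasic

/-!
# Existence of reductions with few generators
-/

set_option autoImplicit false

open IsLocalRing MvPolynomial

namespace Crest.Agent.R183

section aux

variable {B : Type} [CommRing B]

/-- congruence of two elements of `I ^ n` modulo `I' I ^ (n - 1)` -/
def RedRel (I I' : Ideal B) (n : ℕ) (a b : B) : Prop :=
  a ∈ I ^ n ∧ b ∈ I ^ n ∧ ∀ z ∈ I, z * (a - b) ∈ I' * I ^ n

lemma RedRel.mul {I I' : Ideal B} {n m : ℕ} {a b a' b' : B} (h : RedRel I I' n a b)
    (h' : RedRel I I' m a' b') : RedRel I I' (n + m) (a * a') (b * b') := by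
  refine ⟨pow_add I n m ▸ Ideal.mul_mem_mul h.1 h'.1,
    pow_add I n m ▸ Ideal.mul_mem_mul h.2.1 h'.2.1, fun z hz => ?_⟩
  have e : z * (a * a' - b * b') = z * (a - b) * a' + z * (a' - b') * b := by ring
  rw [e]
  refine Ideal.add_mem _ ?_ ?_
  · rw [pow_add, ← mul_assoc]
    exact Ideal.mul_mem_mul (h.2.2 z hz) h'.1
  · rw [add_comm n m, pow_add, ← mul_assoc]
    exact Ideal.mul_mem_mul (h'.2.2 z hz) h.2.1

lemma RedRel.one (I I' : Ideal B) : RedRel I I' 0 1 1 := ⟨by simp, by simp, by simp⟩

lemma RedRel.pow {I I' : Ideal B} {a b : B} (h : RedRel I I' 1 a b) (k : ℕ) :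
    RedRel I I' k (a ^ k) (b ^ k) := by
  induction k with
  | zero => simpa using RedRel.one I I'
  | succ k ih => rw [pow_succ, pow_succ]; exact ih.mul h

lemma RedRel.hom {I I' : Ideal B} {σ : Type} {t c : σ → B} {s : B} (ht : ∀ i, t i ∈ I)
    (hs : s ∈ I) (h : ∀ i, t i - c i * s ∈ I') {D : ℕ} {F : MvPolynomial σ B}
    (hF : F.IsHomogeneous D) : RedRel I I' D (eval t F) (eval c F * s ^ D) := by
  have h1 : ∀ d : σ →₀ ℕ, RedRel I I' d.degree (eval t (monomial d 1))
      (eval c (monomial d 1) * s ^ d.degree) := fun d => by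
    induction d using Finsupp.induction_linear with
    | zero => simpa using RedRel.one I I'
    | add d e hd he =>
      have := hd.mul he
      rw [map_add, ← one_mul (1 : B), ← monomial_mul, map_mul, map_mul, pow_add,
        mul_mul_mul_comm]
      exact this
    | single i k =>
      have h2 : RedRel I I' 1 (t i) (c i * s) :=
        ⟨by simpa using ht i, by simpa using I.mul_mem_left _ hs, fun z hz => by
          rw [pow_one, mul_comm z]
          exact Ideal.mul_mem_mul (h i) hz⟩
      have := h2.pow k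
      rw [Finsupp.degree_single, ← X_pow_eq_monomial, map_pow, map_pow, eval_X, eval_X, ← mul_pow]
      exact this
  induction hF using IsWeightedHomogeneous.induction_on with
  | zero => exact ⟨by simp, by simp, by simp⟩
  | add p q _ _ hp hq =>
    rw [map_add, map_add, add_mul]
    refine ⟨Ideal.add_mem _ hp.1 hq.1, Ideal.add_mem _ hp.2.1 hq.2.1, fun z hz => ?_⟩
    rw [add_sub_add_comm, mul_add]
    exact Ideal.add_mem _ (hp.2.2 z hz) (hq.2.2 z hz)
  | monomial d r hr =>
    have h2 := h1 d
    rw [Finsupp.degree_eq_weight_one] at h2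
    have h3 : Finsupp.weight (fun _ : σ => 1) d = D := hr
    rw [h3] at h2
    rw [← mul_one r, ← C_mul_monomial, map_mul, map_mul, eval_C, eval_C, mul_assoc]
    refine ⟨Ideal.mul_mem_left _ _ h2.1, Ideal.mul_mem_left _ _ h2.2.1, fun z hz => ?_⟩
    rw [← mul_sub, mul_left_comm]
    exact Ideal.mul_mem_left _ _ (h2.2.2 z hz)

lemma red_pow_le {I I' : Ideal B} {s : B} (hI : I = I' ⊔ Ideal.span {s}) (D : ℕ) :
    I * I ^ D ≤ I * Ideal.span {s ^ D} ⊔ I' * I ^ D := by
  induction D with
  | zero => simp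
  | succ D ih =>
    have hs : Ideal.span {s ^ D} ≤ I ^ D := by
      rw [← Ideal.span_singleton_pow]
      exact Ideal.pow_right_mono (hI ▸ le_sup_right) D
    calc I * I ^ (D + 1) = I * I ^ D * I := by ring
      _ ≤ (I * Ideal.span {s ^ D} ⊔ I' * I ^ D) * I := Ideal.mul_mono_left ih
      _ = I * Ideal.span {s ^ D} * (I' ⊔ Ideal.span {s}) ⊔ I' * I ^ (D + 1) := by
          rw [Ideal.sup_mul, ← hI, mul_assoc I', ← pow_succ]
      _ ≤ _ := by
          rw [Ideal.mul_sup]
          refine sup_le (sup_le (le_sup_of_le_right ?_) (le_sup_of_le_left ?_)) le_sup_right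
          · rw [mul_comm _ I', pow_succ']
            exact Ideal.mul_mono_right (Ideal.mul_mono_right hs)
          · rw [mul_assoc, Ideal.span_singleton_mul_span_singleton, pow_succ]

lemma red_iter {I m : Ideal B} {r : ℕ} (h : m ^ (r + 1) ≤ I * m ^ r) (N : ℕ) :
    m ^ (N + r) ≤ I ^ N * m ^ r := by
  induction N with
  | zero => simp
  | succ N ih =>
    calc m ^ (N + 1 + r) = m ^ (N + r) * m := by ring
      _ ≤ I ^ N * m ^ r * m := Ideal.mul_mono_left ih
      _ = I ^ N * m ^ (r + 1) := by ring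
      _ ≤ I ^ N * (I * m ^ r) := Ideal.mul_mono_right h
      _ = _ := by ring

variable [IsLocalRing B]

/-- independent monomials give a lower bound for the colength -/
lemma red_card_le {σ : Type} {t : σ → B} (ht : ∀ i, t i ∈ maximalIdeal B)
    (hind : ∀ (D : ℕ) (F : MvPolynomial σ B), F.IsHomogeneous D →
      eval t F ∈ maximalIdeal B * sp t ^ D → map (residue B) F = 0)
    {J : Ideal B} {M : ℕ} (hJ : J ≤ sp t ^ M) (S : Finset (σ →₀ ℕ))
    (hS : ∀ d ∈ S, d.degree < M) : (S.card : ℕ∞) ≤ Module.length B (B ⧸ J) := by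
  classical
  have hI : sp t ≤ maximalIdeal B := Ideal.span_le.2 (Set.range_subset_iff.2 ht)
  have hpow : ∀ D N : ℕ, D < N → sp t ^ N ≤ maximalIdeal B * sp t ^ D := fun D N h =>
    (Ideal.pow_le_pow_right h).trans (by rw [pow_succ']; exact Ideal.mul_mono_left hI)
  have key : (S.card : ℕ∞) + Order.coheight
      (J ⊔ Ideal.span ((fun d => eval t (monomial d 1)) '' (S : Set (σ →₀ ℕ)))) ≤
      Order.coheight J := by
    induction S using Finset.induction_on_min_value (f := fun d : σ →₀ ℕ => d.degree) with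
    | empty => simp
    | insert a S ha hmin ih =>
      refine le_trans ?_ (ih fun d hd => hS d (Finset.mem_insert_of_mem hd))
      rw [Finset.card_insert_of_notMem ha, Nat.cast_add, Nat.cast_one, add_assoc, add_comm 1]
      refine add_le_add le_rfl (Order.coheight_add_one_le (lt_of_le_of_ne
        (sup_le_sup_left (Ideal.span_mono (Set.image_mono (by simp))) _) fun he => ?_))
      have h1 : eval t (monomial a 1) ∈
          J ⊔ Ideal.span ((fun d => eval t (monomial d 1)) '' (S : Set (σ →₀ ℕ))) := by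
        rw [he]
        exact Ideal.mem_sup_right (Ideal.subset_span ⟨a, by simp, rfl⟩)
      set W : Ideal B := (homogeneousSubmodule σ B a.degree ⊓ LinearMap.ker (lcoeff B a)).map
        (aeval t).toLinearMap with hW
      have h2 : J ⊔ Ideal.span ((fun d => eval t (monomial d 1)) '' (S : Set (σ →₀ ℕ))) ≤
          W ⊔ maximalIdeal B * sp t ^ a.degree := by
        refine sup_le (le_sup_of_le_right
          (hJ.trans (hpow _ _ (hS a (Finset.mem_insert_self _ _))))) (Ideal.span_le.2 ?_)
        rintro _ ⟨d, hd, rfl⟩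
        rcases (hmin d hd).eq_or_lt with h | h
        · refine Ideal.mem_sup_left ⟨monomial d 1, ⟨isHomogeneous_monomial _ h.symm, ?_⟩, rfl⟩
          have : d ≠ a := fun hc => ha (hc ▸ hd)
          simp [coeff_monomial, this]
        · exact Ideal.mem_sup_right (hpow _ _ h
            ((Ideal.mem_span_pow_iff_exists_isHomogeneous t _).2
              ⟨monomial d 1, isHomogeneous_monomial _ rfl, rfl⟩))
      obtain ⟨_, ⟨G, ⟨hG1, hG2⟩, rfl⟩, y, hy, he'⟩ := Submodule.mem_sup.1 (h2 h1)
      have h3 := hind a.degree (monomial a 1 - G) ((isHomogeneous_monomial _ rfl).sub hG1) (by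
        rw [map_sub, ← he']
        convert hy using 1
        exact add_sub_cancel_left _ _)
      have h4 := congrArg (coeff a) h3
      have h5 : coeff a G = 0 := hG2
      simp [coeff_map, h5] at h4
  rw [Module.length_quotient]
  exact le_self_add.trans key

lemma red_exists_form {j δ C : ℕ} (hj : δ ≤ j) (h : ∀ N : ℕ, HS B N ≤ (C * (N + 1) ^ δ : ℕ))
    {t : Fin (j + 1) → B} (ht : IsRed t (maximalIdeal B)) :
    ∃ (D : ℕ) (F : MvPolynomial (Fin (j + 1)) B), F.IsHomogeneous D ∧
      eval t F ∈ maximalIdeal B * sp t ^ D ∧ map (residue B) F ≠ 0 := by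
  by_contra hc
  push Not at hc
  obtain ⟨r, hr⟩ := ht.pow_le
  set N := C * (j + 2) ^ j + r + 1 with hN
  have h1 := red_card_le ht.1 hc (hr ((j + 1) * N))
    ((Fintype.piFinset fun _ : Fin (j + 1) => Finset.range N).map
      Finsupp.equivFunOnFinite.symm.toEmbedding) fun d hd => by
      obtain ⟨f, hf, rfl⟩ := Finset.mem_map.1 hd
      rw [Finsupp.degree_eq_sum]
      calc ∑ i, (Finsupp.equivFunOnFinite.symm.toEmbedding f) i < ∑ _i : Fin (j + 1), N :=
            Finset.sum_lt_sum_of_nonempty Finset.univ_nonempty fun i _ =>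
              Finset.mem_range.1 (Fintype.mem_piFinset.1 hf i)
        _ = _ := by simp
  have h2 : N ^ (j + 1) ≤ C * ((j + 1) * N + r + 1) ^ δ := by
    have := h1.trans (h _)
    rw [Finset.card_map, Fintype.card_piFinset] at this
    simpa using (Nat.cast_le (α := ℕ∞)).1 this
  have h3 : ((j + 1) * N + r + 1) ^ δ ≤ ((j + 2) * N) ^ j :=
    (Nat.pow_le_pow_right (by omega) hj).trans (Nat.pow_le_pow_left (by nlinarith [Nat.zero_le (C * (j + 2) ^ j)]) j)
  have h4 : N * N ^ j ≤ C * (j + 2) ^ j * N ^ j := by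
    calc N * N ^ j = N ^ (j + 1) := by ring
      _ ≤ C * ((j + 2) * N) ^ j := h2.trans (Nat.mul_le_mul_left _ h3)
      _ = _ := by rw [mul_pow, mul_assoc]
  have h5 := Nat.le_of_mul_le_mul_right h4 (by positivity)
  omega

lemma red_step [Infinite (ResidueField B)] {j δ C : ℕ} (hj : δ ≤ j)
    (h : ∀ N : ℕ, HS B N ≤ (C * (N + 1) ^ δ : ℕ)) {t : Fin (j + 1) → B}
    (ht : IsRed t (maximalIdeal B)) : ∃ t' : Fin j → B, IsRed t' (maximalIdeal B) := by
  obtain ⟨D, F, hF, hFt, hF0⟩ := red_exists_form hj h ht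
  have h1 : ∃ p, eval p (map (residue B) F * X (Fin.last j)) ≠ 0 := by
    by_contra hc
    push Not at hc
    exact mul_ne_zero hF0 (X_ne_zero _) (MvPolynomial.funext fun p => by rw [hc p, map_zero])
  obtain ⟨p, hp⟩ := h1
  choose c hc using fun i => residue_surjective (R := B) (p i)
  rw [map_mul, eval_X, mul_ne_zero_iff] at hp
  have hu1 : IsUnit (c (Fin.last j)) := (residue_ne_zero_iff_isUnit _).1 (hc _ ▸ hp.2)
  have hu2 : IsUnit (eval c F) := by
    refine (residue_ne_zero_iff_isUnit _).1 ?_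
    have : residue B (eval c F) = eval p (map (residue B) F) := by
      rw [show p = residue B ∘ c from funext fun i => (hc i).symm]
      exact map_eval _ _ _
    rw [this]
    exact hp.1
  obtain ⟨v, hv⟩ := hu1.exists_right_inv
  obtain ⟨w, hw⟩ := hu2.exists_left_inv
  set s := v * t (Fin.last j) with hs
  have htI : ∀ i, t i ∈ sp t := fun i => Ideal.subset_span ⟨i, rfl⟩
  have hsI : s ∈ sp t := Ideal.mul_mem_left _ _ (htI _)
  have hI : sp t ≤ maximalIdeal B := Ideal.span_le.2 (Set.range_subset_iff.2 ht.1)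
  set t' : Fin j → B := fun i => t i.castSucc - c i.castSucc * s with ht'
  have h2 : ∀ i, t i - c i * s ∈ sp t' := fun i => by
    induction i using Fin.lastCases with
    | last => rw [hs, ← mul_assoc, hv, one_mul, sub_self]; exact Ideal.zero_mem _
    | cast i => exact Ideal.subset_span ⟨i, rfl⟩
  have h3 : sp t' ≤ sp t := Ideal.span_le.2 (Set.range_subset_iff.2 fun i =>
    Ideal.sub_mem _ (htI _) (Ideal.mul_mem_left _ _ hsI))
  have h4 : sp t = sp t' ⊔ Ideal.span {s} := by
    refine le_antisymm (Ideal.span_le.2 (Set.range_subset_iff.2 fun i => ?_))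
      (sup_le h3 ((Ideal.span_singleton_le_iff_mem _).2 hsI))
    rw [← sub_add_cancel (t i) (c i * s)]
    exact Ideal.add_mem _ (Ideal.mem_sup_left (h2 i))
      (Ideal.mem_sup_right (Ideal.mul_mem_left _ _ (Ideal.mem_span_singleton_self s)))
  have h5 := (RedRel.hom htI hsI h2 hF).2.2
  have h6 : sp t * sp t ^ D ≤ sp t' * sp t ^ D := by
    refine Submodule.le_of_le_smul_of_le_jacobson_bot (I := maximalIdeal B) ?_
      (maximalIdeal_le_jacobson _) ((red_pow_le h4 D).trans (sup_le ?_ le_sup_left))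
    · rw [← pow_succ']
      exact Ideal.FG.pow ⟨(Set.finite_range t).toFinset, by simp⟩
    · refine Ideal.mul_le.2 fun z hz y hy => ?_
      obtain ⟨a, rfl⟩ := Ideal.mem_span_singleton'.1 hy
      have e : z * (a * s ^ D) = a * w * (z * eval t F) -
          a * w * (z * (eval t F - eval c F * s ^ D)) := by
        linear_combination (-(z * a * s ^ D)) * hw
      rw [e]
      refine Ideal.sub_mem _ (Ideal.mem_sup_right (Ideal.mul_mem_left _ _ ?_))
        (Ideal.mem_sup_left (Ideal.mul_mem_left _ _ (h5 z hz)))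
      rw [smul_eq_mul, mul_left_comm]
      exact Ideal.mul_mem_mul hz hFt
  obtain ⟨r, hr⟩ := ht.2
  refine ⟨t', fun i => hI (h3 (Ideal.subset_span ⟨i, rfl⟩)), D + r, ?_⟩
  calc maximalIdeal B ^ (D + r + 1) = maximalIdeal B ^ (D + 1 + r) := by ring
    _ ≤ sp t ^ (D + 1) * maximalIdeal B ^ r := red_iter hr _
    _ ≤ sp t' * sp t ^ D * maximalIdeal B ^ r := Ideal.mul_mono_left (pow_succ' (sp t) D ▸ h6)
    _ ≤ sp t' * maximalIdeal B ^ D * maximalIdeal B ^ r :=
        Ideal.mul_mono_left (Ideal.mul_mono_right (Ideal.pow_right_mono hI D))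
    _ = _ := by ring

end aux

/-- A local ring with finitely generated maximal ideal, infinite residue field and
Hilbert–Samuel function `O(N^δ)` has a reduction of the maximal ideal with `δ` generators. -/
theorem exists_isRed (B : Type) [CommRing B] [IsLocalRing B] (hfg : (maximalIdeal B).FG)
    [Infinite (ResidueField B)] (δ C : ℕ) (h : ∀ N : ℕ, HS B N ≤ (C * (N + 1) ^ δ : ℕ)) :
    ∃ x : Fin δ → B, IsRed x (maximalIdeal B) := by
  have pad : ∀ j ≤ δ, ∀ t : Fin j → B, IsRed t (maximalIdeal B) →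
      ∃ x : Fin δ → B, IsRed x (maximalIdeal B) := fun j hj t ht => by
    refine ⟨fun i => if h : (i : ℕ) < j then t ⟨i, h⟩ else 0, fun i => ?_, ?_⟩
    · beta_reduce
      split_ifs
      · exact ht.1 _
      · exact Ideal.zero_mem _
    · obtain ⟨r, hr⟩ := ht.2
      refine ⟨r, hr.trans (Ideal.mul_mono_left (Ideal.span_mono ?_))⟩
      rintro _ ⟨i, rfl⟩
      exact ⟨i.castLE hj, by simp⟩
  have key : ∀ j, ∀ t : Fin j → B, IsRed t (maximalIdeal B) →
      ∃ x : Fin δ → B, IsRed x (maximalIdeal B) := fun j => by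
    induction j with
    | zero => exact pad 0 (Nat.zero_le _)
    | succ j ih =>
      intro t ht
      rcases le_or_gt δ j with hj | hj
      · obtain ⟨t', ht'⟩ := red_step hj h ht
        exact ih t' ht'
      · exact pad _ hj t ht
  obtain ⟨n, s, hs⟩ := Submodule.fg_iff_exists_fin_generating_family.1 hfg
  refine key n s ⟨fun i => hs ▸ Submodule.subset_span ⟨i, rfl⟩, 0, ?_⟩
  simpa using hs.ge

end Crest.Agent.R183
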