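import Crest.Agent.R183.MainStep
import Crest.Agent.R183.Dom2
import Crest.Agent.R183.DomWR
import Crest.Agent.R183.Reduction

/-!
# The inequality for complete local rings with infinite perfect residue field
-/

set_option autoImplicit false

open scoped ENNReal NNReal TensorProduct
open IsLocalRing

namespace Crest.Agent.R183

section aux

variable {R : Type} [CommRing R] {M M' : Type} [AddCommGroup M] [Module R M] [AddCommGroup M']
  [Module R M']

theorem main0_len_congr (I : Ideal R) (f : M ≃ₗ[R] M') :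
    Module.length R (M ⧸ (I • ⊤ : Submodule R M)) =
      Module.length R (M' ⧸ (I • ⊤ : Submodule R M')) :=
  (Submodule.Quotient.equiv _ _ f (by
    rw [Submodule.map_smul'', Submodule.map_top, LinearEquiv.range])).length_eq

theorem main0_len_add (I : Ideal R) (P : Submodule R M) :
    (Module.length R (M ⧸ (I • ⊤ : Submodule R M)) : ℝ≥0∞) ≤
      Module.length R (P ⧸ (I • ⊤ : Submodule R P)) +
        Module.length R ((M ⧸ P) ⧸ (I • ⊤ : Submodule R (M ⧸ P))) := by
  have h : (I • ⊤ : Submodule R M).map P.mkQ = I • ⊤ := by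
    rw [Submodule.map_smul'', Submodule.map_top, Submodule.range_mkQ]
  rw [← LF.length_val, ← LF.length_val, ← LF.length_val, ← LF.sz_top,
    LF.sz_tower_left _ (le_top : P ≤ ⊤), LF.sz_eq_quot, LF.sz_top, ← h,
    (LF.length R).congr (Submodule.quotientQuotientEquivQuotientSup P (I • ⊤))]
  refine add_le_add (LF.quot_anti _ (Submodule.map_le_iff_le_comap.1 ?_)) le_rfl
  rw [Submodule.map_smul'']
  exact Submodule.smul_mono le_rfl le_top

theorem main0_dim_eq {e : ℕ} (hd : ringKrullDim R ≤ (e + 1 : ℕ)) (I : Ideal R)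
    (h : ¬ ringKrullDim (R ⧸ I) ≤ e) : ringKrullDim (R ⧸ I) = (e + 1 : ℕ) :=
  le_antisymm ((ringKrullDim_quotient_le I).trans hd)
    (by rw [Nat.cast_succ]; exact ENat.WithBot.add_one_le_iff.2 (not_le.1 h))

theorem main0_perfect [IsLocalRing R] [PerfectField (ResidueField R)] (I : Ideal R)
    [IsLocalRing (R ⧸ I)] : PerfectField (ResidueField (R ⧸ I)) := by
  have := IsLocalHom.of_surjective (Ideal.Quotient.mk I) Ideal.Quotient.mk_surjective
  refine .of_ringEquiv (RingEquiv.ofBijective (ResidueField.map (Ideal.Quotient.mk I))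
    ⟨RingHom.injective _, fun z => ?_⟩)
  obtain ⟨z, rfl⟩ := residue_surjective z
  obtain ⟨z, rfl⟩ := Ideal.Quotient.mk_surjective z
  exact ⟨_, ResidueField.map_residue _ z⟩

end aux

section

variable {R : Type} [CommRing R] [IsLocalRing R] [IsNoetherianRing R]
  [IsAdicComplete (maximalIdeal R) R] [PerfectField (ResidueField R)] {e : ℕ}
  {S : Type} [CommRing S] [Algebra R S] {μ : LF S} {y : Fin (e + 1) → S} {fin : Prop}

/-- the case of a prime quotient -/
theorem main0_prime (hd : ringKrullDim R ≤ (e + 1 : ℕ)) (x : Fin (e + 1) → R)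
    (hx : IsRed x (maximalIdeal R)) (hS : SH R μ y fin) (hfin : CharZero (ResidueField R) → fin)
    (𝔭 : Ideal R) [𝔭.IsPrime] :
    lsup (e + 1) (fun N => (Module.length R
        ((R ⧸ 𝔭) ⧸ (maximalIdeal R ^ N • ⊤ : Submodule R (R ⧸ 𝔭))) : ℝ≥0∞)) ≤
      linf (e + 1) (fun N => tq μ (sp y ^ N) R (R ⧸ 𝔭)) := by
  by_cases h : ringKrullDim (R ⧸ 𝔭) ≤ e
  · have h1 := lsup_length_err R e 𝔭 h (R ⧸ 𝔭) (fun N => maximalIdeal R ^ N) 1 0
      fun N => by rw [one_mul, add_zero]
    have h2 : (𝔭 • ⊤ : Submodule R (R ⧸ 𝔭)) = ⊥ := by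
      rw [Ideal.smul_top_eq_map, Ideal.Quotient.algebraMap_eq, Ideal.map_quotient_self,
        Submodule.restrictScalars_bot]
    have h3 : ∀ N, ((maximalIdeal R ^ N ⊔ 𝔭) • ⊤ : Submodule R (R ⧸ 𝔭)) =
      maximalIdeal R ^ N • ⊤ := fun N => by rw [Submodule.sup_smul, h2, sup_bot_eq]
    refine le_trans (le_of_eq (Eq.trans ?_ h1)) zero_le
    exact congrArg _ (funext fun N => by rw [h3])
  have hs : Function.Surjective (algebraMap R (R ⧸ 𝔭)) := Ideal.Quotient.mk_surjective
  have := IsLocalRing.of_surjective' _ hs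
  have := IsLocalHom.of_surjective _ hs
  have := isAdicComplete_quotient R 𝔭
  have := main0_perfect 𝔭
  have hm := map_maximalIdeal_of_surjective _ hs
  have h1 := dom2 (main0_dim_eq hd 𝔭 h) _ (hm ▸ hx.map (algebraMap R (R ⧸ 𝔭)))
    (hS.baseChange (R ⧸ 𝔭) (fun r => (hs r).imp fun a ha => by rw [ha, sub_self]; exact zero_mem _)
      ⟨1, by rw [pow_one, hm]⟩)
    fun _ => hfin (RingHom.charZero (ResidueField.map (algebraMap R (R ⧸ 𝔭))))
  simp only [bc_val_quot_sp_pow] at h1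
  refine le_trans (le_of_eq (congrArg _ (funext fun N => ?_))) h1
  rw [HS, ← Module.length_eq_of_surjective hs, ← hm, ← Ideal.map_pow, Ideal.smul_top_eq_map,
    (Submodule.Quotient.restrictScalarsEquiv R _).length_eq]

theorem main0_wr (hd : ringKrullDim R ≤ (e + 1 : ℕ)) (x : Fin (e + 1) → R)
    (hx : IsRed x (maximalIdeal R)) (𝔭 : Ideal R) [𝔭.IsPrime] :
    ∃ w : R, ringKrullDim (R ⧸ Ideal.span {w}) ≤ e ∧
      ∀ b : ℕ, WR (fun i => x i ^ b) (R ⧸ 𝔭) w := by
  by_cases h : ringKrullDim (R ⧸ 𝔭) ≤ e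
  · obtain ⟨w, hw, h1⟩ := exists_mem_ringKrullDim_le R e hd 𝔭 h
    refine ⟨w, h1, fun b j v _ => ?_⟩
    rw [Algebra.smul_def, Ideal.Quotient.algebraMap_eq, Ideal.Quotient.eq_zero_iff_mem.2 hw,
      zero_mul]
    exact zero_mem _
  have hs : Function.Surjective (algebraMap R (R ⧸ 𝔭)) := Ideal.Quotient.mk_surjective
  have := IsLocalRing.of_surjective' _ hs
  have := isAdicComplete_quotient R 𝔭
  have := main0_perfect 𝔭
  have hm := map_maximalIdeal_of_surjective _ hs
  obtain ⟨r, hr⟩ := (hm ▸ hx.map (algebraMap R (R ⧸ 𝔭))).pow_le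
  obtain ⟨w₀, hw0, hw⟩ := dom_wr (main0_dim_eq hd 𝔭 h) _ ⟨1 + r, (hr 1).trans_eq (pow_one _)⟩
  obtain ⟨w₁, rfl⟩ := hs w₀
  have h1 : (Ideal.span {w₁}).map (Ideal.Quotient.mk 𝔭) = Ideal.span {algebraMap R (R ⧸ 𝔭) w₁} := by
    rw [Ideal.map_span, Set.image_singleton, Ideal.Quotient.algebraMap_eq]
  obtain ⟨w, hw1, h2⟩ := exists_mem_ringKrullDim_le R e hd (𝔭 ⊔ Ideal.span {w₁}) (by
    rw [← (DoubleQuot.quotQuotEquivQuotSup 𝔭 _).ringKrullDim]
    exact ringKrullDim_quot_le _ e (main0_dim_eq hd 𝔭 h).le _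
      (h1 ▸ Ideal.span_singleton_eq_bot.not.2 hw0))
  refine ⟨w, h2, fun b => (wr_algebraMap_iff (B' := R ⧸ 𝔭) _ _).1 ?_⟩
  have h3 := Ideal.mem_map_of_mem (Ideal.Quotient.mk 𝔭) hw1
  rw [Ideal.map_sup, Ideal.map_quotient_self, bot_sup_eq, h1] at h3
  obtain ⟨c, hc⟩ := Ideal.mem_span_singleton'.1 h3
  simp only [map_pow]
  exact (show c * algebraMap R (R ⧸ 𝔭) w₁ = algebraMap R (R ⧸ 𝔭) w from hc) ▸ (hw b).mul c

theorem main0_module (hd : ringKrullDim R ≤ (e + 1 : ℕ)) (x : Fin (e + 1) → R)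
    (hx : IsRed x (maximalIdeal R)) (hS : SH R μ y fin) (hfin : CharZero (ResidueField R) → fin)
    (M : Type) [AddCommGroup M] [Module R M] [Module.Finite R M] :
    lsup (e + 1) (fun N => (Module.length R
        (M ⧸ (maximalIdeal R ^ N • ⊤ : Submodule R M)) : ℝ≥0∞)) ≤
      linf (e + 1) (fun N => tq μ (sp y ^ N) R M) := by
  let P : Submodule R M → Prop := fun A => lsup (e + 1) (fun N => (Module.length R
    (A ⧸ (maximalIdeal R ^ N • ⊤ : Submodule R A)) : ℝ≥0∞)) ≤
      linf (e + 1) (fun N => tq μ (sp y ^ N) R A)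
  obtain ⟨s, hs1, hs2⟩ := IsNoetherianRing.exists_relSeries_isQuotientEquivQuotientPrime R M
  have step : ∀ A B : Submodule R M, A.IsQuotientEquivQuotientPrime B → P A → P B := by
    rintro A B ⟨hle, p, ⟨f⟩⟩ ih
    obtain ⟨w, hw1, hw2⟩ := main0_wr hd x hx p.1
    have g := Submodule.submoduleOfEquivOfLe hle
    refine le_trans ?_ (mainStep hS x hx.1 _ w (fun b => (hw2 b).of_equiv f.symm) hw1)
    refine (lsup_mono (Filter.Eventually.of_forall fun N =>
      main0_len_add _ (A.submoduleOf B))).trans ((lsup_add_le _ _ _).trans (add_le_add ?_ ?_))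
    · simp only [main0_len_congr _ g, tq_congr μ _ R g]
      exact ih
    · simp only [main0_len_congr _ f, tq_congr μ _ R f]
      exact main0_prime hd x hx hS hfin p.1
  suffices H : ∀ n, (h : n < s.length + 1) → P (s ⟨n, h⟩) by
    have H' : P s.last := H s.length s.length.lt_add_one
    rw [hs2] at H'
    simpa only [P, main0_len_congr _ (Submodule.topEquiv (R := R) (M := M)),
      tq_congr μ _ R (Submodule.topEquiv (R := R) (M := M))] using H'
  intro n h
  induction n with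
  | zero =>
    change P s.head
    rw [hs1]
    simp only [P, Module.length_eq_zero, ENat.toENNReal_zero, lsup_zero, zero_le]
  | succ n ih => exact step _ _ (s.step ⟨n, (add_lt_add_iff_right _).1 h⟩) (ih (n.lt_add_one.trans h))

theorem main0 [Infinite (ResidueField R)] (hd : ringKrullDim R ≤ (e + 1 : ℕ))
    (hS : SH R μ y fin) (hfin : CharZero (ResidueField R) → fin) :
    lsup (e + 1) (fun N => (HS R N : ℝ≥0∞)) ≤ linf (e + 1) (fun N => μ.val (S ⧸ sp y ^ N)) := by
  obtain ⟨C, hC⟩ := hs_growth_le R _ hd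
  obtain ⟨x, hx⟩ := exists_isRed R (Ideal.fg_of_isNoetherianRing _) _ C hC
  have h := main0_module hd x hx hS hfin R
  simp only [tq_self] at h
  refine le_trans (le_of_eq (congrArg _ (funext fun N => ?_))) h
  rw [HS, smul_eq_mul, Ideal.mul_top]

end

end Crest.Agent.R183
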