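import Crest.Agent.R183.TopBasic
import Crest.Agent.R183.Complete
import Crest.Agent.R183.Cohen
import Crest.Agent.R183.Gonfl
import Crest.Agent.R183.Folner
import Crest.Agent.R183.Reduction

/-!
# Reduction to a complete base with algebraically closed residue field (characteristic `p`)
-/

set_option autoImplicit false
set_option linter.style.haveILetI false

open scoped ENNReal NNReal TensorProduct
open IsLocalRing

namespace Crest.Agent.R183

/-- completion of a local ring with finitely generated maximal ideal, abstractly -/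
theorem MainP_exists_completion (B : Type) [CommRing B] [IsLocalRing B]
    (hfg : (maximalIdeal B).FG) :
    ∃ (B' : Type) (_ : CommRing B') (_ : IsLocalRing B')
      (_ : IsAdicComplete (maximalIdeal B') B') (_ : Algebra B B')
      (_ : IsLocalHom (algebraMap B B')),
      (maximalIdeal B).map (algebraMap B B') = maximalIdeal B' ∧
      Function.Bijective (algebraMap (ResidueField B) (ResidueField B')) ∧ HS B' = HS B := by
  haveI := AdicCompletion.isLocalRing_of_fg hfg
  haveI := AdicCompletion.algebraMap_isLocalHom_of_fg hfg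
  refine ⟨AdicCompletion (maximalIdeal B) B, inferInstance, inferInstance,
    AdicCompletion.isAdicComplete_of_fg hfg, inferInstance, inferInstance,
    (AdicCompletion.maximalIdeal_eq_map_of_fg hfg).symm, ?_,
    funext fun N => hs_adicCompletion B hfg N⟩
  have h := AdicCompletion.residueField_map_bijective_of_fg hfg
  refine ⟨RingHom.injective _, fun x => ?_⟩
  obtain ⟨y, rfl⟩ := h.2 x
  obtain ⟨z, rfl⟩ := residue_surjective y
  exact ⟨residue B z, rfl⟩

theorem MainP_dim_le (R S : Type) [CommRing R] [IsLocalRing R] [IsNoetherianRing R] [CommRing S]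
    [IsLocalRing S] [IsNoetherianRing S] [Algebra R S] [IsLocalHom (algebraMap R S)]
    (hc : ∃ c : ℕ, maximalIdeal S ^ c ≤ (maximalIdeal R).map (algebraMap R S))
    {d : ℕ} (hd : ringKrullDim R ≤ d) : ringKrullDim S ≤ d := by
  obtain ⟨x, hx, c₀, hc₀⟩ := exists_sop R d hd
  obtain ⟨c, hc⟩ := hc
  refine ringKrullDim_le_of_sop S (fun i => algebraMap R S (x i))
    (fun i => map_nonunit _ _ (hx i)) (c := c * c₀) ?_
  rw [pow_mul, ← sp_map]
  refine (Ideal.pow_right_mono hc c₀).trans ?_
  rw [← Ideal.map_pow]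
  exact Ideal.map_mono hc₀

theorem MainP_val_le {T S : Type} [CommRing T] [IsLocalRing T] [CommRing S] [Algebra T S]
    (hfg : (maximalIdeal T).FG) (μ : LF S)
    (hμ : μ.val (S ⧸ (maximalIdeal T).map (algebraMap T S)) = 1) {J : Ideal T} {M : ℕ}
    (hJ : maximalIdeal T ^ M ≤ J) : μ.val (S ⧸ J.map (algebraMap T S)) ≤ HS T M := by
  have h1 := μ.val_quot_map_le (maximalIdeal T) (maximalIdeal T ^ M) ⟨M, le_rfl⟩
    (hs_ne_top T hfg M)
  rw [hμ, mul_one] at h1
  exact (μ.quot_anti (Ideal.map_mono hJ)).trans h1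

/-- complete gonflement -/
theorem exists_complete_gonflement (R : Type) [CommRing R] [IsLocalRing R] [IsNoetherianRing R]
    (p : ℕ) [Fact p.Prime] [CharP (ResidueField R) p] :
    ∃ (R' : Type) (_ : CommRing R') (_ : IsLocalRing R') (_ : IsNoetherianRing R')
      (_ : IsAdicComplete (maximalIdeal R') R') (_ : Algebra R R')
      (_ : IsLocalHom (algebraMap R R')),
      (maximalIdeal R).map (algebraMap R R') = maximalIdeal R' ∧ IsAlgClosed (ResidueField R') ∧
      Algebra.IsAlgebraic (ResidueField R) (ResidueField R') ∧ HS R' = HS R := by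
  obtain ⟨R₁, _, _, _, _, hfree, hm₁, hac, halg⟩ := exists_gonflement R
  have hfg₁ : (maximalIdeal R₁).FG := hm₁ ▸ (Ideal.fg_of_isNoetherianRing _).map _
  obtain ⟨R', _, _, _, _, _, hm', hbij, hHS⟩ := MainP_exists_completion R₁ hfg₁
  letI : Algebra R R' := ((algebraMap R₁ R').comp (algebraMap R R₁)).toAlgebra
  haveI : IsScalarTower R R₁ R' := IsScalarTower.of_algebraMap_eq fun _ => rfl
  haveI : IsLocalHom (algebraMap R R') :=
    inferInstanceAs (IsLocalHom ((algebraMap R₁ R').comp (algebraMap R R₁)))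
  have hm : (maximalIdeal R).map (algebraMap R R') = maximalIdeal R' := by
    rw [IsScalarTower.algebraMap_eq R R₁ R', ← Ideal.map_map, hm₁, hm']
  have hfg' : (maximalIdeal R').FG := hm' ▸ hfg₁.map _
  haveI hac' : IsAlgClosed (ResidueField R') :=
    IsAlgClosed.of_ringEquiv _ _ (RingEquiv.ofBijective _ hbij)
  haveI : CharP (ResidueField R') p :=
    charP_of_injective_algebraMap (algebraMap (ResidueField R) (ResidueField R')).injective p
  haveI : ExpChar (ResidueField R') p := ExpChar.prime Fact.out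
  haveI : PerfectRing (ResidueField R') p := PerfectField.toPerfectRing p
  obtain ⟨φ, hφ⟩ := exists_witt_hom R' p
  haveI : IsNoetherianRing R' := by
    refine isNoetherianRing_of_complete (maximalIdeal R') hfg' φ fun b => ?_
    refine ⟨WittVector.teichmuller p (residue R' b), ?_⟩
    rw [← residue_eq_zero_iff, map_sub, hφ, WittVector.teichmuller_coeff_zero, sub_self]
  haveI : Algebra.IsAlgebraic (ResidueField R₁) (ResidueField R') :=
    ⟨fun x => by
      obtain ⟨y, rfl⟩ := hbij.2 x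
      exact isAlgebraic_algebraMap y⟩
  refine ⟨R', inferInstance, inferInstance, inferInstance, inferInstance, inferInstance,
    inferInstance, hm, hac', Algebra.IsAlgebraic.trans _ (ResidueField R₁) _, ?_⟩
  rw [hHS]
  exact funext fun N => hs_eq_of_flat R R₁ hm₁ N

theorem mainP (R S₁ : Type) [CommRing R] [IsLocalRing R] [IsNoetherianRing R] [CommRing S₁]
    [IsLocalRing S₁] [IsNoetherianRing S₁] [Algebra R S₁] [IsLocalHom (algebraMap R S₁)]
    [Module.Flat R S₁] (hc : ∃ c : ℕ, maximalIdeal S₁ ^ c ≤ (maximalIdeal R).map (algebraMap R S₁))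
    {d : ℕ} (hd : ringKrullDim R ≤ d) (p : ℕ) [Fact p.Prime] [CharP (ResidueField R) p] :
    ∃ (R' S' : Type) (_ : CommRing R') (_ : IsLocalRing R') (_ : IsNoetherianRing R')
      (_ : IsAdicComplete (maximalIdeal R') R') (_ : PerfectField (ResidueField R'))
      (_ : Infinite (ResidueField R')) (_ : CommRing S') (_ : Algebra R' S') (μ : LF S')
      (y : Fin d → S') (r : ℕ), ringKrullDim R' ≤ d ∧ SH R' μ y (CharZero (ResidueField R')) ∧
      (∀ N, HS R N ≤ HS R' N) ∧ ∀ N, μ.val (S' ⧸ sp y ^ N) ≤ HS S₁ (N + r) := by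
  obtain ⟨R', _, _, _, _, _, _, hm', hac', halg', hHS'⟩ := exists_complete_gonflement R p
  obtain ⟨S₂, _, _, _, _, hfree, hn₂, hac₂, -⟩ := exists_gonflement S₁
  letI : Algebra R S₂ := ((algebraMap S₁ S₂).comp (algebraMap R S₁)).toAlgebra
  haveI : IsScalarTower R S₁ S₂ := IsScalarTower.of_algebraMap_eq fun _ => rfl
  haveI : IsLocalHom (algebraMap R S₂) :=
    inferInstanceAs (IsLocalHom ((algebraMap S₁ S₂).comp (algebraMap R S₁)))
  haveI : Module.Flat R S₂ := Module.Flat.trans R S₁ S₂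
  have hfg₂ : (maximalIdeal S₂).FG := hn₂ ▸ (Ideal.fg_of_isNoetherianRing _).map _
  have hHS₂ : ∀ N, HS S₂ N = HS S₁ N := hs_eq_of_flat S₁ S₂ hn₂
  obtain ⟨C, hC⟩ := hs_growth_le S₁ d (MainP_dim_le R S₁ hc hd)
  obtain ⟨y₂, hy₂⟩ := exists_isRed S₂ hfg₂ d C fun N => (hHS₂ N).trans_le (hC N)
  obtain ⟨r, hr⟩ := hy₂.pow_le
  obtain ⟨μ, hμ⟩ := exists_lf_baseChange R R' S₂ hm'
  letI : Algebra S₂ (R' ⊗[R] S₂) := Algebra.TensorProduct.rightAlgebra
  have hμ' : μ.val ((R' ⊗[R] S₂) ⧸ (maximalIdeal S₂).map (algebraMap S₂ (R' ⊗[R] S₂))) = 1 := hμ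
  have hmap : (maximalIdeal R').map (algebraMap R' (R' ⊗[R] S₂)) =
      ((maximalIdeal R).map (algebraMap R S₂)).map (algebraMap S₂ (R' ⊗[R] S₂)) := by
    rw [← hm', Ideal.map_map, Ideal.map_map]
    congr 1
    ext a
    change algebraMap R R' a ⊗ₜ[R] (1 : S₂) = (1 : R') ⊗ₜ[R] algebraMap R S₂ a
    rw [Algebra.algebraMap_eq_smul_one, Algebra.algebraMap_eq_smul_one, TensorProduct.smul_tmul]
  have hmn : (maximalIdeal R).map (algebraMap R S₂) ≤ maximalIdeal S₂ :=
    Ideal.map_le_iff_le_comap.2 fun a ha => map_nonunit _ _ ha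
  have hsp : sp (fun k => algebraMap S₂ (R' ⊗[R] S₂) (y₂ k)) =
      (sp y₂).map (algebraMap S₂ (R' ⊗[R] S₂)) := (sp_map _ _).symm
  haveI : CharP (ResidueField R') p :=
    charP_of_injective_algebraMap (algebraMap (ResidueField R) (ResidueField R')).injective p
  refine ⟨R', R' ⊗[R] S₂, inferInstance, inferInstance, inferInstance, inferInstance,
    inferInstance, inferInstance, inferInstance, inferInstance, μ,
    fun k => algebraMap S₂ (R' ⊗[R] S₂) (y₂ k), r,
    MainP_dim_le R R' ⟨1, by rw [pow_one, hm']⟩ hd,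
    ⟨inferInstance, ⟨1 + r, ?_⟩, ?_, ?_, fun h0 => ?_⟩, fun N => by rw [hHS'], fun N => ?_⟩
  · rw [hmap, hsp, ← Ideal.map_pow]
    refine Ideal.map_mono ((Ideal.pow_right_mono hmn _).trans ?_)
    simpa using hr 1
  · rw [← hμ']
    refine μ.quot_anti (sup_le ?_ ?_)
    · rw [hsp]
      exact Ideal.map_mono (Ideal.span_le.2 (Set.range_subset_iff.2 hy₂.1))
    · rw [hmap]
      exact Ideal.map_mono hmn
  · obtain ⟨c, hc⟩ := hc
    have h1 : maximalIdeal S₂ ^ c ≤ (maximalIdeal R).map (algebraMap R S₂) := by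
      rw [← hn₂, ← Ideal.map_pow, IsScalarTower.algebraMap_eq R S₁ S₂, ← Ideal.map_map]
      exact Ideal.map_mono hc
    rw [hmap]
    refine ne_top_of_le_ne_top ?_ (MainP_val_le hfg₂ μ hμ' h1)
    simpa using hs_ne_top S₂ hfg₂ c
  · exact absurd (CharP.cast_eq_zero (ResidueField R') p)
      (Nat.cast_ne_zero.2 (Fact.out : p.Prime).ne_zero)
  · rw [hsp, ← Ideal.map_pow, ← hHS₂]
    exact MainP_val_le hfg₂ μ hμ' (hr N)

end Crest.Agent.R183
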