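import Crest.Agent.R183.TopBasic
import Crest.Agent.R183.Complete
import Crest.Agent.R183.Cohen
import Crest.Agent.R183.Reduction

/-!
# Reduction to a finite free extension of a complete base (residue characteristic zero)
-/

set_option autoImplicit false

open scoped ENNReal NNReal TensorProduct
open IsLocalRing

namespace Crest.Agent.R183

theorem mainZ_factor {R R' S : Type} [CommRing R] [CommRing R'] [CommRing S] (f : R →+* S)
    (j : R' →+* S) (hj : Function.Injective j) (h : ∀ r, ∃ a, j a = f r) :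
    ∃ g : R →+* R', ∀ r, j (g r) = f r := by
  choose g hg using h
  refine ⟨⟨⟨⟨g, hj ?_⟩, fun a b => hj ?_⟩, hj ?_, fun a b => hj ?_⟩, hg⟩
  · simp [hg]
  · simp [hg]
  · simp [hg]
  · simp [hg]

theorem mainZ_charZero (R S : Type) [CommRing R] [IsLocalRing R] [CommRing S] [IsLocalRing S]
    (f : R →+* S) [IsLocalHom f] [CharZero (ResidueField R)] : CharZero (ResidueField S) :=
  charZero_of_injective_ringHom (f := ResidueField.map f) (RingHom.injective _)

/-- The image of a ring generated by a coefficient field and `t` lies in the image of the power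
series ring. -/
theorem mainZ_mem_range {k A l S : Type} [CommRing k] [CommRing A] [CommRing l] [CommRing S]
    {n : ℕ} (J : Ideal S) [IsHausdorff J S] (φ : k →+* A) (t : Fin n → A)
    (hA : ∀ x : A, ∃ c, x - φ c ∈ sp t) (F : A →+* S) (Φ : MvPowerSeries (Fin n) l →+* S)
    (hc : ∀ c, ∃ c', Φ c' = F (φ c)) (hX : ∀ i, Φ (MvPowerSeries.X i) = F (t i))
    (ht : ∀ i, F (t i) ∈ J) (x : A) : ∃ p, Φ p = F x := by
  let _ : Algebra (MvPowerSeries (Fin n) l) S := Φ.toAlgebra
  set I : Ideal (MvPowerSeries (Fin n) l) := sp MvPowerSeries.X with hI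
  have hsm : ∀ (p : MvPowerSeries (Fin n) l) (s : S), p • s = Φ p * s := fun _ _ => rfl
  have hIJ : I.map (algebraMap (MvPowerSeries (Fin n) l) S) ≤ J := by
    rw [hI, sp_map, Ideal.span_le]
    rintro _ ⟨i, rfl⟩
    change Φ _ ∈ J
    rw [hX]
    exact ht i
  have : IsHausdorff I S := IsHausdorff.of_map hIJ
  set N : Submodule (MvPowerSeries (Fin n) l) S := Submodule.span _ (Set.range F) with hN
  have hmem : ∀ a : A, F a ∈ N := fun a => Submodule.subset_span ⟨a, rfl⟩
  have : IsHausdorff I N := ⟨fun y hy => Subtype.ext (IsHausdorff.haus' (I := I) (y : S) fun m => by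
    have h1 := SModEq.zero.1 (hy m)
    rw [SModEq.zero]
    have h2 : (I ^ m • (⊤ : Submodule (MvPowerSeries (Fin n) l) N)).map N.subtype ≤ I ^ m • ⊤ := by
      rw [Submodule.map_smul'']
      exact Submodule.smul_mono le_rfl le_top
    exact h2 ⟨y, h1, rfl⟩)⟩
  have hone : (1 : S) ∈ N := by simpa using hmem 1
  let v : Fin 1 → N := fun _ => ⟨1, hone⟩
  have key : ∀ a : A, (⟨F a, hmem a⟩ : N) ∈
      Submodule.span (MvPowerSeries (Fin n) l) (Set.range v) ⊔ (I • ⊤ : Submodule _ N) := by
    intro a
    obtain ⟨c, hca⟩ := hA a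
    obtain ⟨c', hc'⟩ := hc c
    obtain ⟨b, hb⟩ := (Submodule.mem_span_range_iff_exists_fun A).1 hca
    have e : (⟨F a, hmem a⟩ : N) = c' • v 0 +
        ∑ i, (MvPowerSeries.X i : MvPowerSeries (Fin n) l) • (⟨F (b i), hmem _⟩ : N) := by
      apply Subtype.ext
      have h3 : a = φ c + ∑ i, b i • t i := by rw [hb]; ring
      simp only [v, Submodule.coe_add, Submodule.coe_smul, Submodule.coe_sum, hsm, hc', hX,
        mul_one]
      conv_lhs => rw [h3]
      simp [mul_comm]
    rw [e]
    refine Submodule.add_mem _ (Submodule.mem_sup_left (Submodule.smul_mem _ _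
      (Submodule.subset_span ⟨0, rfl⟩))) (Submodule.mem_sup_right (Submodule.sum_mem _ fun i _ =>
        Submodule.smul_mem_smul (Ideal.subset_span ⟨i, rfl⟩) Submodule.mem_top))
  have htop : Submodule.span (MvPowerSeries (Fin n) l) (Set.range v) ⊔
      (I • ⊤ : Submodule _ N) = ⊤ := by
    rw [eq_top_iff]
    rintro ⟨y, hy⟩ -
    induction hy using Submodule.span_induction with
    | mem y hy => obtain ⟨a, rfl⟩ := hy; exact key a
    | zero => exact Submodule.zero_mem _
    | add y z hy hz h1 h2 => exact Submodule.add_mem _ h1 h2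
    | smul p y hy h1 => exact Submodule.smul_mem _ p h1
  have hspan := span_eq_top_of_complete I v htop
  have hx : (⟨F x, hmem x⟩ : N) ∈ Submodule.span (MvPowerSeries (Fin n) l) (Set.range v) := by
    rw [hspan]; trivial
  obtain ⟨b, hb⟩ := (Submodule.mem_span_range_iff_exists_fun _).1 hx
  refine ⟨b 0, ?_⟩
  have := congrArg Subtype.val hb
  simpa [v, hsm] using this

/-- An intermediate complete local ring with the residue field of the completion of `S₁`. -/
theorem exists_intermediate (R S : Type) [CommRing R] [IsLocalRing R] [IsNoetherianRing R]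
    [CommRing S] [IsLocalRing S] [IsNoetherianRing S] [IsAdicComplete (maximalIdeal S) S]
    [Algebra R S] [IsLocalHom (algebraMap R S)] [CharZero (ResidueField R)] :
    ∃ (R' : Type) (_ : CommRing R') (_ : IsLocalRing R') (_ : IsNoetherianRing R')
      (_ : IsAdicComplete (maximalIdeal R') R') (_ : Algebra R R') (_ : Algebra R' S)
      (_ : IsScalarTower R R' S) (_ : IsLocalHom (algebraMap R' S)),
      (maximalIdeal R).map (algebraMap R R') = maximalIdeal R' ∧
      ∀ s : S, ∃ a : R', s - algebraMap R' S a ∈ maximalIdeal S := by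
  obtain ⟨n, t, ht⟩ := Submodule.fg_iff_exists_fin_generating_family.1
    (maximalIdeal R).fg_of_isNoetherianRing
  have ht' : sp t = maximalIdeal R := ht
  have hle : (maximalIdeal R).map (algebraMap R S) ≤ maximalIdeal S := map_maximalIdeal_le _
  have htm : ∀ i, t i ∈ maximalIdeal R := fun i => ht' ▸ Ideal.subset_span ⟨i, rfl⟩
  have htS : ∀ i, algebraMap R S (t i) ∈ maximalIdeal S :=
    fun i => hle (Ideal.mem_map_of_mem _ (htm i))
  have := mainZ_charZero R (AdicCompletion (maximalIdeal R) R) (algebraMap _ _)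
  obtain ⟨φ, hφ⟩ := exists_coeffField_charZero (AdicCompletion (maximalIdeal R) R)
  obtain ⟨F, hF⟩ := exists_lift_adicCompletion (maximalIdeal R) (maximalIdeal S)
    (algebraMap R S) hle
  obtain ⟨s, hs, hsφ⟩ := exists_coeffField_over _ S (F.comp φ)
  obtain ⟨Φ, hΦC, hΦX⟩ := exists_eval (σ := Fin n) (maximalIdeal S) s
    (fun i => algebraMap R S (t i)) htS
  have hrange : ∀ r : R, ∃ p, Φ p = algebraMap R S r := by
    intro r
    rw [← hF r]
    refine mainZ_mem_range (maximalIdeal S) φ (fun i => algebraMap R _ (t i)) (fun x => ?_) F Φ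
      (fun c => ⟨MvPowerSeries.C (residue S (F (φ c))), ?_⟩) (fun i => ?_) (fun i => ?_) _
    · refine ⟨residue _ x, ?_⟩
      rw [← sp_map, ht', ← AdicCompletion.maximalIdeal_eq_map, ← residue_eq_zero_iff, map_sub, hφ,
        sub_self]
    · rw [hΦC]; exact hsφ c
    · rw [hΦX, hF]
    · rw [hF]; exact htS i
  set P := MvPowerSeries (Fin n) (ResidueField S) with hP
  have hker : RingHom.ker Φ ≠ ⊤ := RingHom.ker_ne_top Φ
  have : Nontrivial (P ⧸ RingHom.ker Φ) := Ideal.Quotient.nontrivial_iff.2 hker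
  have : IsLocalRing (P ⧸ RingHom.ker Φ) :=
    IsLocalRing.of_surjective' (Ideal.Quotient.mk _) Ideal.Quotient.mk_surjective
  have : IsAdicComplete (maximalIdeal (ResidueField S)) (ResidueField S) := by
    rw [maximalIdeal_eq_bot]; infer_instance
  have : IsAdicComplete (maximalIdeal P) P :=
    isAdicComplete_mvPowerSeries (ResidueField S) (maximalIdeal _).fg_of_isNoetherianRing (Fin n)
  have hcomp := isAdicComplete_quotient P (RingHom.ker Φ)
  have hj := RingHom.kerLift_injective Φ
  obtain ⟨g, hg⟩ := mainZ_factor (algebraMap R S) (RingHom.kerLift Φ) hj fun r => by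
    obtain ⟨p, hp⟩ := hrange r
    exact ⟨Ideal.Quotient.mk _ p, by rw [RingHom.kerLift_mk, hp]⟩
  let _ : Algebra R (P ⧸ RingHom.ker Φ) := g.toAlgebra
  let _ : Algebra (P ⧸ RingHom.ker Φ) S := (RingHom.kerLift Φ).toAlgebra
  have hmax : maximalIdeal (P ⧸ RingHom.ker Φ) =
      sp fun i => Ideal.Quotient.mk (RingHom.ker Φ) (MvPowerSeries.X i) := by
    rw [← map_maximalIdeal_of_surjective (Ideal.Quotient.mk (RingHom.ker Φ))
      Ideal.Quotient.mk_surjective, ← sp_map]
    congr 1
    have h1 := maximalIdeal_mvPowerSeries (ResidueField S) (Fin n)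
    rw [maximalIdeal_eq_bot, Ideal.map_bot, bot_sup_eq] at h1
    exact h1
  have hgt : ∀ i, g (t i) = Ideal.Quotient.mk (RingHom.ker Φ) (MvPowerSeries.X i) :=
    fun i => hj (by rw [hg, RingHom.kerLift_mk, hΦX])
  refine ⟨P ⧸ RingHom.ker Φ, inferInstance, inferInstance, inferInstance, hcomp, inferInstance,
    inferInstance, IsScalarTower.of_algebraMap_eq fun r => (hg r).symm, ?_, ?_, fun x => ?_⟩
  · refine ((local_hom_TFAE _).out 2 0).1 ?_
    rw [hmax, sp_map, Ideal.span_le]
    rintro _ ⟨i, rfl⟩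
    change RingHom.kerLift Φ _ ∈ maximalIdeal S
    rw [RingHom.kerLift_mk, hΦX]
    exact htS i
  · rw [hmax, ← ht', sp_map]
    congr 2
    funext i
    exact hgt i
  · refine ⟨Ideal.Quotient.mk _ (MvPowerSeries.C (residue S x)), ?_⟩
    change x - RingHom.kerLift Φ _ ∈ maximalIdeal S
    rw [RingHom.kerLift_mk, hΦC, ← residue_eq_zero_iff, map_sub, hs, sub_self]

theorem mainZ_length_pi {B : Type} [CommRing B] (n : ℕ) (J : Ideal B) :
    Module.length B ((Fin n → B) ⧸ (J • ⊤ : Submodule B (Fin n → B))) =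
      n * Module.length B (B ⧸ J) := by
  let g : (Fin n → B) →ₗ[B] (Fin n → B ⧸ J) := LinearMap.compLeft J.mkQ (Fin n)
  have hg : Function.Surjective g := fun w => by
    choose v hv using fun i => Ideal.Quotient.mk_surjective (w i)
    exact ⟨v, funext hv⟩
  have hk : (J • ⊤ : Submodule B (Fin n → B)) = LinearMap.ker g := by
    ext x
    rw [Complete_mem_smul_pi, LinearMap.mem_ker, funext_iff]
    exact forall_congr' fun i => (Submodule.Quotient.mk_eq_zero J).symm
  rw [((Submodule.quotEquivOfEq _ _ hk).trans (g.quotKerEquivOfSurjective hg)).length_eq,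
    Module.length_pi_of_fintype]
  simp

theorem mainZ_length_quot {A S : Type} [CommRing A] [IsLocalRing A] [CommRing S] [IsLocalRing S]
    [Algebra A S] [IsLocalHom (algebraMap A S)]
    (hres : ∀ s : S, ∃ a : A, s - algebraMap A S a ∈ maximalIdeal S) (J : Ideal A) :
    Module.length A (S ⧸ (J • ⊤ : Submodule A S)) =
      Module.length S (S ⧸ J.map (algebraMap A S)) := by
  rw [← length_eq_of_res hres (S ⧸ J.map (algebraMap A S))]
  exact ((Submodule.quotEquivOfEq _ _ (Ideal.smul_top_eq_map J)).trans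
    (Submodule.Quotient.restrictScalarsEquiv A (J.map (algebraMap A S)))).length_eq

theorem mainZ_length_flat {R S : Type} [CommRing R] [IsLocalRing R] [CommRing S] [IsLocalRing S]
    [Algebra R S] [IsLocalHom (algebraMap R S)] [Module.Flat R S] (J : Ideal R) :
    Module.length S (S ⧸ J.map (algebraMap R S)) =
      Module.length R (R ⧸ J) * Module.length S (S ⧸ (maximalIdeal R).map (algebraMap R S)) := by
  rw [(Algebra.TensorProduct.quotIdealMapEquivTensorQuot S J).toLinearEquiv.length_eq,
    IsLocalRing.length_baseChange]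

theorem mainZ_length_ne_top {S : Type} [CommRing S] [IsLocalRing S] [IsNoetherianRing S]
    {J : Ideal S} (h : ∃ c : ℕ, maximalIdeal S ^ c ≤ J) : Module.length S (S ⧸ J) ≠ ⊤ := by
  obtain ⟨c, hc⟩ := h
  exact length_ne_top_of_pow (maximalIdeal S) (maximalIdeal S).fg_of_isNoetherianRing _
    ⟨c, LF.LFkill_quot_ideal hc⟩

theorem mainZ_inj {B V W : Type} [CommRing B] [AddCommGroup V] [Module B V] [AddCommGroup W]
    [Module B W] (g : V →ₗ[B] W) (hg : Function.Surjective g) (hW : Module.length B W ≠ ⊤)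
    (h : Module.length B V ≤ Module.length B W) : Function.Injective g := by
  have h1 := Module.length_eq_add_of_exact (LinearMap.ker g).subtype g
    (LinearMap.ker g).subtype_injective hg (LinearMap.exact_subtype_ker_map g)
  rw [h1] at h
  have h2 : Module.length B (LinearMap.ker g) = 0 := by
    have h3 : Module.length B (LinearMap.ker g) + Module.length B W ≤ 0 + Module.length B W := by
      rwa [zero_add]
    exact nonpos_iff_eq_zero.1 ((ENat.add_le_add_iff_right hW).1 h3)
  rw [Module.length_eq_zero_iff] at h2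
  rw [← LinearMap.ker_eq_bot]
  exact Submodule.eq_bot_of_subsingleton

/-- freeness by counting lengths -/
theorem free_of_intermediate (R R' S : Type) [CommRing R] [IsLocalRing R] [IsNoetherianRing R]
    [CommRing R'] [IsLocalRing R'] [IsNoetherianRing R'] [IsAdicComplete (maximalIdeal R') R']
    [CommRing S] [IsLocalRing S] [IsNoetherianRing S] [Algebra R R'] [Algebra R' S] [Algebra R S]
    [IsScalarTower R R' S] [IsLocalHom (algebraMap R' S)] [Module.Flat R S]
    (hm : (maximalIdeal R).map (algebraMap R R') = maximalIdeal R')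
    (hres : ∀ s : S, ∃ a : R', s - algebraMap R' S a ∈ maximalIdeal S)
    (hc : ∃ c : ℕ, maximalIdeal S ^ c ≤ (maximalIdeal R).map (algebraMap R S)) :
    Module.Finite R' S ∧ Module.Free R' S ∧ HS R' = HS R := by
  have hmap : ∀ J : Ideal R, (J.map (algebraMap R R')).map (algebraMap R' S) =
      J.map (algebraMap R S) := fun J => by
    rw [Ideal.map_map, ← IsScalarTower.algebraMap_eq]
  have hle' : (maximalIdeal R').map (algebraMap R' S) ≤ maximalIdeal S := map_maximalIdeal_le _
  have hle : (maximalIdeal R).map (algebraMap R S) ≤ maximalIdeal S := by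
    rw [← hmap, hm]; exact hle'
  have : IsLocalHom (algebraMap R S) := ((local_hom_TFAE _).out 2 0).1 hle
  have hν := mainZ_length_ne_top hc
  obtain ⟨ν, hν'⟩ := ENat.ne_top_iff_exists.1 hν
  have hν0 : ν ≠ 0 := by
    rintro rfl
    have h1 : Module.length S (S ⧸ (maximalIdeal R).map (algebraMap R S)) = 0 := by
      rw [← hν']; rfl
    rw [Module.length_eq_zero_iff, Ideal.Quotient.subsingleton_iff] at h1
    exact (maximalIdeal.isMaximal S).ne_top (top_le_iff.1 (h1 ▸ hle))
  have hlen : ∀ N : ℕ, Module.length R' (S ⧸ (maximalIdeal R' ^ N • ⊤ : Submodule R' S)) =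
      HS R N * ν := fun N => by
    rw [mainZ_length_quot hres, ← hm, ← Ideal.map_pow, hmap, mainZ_length_flat, hν']
    rfl
  have hlen1 : Module.length R' (S ⧸ (maximalIdeal R' • ⊤ : Submodule R' S)) ≤ ν := by
    rw [mainZ_length_quot hres, ← hm, hmap, hν']
  obtain ⟨w, hw⟩ := LFexists_span_of_length ν _ hlen1
  choose v hv using fun i => Submodule.Quotient.mk_surjective _ (w i)
  have : IsHausdorff (maximalIdeal R') S := IsHausdorff.of_map hle'
  have hsup : Submodule.span R' (Set.range v) ⊔ (maximalIdeal R' • ⊤ : Submodule R' S) = ⊤ := by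
    rw [sup_comm, ← Submodule.map_mkQ_eq_top, Submodule.map_span, ← Set.range_comp, ← hw]
    congr 2
    funext i
    exact hv i
  have hspan := span_eq_top_of_complete (maximalIdeal R') v hsup
  let g : (Fin ν → R') →ₗ[R'] S := Fintype.linearCombination R' v
  have hg : Function.Surjective g := by
    rw [← LinearMap.range_eq_top, Fintype.range_linearCombination, hspan]
  have hq : ∀ N : ℕ, (maximalIdeal R' ^ N • ⊤ : Submodule R' (Fin ν → R')) ≤
      (maximalIdeal R' ^ N • ⊤ : Submodule R' S).comap g := fun N => by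
    rw [← Submodule.map_le_iff_le_comap, Submodule.map_smul'']
    exact Submodule.smul_mono le_rfl le_top
  have hgN : ∀ N : ℕ, Function.Surjective (Submodule.mapQ _ _ g (hq N)) := fun N x => by
    obtain ⟨x, rfl⟩ := Submodule.Quotient.mk_surjective _ x
    obtain ⟨y, rfl⟩ := hg x
    exact ⟨Submodule.Quotient.mk y, rfl⟩
  have hfin : ∀ N, HS R N ≠ ⊤ := hs_ne_top R (maximalIdeal R).fg_of_isNoetherianRing
  have hinjN : ∀ N : ℕ, Function.Injective (Submodule.mapQ _ _ g (hq N)) := fun N => by
    refine mainZ_inj _ (hgN N) ?_ ?_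
    · rw [hlen]
      exact WithTop.mul_ne_top (hfin N) (ENat.natCast_ne_top ν)
    · rw [hlen, mainZ_length_pi, mul_comm]
      exact mul_le_mul_left (hs_le_of_map_eq R R' hm N) _
  have hinj : Function.Injective g := by
    rw [injective_iff_map_eq_zero]
    intro x hx
    funext i
    refine IsHausdorff.haus' (I := maximalIdeal R') (x i) fun N => ?_
    rw [SModEq.zero, Complete_mem_smul_top]
    have h1 : (Submodule.Quotient.mk x :
        (Fin ν → R') ⧸ (maximalIdeal R' ^ N • ⊤ : Submodule R' (Fin ν → R'))) = 0 := by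
      apply hinjN N
      rw [Submodule.mapQ_apply, hx]
      simp
    exact (Complete_mem_smul_pi _).1 ((Submodule.Quotient.mk_eq_zero _).1 h1) i
  let e := LinearEquiv.ofBijective g ⟨hinj, hg⟩
  refine ⟨Module.Finite.equiv e, Module.Free.of_equiv e, funext fun N => ?_⟩
  refine le_antisymm (hs_le_of_map_eq R R' hm N) ?_
  have h1 := Module.length_le_of_surjective _ (hgN N)
  rw [hlen, mainZ_length_pi, mul_comm] at h1
  exact (ENat.mul_le_mul_left_iff (by exact_mod_cast hν0) (ENat.natCast_ne_top ν)).1 h1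

theorem mainZ_dim_le (R S : Type) [CommRing R] [IsLocalRing R] [IsNoetherianRing R] [CommRing S]
    [IsLocalRing S] [IsNoetherianRing S] (f : R →+* S)
    (hle : (maximalIdeal R).map f ≤ maximalIdeal S)
    (hc : ∃ c : ℕ, maximalIdeal S ^ c ≤ (maximalIdeal R).map f) {d : ℕ}
    (hd : ringKrullDim R ≤ d) : ringKrullDim S ≤ d := by
  obtain ⟨x, hx, c, hxc⟩ := exists_sop R d hd
  obtain ⟨c', hc'⟩ := hc
  refine ringKrullDim_le_of_sop S (fun i => f (x i))
    (fun i => hle (Ideal.mem_map_of_mem _ (hx i))) (c := c' * c) ?_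
  rw [pow_mul, ← sp_map]
  refine (Ideal.pow_right_mono hc' c).trans ?_
  rw [← Ideal.map_pow]
  exact Ideal.map_mono hxc

theorem mainZ_complete (R S : Type) [CommRing R] [IsLocalRing R] [IsNoetherianRing R] [CommRing S]
    [IsLocalRing S] [IsNoetherianRing S] [IsAdicComplete (maximalIdeal S) S] [Algebra R S]
    [IsLocalHom (algebraMap R S)] [Module.Flat R S]
    (hc : ∃ c : ℕ, maximalIdeal S ^ c ≤ (maximalIdeal R).map (algebraMap R S))
    {d : ℕ} (hd : ringKrullDim R ≤ d) [CharZero (ResidueField R)] :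
    ∃ (R' : Type) (_ : CommRing R') (_ : IsLocalRing R') (_ : IsNoetherianRing R')
      (_ : IsAdicComplete (maximalIdeal R') R') (_ : CharZero (ResidueField R'))
      (_ : Algebra R' S) (y : Fin d → S) (r : ℕ), ringKrullDim R' ≤ d ∧
      SH R' (LF.length S) y (CharZero (ResidueField R')) ∧
      (∀ N, HS R N ≤ HS R' N) ∧ ∀ N, (LF.length S).val (S ⧸ sp y ^ N) ≤ HS S (N + r) := by
  obtain ⟨R', _, _, _, _, _, _, _, _, hm, hres⟩ := exists_intermediate R S
  obtain ⟨hfin, hfree, hHS⟩ := free_of_intermediate R R' S hm hres hc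
  have : IsLocalHom (algebraMap R R') := ((local_hom_TFAE _).out 2 0).1 hm.le
  have := mainZ_charZero R R' (algebraMap R R')
  have := mainZ_charZero R S (algebraMap R S)
  have hdS : ringKrullDim S ≤ d := mainZ_dim_le R S _ (map_maximalIdeal_le _) hc hd
  obtain ⟨C, hC⟩ := hs_growth_le S d hdS
  obtain ⟨y, hy⟩ := exists_isRed S (maximalIdeal S).fg_of_isNoetherianRing d C hC
  obtain ⟨r, hr⟩ := hy.pow_le
  have hle' : (maximalIdeal R').map (algebraMap R' S) ≤ maximalIdeal S := map_maximalIdeal_le _
  have hmap : (maximalIdeal R').map (algebraMap R' S) = (maximalIdeal R).map (algebraMap R S) := by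
    rw [← hm, Ideal.map_map, ← IsScalarTower.algebraMap_eq]
  refine ⟨R', inferInstance, inferInstance, inferInstance, inferInstance, inferInstance,
    inferInstance, y, r, mainZ_dim_le R R' _ hm.le ⟨1, by rw [pow_one, hm]⟩ hd,
    ⟨inferInstance, ⟨1 + r, ?_⟩, ?_, ?_, fun _ => ⟨hfin, hfree, fun M _ _ _ _ => ?_⟩⟩,
    fun N => (congrFun hHS N).ge, fun N => ?_⟩
  · refine (Ideal.pow_right_mono hle' _).trans ?_
    simpa using hr 1
  · have h1 : sp y ⊔ (maximalIdeal R').map (algebraMap R' S) ≤ maximalIdeal S := by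
      refine sup_le ?_ hle'
      rw [Ideal.span_le]
      rintro _ ⟨i, rfl⟩
      exact hy.1 i
    have h2 := (LF.length S).quot_anti (M := S) h1
    rw [LF.length_val, hsBasic_length_residue] at h2
    simpa using h2
  · rw [LF.length_val, hmap]
    simpa using mainZ_length_ne_top hc
  · rw [LF.length_val, length_eq_of_res hres M]
  · exact (LF.length S).quot_anti (M := S) (hr N)

theorem mainZ (R S₁ : Type) [CommRing R] [IsLocalRing R] [IsNoetherianRing R] [CommRing S₁]
    [IsLocalRing S₁] [IsNoetherianRing S₁] [Algebra R S₁] [IsLocalHom (algebraMap R S₁)]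
    [Module.Flat R S₁] (hc : ∃ c : ℕ, maximalIdeal S₁ ^ c ≤ (maximalIdeal R).map (algebraMap R S₁))
    {d : ℕ} (hd : ringKrullDim R ≤ d) [CharZero (ResidueField R)] :
    ∃ (R' S' : Type) (_ : CommRing R') (_ : IsLocalRing R') (_ : IsNoetherianRing R')
      (_ : IsAdicComplete (maximalIdeal R') R') (_ : PerfectField (ResidueField R'))
      (_ : Infinite (ResidueField R')) (_ : CommRing S') (_ : Algebra R' S') (μ : LF S')
      (y : Fin d → S') (r : ℕ), ringKrullDim R' ≤ d ∧ SH R' μ y (CharZero (ResidueField R')) ∧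
      (∀ N, HS R N ≤ HS R' N) ∧ ∀ N, μ.val (S' ⧸ sp y ^ N) ≤ HS S₁ (N + r) := by
  have := isNoetherianRing_adicCompletion S₁
  have : IsScalarTower R S₁ (AdicCompletion (maximalIdeal S₁) S₁) :=
    IsScalarTower.of_algebraMap_eq fun _ => rfl
  have he : algebraMap R (AdicCompletion (maximalIdeal S₁) S₁) =
      (algebraMap S₁ _).comp (algebraMap R S₁) := IsScalarTower.algebraMap_eq R S₁ _
  have : IsLocalHom (algebraMap R (AdicCompletion (maximalIdeal S₁) S₁)) := by
    rw [he]; infer_instance
  have : Module.Flat R (AdicCompletion (maximalIdeal S₁) S₁) := Module.Flat.trans R S₁ _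
  have hc' : ∃ c : ℕ, maximalIdeal (AdicCompletion (maximalIdeal S₁) S₁) ^ c ≤
      (maximalIdeal R).map (algebraMap R (AdicCompletion (maximalIdeal S₁) S₁)) := by
    obtain ⟨c, hc⟩ := hc
    refine ⟨c, ?_⟩
    rw [AdicCompletion.maximalIdeal_eq_map, ← Ideal.map_pow, he, ← Ideal.map_map]
    exact Ideal.map_mono hc
  obtain ⟨R', _, _, _, _, _, _, y, r, h1, h2, h3, h4⟩ :=
    mainZ_complete R (AdicCompletion (maximalIdeal S₁) S₁) hc' hd
  refine ⟨R', AdicCompletion (maximalIdeal S₁) S₁, inferInstance, inferInstance, inferInstance,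
    inferInstance, inferInstance, inferInstance, inferInstance, inferInstance, LF.length _, y, r,
    h1, h2, h3, fun N => ?_⟩
  rw [← hs_adicCompletion S₁ (maximalIdeal S₁).fg_of_isNoetherianRing]
  exact h4 N

end Crest.Agent.R183
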