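import Crest.Agent.R183.Main0
import Crest.Agent.R183.MainP
import Crest.Agent.R183.MainZ

/-!
# The inequality for flat local maps with zero-dimensional fibre
-/

set_option autoImplicit false

open scoped ENNReal NNReal TensorProduct
open IsLocalRing

namespace Crest.Agent.R183

theorem main1_hs_le (R S₁ : Type) [CommRing R] [IsLocalRing R] [CommRing S₁]
    [IsLocalRing S₁] [Algebra R S₁] [IsLocalHom (algebraMap R S₁)] [Module.Flat R S₁] {c : ℕ}
    (hc : maximalIdeal S₁ ^ c ≤ (maximalIdeal R).map (algebraMap R S₁)) (N : ℕ) :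
    HS R N ≤ HS S₁ (c * N) := by
  have h1 := IsLocalRing.length_baseChange R S₁ (R ⧸ maximalIdeal R ^ N)
  rw [← (Algebra.TensorProduct.quotIdealMapEquivTensorQuot S₁
    (maximalIdeal R ^ N)).toLinearEquiv.length_eq, Ideal.map_pow] at h1
  have hm : (maximalIdeal R).map (algebraMap R S₁) ≤ maximalIdeal S₁ :=
    ((IsLocalRing.local_hom_TFAE _).out 0 2).mp ‹IsLocalHom (algebraMap R S₁)›
  have h2 : 1 ≤ Module.length S₁ (S₁ ⧸ (maximalIdeal R).map (algebraMap R S₁)) := by
    rw [← hsBasic_length_residue S₁]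
    exact Module.length_le_of_surjective (Submodule.factor hm) (Submodule.factor_surjective hm)
  have h3 : maximalIdeal S₁ ^ (c * N) ≤ (maximalIdeal R).map (algebraMap R S₁) ^ N := by
    rw [pow_mul]
    exact Ideal.pow_right_mono hc N
  calc HS R N ≤ HS R N * Module.length S₁ (S₁ ⧸ (maximalIdeal R).map (algebraMap R S₁)) :=
        le_mul_of_one_le_right' h2
    _ = Module.length S₁ (S₁ ⧸ (maximalIdeal R).map (algebraMap R S₁) ^ N) := h1.symm
    _ ≤ HS S₁ (c * N) :=
        Module.length_le_of_surjective (Submodule.factor h3) (Submodule.factor_surjective h3)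

theorem main1 (R S₁ : Type) [CommRing R] [IsLocalRing R] [IsNoetherianRing R] [CommRing S₁]
    [IsLocalRing S₁] [IsNoetherianRing S₁] [Algebra R S₁] [IsLocalHom (algebraMap R S₁)]
    [Module.Flat R S₁] (hc : ∃ c : ℕ, maximalIdeal S₁ ^ c ≤ (maximalIdeal R).map (algebraMap R S₁))
    {d : ℕ} (hd : ringKrullDim R ≤ d) :
    lsup d (fun N => (HS R N : ℝ≥0∞)) ≤ linf d (fun N => (HS S₁ N : ℝ≥0∞)) := by
  cases d with
  | zero =>
    obtain ⟨c, hc⟩ := hc
    exact lsup_zero_le_linf_zero (fun N N' h => ENat.toENNReal_le.2 (hs_mono S₁ h))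
      fun N => ⟨c * N, ENat.toENNReal_le.2 (main1_hs_le R S₁ hc N)⟩
  | succ e =>
    have key : ∃ (R' S' : Type) (_ : CommRing R') (_ : IsLocalRing R') (_ : IsNoetherianRing R')
        (_ : IsAdicComplete (maximalIdeal R') R') (_ : PerfectField (ResidueField R'))
        (_ : Infinite (ResidueField R')) (_ : CommRing S') (_ : Algebra R' S') (μ : LF S')
        (y : Fin (e + 1) → S') (r : ℕ), ringKrullDim R' ≤ (e + 1 : ℕ) ∧
        SH R' μ y (CharZero (ResidueField R')) ∧
        (∀ N, HS R N ≤ HS R' N) ∧ ∀ N, μ.val (S' ⧸ sp y ^ N) ≤ HS S₁ (N + r) := by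
      obtain ⟨p, hp⟩ := CharP.exists (ResidueField R)
      rcases CharP.char_is_prime_or_zero (ResidueField R) p with h | h
      · have := Fact.mk h
        exact mainP R S₁ hc hd p
      · subst h
        have := CharP.charP_to_charZero (ResidueField R)
        exact mainZ R S₁ hc hd
    obtain ⟨R', S', _, _, _, _, _, _, _, _, μ, y, r, h1, h2, h3, h4⟩ := key
    calc lsup (e + 1) (fun N => (HS R N : ℝ≥0∞)) ≤ lsup (e + 1) (fun N => (HS R' N : ℝ≥0∞)) :=
          lsup_mono (.of_forall fun N => ENat.toENNReal_le.2 (h3 N))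
      _ ≤ linf (e + 1) (fun N => μ.val (S' ⧸ sp y ^ N)) := main0 h1 h2 id
      _ ≤ linf (e + 1) (fun N => (HS S₁ (N + r) : ℝ≥0∞)) := linf_mono (.of_forall h4)
      _ = linf (e + 1) (fun N => (HS S₁ N : ℝ≥0∞)) :=
          linf_shift (e + 1) (fun N => (HS S₁ N : ℝ≥0∞)) r

end Crest.Agent.R183
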