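import Crest.Agent.R183.TQ
import Crest.Agent.R183.Koszul
import Crest.Agent.R183.Gonfl

/-!
# Superadditivity along a short exact sequence
-/

set_option autoImplicit false

open scoped ENNReal NNReal TensorProduct
open IsLocalRing

namespace Crest.Agent.R183

namespace MainStepAux

section

variable {R : Type} [CommRing R] {M : Type} [AddCommGroup M] [Module R M]

theorem range_le (B : Type) [CommRing B] [Algebra R B] {N : Submodule R M} {I : Ideal R}
    (h : N ≤ I • ⊤) (z : B ⊗[R] N) : N.subtype.baseChange B z ∈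
      (I.map (algebraMap R B) • ⊤ : Submodule B (B ⊗[R] M)) := by
  induction z using TensorProduct.induction_on with
  | zero => simp
  | add x y hx hy => rw [map_add]; exact add_mem hx hy
  | tmul b n =>
    rw [LinearMap.baseChange_tmul, Submodule.subtype_apply]
    refine Submodule.smul_induction_on (p := fun m => b ⊗ₜ[R] m ∈
      (I.map (algebraMap R B) • ⊤ : Submodule B (B ⊗[R] M))) (h n.2) (fun r hr m _ => ?_)
      (fun x y hx hy => by rw [TensorProduct.tmul_add]; exact add_mem hx hy)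
    rw [TensorProduct.tmul_smul, ← algebraMap_smul B r]
    exact Submodule.smul_mem_smul (Ideal.mem_map_of_mem _ hr) Submodule.mem_top

theorem kill (B : Type) [CommRing B] [Algebra R B] (I : Ideal R) {z : B ⊗[R] M}
    (hz : z ∈ (I.map (algebraMap R B) • ⊤ : Submodule B (B ⊗[R] M))) :
    (I • ⊤ : Submodule R M).mkQ.baseChange B z = 0 := by
  rw [SLT.mem_map_smul] at hz
  refine Submodule.smul_induction_on (p := fun z =>
    (I • ⊤ : Submodule R M).mkQ.baseChange B z = 0) hz (fun r hr z _ => ?_)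
    (fun x y hx hy => by rw [map_add, hx, hy, add_zero])
  induction z using TensorProduct.induction_on with
  | zero => simp
  | add x y hx hy => rw [smul_add, map_add, hx trivial, hy trivial, add_zero]
  | tmul b m =>
    rw [← TensorProduct.tmul_smul, LinearMap.baseChange_tmul, Submodule.mkQ_apply,
      (Submodule.Quotient.mk_eq_zero _).2 (Submodule.smul_mem_smul hr Submodule.mem_top),
      TensorProduct.tmul_zero]

theorem semi {A A' : Type} [CommRing A] [CommRing A'] [Algebra R A] [Algebra R A']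
    (φ : A →ₐ[R] A') (a : A) (z : A ⊗[R] M) :
    φ.toLinearMap.rTensor M (a • z) = φ a • φ.toLinearMap.rTensor M z := by
  induction z using TensorProduct.induction_on with
  | zero => simp
  | add x y hx hy => rw [smul_add, map_add, map_add, hx, hy, smul_add]
  | tmul b m => simp [TensorProduct.smul_tmul']

theorem semi_mem {A A' : Type} [CommRing A] [CommRing A'] [Algebra R A] [Algebra R A']
    (φ : A →ₐ[R] A') {J : Ideal A} {J' : Ideal A'} (h : ∀ a ∈ J, φ a ∈ J') {z : A ⊗[R] M}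
    (hz : z ∈ (J • ⊤ : Submodule A (A ⊗[R] M))) :
    φ.toLinearMap.rTensor M z ∈ (J' • ⊤ : Submodule A' (A' ⊗[R] M)) := by
  refine Submodule.smul_induction_on (p := fun z =>
    φ.toLinearMap.rTensor M z ∈ (J' • ⊤ : Submodule A' (A' ⊗[R] M))) hz (fun a ha z _ => ?_)
    (fun x y hx hy => by rw [map_add]; exact add_mem hx hy)
  rw [semi]
  exact Submodule.smul_mem_smul (h a ha) trivial

theorem mem_of_mk {A : Type} [CommRing A] [Algebra R A] (J : Ideal A) {z : A ⊗[R] M}
    (hz : (Ideal.Quotient.mkₐ R J).toLinearMap.rTensor M z = 0) :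
    z ∈ (J • ⊤ : Submodule A (A ⊗[R] M)) := by
  have h : Function.Exact (J.subtype.restrictScalars R) (Ideal.Quotient.mkₐ R J).toLinearMap :=
    LinearMap.exact_subtype_mkQ J
  obtain ⟨u, rfl⟩ := (rTensor_exact M h (Ideal.Quotient.mkₐ_surjective R J) z).1 hz
  clear hz
  induction u using TensorProduct.induction_on with
  | zero => simp
  | add x y hx hy => rw [map_add]; exact add_mem hx hy
  | tmul a m =>
    have : (J.subtype.restrictScalars R).rTensor M (a ⊗ₜ m) = (a : A) • ((1 : A) ⊗ₜ[R] m) := by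
      simp [TensorProduct.smul_tmul']
    rw [this]
    exact Submodule.smul_mem_smul a.2 trivial

theorem comm_bc {A A' : Type} [CommRing A] [CommRing A'] [Algebra R A] [Algebra R A']
    (φ : A →ₐ[R] A') (N : Submodule R M) (z : A ⊗[R] N) :
    N.subtype.baseChange A' (φ.toLinearMap.rTensor N z) =
      φ.toLinearMap.rTensor M (N.subtype.baseChange A z) := by
  induction z using TensorProduct.induction_on with
  | zero => simp
  | add x y hx hy => rw [map_add, map_add, map_add, map_add, hx, hy]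
  | tmul b m => simp

theorem sup_pow_le (I J : Ideal R) (n : ℕ) : (I ⊔ J) ^ n ≤ I ⊔ J ^ n := by
  induction n with
  | zero => simp
  | succ n ih =>
    rw [pow_succ, pow_succ]
    refine (Ideal.mul_mono_left ih).trans ?_
    rw [Ideal.sup_mul, Ideal.mul_sup (J ^ n)]
    exact sup_le (le_sup_of_le_left Ideal.mul_le_left)
      (sup_le (le_sup_of_le_left Ideal.mul_le_right) le_sup_right)

end

/-- The case `N = 1`, uniformly in the flat algebra. -/
theorem ker_one {R : Type} [CommRing R] [IsLocalRing R] [IsNoetherianRing R] {d : ℕ}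
    (x : Fin d → R) (hx : ∀ i, x i ∈ maximalIdeal R) {M : Type} [AddCommGroup M] [Module R M]
    [Module.Finite R M] (M' : Submodule R M) (w : R)
    (hw : ∀ b : ℕ, WR (fun i => x i ^ b) (M ⧸ M') w) :
    ∃ c : ℕ, ∀ (B : Type) [CommRing B] [Algebra R B] [Module.Flat R B] (f : Fin d → B),
      (∃ a : ℕ, (maximalIdeal R).map (algebraMap R B) ^ a ≤ sp f) → ∀ v : B ⊗[R] M',
      M'.subtype.baseChange B v ∈ (sp f • ⊤ : Submodule B (B ⊗[R] M)) →
      algebraMap R B w ^ c • v ∈ (sp f • ⊤ : Submodule B (B ⊗[R] M')) := by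
  obtain ⟨c, hc⟩ := rt_module (Fin d)
  obtain ⟨k, hk⟩ := Ideal.exists_pow_inf_eq_pow_smul (maximalIdeal R) M'
  refine ⟨c, fun B _ _ _ f ⟨a, ha⟩ v hv => ?_⟩
  set j := M'.subtype.baseChange B with hj
  have hinj : Function.Injective j :=
    Module.Flat.lTensor_preserves_injective_linearMap _ M'.injective_subtype
  have hsurj : Function.Surjective (M'.mkQ.baseChange B) :=
    LinearMap.lTensor_surjective B M'.mkQ_surjective
  have hex : Function.Exact j (M'.mkQ.baseChange B) :=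
    lTensor_exact B (LinearMap.exact_subtype_mkQ M') M'.mkQ_surjective
  have e : ((B ⊗[R] M) ⧸ LinearMap.range j) ≃ₗ[B] B ⊗[R] (M ⧸ M') :=
    Submodule.quotEquivOfEq _ _ (LinearMap.exact_iff.1 hex).symm ≪≫ₗ
      (M'.mkQ.baseChange B).quotKerEquivOfSurjective hsurj
  have h1 : WR (fun i => x i ^ (a + k)) ((M ⧸ M') ⊗[R] B) w :=
    WR.tensor (T := R) ⊥ B (flatMod_of_flat ⊥ B) (fun π hπ v => by
      rw [Ideal.mem_bot.1 hπ, zero_smul]) (hw (a + k))
  have h2 : WR (fun i => algebraMap R B (x i ^ (a + k))) (B ⊗[R] (M ⧸ M')) (algebraMap R B w) :=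
    (wr_algebraMap_iff _ _).2 (h1.of_equiv (TensorProduct.comm R (M ⧸ M') B))
  have hmap : (sp f • LinearMap.range j : Submodule B (B ⊗[R] M)) =
      (sp f • ⊤ : Submodule B (B ⊗[R] M')).map j := by
    rw [Submodule.map_smul'', Submodule.map_top]
  have hxm : sp (fun i => x i ^ (a + k)) ≤ maximalIdeal R ^ (a + k) := by
    rw [Ideal.span_le]
    rintro _ ⟨i, rfl⟩
    exact Ideal.pow_mem_pow (hx i) _
  rw [← Ideal.map_pow] at ha
  have h3 := hc (LinearMap.range j) f (fun i => algebraMap R B (x i ^ (a + k))) (algebraMap R B w)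
    (h2.of_equiv e.symm)
    (fun r => ⟨_, Ideal.mul_mem_left _ (algebraMap R B w) (ha (Ideal.mem_map_of_mem _
      (Ideal.pow_le_pow_right (Nat.le_add_right a k) (Ideal.pow_mem_pow (hx r) _)))),
      fun z => by rw [sub_self, zero_smul]; exact zero_mem _⟩)
    (by
      rintro _ ⟨⟨u, rfl⟩, hu⟩
      refine Submodule.smul_mem _ _ ?_
      rw [hmap]
      refine Submodule.mem_map_of_mem ?_
      rw [SLT.sp_map'] at hu
      have h4 := kill B _ hu
      set φ := (sp (fun i => x i ^ (a + k)) • ⊤ : Submodule R M).mkQ ∘ₗ M'.subtype with hφ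
      have h5 : φ.lTensor B u = 0 := by
        rw [hφ, LinearMap.lTensor_comp]
        exact h4
      obtain ⟨z, rfl⟩ := (Module.Flat.lTensor_exact B (LinearMap.exact_subtype_ker_map φ) u).1 h5
      refine Submodule.smul_mono ha le_rfl (range_le B (I := maximalIdeal R ^ a) ?_ z)
      intro m hm
      rw [Submodule.mem_smul_top_iff]
      have h6 : (m : M) ∈ (maximalIdeal R ^ (a + k) • ⊤ : Submodule R M) ⊓ M' :=
        ⟨Submodule.smul_mono hxm le_rfl ((Submodule.Quotient.mk_eq_zero _).1 hm), m.2⟩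
      rw [hk _ (Nat.le_add_left k a), Nat.add_sub_cancel] at h6
      exact Submodule.smul_mono le_rfl inf_le_right h6)
    (j v) ⟨⟨v, rfl⟩, hv⟩
  rw [hmap, ← map_smul] at h3
  obtain ⟨u, hu, e'⟩ := h3
  rwa [← hinj e']

open MvPolynomial in
/-- truncated polynomial rings are flat -/
theorem flat_trunc (S : Type) [CommRing S] (d N : ℕ) :
    Module.Flat S (MvPolynomial (Fin d) S ⧸ sp (X : Fin d → MvPolynomial (Fin d) S) ^ N) := by
  set I : Ideal (MvPolynomial (Fin d) S) := sp X ^ N with hI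
  let T : MvPolynomial (Fin d) S →ₗ[S] MvPolynomial (Fin d) S :=
    ∑ i ∈ Finset.range N, homogeneousComponent i
  have hT : ∀ p m, coeff m (T p) = if m.degree < N then coeff m p else 0 := by
    intro p m
    simp only [T, LinearMap.sum_apply, coeff_sum, coeff_homogeneousComponent]
    rw [Finset.sum_ite_eq]
    simp only [Finset.mem_range]
  have hmem : ∀ p, p ∈ I ↔ ∀ m : Fin d →₀ ℕ, m.degree < N → coeff m p = 0 :=
    fun p => mem_pow_idealOfVars_iff' N p
  refine Module.Flat.of_retract (M := MvPolynomial (Fin d) S)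
    (((I.restrictScalars S).liftQ T fun p hp => ?_) ∘ₗ
      (Submodule.Quotient.restrictScalarsEquiv S I).symm.toLinearMap)
    (I.mkQ.restrictScalars S) ?_
  · rw [LinearMap.mem_ker]
    ext m
    rw [hT, coeff_zero]
    split_ifs with h
    · exact (hmem p).1 hp m h
    · rfl
  · refine LinearMap.ext fun z => ?_
    obtain ⟨p, rfl⟩ := I.mkQ_surjective z
    change I.mkQ (T p) = I.mkQ p
    refine (Submodule.Quotient.eq I).2 ((hmem _).2 fun m hm => ?_)
    rw [coeff_sub, hT, if_pos hm, sub_self]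

end MainStepAux

open MainStepAux MvPolynomial in
/-- the kernel of `S ⊗ M' / (y)^N → S ⊗ M / (y)^N` is killed by a fixed power of `w` -/
theorem mainStep_ker {R : Type} [CommRing R] [IsLocalRing R] [IsNoetherianRing R]
    {S : Type} [CommRing S] [Algebra R S] [Module.Flat R S] {d : ℕ} (y : Fin d → S)
    (hy : ∃ a : ℕ, (maximalIdeal R).map (algebraMap R S) ^ a ≤ sp y) (x : Fin d → R)
    (hx : ∀ i, x i ∈ maximalIdeal R) {M : Type} [AddCommGroup M] [Module R M] [Module.Finite R M]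
    (M' : Submodule R M) (w : R) (hw : ∀ b : ℕ, WR (fun i => x i ^ b) (M ⧸ M') w) :
    ∃ c : ℕ, ∀ (N : ℕ) (v : S ⊗[R] M'),
      M'.subtype.baseChange S v ∈ (sp y ^ N • ⊤ : Submodule S (S ⊗[R] M)) →
      algebraMap R S w ^ c • v ∈ (sp y ^ N • ⊤ : Submodule S (S ⊗[R] M')) := by
  obtain ⟨c, hc⟩ := ker_one x hx M' w hw
  obtain ⟨a, ha⟩ := hy
  refine ⟨c, fun N v hv => ?_⟩
  set I : Ideal (MvPolynomial (Fin d) S) := sp X ^ N with hI
  have := flat_trunc S d N
  have : Module.Flat R (MvPolynomial (Fin d) S ⧸ I) := Module.Flat.trans R S _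
  let φ₁ : S →ₐ[R] MvPolynomial (Fin d) S ⧸ I := IsScalarTower.toAlgHom R S _
  let f : Fin d → MvPolynomial (Fin d) S ⧸ I := fun i => φ₁ (y i) - Ideal.Quotient.mk I (X i)
  have h1 : ∀ s ∈ sp y ^ N, φ₁ s ∈ sp f := by
    intro s hs
    have h2 : (sp y).map φ₁ ≤ sp f ⊔ (sp X).map (Ideal.Quotient.mk I) := by
      rw [Ideal.map_le_iff_le_comap, Ideal.span_le]
      rintro _ ⟨i, rfl⟩
      have := Submodule.add_mem_sup (Ideal.subset_span ⟨i, rfl⟩ : f i ∈ sp f)
        (Ideal.mem_map_of_mem (Ideal.Quotient.mk I) (Ideal.subset_span ⟨i, rfl⟩ : X i ∈ sp X))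
      rwa [sub_add_cancel] at this
    have h3 : (sp f ⊔ (sp X).map (Ideal.Quotient.mk I)) ^ N ≤ sp f := by
      refine (sup_pow_le _ _ N).trans ?_
      rw [← Ideal.map_pow, ← hI, Ideal.map_quotient_self, sup_bot_eq]
    have h4 := Ideal.mem_map_of_mem φ₁ hs
    rw [Ideal.map_pow] at h4
    exact h3 (Ideal.pow_right_mono h2 N h4)
  let ψ : MvPolynomial (Fin d) S →ₐ[S] S ⧸ sp y ^ N :=
    aeval fun i => Ideal.Quotient.mk (sp y ^ N) (y i)
  have hψ : ∀ p ∈ I, ψ.restrictScalars R p = 0 := by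
    intro p hp
    have h2 := Ideal.mem_map_of_mem ψ hp
    have h3 : (sp X).map ψ ≤ (sp y).map (Ideal.Quotient.mk (sp y ^ N)) := by
      rw [Ideal.map_le_iff_le_comap, Ideal.span_le]
      rintro _ ⟨i, rfl⟩
      change ψ (X i) ∈ (sp y).map (Ideal.Quotient.mk (sp y ^ N))
      rw [aeval_X]
      exact Ideal.mem_map_of_mem _ (Ideal.subset_span ⟨i, rfl⟩)
    rw [hI, Ideal.map_pow] at h2
    have h4 := Ideal.pow_right_mono h3 N h2
    rwa [← Ideal.map_pow, Ideal.map_quotient_self, Ideal.mem_bot] at h4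
  let φ₂ : (MvPolynomial (Fin d) S ⧸ I) →ₐ[R] S ⧸ sp y ^ N :=
    Ideal.Quotient.liftₐ I (ψ.restrictScalars R) hψ
  have h12 : ∀ s, φ₂ (φ₁ s) = Ideal.Quotient.mk (sp y ^ N) s := fun s => ψ.commutes s
  have hf : ∀ s ∈ sp f, φ₂ s ∈ (⊥ : Ideal (S ⧸ sp y ^ N)) := by
    refine fun s hs => Ideal.mem_comap.1 (SetLike.le_def.1 (Ideal.span_le.2 ?_) hs)
    rintro _ ⟨i, rfl⟩
    change φ₂ (φ₁ (y i) - Ideal.Quotient.mk I (X i)) ∈ (⊥ : Ideal (S ⧸ sp y ^ N))
    rw [map_sub, h12, Ideal.mem_bot, sub_eq_zero]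
    exact (aeval_X (R := S) (fun i => Ideal.Quotient.mk (sp y ^ N) (y i)) i).symm
  have h5 := hc (MvPolynomial (Fin d) S ⧸ I) f ⟨a * N, by
      rw [← Ideal.map_pow, Ideal.map_le_iff_le_comap]
      intro r hr
      have h6 := Ideal.mem_map_of_mem (algebraMap R S) hr
      rw [Ideal.map_pow, pow_mul] at h6
      have h7 := h1 _ (Ideal.pow_right_mono ha N h6)
      rwa [φ₁.commutes] at h7⟩ (φ₁.toLinearMap.rTensor M' v)
    (by rw [comm_bc]; exact semi_mem φ₁ h1 hv)
  rw [← φ₁.commutes, ← map_pow, ← semi] at h5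
  have h6 := semi_mem φ₂ hf h5
  rw [Submodule.bot_smul, Submodule.mem_bot, ← LinearMap.rTensor_comp_apply] at h6
  refine mem_of_mk _ ?_
  rw [← h6]
  congr 2
  exact LinearMap.ext fun s => (h12 s).symm

theorem mainStep {R : Type} [CommRing R] [IsLocalRing R] [IsNoetherianRing R]
    {S : Type} [CommRing S] [Algebra R S] {e : ℕ} {μ : LF S} {y : Fin (e + 1) → S} {fin : Prop}
    (hS : SH R μ y fin) (x : Fin (e + 1) → R) (hx : ∀ i, x i ∈ maximalIdeal R)
    {M : Type} [AddCommGroup M] [Module R M] [Module.Finite R M] (M' : Submodule R M) (w : R)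
    (hw : ∀ b : ℕ, WR (fun i => x i ^ b) (M ⧸ M') w)
    (hdim : ringKrullDim (R ⧸ Ideal.span {w}) ≤ e) :
    linf (e + 1) (fun N => tq μ (sp y ^ N) R M') +
        linf (e + 1) (fun N => tq μ (sp y ^ N) R (M ⧸ M')) ≤
      linf (e + 1) (fun N => tq μ (sp y ^ N) R M) := by
  have := hS.flat
  obtain ⟨c, hc⟩ := mainStep_ker y hS.hy x hx M' w hw
  obtain ⟨n, v, hv⟩ := Module.Finite.exists_fin (R := S) (M := S ⊗[R] M')
  have hdim' : ringKrullDim (R ⧸ Ideal.span {w ^ (c + 1)}) ≤ e := by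
    rwa [ringKrullDim_quotient, PrimeSpectrum.zeroLocus_span,
      PrimeSpectrum.zeroLocus_singleton_pow _ _ (Nat.succ_pos c), ← PrimeSpectrum.zeroLocus_span,
      ← ringKrullDim_quotient]
  refine (le_linf_add _ _ _).trans (linf_le_of_le_add (err := fun N => (n : ℝ≥0∞) *
    μ.val (S ⧸ (sp y ^ N ⊔ Ideal.span {algebraMap R S (w ^ (c + 1))})))
    (Filter.Eventually.of_forall fun N => ?_) ?_)
  swap
  · rw [lsup_const_mul _ _ (ENNReal.natCast_ne_top n), hS.err_span _ hdim', mul_zero]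
  set J := sp y ^ N with hJ
  set γ := algebraMap R S (w ^ (c + 1)) with hγ
  let α : ((S ⊗[R] M') ⧸ (J • ⊤ : Submodule S (S ⊗[R] M'))) →ₗ[S]
      ((S ⊗[R] M) ⧸ (J • ⊤ : Submodule S (S ⊗[R] M))) :=
    Submodule.mapQ _ _ (M'.subtype.baseChange S) fun z hz => SLT.map_mem J _ hz
  let β : ((S ⊗[R] M) ⧸ (J • ⊤ : Submodule S (S ⊗[R] M))) →ₗ[S]
      ((S ⊗[R] (M ⧸ M')) ⧸ (J • ⊤ : Submodule S (S ⊗[R] (M ⧸ M')))) :=
    Submodule.mapQ _ _ (M'.mkQ.baseChange S) fun z hz => SLT.map_mem J _ hz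
  have hsurj : Function.Surjective (M'.mkQ.baseChange S) :=
    LinearMap.lTensor_surjective S M'.mkQ_surjective
  have hex : Function.Exact (M'.subtype.baseChange S) (M'.mkQ.baseChange S) :=
    lTensor_exact S (LinearMap.exact_subtype_mkQ M') M'.mkQ_surjective
  have hβ : LinearMap.range β = ⊤ := by
    rw [LinearMap.range_eq_top]
    intro z
    obtain ⟨z, rfl⟩ := Submodule.Quotient.mk_surjective _ z
    obtain ⟨z, rfl⟩ := hsurj z
    exact ⟨Submodule.Quotient.mk z, rfl⟩
  have hαβ : LinearMap.range α ≤ LinearMap.ker β := by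
    rintro _ ⟨z, rfl⟩
    obtain ⟨z, rfl⟩ := Submodule.Quotient.mk_surjective _ z
    change Submodule.Quotient.mk (M'.mkQ.baseChange S (M'.subtype.baseChange S z)) = 0
    rw [hex.apply_apply_eq_zero, Submodule.Quotient.mk_zero]
  have h1 := μ.val_eq_ker_add_range α
  have h2 := μ.val_eq_ker_add_range β
  rw [hβ, μ.val_top] at h2
  have h3 : μ.val (LinearMap.ker α) ≤ n * μ.val (S ⧸ (J ⊔ Ideal.span {γ})) := by
    have h4 : LinearMap.ker α ≤ LinearMap.ker (LinearMap.lsmul S
        ((S ⊗[R] M') ⧸ (J • ⊤ : Submodule S (S ⊗[R] M'))) γ) := by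
      intro z hz
      obtain ⟨z, rfl⟩ := Submodule.Quotient.mk_surjective _ z
      have h5 := hc N z ((Submodule.Quotient.mk_eq_zero _).1 hz)
      rw [LinearMap.mem_ker, LinearMap.lsmul_apply, ← Submodule.Quotient.mk_smul,
        Submodule.Quotient.mk_eq_zero, hγ, map_pow, pow_succ', mul_smul]
      exact Submodule.smul_mem _ _ h5
    refine (μ.val_mono h4).trans ?_
    rw [μ.val_ker_eq_val_coker _ (hS.tq_ne_top M' N)]
    refine μ.val_le_of_span (J ⊔ Ideal.span {γ})
      (fun i => Submodule.Quotient.mk (Submodule.Quotient.mk (v i))) ?_ ?_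
    · have h5 := congrArg (Submodule.map ((LinearMap.range (LinearMap.lsmul S
        ((S ⊗[R] M') ⧸ (J • ⊤ : Submodule S (S ⊗[R] M'))) γ)).mkQ ∘ₗ
          (J • ⊤ : Submodule S (S ⊗[R] M')).mkQ)) hv
      rw [Submodule.map_span, ← Set.range_comp, Submodule.map_top, LinearMap.range_comp,
        Submodule.range_mkQ, Submodule.map_top, Submodule.range_mkQ] at h5
      exact h5
    · intro s hs z
      obtain ⟨z, rfl⟩ := Submodule.Quotient.mk_surjective _ z
      obtain ⟨z, rfl⟩ := Submodule.Quotient.mk_surjective _ z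
      obtain ⟨s₁, hs₁, s₂, hs₂, rfl⟩ := Submodule.mem_sup.1 hs
      obtain ⟨s₃, rfl⟩ := Ideal.mem_span_singleton.1 hs₂
      rw [← Submodule.Quotient.mk_smul, Submodule.Quotient.mk_eq_zero, add_smul,
        ← Submodule.Quotient.mk_smul,
        (Submodule.Quotient.mk_eq_zero _).2 (Submodule.smul_mem_smul hs₁ Submodule.mem_top), zero_add,
        mul_smul]
      exact ⟨_, rfl⟩
  change μ.val ((S ⊗[R] M') ⧸ (J • ⊤ : Submodule S (S ⊗[R] M'))) +
      μ.val ((S ⊗[R] (M ⧸ M')) ⧸ (J • ⊤ : Submodule S (S ⊗[R] (M ⧸ M')))) ≤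
    μ.val ((S ⊗[R] M) ⧸ (J • ⊤ : Submodule S (S ⊗[R] M))) + n * μ.val (S ⧸ (J ⊔ Ideal.span {γ}))
  rw [h1, h2, add_assoc, add_comm]
  exact add_le_add (add_le_add (μ.val_mono hαβ) le_rfl) h3

end Crest.Agent.R183
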