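import Crest.Agent.R183.Defs

/-!
# Weighted filtrations on Witt vectors of a perfect ring; power multiplicativity modulo `p - [t]`
-/

set_option autoImplicit false
set_option linter.unusedSectionVars false

open WittVector

namespace Crest.Agent.R183

/-- A multiplicative filtration of a ring of characteristic `p` compatible with `p`-th roots. -/
structure PerfFilt (p : ℕ) {P : Type} [CommRing P] (𝔞 : ℚ → Ideal P) : Prop where
  anti : Antitone 𝔞
  top : ∀ r ≤ 0, 𝔞 r = ⊤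
  mul : ∀ r s, 𝔞 r * 𝔞 s ≤ 𝔞 (r + s)
  root : ∀ (r : ℚ) (u : P), u ^ p ∈ 𝔞 (p * r) → u ∈ 𝔞 r

/-- The induced filtration of the Witt vectors in which `p` has weight `η`. -/
noncomputable def WF (p : ℕ) [Fact p.Prime] {P : Type} [CommRing P] (𝔞 : ℚ → Ideal P) (η r : ℚ) :
    Ideal (WittVector p P) :=
  Ideal.span {x | ∃ (i : ℕ) (u : P), u ∈ 𝔞 (r - i * η) ∧
    x = (p : WittVector p P) ^ i * teichmuller p u}

variable {p : ℕ} [Fact p.Prime] {P : Type} [CommRing P] [CharP P p] [PerfectRing P p]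

theorem PM_cc_teich (u : P) : constantCoeff (teichmuller p u) = u := by
  simp [constantCoeff_apply]

theorem PM_cc_p : constantCoeff (p : WittVector p P) = 0 := by
  simp

theorem PM_dvd {x y : WittVector p P} (h : constantCoeff x = constantCoeff y) :
    (p : WittVector p P) ∣ x - y := by
  rw [← Ideal.mem_span_singleton, ← ker_constantCoeff, RingHom.mem_ker, map_sub, h, sub_self]

/-- Teichmüller decomposition -/
theorem exists_teich_add (x : WittVector p P) :
    ∃ x' : WittVector p P, x = teichmuller p (x.coeff 0) + p * x' := by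
  obtain ⟨c, hc⟩ := PM_dvd (x := x) (y := teichmuller p (x.coeff 0)) (by simp)
  exact ⟨c, by rw [← hc]; ring⟩

theorem teich_add_unique {u u' : P} {x x' : WittVector p P}
    (h : teichmuller p u + p * x = teichmuller p u' + p * x') : u = u' ∧ x = x' := by
  have h1 := congrArg constantCoeff h
  simp only [map_add, map_mul, PM_cc_teich, PM_cc_p, zero_mul, add_zero] at h1
  subst h1
  refine ⟨rfl, ?_⟩
  have h2 : (x - x') * p = 0 := by
    have := add_left_cancel h
    rw [sub_mul, mul_comm x, mul_comm x', this, sub_self]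
  exact sub_eq_zero.1 (eq_zero_of_p_mul_eq_zero _ h2)

/-- the Teichmüller lift of a sum modulo `p^(n+1)` -/
theorem teich_sum_sub_mem {κ : Type} (s : Finset κ) (v : κ → P) (n : ℕ) :
    teichmuller p ((∑ i ∈ s, v i) ^ p ^ n) - (∑ i ∈ s, teichmuller p (v i)) ^ p ^ n ∈
      Ideal.span {(p : WittVector p P) ^ (n + 1)} := by
  rw [Ideal.mem_span_singleton, map_pow]
  refine dvd_sub_pow_of_dvd_sub (PM_dvd ?_) n
  simp only [map_sum, PM_cc_teich]

variable {𝔞 : ℚ → Ideal P} {η : ℚ}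

theorem WF_anti (h : PerfFilt p 𝔞) : Antitone (WF p 𝔞 η) := by
  intro r s hrs
  refine Ideal.span_mono ?_
  rintro x ⟨i, u, hu, rfl⟩
  exact ⟨i, u, h.anti (by linarith) hu, rfl⟩

theorem WF_mul (h : PerfFilt p 𝔞) (r s : ℚ) : WF p 𝔞 η r * WF p 𝔞 η s ≤ WF p 𝔞 η (r + s) := by
  unfold WF
  rw [Ideal.span_mul_span']
  refine Ideal.span_mono ?_
  rintro x ⟨_, ⟨i, u, hu, rfl⟩, _, ⟨j, v, hv, rfl⟩, rfl⟩
  refine ⟨i + j, u * v, ?_, ?_⟩
  · have := h.mul _ _ (Ideal.mul_mem_mul hu hv)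
    convert this using 2
    push_cast
    ring
  · simp only [map_mul]
    ring

theorem teich_mem_WF {r : ℚ} {u : P} (hu : u ∈ 𝔞 r) : teichmuller p u ∈ WF p 𝔞 η r := by
  exact Ideal.subset_span ⟨0, u, by simpa using hu, by simp⟩

theorem p_pow_mem_WF (h : PerfFilt p 𝔞) (i : ℕ) :
    (p : WittVector p P) ^ i ∈ WF p 𝔞 η (i * η) := by
  refine Ideal.subset_span ⟨i, 1, ?_, by simp⟩
  rw [h.top _ (by simp)]
  trivial

theorem PM_mul_mem (h : PerfFilt p 𝔞) {r s c : ℚ} {x y : WittVector p P} (hx : x ∈ WF p 𝔞 η r)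
    (hy : y ∈ WF p 𝔞 η s) (hc : c ≤ r + s) : x * y ∈ WF p 𝔞 η c :=
  WF_anti h hc (WF_mul h r s (Ideal.mul_mem_mul hx hy))

theorem PM_top (h : PerfFilt p 𝔞) {r : ℚ} (hr : r ≤ 0) (x : WittVector p P) :
    x ∈ WF p 𝔞 η r := by
  have h1 : (1 : WittVector p P) ∈ WF p 𝔞 η r := by
    have := teich_mem_WF (p := p) (η := η) (𝔞 := 𝔞) (r := r) (u := 1)
      (by rw [h.top r hr]; trivial)
    simpa using this
  simpa using Ideal.mul_mem_left _ x h1

theorem PM_p_mem (h : PerfFilt p 𝔞) : (p : WittVector p P) ∈ WF p 𝔞 η η := by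
  simpa using p_pow_mem_WF (η := η) h 1

theorem PM_pow_mem (h : PerfFilt p 𝔞) {r : ℚ} {x : WittVector p P} (hx : x ∈ WF p 𝔞 η r) (n : ℕ) :
    x ^ n ∈ WF p 𝔞 η (n * r) := by
  induction n with
  | zero => exact PM_top h (by simp) _
  | succ n ih =>
    rw [pow_succ]
    exact PM_mul_mem h ih hx (le_of_eq (by push_cast; ring))

omit [CharP P p] [PerfectRing P p] in
theorem PM_a_mul (h : PerfFilt p 𝔞) {r s c : ℚ} {x y : P} (hx : x ∈ 𝔞 r)
    (hy : y ∈ 𝔞 s) (hc : c ≤ r + s) : x * y ∈ 𝔞 c :=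
  h.anti hc (h.mul r s (Ideal.mul_mem_mul hx hy))

omit [CharP P p] [PerfectRing P p] in
theorem PM_a_pow (h : PerfFilt p 𝔞) {r : ℚ} {x : P} (hx : x ∈ 𝔞 r) (n : ℕ) :
    x ^ n ∈ 𝔞 (n * r) := by
  induction n with
  | zero => rw [h.top _ (by simp)]; trivial
  | succ n ih =>
    rw [pow_succ]
    exact PM_a_mul h ih hx (le_of_eq (by push_cast; ring))

omit [CharP P p] [PerfectRing P p] in
theorem PM_a_root (h : PerfFilt p 𝔞) (n : ℕ) : ∀ (r : ℚ) (x : P), x ^ p ^ n ∈ 𝔞 (p ^ n * r) →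
    x ∈ 𝔞 r := by
  induction n with
  | zero => intro r x hx; simpa using hx
  | succ n ih =>
    intro r x hx
    apply h.root
    apply ih
    rw [← pow_mul, ← pow_succ']
    convert hx using 2
    ring

theorem PM_exists_root (n : ℕ) (u : P) : ∃ u' : P, u' ^ p ^ n = u :=
  ⟨(iterateFrobeniusEquiv P p n).symm u, by
    rw [← iterateFrobeniusEquiv_def, RingEquiv.apply_symm_apply]⟩

/-- (W1) -/
theorem PM_teich_add (h : PerfFilt p 𝔞) (hη : 0 < η) {r : ℚ} {u v : P} (hu : u ∈ 𝔞 r)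
    (hv : v ∈ 𝔞 r) :
    ∃ w ∈ WF p 𝔞 η r, teichmuller p u + teichmuller p v = teichmuller p (u + v) + p * w := by
  obtain ⟨n, hn⟩ := exists_nat_ge (r / η)
  have hn' : r ≤ n * η := by rwa [div_le_iff₀ hη] at hn
  obtain ⟨u', rfl⟩ := PM_exists_root (p := p) n u
  obtain ⟨v', rfl⟩ := PM_exists_root (p := p) n v
  have hp : (0 : ℚ) < (p : ℚ) ^ n := pow_pos (Nat.cast_pos.2 (Fact.out : p.Prime).pos) n
  have e : r = p ^ n * (r / p ^ n) := by field_simp
  have hu' : u' ∈ 𝔞 (r / p ^ n) := PM_a_root h n _ _ (e ▸ hu)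
  have hv' : v' ∈ 𝔞 (r / p ^ n) := PM_a_root h n _ _ (e ▸ hv)
  obtain ⟨c, hc⟩ := dvd_sub_pow_of_dvd_sub
    (PM_dvd (p := p) (x := teichmuller p (u' + v')) (y := teichmuller p u' + teichmuller p v')
      (by simp only [map_add, PM_cc_teich])) n
  rw [add_pow_prime_pow_eq' (Fact.out : p.Prime)] at hc
  set S := ∑ k ∈ Finset.Ioo 0 (p ^ n), teichmuller p u' ^ k * teichmuller p v' ^ (p ^ n - k) *
    (((p ^ n).choose k / p : ℕ) : WittVector p P) with hS
  have hSm : S ∈ WF p 𝔞 η r := by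
    refine Ideal.sum_mem _ fun k hk => Ideal.mul_mem_right _ _ ?_
    have hk' : k ≤ p ^ n := (Finset.mem_Ioo.1 hk).2.le
    refine PM_mul_mem h (PM_pow_mem h (teich_mem_WF hu') k)
      (PM_pow_mem h (teich_mem_WF hv') _) (le_of_eq ?_)
    rw [Nat.cast_sub hk']
    push_cast
    field_simp
    ring
  refine ⟨-S - p ^ n * c, ?_, ?_⟩
  · refine Ideal.sub_mem _ (neg_mem hSm) (Ideal.mul_mem_right _ _ ?_)
    exact WF_anti h hn' (p_pow_mem_WF h n)
  · rw [← add_pow_char_pow, map_pow, map_pow, map_pow]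
    linear_combination -hc

/-- (W2) -/
theorem PM_decomp (h : PerfFilt p 𝔞) (hη : 0 < η) {r : ℚ} {x : WittVector p P}
    (hx : x ∈ WF p 𝔞 η r) :
    ∃ u ∈ 𝔞 r, ∃ x' ∈ WF p 𝔞 η (r - η), x = teichmuller p u + p * x' := by
  have hle : WF p 𝔞 η r ≤ WF p 𝔞 η (r - η) := WF_anti h (by linarith)
  induction hx using Submodule.span_induction with
  | mem x hx =>
    obtain ⟨i, u, hu, rfl⟩ := hx
    cases i with
    | zero => exact ⟨u, by simpa using hu, 0, zero_mem _, by simp⟩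
    | succ i =>
      refine ⟨0, zero_mem _, p ^ i * teichmuller p u, Ideal.subset_span ⟨i, u, ?_, rfl⟩, ?_⟩
      · convert hu using 2
        push_cast
        ring
      · rw [teichmuller_zero]
        ring
  | zero => exact ⟨0, zero_mem _, 0, zero_mem _, by simp⟩
  | add x y _ _ ihx ihy =>
    obtain ⟨u, hu, x', hx', rfl⟩ := ihx
    obtain ⟨v, hv, y', hy', rfl⟩ := ihy
    obtain ⟨w, hw, e⟩ := PM_teich_add h hη hu hv
    refine ⟨u + v, add_mem hu hv, w + x' + y', add_mem (add_mem (hle hw) hx') hy', ?_⟩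
    linear_combination e
  | smul a x _ ihx =>
    obtain ⟨u, hu, x', hx', rfl⟩ := ihx
    obtain ⟨a', ha⟩ := exists_teich_add a
    refine ⟨a.coeff 0 * u, Ideal.mul_mem_left _ _ hu, a' * teichmuller p u + a * x',
      add_mem (Ideal.mul_mem_left _ _ (hle (teich_mem_WF hu))) (Ideal.mul_mem_left _ _ hx'), ?_⟩
    rw [map_mul, smul_eq_mul]
    linear_combination (teichmuller p u) * ha

theorem PM_of_mem (h : PerfFilt p 𝔞) (hη : 0 < η) {r : ℚ} {u : P} {x : WittVector p P}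
    (hx : teichmuller p u + p * x ∈ WF p 𝔞 η r) : u ∈ 𝔞 r ∧ x ∈ WF p 𝔞 η (r - η) := by
  obtain ⟨u', hu', x', hx', e⟩ := PM_decomp h hη hx
  obtain ⟨rfl, rfl⟩ := teich_add_unique e
  exact ⟨hu', hx'⟩

theorem PM_xi_mem (h : PerfFilt p 𝔞) {t : P} (ht : t ∈ 𝔞 η) :
    (p : WittVector p P) - teichmuller p t ∈ WF p 𝔞 η η :=
  Ideal.sub_mem _ (PM_p_mem h) (teich_mem_WF ht)

/-- (W3), the inductive statement -/
theorem PM_star (h : PerfFilt p 𝔞) (hη : 0 < η) {t : P} (ht : t ∈ 𝔞 η) (n : ℕ) :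
    ∀ (s : ℚ) (u : P) (v : WittVector p P), s ≤ n * η →
      teichmuller p u - (p - teichmuller p t) * v ∈ WF p 𝔞 η (s + η) → v ∈ WF p 𝔞 η s := by
  induction n with
  | zero => intro s u v hs _; exact PM_top h (by simpa using hs) v
  | succ n ih =>
    intro s u v hs hm
    have hs' : s - η ≤ n * η := by push_cast at hs; linarith
    have hm' : teichmuller p u - (p - teichmuller p t) * v ∈ WF p 𝔞 η s :=
      WF_anti h (by linarith) hm
    have hv : v ∈ WF p 𝔞 η (s - η) := ih (s - η) u v hs' (by rwa [sub_add_cancel])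
    obtain ⟨v0, hv0, v', -, ev⟩ := PM_decomp h hη hv
    have hxv : (p - teichmuller p t) * v ∈ WF p 𝔞 η s :=
      PM_mul_mem h (PM_xi_mem h ht) hv (by linarith)
    have hu : u ∈ 𝔞 s := by
      refine (PM_of_mem h hη (x := 0) ?_).1
      have := add_mem hm' hxv
      simpa using this
    have htv : t * v0 ∈ 𝔞 s := PM_a_mul h ht hv0 (by linarith)
    obtain ⟨w, hw, ew⟩ := PM_teich_add h hη hu htv
    have e1 : teichmuller p u - (p - teichmuller p t) * v =
        teichmuller p (u + t * v0) + p * (w + teichmuller p t * v' - v) := by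
      rw [map_mul] at ew
      linear_combination ew + teichmuller p t * ev
    rw [e1] at hm
    have h2 := (PM_of_mem h hη hm).2
    rw [add_sub_cancel_right] at h2
    have h3 : teichmuller p v0 - (p - teichmuller p t) * (-v') ∈ WF p 𝔞 η s := by
      have e2 : teichmuller p v0 - (p - teichmuller p t) * (-v') =
          w - (w + teichmuller p t * v' - v) := by
        linear_combination -ev
      rw [e2]
      exact Ideal.sub_mem _ hw h2
    have h4 : -v' ∈ WF p 𝔞 η (s - η) := ih (s - η) v0 (-v') hs' (by rwa [sub_add_cancel])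
    have e3 : v = (teichmuller p v0 - (p - teichmuller p t) * (-v')) - teichmuller p t * (-v') := by
      linear_combination ev
    rw [e3]
    exact Ideal.sub_mem _ h3 (PM_mul_mem h (teich_mem_WF ht) h4 (by linarith))

/-- The filtration `WF r + (p - [t])`. -/
noncomputable abbrev PM_J (p : ℕ) [Fact p.Prime] {P : Type} [CommRing P] (𝔞 : ℚ → Ideal P)
    (η : ℚ) (t : P) (r : ℚ) : Ideal (WittVector p P) :=
  WF p 𝔞 η r ⊔ Ideal.span {(p : WittVector p P) - teichmuller p t}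

/-- (W3) -/
theorem PM_of_teich_mem (h : PerfFilt p 𝔞) (hη : 0 < η) {t : P} (ht : t ∈ 𝔞 η) {r : ℚ} {u : P}
    (hu : teichmuller p u ∈ PM_J p 𝔞 η t r) : u ∈ 𝔞 r := by
  obtain ⟨a, ha, b, hb, e⟩ := Submodule.mem_sup.1 hu
  obtain ⟨v, rfl⟩ := Ideal.mem_span_singleton.1 hb
  obtain ⟨n, hn⟩ := exists_nat_ge ((r - η) / η)
  have hn' : r - η ≤ n * η := by rwa [div_le_iff₀ hη] at hn
  have hv : v ∈ WF p 𝔞 η (r - η) := by
    refine PM_star h hη ht n _ u v hn' ?_
    rw [sub_add_cancel, ← e, add_sub_cancel_right]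
    exact ha
  refine (PM_of_mem h hη (x := 0) ?_).1
  rw [mul_zero, add_zero, ← e]
  exact add_mem ha (PM_mul_mem h (PM_xi_mem h ht) hv (by linarith))

theorem PM_J_mul (h : PerfFilt p 𝔞) {t : P} {r s c : ℚ} {x y : WittVector p P}
    (hx : x ∈ PM_J p 𝔞 η t r) (hy : y ∈ PM_J p 𝔞 η t s) (hc : c ≤ r + s) :
    x * y ∈ PM_J p 𝔞 η t c := by
  obtain ⟨a, ha, b, hb, rfl⟩ := Submodule.mem_sup.1 hx
  obtain ⟨a', ha', b', hb', rfl⟩ := Submodule.mem_sup.1 hy
  have e : (a + b) * (a' + b') = a * a' + (a * b' + (a' + b') * b) := by ring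
  rw [e]
  exact Submodule.add_mem_sup (PM_mul_mem h ha ha' hc)
    (add_mem (Ideal.mul_mem_left _ _ hb') (Ideal.mul_mem_left _ _ hb))

theorem PM_J_anti (h : PerfFilt p 𝔞) {t : P} {r c : ℚ} {x : WittVector p P}
    (hx : x ∈ PM_J p 𝔞 η t r) (hc : c ≤ r) : x ∈ PM_J p 𝔞 η t c :=
  sup_le_sup_right (WF_anti h hc) _ hx

theorem PM_J_pow (h : PerfFilt p 𝔞) {t : P} {r : ℚ} {x : WittVector p P}
    (hx : x ∈ PM_J p 𝔞 η t r) (n : ℕ) : x ^ n ∈ PM_J p 𝔞 η t (n * r) := by
  induction n with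
  | zero => exact Ideal.mem_sup_left (PM_top h (by simp) _)
  | succ n ih =>
    rw [pow_succ]
    exact PM_J_mul h ih hx (le_of_eq (by push_cast; ring))

theorem PM_J_pow_sub (h : PerfFilt p 𝔞) {t : P} {r s : ℚ} {x y : WittVector p P}
    (hx : x ∈ PM_J p 𝔞 η t r) (hy : y ∈ PM_J p 𝔞 η t r) (hxy : x - y ∈ PM_J p 𝔞 η t s) (n : ℕ) :
    x ^ (n + 1) - y ^ (n + 1) ∈ PM_J p 𝔞 η t (n * r + s) := by
  induction n with
  | zero => simpa using hxy
  | succ n ih =>
    have e : x ^ (n + 1 + 1) - y ^ (n + 1 + 1) =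
        x * (x ^ (n + 1) - y ^ (n + 1)) + (x - y) * y ^ (n + 1) := by ring
    rw [e]
    exact add_mem (PM_J_mul h hx ih (le_of_eq (by push_cast; ring)))
      (PM_J_mul h hxy (PM_J_pow h hy (n + 1)) (le_of_eq (by push_cast; ring)))

/-- (W3.5) -/
theorem PM_lead (h : PerfFilt p 𝔞) (hη : 0 < η) {t : P} (ht : t ∈ 𝔞 η) {r : ℚ}
    {x : WittVector p P} (hx : x ∈ WF p 𝔞 η r) :
    ∃ u ∈ 𝔞 r, x - teichmuller p u ∈ PM_J p 𝔞 η t (r + η) := by
  induction hx using Submodule.span_induction with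
  | mem x hx =>
    obtain ⟨i, u, hu, rfl⟩ := hx
    refine ⟨t ^ i * u, PM_a_mul h (PM_a_pow h ht i) hu (by linarith), Ideal.mem_sup_right ?_⟩
    rw [map_mul, map_pow, ← sub_mul, Ideal.mem_span_singleton]
    exact Dvd.dvd.mul_right (sub_dvd_pow_sub_pow _ _ i) _
  | zero => exact ⟨0, zero_mem _, by simp⟩
  | add x y _ _ ihx ihy =>
    obtain ⟨u, hu, hx'⟩ := ihx
    obtain ⟨v, hv, hy'⟩ := ihy
    obtain ⟨w, hw, e⟩ := PM_teich_add h hη hu hv
    refine ⟨u + v, add_mem hu hv, ?_⟩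
    have e1 : x + y - teichmuller p (u + v) =
        (x - teichmuller p u) + (y - teichmuller p v) + p * w := by linear_combination e
    rw [e1]
    exact add_mem (add_mem hx' hy')
      (Ideal.mem_sup_left (PM_mul_mem h (PM_p_mem h) hw (by linarith)))
  | smul a x _ ihx =>
    obtain ⟨u, hu, hx'⟩ := ihx
    obtain ⟨a', ha⟩ := exists_teich_add a
    refine ⟨a.coeff 0 * u, Ideal.mul_mem_left _ _ hu, ?_⟩
    have e1 : a • x - teichmuller p (a.coeff 0 * u) =
        a * (x - teichmuller p u) + a' * (p * teichmuller p u) := by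
      rw [map_mul, smul_eq_mul]
      linear_combination (teichmuller p u) * ha
    rw [e1]
    exact add_mem (Ideal.mul_mem_left _ _ hx') (Ideal.mul_mem_left _ _
      (Ideal.mem_sup_left (PM_mul_mem h (PM_p_mem h) (teich_mem_WF hu) (by linarith))))

/-- (W4) -/
theorem PM_root (h : PerfFilt p 𝔞) (hη : 0 < η) {t : P} (ht : t ∈ 𝔞 η) {r : ℚ}
    {b : WittVector p P} (hb : b ^ p ∈ PM_J p 𝔞 η t (p * r)) : b ∈ PM_J p 𝔞 η t r := by
  have hp1 : 1 ≤ p := (Fact.out : p.Prime).one_le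
  have hp : (1 : ℚ) ≤ p := by exact_mod_cast hp1
  have hp0 : (0 : ℚ) < p := by linarith
  have hδ : 0 < η / p := div_pos hη hp0
  have hδ' : η / p ≤ η := div_le_self hη.le hp
  have key : ∀ n : ℕ, ∀ s ≤ r, s ≤ n * (η / p) → b ∈ PM_J p 𝔞 η t s := by
    intro n
    induction n with
    | zero => intro s _ hs; exact Ideal.mem_sup_left (PM_top h (by simpa using hs) _)
    | succ n ih =>
      intro s hsr hs
      have hb1 := ih (s - η / p) (by linarith) (by push_cast at hs; linarith)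
      obtain ⟨b1, hb1', c, hc, e⟩ := Submodule.mem_sup.1 hb1
      obtain ⟨u, hu, hd⟩ := PM_lead h hη ht hb1'
      have hd' : b - teichmuller p u ∈ PM_J p 𝔞 η t (s - η / p + η) := by
        have e1 : b - teichmuller p u = (b1 - teichmuller p u) + c := by rw [← e]; ring
        rw [e1]
        exact add_mem hd (Ideal.mem_sup_right hc)
      have h1 := PM_J_pow_sub h hb1 (Ideal.mem_sup_left (teich_mem_WF hu)) hd' (p - 1)
      rw [Nat.sub_add_cancel hp1, Nat.cast_sub hp1] at h1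
      have e2 : ((p : ℚ) - (1 : ℕ)) * (s - η / p) + (s - η / p + η) = p * s := by
        push_cast
        field_simp
        ring
      rw [e2] at h1
      have h2 : b ^ p ∈ PM_J p 𝔞 η t (p * s) :=
        PM_J_anti h hb (mul_le_mul_of_nonneg_left hsr hp0.le)
      have h3 : teichmuller p (u ^ p) ∈ PM_J p 𝔞 η t (p * s) := by
        have := Ideal.sub_mem _ h2 h1
        rwa [sub_sub_cancel, ← map_pow] at this
      have h4 : u ∈ 𝔞 s := h.root _ _ (PM_of_teich_mem h hη ht h3)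
      have := add_mem (PM_J_anti h hd' (c := s) (by linarith))
        (Ideal.mem_sup_left (teich_mem_WF h4) : teichmuller p u ∈ PM_J p 𝔞 η t s)
      rwa [sub_add_cancel] at this
  obtain ⟨n, hn⟩ := exists_nat_ge (r / (η / p))
  exact key n r le_rfl (by rwa [div_le_iff₀ hδ] at hn)

/-- **Power multiplicativity** in `W(P) / (p - [t])`. -/
theorem mem_WF_of_pow_mem (h : PerfFilt p 𝔞) (hη : 0 < η) {t : P} (ht : t ∈ 𝔞 η) (e : ℕ) (r : ℚ)
    (b : WittVector p P)
    (hb : b ^ p ^ e ∈ WF p 𝔞 η (p ^ e * r) ⊔ Ideal.span {(p : WittVector p P) - teichmuller p t}) :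
    b ∈ WF p 𝔞 η r ⊔ Ideal.span {(p : WittVector p P) - teichmuller p t} := by
  induction e generalizing r b with
  | zero => simpa using hb
  | succ e ih =>
    refine PM_root h hη ht (ih (p * r) (b ^ p) ?_)
    rw [← pow_mul, ← pow_succ']
    convert hb using 3
    ring

end Crest.Agent.R183
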