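import Crest.Agent.R183.WDefs
import Crest.Agent.R183.PM

/-!
# Covers in mixed characteristic: definitions

`Sg K ι = K[X_i^{ℚ≥0}]` is a perfect ring, `St Λ ι = Λ[X_i^{ℚ≥0}]`; for `Λ = W(K)` the map
`psi : St → W(Sg)` is an isomorphism modulo every power of `ℓ`.
-/

set_option autoImplicit false

open scoped NNRat
open MvPolynomial

namespace Crest.Agent.R183

/-- polynomials with exponents in `ℚ≥0` -/
abbrev St (Λ : Type) [CommRing Λ] (ι : Type) : Type := AddMonoidAlgebra Λ (ι → ℚ≥0)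

/-- the monomial with exponent `β` -/
noncomputable abbrev qm (Λ : Type) [CommRing Λ] {ι : Type} (β : ι → ℚ≥0) : St Λ ι :=
  AddMonoidAlgebra.single β 1

/-- the power `X_i ^ r` -/
noncomputable abbrev qX (Λ : Type) [CommRing Λ] {ι : Type} [DecidableEq ι] (i : ι) (r : ℚ≥0) :
    St Λ ι :=
  qm Λ (Pi.single i r)

/-- the finite level `X_i ↦ X_i ^ (1 / Q)` -/
noncomputable def lev (Λ : Type) [CommRing Λ] (ι : Type) [DecidableEq ι] (Q : ℕ) :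
    MvPolynomial ι Λ →ₐ[Λ] St Λ ι :=
  aeval fun i => qX Λ i (1 / (Q : ℚ≥0))

/-- indices of the sequence `σ`; the index `inl 0` is the variable `t` replacing `ℓ` -/
abbrev SI (e s : ℕ) : Type := Fin (e + 1) ⊕ Tau (e + 1) s

/-- The `Λ`-algebra map `T → F` sending `U_i`, `X_j` to prescribed elements. -/
noncomputable def theta {Λ F : Type} [CommRing Λ] [CommRing F] [Algebra Λ F] {e s : ℕ}
    (v : SI e s → F) : TT (e + 1) s (MvPolynomial (Fin e) Λ) →+* F :=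
  eval₂Hom (aeval (R := Λ) fun i : Fin e => v (Sum.inl i.succ)).toRingHom
    fun j => v (Sum.inr j)

/-- `a` times the weight of an exponent: the `z`-variables have weight `1`, the other
`σ`-variables weight `1 / a`. -/
def wt {e s : ℕ} (a : ℕ) (β : SI e s → ℚ≥0) : ℚ≥0 :=
  ∑ i : Fin (e + 1), β (Sum.inl i) + a * ∑ k : Fin (e + 1), β (Sum.inr (Sum.inl k)) +
    ∑ j : Fin s, β (Sum.inr (Sum.inr j))

section

variable (ℓ : ℕ) (Λ : Type) [CommRing Λ] {e : ℕ} {p : Par} {b : ℕ}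

/-- The output of the construction at infinite level. -/
def MixInf (W : TD (e + 1) p (MvPolynomial (Fin e) Λ) (xMix e Λ ℓ) b) (n r₁ r₂ : ℕ) : Prop :=
  ∃ (ν : Type) (_ : Fintype ν) (_ : DecidableEq ν) (Q Q₁ n' : ℕ) (Dt : ν → St Λ (SI e p.s ⊕ ν))
    (w : Tau (e + 1) p.s → St Λ (SI e p.s ⊕ ν)) (γ : St Λ (SI e p.s ⊕ ν)),
    let θ := theta (Λ := Λ) fun i : SI e p.s => qX Λ (Sum.inl i : SI e p.s ⊕ ν) 1
    let J : Ideal (St Λ (SI e p.s ⊕ ν)) :=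
      Ideal.span {(ℓ : St Λ (SI e p.s ⊕ ν)) - qX Λ (Sum.inl (Sum.inl 0)) 1} ⊔ sp Dt ⊔
        Ideal.span {(ℓ : St Λ (SI e p.s ⊕ ν)) ^ b}
    let M : ℕ → Ideal (St Λ (SI e p.s ⊕ ν)) := fun r =>
      Ideal.span (qm Λ '' {β | ((p.a * r : ℕ) : ℚ≥0) ≤ wt p.a fun i => β (Sum.inl i)})
    0 < Q ∧ 0 < Q₁ ∧ n ≤ n' ∧ (∀ j, θ (W.H j) - w j ^ Q ∈ J) ∧ θ W.c - γ ^ n' ∈ J ∧
      (∀ k : ν, qX Λ (Sum.inr k : SI e p.s ⊕ ν) 1 - Dt k ^ Q₁ ∈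
        Ideal.span {(ℓ : St Λ (SI e p.s ⊕ ν))} ⊔
          Ideal.span (qm Λ '' {β | ∃ i, β (Sum.inl i) ≠ 0})) ∧
      (∀ π ∈ W.P, γ * θ π ∈ J ⊔ sp w ⊔ M r₁) ∧ ∀ i, γ * θ (W.mg i) ∈ J ⊔ sp w ⊔ M r₂

/-- The output of the construction at a finite level `Q'`. -/
def MixFin (W : TD (e + 1) p (MvPolynomial (Fin e) Λ) (xMix e Λ ℓ) b) (n r₁ r₂ : ℕ) : Prop :=
  ∃ (ν : Type) (_ : Fintype ν) (Q' Q Q₁ n' : ℕ) (Dt : ν → MvPolynomial (SI e p.s ⊕ ν) Λ)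
    (w : Tau (e + 1) p.s → MvPolynomial (SI e p.s ⊕ ν) Λ) (γ : MvPolynomial (SI e p.s ⊕ ν) Λ),
    let θ := theta (Λ := Λ) fun i : SI e p.s =>
      (X (Sum.inl i) : MvPolynomial (SI e p.s ⊕ ν) Λ) ^ Q'
    let J : Ideal (MvPolynomial (SI e p.s ⊕ ν) Λ) :=
      Ideal.span {(ℓ : MvPolynomial (SI e p.s ⊕ ν) Λ) - X (Sum.inl (Sum.inl 0)) ^ Q'} ⊔ sp Dt ⊔
        Ideal.span {(ℓ : MvPolynomial (SI e p.s ⊕ ν) Λ) ^ b}
    let M : ℕ → Ideal (MvPolynomial (SI e p.s ⊕ ν) Λ) := fun r =>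
      Ideal.span ((fun β => monomial β 1) ''
        {β | ((p.a * r * Q' : ℕ) : ℚ≥0) ≤ wt p.a fun i => (β (Sum.inl i) : ℚ≥0)})
    0 < Q' ∧ 0 < Q ∧ 0 < Q₁ ∧ n ≤ n' ∧ (∀ j, θ (W.H j) - w j ^ Q ∈ J) ∧ θ W.c - γ ^ n' ∈ J ∧
      (∀ k : ν, (X (Sum.inr k) : MvPolynomial (SI e p.s ⊕ ν) Λ) ^ Q' - Dt k ^ Q₁ ∈
        Ideal.span {(ℓ : MvPolynomial (SI e p.s ⊕ ν) Λ)} ⊔ sp (fun i => X (Sum.inl i))) ∧
      (∀ π ∈ W.P, γ * θ π ∈ J ⊔ sp w ⊔ M r₁) ∧ ∀ i, γ * θ (W.mg i) ∈ J ⊔ sp w ⊔ M r₂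

end

end Crest.Agent.R183
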