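import Crest.Agent.R183.MixInfAux2

/-!
# The abstract form of `mixInf`
-/

set_option autoImplicit false
set_option linter.unusedSectionVars false

open WittVector

namespace Crest.Agent.R183

variable {p : ℕ} [Fact p.Prime] {S : Type} [CommRing S] [CharP S p] [PerfectRing S p]

theorem MixInf_pow_sub {V : Type} [CommRing V] {K : Ideal V} {a a' : V} (h : a - a' ∈ K) (n : ℕ) :
    a ^ n - a' ^ n ∈ K := by
  obtain ⟨d, hd⟩ := sub_dvd_pow_sub_pow a a' n
  rw [hd]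
  exact Ideal.mul_mem_right _ _ h

theorem MixInf_abs {Mon : ℚ → Set S} (hM : MixInf_Mon p Mon) {η : ℚ} (hη : 0 < η)
    {T F : Type} [CommRing T] [CommRing F] (θ : T →+* F) (ψ : F →+* WittVector p S)
    (hs : ∀ (n : ℕ) (y : WittVector p S), ∃ x, y - ψ x ∈ Ideal.span {(p : WittVector p S) ^ n})
    (hi : ∀ (n : ℕ) (x : F), ψ x ∈ Ideal.span {(p : WittVector p S) ^ n} →
      x ∈ Ideal.span {(p : F) ^ n})
    {I τ Z R : Type} [Finite R] (σ : I → T) (x : I → S) (t : S) (tF : F)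
    (hψt : ψ tF = teichmuller p t) (ht : t ∈ Mon η) (hx : ∀ i, x i ∈ Mon η)
    (hσ : ∀ i, ψ (θ (σ i)) - teichmuller p (x i) ∈
      Ideal.span {(p : WittVector p S) - teichmuller p t})
    (z : Z → T) (hz : ∀ k, ∃ u ∈ Mon 1, ψ (θ (z k)) = teichmuller p u)
    (π0 : S →+* S) (hπx : ∀ i, π0 (x i) = 0) (hπt : π0 t = 0) {b : ℕ} (hb : 0 < b)
    (v : Option τ × Fin b → S) (hv : ∀ k, π0 (v k) = v k) (vF : Option τ × Fin b → F)
    (hvF : ∀ k, ψ (vF k) = teichmuller p (v k))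
    (N : Set S) (hN : ∀ u, u - π0 u ∈ Ideal.span N) (NF : Ideal F)
    (hNF : ∀ u ∈ N, teichmuller p u ∈ NF.map ψ) (MF : ℕ → Ideal F)
    (hMF : ∀ r : ℕ, ∀ u ∈ Mon r, teichmuller p u ∈ (MF r).map ψ)
    (H : τ → T) (c : T) (P : Ideal T) (hP : P.FG) (mg : R → T) (hHσ : ∀ j, H j ∈ sp σ)
    (hcσ : c ∈ sp σ) {mm q r₀ e₀ e₁ r₁ r₂ : ℕ}
    (hc : Ideal.span {c} * P ^ mm ≤ sp H ⊔ sp (fun i => σ i ^ b))
    (hm : sp mg ^ (r₀ + 1) ≤ sp z ^ q * sp mg ^ r₀ ⊔ P) (he₀ : mm ≤ p ^ e₀)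
    (he₁ : q * r₀ + r₀ ≤ p ^ e₁) (hr₂ : r₂ + 1 ≤ q)
    (hB : (p : ℚ) ^ e₀ * ((r₁ + p ^ e₁ * r₂ : ℕ) : ℚ) ≤ b * η) :
    ∃ (Q : ℕ) (Dt : Option τ × Fin b → F) (w : τ → F) (γ : F), 0 < Q ∧
      (∀ j, θ (H j) - w j ^ Q ∈ Ideal.span {(p : F) - tF} ⊔ sp Dt ⊔ Ideal.span {(p : F) ^ b}) ∧
      θ c - γ ^ p ^ e₀ ∈ Ideal.span {(p : F) - tF} ⊔ sp Dt ⊔ Ideal.span {(p : F) ^ b} ∧
      (∀ k, vF k - Dt k ^ Q ∈ Ideal.span {(p : F)} ⊔ NF) ∧
      (∀ π ∈ P, γ * θ π ∈ Ideal.span {(p : F) - tF} ⊔ sp Dt ⊔ Ideal.span {(p : F) ^ b} ⊔ sp w ⊔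
        MF r₁) ∧
      ∀ i, γ * θ (mg i) ∈ Ideal.span {(p : F) - tF} ⊔ sp Dt ⊔ Ideal.span {(p : F) ^ b} ⊔ sp w ⊔
        MF r₂ := by
  set Θ : T →+* WittVector p S := ψ.comp θ with hΘ
  have hΘ' : ∀ y, ψ (θ y) = Θ y := fun _ => rfl
  simp only [hΘ'] at hσ hz
  have hspσ : ∀ y ∈ sp σ, Θ y ∈ sp (fun i => teichmuller p (x i)) ⊔
      Ideal.span {(p : WittVector p S) - teichmuller p t} := by
    refine fun y hy => Ideal.mem_comap.1 (SetLike.le_def.1 (Ideal.span_le.2 ?_) hy)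
    rintro _ ⟨i, rfl⟩
    have := Submodule.add_mem_sup (Ideal.subset_span ⟨i, rfl⟩ :
      teichmuller p (x i) ∈ sp (fun i => teichmuller p (x i))) (hσ i)
    rwa [add_sub_cancel] at this
  obtain ⟨D, hD1, hD2⟩ := MixInf_constr x t π0 hπx hπt hb v hv (fun o => Θ (o.elim c H))
    (fun o => hspσ _ (by cases o; exacts [hcσ, hHσ _]))
  let g : (Option τ × Fin b) ⊕ τ → S := Sum.elim D fun j => v (some j, ⟨0, hb⟩)
  have hF := MixInf_filt hM g
  have ht' : t ∈ MixInf_a p Mon g η := MixInf_mon_mem ht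
  have hJ : Ideal.span {(p : WittVector p S) - teichmuller p t} ⊔
      sp (fun k => teichmuller p (D k)) ⊔ Ideal.span {(p : WittVector p S) ^ b} ≤
      PM_J p (MixInf_a p Mon g) η t (b * η) := by
    refine sup_le (sup_le le_sup_right (le_sup_of_le_left (Ideal.span_le.2 ?_)))
      (le_sup_of_le_left ((Ideal.span_singleton_le_iff_mem _).2 (p_pow_mem_WF hF b)))
    rintro _ ⟨k, rfl⟩
    exact teich_mem_WF (MixInf_g_mem (g := g) _ (Sum.inl k))
  have hZ : ∀ y ∈ sp z, Θ y ∈ PM_J p (MixInf_a p Mon g) η t 1 := by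
    refine fun y hy => Ideal.mem_comap.1 (SetLike.le_def.1 (Ideal.span_le.2 ?_) hy)
    rintro _ ⟨k, rfl⟩
    obtain ⟨u, hu, e⟩ := hz k
    change Θ (z k) ∈ PM_J p (MixInf_a p Mon g) η t 1
    rw [e]
    exact Ideal.mem_sup_left (teich_mem_WF (MixInf_mon_mem hu))
  have hH : ∀ y ∈ sp H ⊔ sp (fun i => σ i ^ b), Θ y ∈ PM_J p (MixInf_a p Mon g) η t (b * η) := by
    refine fun y hy => Ideal.mem_comap.1 (SetLike.le_def.1
      (sup_le (Ideal.span_le.2 ?_) (Ideal.span_le.2 ?_)) hy)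
    · rintro _ ⟨j, rfl⟩
      have := add_mem (hJ (hD2 (some j))) (Ideal.mem_sup_left
        (teich_mem_WF (MixInf_g_mem (g := g) _ (Sum.inr j))) :
          teichmuller p (v (some j, ⟨0, hb⟩)) ∈ PM_J p (MixInf_a p Mon g) η t (b * η))
      rwa [sub_add_cancel] at this
    · rintro _ ⟨i, rfl⟩
      change Θ (σ i ^ b) ∈ PM_J p (MixInf_a p Mon g) η t (b * η)
      rw [map_pow]
      refine PM_J_pow hF ?_ b
      have := Submodule.add_mem_sup (teich_mem_WF (η := η) (MixInf_mon_mem (g := g) (hx i))) (hσ i)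
      rwa [add_sub_cancel] at this
  obtain ⟨γ', hγ'⟩ := PM_exists_root (p := p) e₀ (v (none, ⟨0, hb⟩))
  have hγ : Θ c - teichmuller p γ' ^ p ^ e₀ ∈ PM_J p (MixInf_a p Mon g) η t (b * η) := by
    rw [← map_pow, hγ']
    exact hJ (hD2 none)
  obtain ⟨h1, h2⟩ := MixInf_est hF hη ht' Θ hZ hH hc hm hγ he₀ he₁ hr₂ hB
  obtain ⟨k₁, hk₁⟩ := MixInf_level (MixInf_A_mono (p := p) g) _
    (I := Ideal.span {teichmuller p γ'} * P.map Θ)
    (Submodule.FG.mul (Submodule.fg_span_singleton _) (hP.map Θ))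
    (le_trans (by
      rw [Ideal.span_singleton_mul_le_iff]
      intro y hy
      have : P.map Θ ≤ Submodule.comap (LinearMap.mulLeft (WittVector p S) (teichmuller p γ'))
          (PM_J p (MixInf_a p Mon g) η t r₁) :=
        Ideal.map_le_iff_le_comap.2 fun π hπ => h1 π hπ
      exact this hy) (MixInf_back hM b ht' r₁))
  obtain ⟨k₂, hk₂⟩ := MixInf_level (MixInf_A_mono (p := p) g) _
    (I := sp fun i => teichmuller p γ' * Θ (mg i)) (Submodule.fg_span (Set.finite_range _))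
    (le_trans (Ideal.span_le.2 (by
      rintro _ ⟨i, rfl⟩
      exact h2 _ (Ideal.subset_span ⟨i, rfl⟩))) (MixInf_back hM b ht' r₂))
  replace hk₁ := hk₁ (k₁ + k₂) (Nat.le_add_right _ _)
  replace hk₂ := hk₂ (k₁ + k₂) (Nat.le_add_left _ _)
  generalize k₁ + k₂ = k at hk₁ hk₂
  choose gr hgr using fun κ => PM_exists_root (p := p) k (g κ)
  choose gF hgF using fun κ => hs b (teichmuller p (gr κ))
  obtain ⟨γF, hγF⟩ := hs b (teichmuller p γ')
  have hdet : ∀ (n : ℕ) (J : Ideal F), (p : F) ^ n ∈ J → ∀ y, ψ y ∈ J.map ψ → y ∈ J := by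
    intro n J hJ y hy
    refine MixInf_detect ψ ((p : F) ^ n) ?_ ?_ hJ hy
    · rw [map_pow, map_natCast]; exact hs n
    · rw [map_pow, map_natCast]; exact hi n
  set J : Ideal F := Ideal.span {(p : F) - tF} ⊔ sp (fun k => gF (Sum.inl k)) ⊔
    Ideal.span {(p : F) ^ b} with hJdef
  have hpJ : (p : F) ^ b ∈ J := Ideal.mem_sup_right (Ideal.mem_span_singleton_self _)
  have hpK : Ideal.span {(p : WittVector p S) ^ b} ≤ J.map ψ := by
    rw [Ideal.span_singleton_le_iff_mem]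
    have := Ideal.mem_map_of_mem ψ hpJ
    rwa [map_pow, map_natCast] at this
  have hξK : Ideal.span {(p : WittVector p S) - teichmuller p t} ≤ J.map ψ := by
    rw [Ideal.span_singleton_le_iff_mem]
    have := Ideal.mem_map_of_mem ψ (Ideal.mem_sup_left (Ideal.mem_sup_left
      (Ideal.mem_span_singleton_self _)) : (p : F) - tF ∈ J)
    rwa [map_sub, map_natCast, hψt] at this
  have hQ : 0 < p ^ k := pow_pos (Fact.out : p.Prime).pos k
  have hDK : ∀ κ, teichmuller p (gr (Sum.inl κ)) ∈ J.map ψ := by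
    intro κ
    have := add_mem (hpK (hgF (Sum.inl κ))) (Ideal.mem_map_of_mem ψ (Ideal.mem_sup_left
      (Ideal.mem_sup_right (Ideal.subset_span ⟨κ, rfl⟩)) : gF (Sum.inl κ) ∈ J))
    rwa [sub_add_cancel] at this
  have hJK : Ideal.span {(p : WittVector p S) - teichmuller p t} ⊔
      sp (fun k => teichmuller p (D k)) ⊔ Ideal.span {(p : WittVector p S) ^ b} ≤ J.map ψ := by
    refine sup_le (sup_le hξK (Ideal.span_le.2 ?_)) hpK
    rintro _ ⟨κ, rfl⟩
    have := Ideal.pow_mem_of_mem _ (hDK κ) _ hQ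
    rwa [← map_pow, hgr] at this
  have hfin : ∀ r : ℕ, (Ideal.span (teichmuller p '' Mon r) ⊔
      Ideal.span {(p : WittVector p S) ^ b} ⊔
      Ideal.span {(p : WittVector p S) - teichmuller p t}) ⊔ MixInf_A p g k ≤
      (J ⊔ sp (fun j => gF (Sum.inr j)) ⊔ MF r).map ψ := by
    intro r
    have hle : J.map ψ ≤ (J ⊔ sp (fun j => gF (Sum.inr j)) ⊔ MF r).map ψ :=
      Ideal.map_mono (le_sup_of_le_left le_sup_left)
    refine sup_le (sup_le (sup_le (Ideal.span_le.2 ?_) (hpK.trans hle)) (hξK.trans hle))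
      (Ideal.span_le.2 ?_)
    · rintro _ ⟨u, hu, rfl⟩
      exact Ideal.map_mono le_sup_right (hMF r u hu)
    · rintro _ ⟨u, ⟨κ, hu⟩, rfl⟩
      obtain rfl : u = gr κ := MixInf_root_inj k (hu.trans (hgr κ).symm)
      cases κ with
      | inl κ => exact hle (hDK κ)
      | inr j =>
        have := add_mem (hle (hpK (hgF (Sum.inr j)))) (Ideal.mem_map_of_mem ψ (Ideal.mem_sup_left
          (Ideal.mem_sup_right (Ideal.subset_span ⟨j, rfl⟩)) :
            gF (Sum.inr j) ∈ J ⊔ sp (fun j => gF (Sum.inr j)) ⊔ MF r))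
        rwa [sub_add_cancel] at this
  have hlast : ∀ (r : ℕ) (y : T), teichmuller p γ' * Θ y ∈ (Ideal.span (teichmuller p '' Mon r) ⊔
      Ideal.span {(p : WittVector p S) ^ b} ⊔
      Ideal.span {(p : WittVector p S) - teichmuller p t}) ⊔ MixInf_A p g k →
      γF * θ y ∈ J ⊔ sp (fun j => gF (Sum.inr j)) ⊔ MF r := by
    intro r y hy
    refine hdet b _ (Ideal.mem_sup_left (Ideal.mem_sup_left hpJ)) _ ?_
    have := Ideal.sub_mem _ (hfin r hy) (Ideal.mul_mem_right (Θ y) _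
      (Ideal.map_mono (le_sup_of_le_left le_sup_left) (hpK hγF)))
    rw [map_mul, hΘ']
    convert this using 1
    ring
  refine ⟨p ^ k, fun κ => gF (Sum.inl κ), fun j => gF (Sum.inr j), γF, hQ, fun j => ?_, ?_,
    fun κ => ?_, fun π hπ => hlast _ _ (hk₁ (Ideal.mul_mem_mul
      (Ideal.mem_span_singleton_self _) (Ideal.mem_map_of_mem _ hπ))),
    fun i => hlast _ _ (hk₂ (Ideal.subset_span ⟨i, rfl⟩))⟩
  · refine hdet b J hpJ _ ?_
    have h3 := MixInf_pow_sub (hpK (hgF (Sum.inr j))) (p ^ k)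
    rw [← map_pow, hgr] at h3
    have := add_mem (hJK (hD2 (some j))) h3
    rw [map_sub, map_pow, hΘ']
    convert this using 1
    simp only [g, Sum.elim_inr, Option.elim_some]
    ring
  · refine hdet b J hpJ _ ?_
    have h3 := MixInf_pow_sub (hpK hγF) (p ^ e₀)
    rw [← map_pow, hγ'] at h3
    have := add_mem (hJK (hD2 none)) h3
    rw [map_sub, map_pow, hΘ']
    convert this using 1
    simp only [Option.elim_none]
    ring
  · refine hdet 1 _ (by rw [pow_one]; exact Ideal.mem_sup_left (Ideal.mem_span_singleton_self _))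
      _ ?_
    have hp1 : Ideal.span {(p : WittVector p S)} ≤ (Ideal.span {(p : F)} ⊔ NF).map ψ := by
      rw [Ideal.span_singleton_le_iff_mem]
      have := Ideal.mem_map_of_mem ψ (Ideal.mem_sup_left
        (Ideal.mem_span_singleton_self _) : (p : F) ∈ Ideal.span {(p : F)} ⊔ NF)
      rwa [map_natCast] at this
    have h3 := MixInf_pow_sub (hp1 (Ideal.span_singleton_le_span_singleton.2
      (dvd_pow_self _ hb.ne') (hgF (Sum.inl κ)))) (p ^ k)
    rw [← map_pow, hgr] at h3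
    have h4 : teichmuller p (D κ) - teichmuller p (v κ) ∈ (Ideal.span {(p : F)} ⊔ NF).map ψ := by
      have h5 := MixInf_cc (p := p) (s := N) (y := teichmuller p (D κ) - teichmuller p (v κ)) (by
        rw [map_sub, PM_cc_teich, PM_cc_teich, ← hD1 κ]; exact hN _)
      refine SetLike.le_def.1 (sup_le (Ideal.span_le.2 ?_) hp1) h5
      rintro _ ⟨u, hu, rfl⟩
      exact Ideal.map_mono le_sup_right (hNF u hu)
    have := Ideal.sub_mem _ h3 h4
    rw [map_sub, map_pow, hvF]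
    convert this using 1
    simp only [g, Sum.elim_inl]
    ring

end Crest.Agent.R183
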