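import Crest.Agent.R183.MixPsi
import Crest.Agent.R183.SL
import Crest.Agent.R183.MixInfAux3

/-!
# The mixed characteristic cover at infinite level
-/

set_option autoImplicit false

open scoped NNRat
open WittVector

namespace Crest.Agent.R183

theorem MixInf_qm_mul (K : Type) [CommRing K] {ι : Type} (β β' : ι → ℚ≥0) :
    qm K β * qm K β' = qm K (β + β') := by
  simp [qm, AddMonoidAlgebra.single_mul_single]

theorem MixInf_qm_pow (K : Type) [CommRing K] {ι : Type} (β : ι → ℚ≥0) (n : ℕ) :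
    qm K β ^ n = qm K (n • β) := by
  simp [qm, AddMonoidAlgebra.single_pow]

theorem MixInf_qm_zero (K : Type) [CommRing K] {ι : Type} : qm K (0 : ι → ℚ≥0) = 1 := rfl

/-- Monomials of weight `≥ r`. -/
theorem MixInf_mon (ℓ : ℕ) [Fact ℓ.Prime] (K : Type) [CommRing K] {ι : Type}
    [CharP (St K ι) ℓ] [PerfectRing (St K ι) ℓ] (a : ℕ) (ω : (ι → ℚ≥0) → ℚ≥0)
    (hω : ∀ β β', ω (β + β') = ω β + ω β') (hω' : ∀ (c : ℚ≥0) β, ω (c • β) = c * ω β) :
    MixInf_Mon ℓ (fun r : ℚ => qm K '' {β | (a : ℚ) * r ≤ (ω β : ℚ)}) where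
  anti := by
    rintro r s hrs _ ⟨β, hβ, rfl⟩
    exact ⟨β, le_trans (mul_le_mul_of_nonneg_left hrs (Nat.cast_nonneg a)) hβ, rfl⟩
  one := fun r hr => ⟨0, le_trans (mul_nonpos_of_nonneg_of_nonpos (Nat.cast_nonneg a) hr)
    (NNRat.coe_nonneg _), MixInf_qm_zero K⟩
  mul := by
    rintro r s _ ⟨β, hβ, rfl⟩ _ ⟨β', hβ', rfl⟩
    refine ⟨β + β', ?_, (MixInf_qm_mul K β β').symm⟩
    simp only [Set.mem_ofPred_eq] at hβ hβ' ⊢
    rw [hω, NNRat.coe_add]
    linarith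
  root := by
    rintro r u ⟨β, hβ, e⟩
    have hl : (ℓ : ℚ≥0) ≠ 0 := Nat.cast_ne_zero.2 (Fact.out : ℓ.Prime).ne_zero
    have hl' : (0 : ℚ) < ℓ := Nat.cast_pos.2 (Fact.out : ℓ.Prime).pos
    refine ⟨(ℓ : ℚ≥0)⁻¹ • β, ?_, MixInf_root_inj (p := ℓ) 1 ?_⟩
    · simp only [Set.mem_ofPred_eq] at hβ ⊢
      rw [hω', NNRat.coe_mul, NNRat.coe_inv, NNRat.coe_natCast, ← div_eq_inv_mul, le_div_iff₀ hl']
      linarith
    · rw [pow_one, ← e, MixInf_qm_pow, ← Nat.cast_smul_eq_nsmul ℚ≥0, smul_smul,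
        mul_inv_cancel₀ hl, one_smul]

/-- The endomorphism killing the monomials involving the first group of variables. -/
theorem MixInf_pi (K : Type) [CommRing K] (I ν : Type) :
    ∃ π0 : St K (I ⊕ ν) →+* St K (I ⊕ ν),
      (∀ β, (∃ i, β (Sum.inl i) ≠ 0) → π0 (qm K β) = 0) ∧
      (∀ β, (∀ i, β (Sum.inl i) = 0) → π0 (qm K β) = qm K β) ∧
      ∀ u, u - π0 u ∈ Ideal.span (qm K '' {β | ∃ i, β (Sum.inl i) ≠ 0}) := by
  classical
  let f : Multiplicative (I ⊕ ν → ℚ≥0) →* St K (I ⊕ ν) :=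
    { toFun := fun β => if ∀ i, β.toAdd (Sum.inl i) = 0 then qm K β.toAdd else 0
      map_one' := by
        exact (if_pos fun _ => rfl).trans (MixInf_qm_zero K)
      map_mul' := by
        intro β β'
        by_cases h : ∀ i, β.toAdd (Sum.inl i) = 0
        · by_cases h' : ∀ i, β'.toAdd (Sum.inl i) = 0
          · rw [if_pos h, if_pos h', if_pos, MixInf_qm_mul, toAdd_mul]
            intro i
            rw [toAdd_mul, Pi.add_apply, h i, h' i, add_zero]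
          · rw [if_neg h', if_neg, mul_zero]
            intro h''
            refine h' fun i => ?_
            have := h'' i
            rw [toAdd_mul, Pi.add_apply, add_eq_zero] at this
            exact this.2
        · rw [if_neg h, if_neg, zero_mul]
          intro h''
          refine h fun i => ?_
          have := h'' i
          rw [toAdd_mul, Pi.add_apply, add_eq_zero] at this
          exact this.1 }
  let π0 := AddMonoidAlgebra.lift K (St K (I ⊕ ν)) (I ⊕ ν → ℚ≥0) f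
  have h0 : ∀ β, π0 (qm K β) = if ∀ i, β (Sum.inl i) = 0 then qm K β else 0 := by
    intro β
    rw [AddMonoidAlgebra.lift_single, one_smul]
    rfl
  have h1 : ∀ β, (∃ i, β (Sum.inl i) ≠ 0) → π0 (qm K β) = 0 := by
    intro β hβ
    rw [h0, if_neg (not_forall.2 hβ)]
  have h2 : ∀ β, (∀ i, β (Sum.inl i) = 0) → π0 (qm K β) = qm K β := by
    intro β hβ
    rw [h0, if_pos hβ]
  refine ⟨π0.toRingHom, h1, h2, fun u => ?_⟩
  change u - π0 u ∈ _
  induction u using AddMonoidAlgebra.induction_linear with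
  | zero => simp
  | add x y hx hy =>
    have := add_mem hx hy
    rw [map_add]
    convert this using 1
    ring
  | single β c =>
    have e : (AddMonoidAlgebra.single β c : St K (I ⊕ ν)) = c • qm K β := by simp [qm]
    rw [e, map_smul, ← smul_sub]
    refine Submodule.smul_of_tower_mem _ _ ?_
    by_cases h : ∀ i, β (Sum.inl i) = 0
    · rw [h2 β h, sub_self]
      exact zero_mem _
    · rw [h1 β (not_forall.1 h), sub_zero]
      exact Ideal.subset_span ⟨β, not_forall.1 h, rfl⟩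

theorem MixInf_wt_def {e s : ℕ} (a : ℕ) (β : SI e s → ℚ≥0) : wt a β =
    ∑ i : Fin (e + 1), β (Sum.inl i) + a * ∑ k : Fin (e + 1), β (Sum.inr (Sum.inl k)) +
      ∑ j : Fin s, β (Sum.inr (Sum.inr j)) := rfl

theorem MixInf_wt_add {e s : ℕ} (a : ℕ) (β β' : SI e s → ℚ≥0) :
    wt a (β + β') = wt a β + wt a β' := by
  simp only [MixInf_wt_def, Pi.add_apply, Finset.sum_add_distrib]
  ring

theorem MixInf_wt_smul {e s : ℕ} (a : ℕ) (c : ℚ≥0) (β : SI e s → ℚ≥0) :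
    wt a (c • β) = c * wt a β := by
  simp only [MixInf_wt_def, Pi.smul_apply, smul_eq_mul, ← Finset.mul_sum]
  ring

theorem MixInf_wt_z {e s : ℕ} (a : ℕ) (k : Fin (e + 1)) :
    wt a (Pi.single (Sum.inr (Sum.inl k)) 1 : SI e s → ℚ≥0) = a := by
  simp [MixInf_wt_def, Pi.single_apply]

theorem MixInf_wt_one {e s : ℕ} {a : ℕ} (ha : 0 < a) (i : SI e s) :
    1 ≤ wt a (Pi.single i 1 : SI e s → ℚ≥0) := by
  rcases i with i | i | i
  · simp [MixInf_wt_def, Pi.single_apply]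
  · rw [MixInf_wt_z]
    exact_mod_cast ha
  · simp [MixInf_wt_def, Pi.single_apply]

theorem MixInf_single_inl {I ν : Type} [DecidableEq I] [DecidableEq ν] (i : I) :
    (fun i' : I => (Pi.single (Sum.inl i) 1 : I ⊕ ν → ℚ≥0) (Sum.inl i')) = Pi.single i 1 := by
  funext i'
  simp [Pi.single_apply]

theorem MixInf_theta_zero {Λ F : Type} [CommRing Λ] [CommRing F] [Algebra Λ F] {e s : ℕ}
    (v : SI e s → F) (ℓ : ℕ) :
    theta (Λ := Λ) v (sig s (xMix e Λ ℓ) (Sum.inl 0)) = ℓ := by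
  delta theta sig xMix
  simp

theorem MixInf_theta_succ {Λ F : Type} [CommRing Λ] [CommRing F] [Algebra Λ F] {e s : ℕ}
    (v : SI e s → F) (ℓ : ℕ) (i : Fin e) :
    theta (Λ := Λ) v (sig s (xMix e Λ ℓ) (Sum.inl i.succ)) = v (Sum.inl i.succ) := by
  delta theta sig xMix
  simp

theorem MixInf_theta_inr {Λ F : Type} [CommRing Λ] [CommRing F] [Algebra Λ F] {e s : ℕ}
    (v : SI e s → F) (j : Tau (e + 1) s) :
    theta (Λ := Λ) v (MvPolynomial.X j) = v (Sum.inr j) := by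
  delta theta
  simp

theorem MixInf_sig_inr {d s : ℕ} {A : Type} [CommRing A] (x' : Fin d → A) (j : Tau d s) :
    sig s x' (Sum.inr j) = MvPolynomial.X j := rfl

theorem MixInf_zz {d s : ℕ} {A : Type} [CommRing A] (k : Fin d) :
    zz d s A k = MvPolynomial.X (Sum.inl k) := rfl

theorem mixInf (ℓ : ℕ) [Fact ℓ.Prime] (K : Type) [Field K] [CharP K ℓ] [PerfectRing K ℓ]
    (e : ℕ) (p : Par) (n r₁ r₂ : ℕ) (ha : 0 < p.a) (hr₂ : r₂ + 1 ≤ p.q) :
    ∃ b₀ : ℕ, ∀ b ≥ b₀,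
      ∀ W : TD (e + 1) p (MvPolynomial (Fin e) (WittVector ℓ K)) (xMix e (WittVector ℓ K) ℓ) b,
        MixInf ℓ (WittVector ℓ K) W n r₁ r₂ := by
  have hl : 1 < ℓ := (Fact.out : ℓ.Prime).one_lt
  obtain ⟨e₀, he₀⟩ : ∃ e₀, n + p.mm ≤ ℓ ^ e₀ := ⟨_, (Nat.lt_pow_self hl).le⟩
  obtain ⟨e₁, he₁⟩ : ∃ e₁, p.q * p.r₀ + p.r₀ ≤ ℓ ^ e₁ := ⟨_, (Nat.lt_pow_self hl).le⟩
  refine ⟨p.a * (ℓ ^ e₀ * (r₁ + ℓ ^ e₁ * r₂)) + 1, fun b hb W => ?_⟩
  have hb0 : 0 < b := by omega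
  have ha' : (0 : ℚ) < p.a := Nat.cast_pos.2 ha
  have := charP_St ℓ K (SI e p.s ⊕ (Option (Tau (e + 1) p.s) × Fin b))
  have := perfectRing_St ℓ K (SI e p.s ⊕ (Option (Tau (e + 1) p.s) × Fin b))
  obtain ⟨ψ, hψ1, -, hψ3, hψ4⟩ := exists_psi ℓ K (SI e p.s ⊕ (Option (Tau (e + 1) p.s) × Fin b))
  obtain ⟨π0, hπ1, hπ2, hπ3⟩ := MixInf_pi K (SI e p.s) (Option (Tau (e + 1) p.s) × Fin b)
  have hM := MixInf_mon ℓ K (ι := SI e p.s ⊕ (Option (Tau (e + 1) p.s) × Fin b)) p.a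
    (fun β => wt p.a fun i => β (Sum.inl i)) (fun β β' => MixInf_wt_add _ _ _)
    (fun c β => MixInf_wt_smul _ _ _)
  have hx : ∀ i : SI e p.s, qX K (Sum.inl i : SI e p.s ⊕ (Option (Tau (e + 1) p.s) × Fin b)) 1 ∈
      qm K '' {β | (p.a : ℚ) * (p.a : ℚ)⁻¹ ≤ (wt p.a fun i => β (Sum.inl i) : ℚ≥0)} := by
    intro i
    refine ⟨_, ?_, rfl⟩
    rw [Set.mem_ofPred_eq, MixInf_single_inl, mul_inv_cancel₀ ha'.ne']
    exact_mod_cast MixInf_wt_one ha i
  have hπx : ∀ i : SI e p.s,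
      π0 (qX K (Sum.inl i : SI e p.s ⊕ (Option (Tau (e + 1) p.s) × Fin b)) 1) = 0 :=
    fun i => hπ1 _ ⟨i, by simp⟩
  obtain ⟨Q, Dt, w, γ, hQ, h1, h2, h3, h4, h5⟩ := MixInf_abs hM (inv_pos.2 ha')
    (theta (Λ := WittVector ℓ K) fun i : SI e p.s => qX (WittVector ℓ K)
      (Sum.inl i : SI e p.s ⊕ (Option (Tau (e + 1) p.s) × Fin b)) 1) ψ hψ3 hψ4
    (sig p.s (xMix e (WittVector ℓ K) ℓ)) (fun i => qX K (Sum.inl i) 1)
    (qX K (Sum.inl (Sum.inl 0)) 1) (qX (WittVector ℓ K) (Sum.inl (Sum.inl 0)) 1) (hψ1 _) (hx _) hx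
    (by
      rintro (i | j)
      · refine Fin.cases ?_ (fun i => ?_) i
        · rw [MixInf_theta_zero, map_natCast]
          exact Ideal.mem_span_singleton_self _
        · rw [MixInf_theta_succ, hψ1, sub_self]
          exact zero_mem _
      · rw [MixInf_sig_inr, MixInf_theta_inr, hψ1, sub_self]
        exact zero_mem _)
    (zz (e + 1) p.s (MvPolynomial (Fin e) (WittVector ℓ K)))
    (by
      intro k
      refine ⟨qX K (Sum.inl (Sum.inr (Sum.inl k))) 1, ⟨_, ?_, rfl⟩, ?_⟩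
      · rw [Set.mem_ofPred_eq, MixInf_single_inl, MixInf_wt_z, mul_one, NNRat.coe_natCast]
      · rw [MixInf_zz, MixInf_theta_inr, hψ1])
    π0 hπx (hπx _) hb0 (fun k => qX K (Sum.inr k) 1) (fun k => hπ2 _ fun i => by simp)
    (fun k => qX (WittVector ℓ K) (Sum.inr k) 1) (fun k => hψ1 _) _ hπ3
    (Ideal.span (qm (WittVector ℓ K) '' {β | ∃ i, β (Sum.inl i) ≠ 0}))
    (by
      rintro _ ⟨β, hβ, rfl⟩
      rw [← hψ1]
      exact Ideal.mem_map_of_mem _ (Ideal.subset_span ⟨β, hβ, rfl⟩))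
    (fun r => Ideal.span (qm (WittVector ℓ K) ''
      {β | ((p.a * r : ℕ) : ℚ≥0) ≤ wt p.a fun i => β (Sum.inl i)}))
    (by
      rintro r _ ⟨β, hβ, rfl⟩
      rw [← hψ1]
      refine Ideal.mem_map_of_mem _ (Ideal.subset_span ⟨β, ?_, rfl⟩)
      rw [Set.mem_ofPred_eq] at hβ ⊢
      exact_mod_cast hβ)
    W.H W.c W.P (IsNoetherian.noetherian _) W.mg W.Hσ W.cσ (e₀ := e₀) (r₁ := r₁) W.hc W.hm
    ((Nat.le_add_left _ _).trans he₀) he₁ hr₂
    (by
      rw [← div_eq_mul_inv, le_div_iff₀ ha']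
      have : ℓ ^ e₀ * (r₁ + ℓ ^ e₁ * r₂) * p.a ≤ b := by rw [mul_comm]; omega
      exact_mod_cast this)
  exact ⟨Option (Tau (e + 1) p.s) × Fin b, inferInstance, inferInstance, Q, Q, ℓ ^ e₀, Dt, w, γ,
    hQ, hQ, (Nat.le_add_right _ _).trans he₀, h1, h2, h3, h4, h5⟩

end Crest.Agent.R183
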