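import Crest.Agent.R183.PM

/-!
# Auxiliary lemmas on Witt vectors of a perfect ring for `mixInf`
-/

set_option autoImplicit false
set_option linter.unusedSectionVars false

open WittVector

namespace Crest.Agent.R183

variable {p : ℕ} [Fact p.Prime] {S : Type} [CommRing S] [CharP S p] [PerfectRing S p]

/-- Teichmüller expansion up to order `b`. -/
theorem MixInf_exp (b : ℕ) : ∀ x : WittVector p S, ∃ (D : ℕ → S) (x' : WittVector p S),
    x = ∑ i ∈ Finset.range b, (p : WittVector p S) ^ i * teichmuller p (D i) + p ^ b * x' := by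
  induction b with
  | zero => intro x; exact ⟨fun _ => 0, x, by simp⟩
  | succ b ih =>
    intro x
    obtain ⟨D, x', e⟩ := ih x
    obtain ⟨x'', e'⟩ := exists_teich_add x'
    refine ⟨Function.update D b (x'.coeff 0), x'', ?_⟩
    rw [Finset.sum_range_succ, Function.update_self]
    have : ∑ i ∈ Finset.range b, (p : WittVector p S) ^ i *
        teichmuller p (Function.update D b (x'.coeff 0) i) =
        ∑ i ∈ Finset.range b, (p : WittVector p S) ^ i * teichmuller p (D i) := by
      refine Finset.sum_congr rfl fun i hi => ?_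
      rw [Function.update_of_ne (Finset.mem_range.1 hi).ne]
    rw [this]
    linear_combination e + (p : WittVector p S) ^ b * e'

/-- Uniqueness of the Teichmüller expansion. -/
theorem MixInf_uniq (b : ℕ) : ∀ (D D' : ℕ → S) (x x' : WittVector p S),
    ∑ i ∈ Finset.range b, (p : WittVector p S) ^ i * teichmuller p (D i) + p ^ b * x =
      ∑ i ∈ Finset.range b, (p : WittVector p S) ^ i * teichmuller p (D' i) + p ^ b * x' →
    ∀ i < b, D i = D' i := by
  induction b with
  | zero => intro _ _ _ _ _ i hi; omega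
  | succ b ih =>
    intro D D' x x' h i hi
    rw [Finset.sum_range_succ', Finset.sum_range_succ'] at h
    have e : ∀ E : ℕ → S, ∑ k ∈ Finset.range b, (p : WittVector p S) ^ (k + 1) *
        teichmuller p (E (k + 1)) = p * ∑ k ∈ Finset.range b, (p : WittVector p S) ^ k *
        teichmuller p (E (k + 1)) := by
      intro E
      rw [Finset.mul_sum]
      exact Finset.sum_congr rfl fun k _ => by ring
    rw [e, e] at h
    have h' : teichmuller p (D 0) + p * (∑ k ∈ Finset.range b, (p : WittVector p S) ^ k *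
        teichmuller p (D (k + 1)) + p ^ b * x) =
        teichmuller p (D' 0) + p * (∑ k ∈ Finset.range b, (p : WittVector p S) ^ k *
        teichmuller p (D' (k + 1)) + p ^ b * x') := by
      linear_combination h
    obtain ⟨h0, h1⟩ := teich_add_unique h'
    cases i with
    | zero => exact h0
    | succ i => exact ih (fun k => D (k + 1)) (fun k => D' (k + 1)) x x' h1 i (by omega)

/-- An ideal of `S` lifts to the ideal of Teichmüller lifts of generators modulo `p`. -/
theorem MixInf_cc {s : Set S} {y : WittVector p S} (hy : constantCoeff y ∈ Ideal.span s) :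
    y ∈ Ideal.span (teichmuller p '' s) ⊔ Ideal.span {(p : WittVector p S)} := by
  have e : Ideal.span s = (Ideal.span (teichmuller p '' s)).map
      (constantCoeff : WittVector p S →+* S) := by
    rw [Ideal.map_span, Set.image_image]
    simp only [PM_cc_teich, Set.image_id']
  rw [e, ← Ideal.mem_comap, Ideal.comap_map_of_surjective _ (constantCoeff_surjective p),
    ← RingHom.ker_eq_comap_bot, ker_constantCoeff] at hy
  exact hy

theorem MixInf_root_inj {u v : S} (n : ℕ) (h : u ^ p ^ n = v ^ p ^ n) : u = v := by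
  apply (iterateFrobeniusEquiv S p n).injective
  rwa [iterateFrobeniusEquiv_def, iterateFrobeniusEquiv_def]

theorem MixInf_root_span {s : Set S} {u : S} (hu : u ^ p ∈ Ideal.span s) :
    u ∈ Ideal.span {v | v ^ p ∈ s} := by
  have h1 := Ideal.mem_map_of_mem ((frobeniusEquiv S p).symm : S →+* S) hu
  rw [Ideal.map_span] at h1
  have e : ((frobeniusEquiv S p).symm : S →+* S) (u ^ p) = u := by
    rw [← frobeniusEquiv_def]
    exact (frobeniusEquiv S p).symm_apply_apply u
  rw [e] at h1
  refine Ideal.span_mono ?_ h1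
  rintro _ ⟨v, hv, rfl⟩
  change ((frobeniusEquiv S p).symm v) ^ p ∈ s
  rwa [← frobeniusEquiv_def, RingEquiv.apply_symm_apply]

/-- A multiplicative family of "monomials of weight `≥ r`". -/
structure MixInf_Mon (p : ℕ) {S : Type} [CommRing S] (Mon : ℚ → Set S) : Prop where
  anti : Antitone Mon
  one : ∀ r ≤ 0, (1 : S) ∈ Mon r
  mul : ∀ r s, ∀ u ∈ Mon r, ∀ v ∈ Mon s, u * v ∈ Mon (r + s)
  root : ∀ (r : ℚ) (u : S), u ^ p ∈ Mon (p * r) → u ∈ Mon r

/-- All `p`-power roots of a family. -/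
def MixInf_R (p : ℕ) {S κ : Type} [CommRing S] (g : κ → S) : Set S :=
  {v | ∃ k i, v ^ p ^ k = g i}

/-- The filtration generated by monomials and all roots of `g`. -/
def MixInf_a (p : ℕ) {S κ : Type} [CommRing S] (Mon : ℚ → Set S) (g : κ → S) (r : ℚ) : Ideal S :=
  Ideal.span (Mon r ∪ MixInf_R p g)

/-- The Teichmüller lifts of the `p ^ k`-th roots of `g`. -/
noncomputable def MixInf_A (p : ℕ) [Fact p.Prime] {S κ : Type} [CommRing S] (g : κ → S) (k : ℕ) :
    Ideal (WittVector p S) :=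
  Ideal.span (teichmuller p '' {v | ∃ i, v ^ p ^ k = g i})

variable {Mon : ℚ → Set S} {κ : Type} {g : κ → S}

theorem MixInf_filt (h : MixInf_Mon p Mon) (g : κ → S) : PerfFilt p (MixInf_a p Mon g) where
  anti := fun _ _ hrs => Ideal.span_mono (Set.union_subset_union_left _ (h.anti hrs))
  top := fun r hr => (Ideal.eq_top_iff_one _).2 (Ideal.subset_span (Or.inl (h.one r hr)))
  mul := by
    intro r s
    unfold MixInf_a
    rw [Ideal.span_mul_span', Ideal.span_le]
    rintro _ ⟨u, hu, v, hv, rfl⟩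
    rcases hu with hu | hu
    · rcases hv with hv | hv
      · exact Ideal.subset_span (Or.inl (h.mul r s u hu v hv))
      · exact Ideal.mul_mem_left _ _ (Ideal.subset_span (Or.inr hv))
    · exact Ideal.mul_mem_right _ _ (Ideal.subset_span (Or.inr hu))
  root := by
    intro r u hu
    refine Ideal.span_mono ?_ (MixInf_root_span hu)
    rintro v (hv | ⟨k, i, hv⟩)
    · exact Or.inl (h.root r v hv)
    · exact Or.inr ⟨k + 1, i, by rw [← hv, ← pow_mul, pow_succ']⟩

theorem MixInf_mon_mem {r : ℚ} {u : S} (hu : u ∈ Mon r) : u ∈ MixInf_a p Mon g r :=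
  Ideal.subset_span (Or.inl hu)

theorem MixInf_g_mem (r : ℚ) (i : κ) : g i ∈ MixInf_a p Mon g r :=
  Ideal.subset_span (Or.inr ⟨0, i, by simp⟩)

theorem MixInf_A_mono (g : κ → S) : Monotone (MixInf_A p g) := by
  refine monotone_nat_of_le_succ fun k => ?_
  unfold MixInf_A
  rw [Ideal.span_le]
  rintro _ ⟨v, ⟨i, hv⟩, rfl⟩
  obtain ⟨v', rfl⟩ := PM_exists_root (p := p) 1 v
  rw [map_pow]
  refine Ideal.pow_mem_of_mem _ (Ideal.subset_span (Set.mem_image_of_mem _ ?_)) _
    (pow_pos (Fact.out : p.Prime).pos _)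
  exact ⟨i, by rw [← hv, ← pow_mul, ← pow_add, add_comm]⟩

theorem MixInf_mon_pow (h : MixInf_Mon p Mon) {r : ℚ} {y : WittVector p S}
    (hy : y ∈ Ideal.span (teichmuller p '' Mon r)) (n : ℕ) :
    y ^ n ∈ Ideal.span (teichmuller p '' Mon (n * r)) := by
  induction n with
  | zero =>
    refine Ideal.subset_span ⟨1, h.one _ (by simp), by simp⟩
  | succ n ih =>
    rw [pow_succ]
    have := Ideal.mul_mem_mul ih hy
    rw [Ideal.span_mul_span'] at this
    refine Ideal.span_mono ?_ this
    rintro _ ⟨_, ⟨u, hu, rfl⟩, _, ⟨v, hv, rfl⟩, rfl⟩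
    refine ⟨u * v, ?_, by simp⟩
    have := h.mul _ _ u hu v hv
    convert this using 2
    push_cast
    ring

theorem MixInf_teich_back (h : MixInf_Mon p Mon) (b : ℕ) {r : ℚ} {u : S}
    (hu : u ∈ MixInf_a p Mon g r) :
    teichmuller p u ∈ Ideal.span (teichmuller p '' Mon r) ⊔ (⨆ k, MixInf_A p g k) ⊔
      Ideal.span {(p : WittVector p S) ^ b} := by
  obtain ⟨u', rfl⟩ := PM_exists_root (p := p) b u
  have hp : (0 : ℚ) < (p : ℚ) ^ b := pow_pos (Nat.cast_pos.2 (Fact.out : p.Prime).pos) b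
  have e : r = p ^ b * (r / p ^ b) := by field_simp
  have hu' : u' ∈ MixInf_a p Mon g (r / p ^ b) := PM_a_root (MixInf_filt h g) b _ _ (e ▸ hu)
  have h1 := MixInf_cc (p := p) (y := teichmuller p u') (by rw [PM_cc_teich]; exact hu')
  rw [Set.image_union, Ideal.span_union] at h1
  obtain ⟨a, ha, c, hc, e1⟩ := Submodule.mem_sup.1 h1
  obtain ⟨a1, ha1, a2, ha2, rfl⟩ := Submodule.mem_sup.1 ha
  have h2 : (p : WittVector p S) ^ (b + 1) ∣ teichmuller p u' ^ p ^ b - (a1 + a2) ^ p ^ b := by
    refine dvd_sub_pow_of_dvd_sub ?_ b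
    rw [← e1, add_sub_cancel_left]
    exact Ideal.mem_span_singleton.1 hc
  have h3 : (a1 + a2) ^ p ^ b - a1 ^ p ^ b ∈ ⨆ k, MixInf_A p g k := by
    have hA : a2 ∈ ⨆ k, MixInf_A p g k := by
      refine (Ideal.span_le.2 ?_ : _ ≤ ⨆ k, MixInf_A p g k) ha2
      rintro _ ⟨v, ⟨k, i, hv⟩, rfl⟩
      exact Ideal.mem_iSup_of_mem k (Ideal.subset_span ⟨v, ⟨i, hv⟩, rfl⟩)
    obtain ⟨d, hd⟩ := sub_dvd_pow_sub_pow (a1 + a2) a1 (p ^ b)
    rw [hd, add_sub_cancel_left]
    exact Ideal.mul_mem_right _ _ hA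
  have h4 : a1 ^ p ^ b ∈ Ideal.span (teichmuller p '' Mon r) := by
    have := MixInf_mon_pow h ha1 (p ^ b)
    rwa [Nat.cast_pow, ← e] at this
  have e2 : teichmuller p (u' ^ p ^ b) = a1 ^ p ^ b + ((a1 + a2) ^ p ^ b - a1 ^ p ^ b) +
      (teichmuller p u' ^ p ^ b - (a1 + a2) ^ p ^ b) := by
    rw [map_pow]; ring
  rw [e2]
  exact Submodule.add_mem_sup (Submodule.add_mem_sup h4 h3)
    (Ideal.mem_span_singleton.2 ((pow_dvd_pow _ (Nat.le_succ b)).trans h2))

/-- The filtration on Witt vectors is controlled by monomials and roots. -/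
theorem MixInf_back (h : MixInf_Mon p Mon) (b : ℕ) {η : ℚ} {t : S}
    (ht : t ∈ MixInf_a p Mon g η) (r : ℚ) :
    PM_J p (MixInf_a p Mon g) η t r ≤
      (Ideal.span (teichmuller p '' Mon r) ⊔ Ideal.span {(p : WittVector p S) ^ b} ⊔
      Ideal.span {(p : WittVector p S) - teichmuller p t}) ⊔ ⨆ k, MixInf_A p g k := by
  refine sup_le (Ideal.span_le.2 ?_) (le_sup_of_le_left le_sup_right)
  rintro _ ⟨i, u, hu, rfl⟩
  have h1 : t ^ i * u ∈ MixInf_a p Mon g r :=
    PM_a_mul (MixInf_filt h g) (PM_a_pow (MixInf_filt h g) ht i) hu (by linarith)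
  have h2 := MixInf_teich_back h b h1
  have h3 : (p : WittVector p S) ^ i * teichmuller p u - teichmuller p (t ^ i * u) ∈
      Ideal.span {(p : WittVector p S) - teichmuller p t} := by
    rw [map_mul, map_pow, ← sub_mul, Ideal.mem_span_singleton]
    exact Dvd.dvd.mul_right (sub_dvd_pow_sub_pow _ _ i) _
  have e : (p : WittVector p S) ^ i * teichmuller p u = teichmuller p (t ^ i * u) +
    ((p : WittVector p S) ^ i * teichmuller p u - teichmuller p (t ^ i * u)) := by ring
  rw [e]
  refine add_mem ?_ (Ideal.mem_sup_left (Ideal.mem_sup_right h3))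
  refine SetLike.le_def.1 (sup_le (sup_le ?_ le_sup_right) ?_) h2
  · exact le_sup_of_le_left (le_sup_of_le_left le_sup_left)
  · exact le_sup_of_le_left (le_sup_of_le_left le_sup_right)

/-- One level works for a finitely generated ideal. -/
theorem MixInf_level {V : Type} [CommRing V] {A : ℕ → Ideal V} (hA : Monotone A) (B : Ideal V)
    {I : Ideal V} (hI : I.FG) (h : I ≤ B ⊔ ⨆ k, A k) : ∃ k, ∀ k' ≥ k, I ≤ B ⊔ A k' := by
  have hm : Monotone fun k => B ⊔ A k := fun _ _ hk => sup_le_sup_left (hA hk) _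
  have h' : I ≤ ⨆ k, (B ⊔ A k) := by
    refine h.trans (sup_le (le_iSup_of_le 0 le_sup_left) (iSup_le fun k => ?_))
    exact le_iSup_of_le k le_sup_right
  obtain ⟨s, rfl⟩ := hI
  have h1 : ∀ x ∈ s, ∃ k, x ∈ B ⊔ A k := fun x hx =>
    (Submodule.mem_iSup_of_directed _ hm.directed_le).1 (h' (Ideal.subset_span hx))
  choose! f hf using h1
  refine ⟨s.sup f, fun k' hk' => Ideal.span_le.2 fun x hx => ?_⟩
  exact hm ((Finset.le_sup (f := f) hx).trans hk') (hf x hx)

/-- Ideals containing `q` are detected by a map which is an isomorphism modulo `q`. -/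
theorem MixInf_detect {F V : Type} [CommRing F] [CommRing V] (ψ : F →+* V) (q : F)
    (hs : ∀ y : V, ∃ x, y - ψ x ∈ Ideal.span {ψ q})
    (hi : ∀ x : F, ψ x ∈ Ideal.span {ψ q} → x ∈ Ideal.span {q}) {J : Ideal F} (hJ : q ∈ J)
    {x : F} (hx : ψ x ∈ J.map ψ) : x ∈ J := by
  have key : ∀ y ∈ J.map ψ, ∃ j ∈ J, y - ψ j ∈ Ideal.span {ψ q} := by
    intro y hy
    induction hy using Submodule.span_induction with
    | mem y hy =>
      obtain ⟨j, hj, rfl⟩ := hy
      exact ⟨j, hj, by simp⟩
    | zero => exact ⟨0, zero_mem _, by simp⟩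
    | add y y' _ _ ih ih' =>
      obtain ⟨j, hj, h1⟩ := ih
      obtain ⟨j', hj', h2⟩ := ih'
      refine ⟨j + j', add_mem hj hj', ?_⟩
      have := add_mem h1 h2
      convert this using 1
      rw [map_add]; ring
    | smul a y _ ih =>
      obtain ⟨j, hj, h1⟩ := ih
      obtain ⟨a', ha⟩ := hs a
      refine ⟨a' * j, Ideal.mul_mem_left _ _ hj, ?_⟩
      have := add_mem (Ideal.mul_mem_left _ a h1) (Ideal.mul_mem_right (ψ j) _ ha)
      convert this using 1
      rw [map_mul, smul_eq_mul]; ring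
  obtain ⟨j, hj, h1⟩ := key _ hx
  rw [← map_sub] at h1
  have h2 : x - j ∈ J := (Ideal.span_singleton_le_iff_mem J).2 hJ (hi _ h1)
  simpa using add_mem h2 hj

end Crest.Agent.R183
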