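import Crest.Agent.R183.MixInfAux1

/-!
# The abstract form of the construction at infinite level
-/

set_option autoImplicit false
set_option linter.unusedSectionVars false

open WittVector

namespace Crest.Agent.R183

variable {p : ℕ} [Fact p.Prime] {S : Type} [CommRing S] [CharP S p] [PerfectRing S p]

/-- Construction of the equations `D`. -/
theorem MixInf_constr {I τ : Type} (x : I → S) (t : S) (π0 : S →+* S) (hx : ∀ i, π0 (x i) = 0)
    (ht : π0 t = 0) {b : ℕ} (hb : 0 < b) (v : τ × Fin b → S) (hv : ∀ k, π0 (v k) = v k)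
    (h : τ → WittVector p S)
    (hh : ∀ j, h j ∈ sp (fun i => teichmuller p (x i)) ⊔
      Ideal.span {(p : WittVector p S) - teichmuller p t}) :
    ∃ D : τ × Fin b → S, (∀ k, π0 (D k) = v k) ∧ ∀ j, h j - teichmuller p (v (j, ⟨0, hb⟩)) ∈
      Ideal.span {(p : WittVector p S) - teichmuller p t} ⊔ sp (fun k => teichmuller p (D k)) ⊔
        Ideal.span {(p : WittVector p S) ^ b} := by
  obtain ⟨b, rfl⟩ : ∃ b', b = b' + 1 := ⟨b - 1, by omega⟩
  have key : ∀ j, ∃ D : Fin (b + 1) → S, (∀ i, π0 (D i) = v (j, i)) ∧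
      h j - teichmuller p (v (j, ⟨0, hb⟩)) ∈
      Ideal.span {(p : WittVector p S) - teichmuller p t} ⊔ sp (fun k => teichmuller p (D k)) ⊔
        Ideal.span {(p : WittVector p S) ^ (b + 1)} := by
    intro j
    obtain ⟨ht', hht, c, hc, e⟩ := Submodule.mem_sup.1 (hh j)
    have h0 : WittVector.map π0 ht' = 0 := by
      have : sp (fun i => teichmuller p (x i)) ≤ RingHom.ker (WittVector.map π0) := by
        rw [Ideal.span_le]
        rintro _ ⟨i, rfl⟩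
        simp [RingHom.mem_ker, map_teichmuller, hx]
      exact this hht
    let v' : ℕ → S := fun i => if hi : i < b + 1 then v (j, ⟨i, hi⟩) else 0
    have hv' : ∀ i, π0 (v' i) = v' i := by
      intro i
      by_cases hi : i < b + 1
      · simp only [v', dif_pos hi, hv]
      · simp only [v', dif_neg hi, map_zero]
    have hv0 : v' 0 = v (j, ⟨0, hb⟩) := by simp [v']
    obtain ⟨D, x', eD⟩ := MixInf_exp (b + 1) (teichmuller p (v' 0) +
      ((p : WittVector p S) - teichmuller p t) *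
        ∑ i ∈ Finset.range b, (p : WittVector p S) ^ i * teichmuller p (v' (i + 1)) - ht')
    have e1 := congrArg (WittVector.map π0) eD
    simp only [map_add, map_sub, map_mul, map_sum, map_pow, map_natCast, map_teichmuller, h0, ht,
      hv', teichmuller_zero, sub_zero] at e1
    have e2 : ∑ i ∈ Finset.range (b + 1), (p : WittVector p S) ^ i * teichmuller p (π0 (D i)) +
        p ^ (b + 1) * WittVector.map π0 x' =
        ∑ i ∈ Finset.range (b + 1), (p : WittVector p S) ^ i * teichmuller p (v' i) +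
        p ^ (b + 1) * 0 := by
      rw [← e1, Finset.sum_range_succ', Finset.mul_sum, mul_zero, add_zero, pow_zero, one_mul,
        add_comm]
      congr 1
      exact Finset.sum_congr rfl fun k _ => by ring
    have e3 := MixInf_uniq (b + 1) (fun i => π0 (D i)) v' _ _ e2
    refine ⟨fun i => D i, fun i => ?_, ?_⟩
    · rw [e3 i i.2]
      simp only [v', dif_pos i.2]
    · have e4 : h j - teichmuller p (v (j, ⟨0, hb⟩)) =
          (c + ((p : WittVector p S) - teichmuller p t) *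
            ∑ i ∈ Finset.range b, (p : WittVector p S) ^ i * teichmuller p (v' (i + 1))) +
          (-∑ i ∈ Finset.range (b + 1), (p : WittVector p S) ^ i * teichmuller p (D i)) +
          (p : WittVector p S) ^ (b + 1) * (-x') := by
        rw [← hv0]
        linear_combination -e - eD
      rw [e4]
      refine Submodule.add_mem_sup (Submodule.add_mem_sup (add_mem hc ?_) (neg_mem ?_)) ?_
      · exact Ideal.mul_mem_right _ _ (Ideal.mem_span_singleton_self _)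
      · refine Ideal.sum_mem _ fun i hi => Ideal.mul_mem_left _ _ ?_
        exact Ideal.subset_span ⟨⟨i, Finset.mem_range.1 hi⟩, rfl⟩
      · exact Ideal.mul_mem_right _ _ (Ideal.mem_span_singleton_self _)
  choose D hD1 hD2 using key
  refine ⟨fun k => D k.1 k.2, fun k => hD1 k.1 k.2, fun j => ?_⟩
  refine SetLike.le_def.1 (sup_le_sup_right (sup_le_sup_left (Ideal.span_mono ?_) _) _) (hD2 j)
  rintro _ ⟨i, rfl⟩
  exact ⟨(j, i), rfl⟩

theorem MixInf_pow_le {T : Type} [CommRing T] {I Z P : Ideal T} {r₀ : ℕ}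
    (h : I ^ (r₀ + 1) ≤ Z * I ^ r₀ ⊔ P) (k : ℕ) : I ^ (r₀ + k) ≤ Z ^ k * I ^ r₀ ⊔ P := by
  induction k with
  | zero => simp
  | succ k ih =>
    calc I ^ (r₀ + (k + 1)) = I * I ^ (r₀ + k) := by rw [← add_assoc, pow_succ']
      _ ≤ I * (Z ^ k * I ^ r₀ ⊔ P) := Ideal.mul_mono_right ih
      _ = Z ^ k * I ^ (r₀ + 1) ⊔ I * P := by rw [Ideal.mul_sup, pow_succ']; congr 1; ring
      _ ≤ Z ^ k * (Z * I ^ r₀ ⊔ P) ⊔ P := sup_le_sup (Ideal.mul_mono_right h) Ideal.mul_le_right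
      _ ≤ Z ^ (k + 1) * I ^ r₀ ⊔ P := by
        rw [Ideal.mul_sup, sup_assoc, ← mul_assoc, ← pow_succ]
        exact sup_le_sup_left (sup_le Ideal.mul_le_right le_rfl) _

variable {𝔞 : ℚ → Ideal S} {η : ℚ}

theorem MixInf_J_ideal_pow (h : PerfFilt p 𝔞) {t : S} {r : ℚ} {A : Ideal (WittVector p S)}
    (hA : A ≤ PM_J p 𝔞 η t r) (n : ℕ) : A ^ n ≤ PM_J p 𝔞 η t (n * r) := by
  induction n with
  | zero => intro y _; exact Ideal.mem_sup_left (PM_top h (by simp) _)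
  | succ n ih =>
    rw [pow_succ, Ideal.mul_le]
    intro y hy z hz
    exact PM_J_mul h (ih hy) (hA hz) (le_of_eq (by push_cast; ring))

/-- The estimates in the filtration. -/
theorem MixInf_est (h : PerfFilt p 𝔞) (hη : 0 < η) {t : S} (ht : t ∈ 𝔞 η) {T : Type}
    [CommRing T] (Θ : T →+* WittVector p S) {Z Hw P I : Ideal T} {c : T} {mm q r₀ e₀ e₁ r₁ r₂ : ℕ}
    {B : ℚ} (hZ : ∀ z ∈ Z, Θ z ∈ PM_J p 𝔞 η t 1) (hH : ∀ y ∈ Hw, Θ y ∈ PM_J p 𝔞 η t B)
    (hc : Ideal.span {c} * P ^ mm ≤ Hw) (hm : I ^ (r₀ + 1) ≤ Z ^ q * I ^ r₀ ⊔ P)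
    {γ : WittVector p S} (hγ : Θ c - γ ^ p ^ e₀ ∈ PM_J p 𝔞 η t B) (he₀ : mm ≤ p ^ e₀)
    (he₁ : q * r₀ + r₀ ≤ p ^ e₁) (hr₂ : r₂ + 1 ≤ q)
    (hB : (p : ℚ) ^ e₀ * ((r₁ + p ^ e₁ * r₂ : ℕ) : ℚ) ≤ B) :
    (∀ π ∈ P, γ * Θ π ∈ PM_J p 𝔞 η t r₁) ∧ ∀ y ∈ I, γ * Θ y ∈ PM_J p 𝔞 η t r₂ := by
  have h1 : ∀ π ∈ P, γ * Θ π ∈ PM_J p 𝔞 η t ((r₁ + p ^ e₁ * r₂ : ℕ) : ℚ) := by
    intro π hπ
    refine mem_WF_of_pow_mem h hη ht e₀ _ _ (PM_J_anti h ?_ hB)
    have h2 : Θ (c * π ^ mm) ∈ PM_J p 𝔞 η t B :=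
      hH _ (hc (Ideal.mul_mem_mul (Ideal.mem_span_singleton_self c) (Ideal.pow_mem_pow hπ mm)))
    obtain ⟨d, hd⟩ := Nat.exists_eq_add_of_le he₀
    have e : (γ * Θ π) ^ p ^ e₀ = Θ π ^ d * Θ (c * π ^ mm) -
        Θ π ^ p ^ e₀ * (Θ c - γ ^ p ^ e₀) := by
      rw [map_mul, map_pow, mul_pow]
      conv_rhs => rw [mul_sub]
      have : Θ π ^ p ^ e₀ = Θ π ^ mm * Θ π ^ d := by rw [hd, pow_add]
      rw [this]
      ring
    rw [e]
    exact Ideal.sub_mem _ (Ideal.mul_mem_left _ _ h2) (Ideal.mul_mem_left _ _ hγ)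
  refine ⟨fun π hπ => PM_J_anti h (h1 π hπ) (by exact_mod_cast Nat.le_add_right _ _),
    fun y hy => ?_⟩
  refine mem_WF_of_pow_mem h hη ht e₁ _ _ ?_
  obtain ⟨k, hk⟩ := Nat.exists_eq_add_of_le ((Nat.le_add_left _ _).trans he₁)
  have h2 : y ^ p ^ e₁ ∈ (Z ^ q) ^ k * I ^ r₀ ⊔ P := by
    refine MixInf_pow_le hm k ?_
    rw [← hk]
    exact Ideal.pow_mem_pow hy _
  obtain ⟨ζ, hζ, π, hπ, e⟩ := Submodule.mem_sup.1 h2
  have hζ' : Θ ζ ∈ PM_J p 𝔞 η t ((q * k : ℕ) * 1) := by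
    have h3 : Z.map Θ ≤ PM_J p 𝔞 η t 1 := Ideal.map_le_iff_le_comap.2 fun z hz => hZ z hz
    refine MixInf_J_ideal_pow h h3 (q * k) ?_
    rw [← Ideal.map_pow, pow_mul]
    exact Ideal.mem_map_of_mem _ (Ideal.mul_le_left hζ)
  obtain ⟨N, hN⟩ : ∃ N, p ^ e₁ = N + 1 :=
    ⟨p ^ e₁ - 1, by have := pow_pos (Fact.out : p.Prime).pos e₁; omega⟩
  have e' : (γ * Θ y) ^ p ^ e₁ = γ ^ p ^ e₁ * Θ ζ + γ ^ N * (γ * Θ π) := by
    rw [mul_pow, ← map_pow Θ, ← e, map_add, hN]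
    ring
  rw [e']
  refine add_mem (Ideal.mul_mem_left _ _ (PM_J_anti h hζ' ?_))
    (Ideal.mul_mem_left _ _ (PM_J_anti h (h1 π hπ) ?_))
  · have : p ^ e₁ * r₂ ≤ q * k := by
      have h4 : q * r₀ ≤ k := by omega
      obtain ⟨q', rfl⟩ := Nat.exists_eq_add_of_le hr₂
      rw [hk]
      nlinarith [Nat.zero_le (q' * k), Nat.zero_le (q' * r₀)]
    rw [mul_one]
    exact_mod_cast this
  · exact_mod_cast Nat.le_add_left _ _

end Crest.Agent.R183
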