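import Crest.Agent.R183.MixDefs

/-!
# The perfect ring `K[X^{ℚ≥0}]` and its Witt vectors
-/

set_option autoImplicit false

open scoped NNRat
open WittVector

namespace Crest.Agent.R183

/-- a ring map which is bijective modulo a regular element is bijective modulo its powers -/
theorem MixPsi_abstract {A B C : Type} [CommRing A] [CommRing B] [CommRing C] (ℓ : ℕ)
    (ψ : A →+* B) (κ : B →+* C) (hκ : ∀ y, κ y = 0 → (ℓ : B) ∣ y) (hℓ : κ ℓ = 0)
    (hreg : ∀ y : B, (ℓ : B) * y = 0 → y = 0) (hs : Function.Surjective (κ.comp ψ))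
    (hk : ∀ x, κ (ψ x) = 0 → (ℓ : A) ∣ x) :
    (∀ (n : ℕ) (y : B), ∃ x, y - ψ x ∈ Ideal.span {(ℓ : B) ^ n}) ∧
    (∀ (n : ℕ) (x : A), ψ x ∈ Ideal.span {(ℓ : B) ^ n} → x ∈ Ideal.span {(ℓ : A) ^ n}) := by
  constructor
  · intro n
    induction n with
    | zero => intro y; exact ⟨0, by simp⟩
    | succ n ih =>
      intro y
      obtain ⟨x₀, hx₀⟩ := hs (κ y)
      obtain ⟨y', hy'⟩ := hκ (y - ψ x₀) (by rw [map_sub, ← hx₀, RingHom.comp_apply, sub_self])
      obtain ⟨x', hx'⟩ := ih y'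
      obtain ⟨z, hz⟩ := Ideal.mem_span_singleton.1 hx'
      refine ⟨x₀ + ℓ * x', Ideal.mem_span_singleton.2 ⟨z, ?_⟩⟩
      rw [map_add, map_mul, map_natCast]
      linear_combination hy' + (ℓ : B) * hz
  · intro n
    induction n with
    | zero => intro x _; simp
    | succ n ih =>
      intro x hx
      obtain ⟨z, hz⟩ := Ideal.mem_span_singleton.1 hx
      obtain ⟨x', rfl⟩ := hk x (by rw [hz, map_mul, map_pow, hℓ]; simp)
      have h1 : ψ x' = (ℓ : B) ^ n * z := by
        rw [← sub_eq_zero]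
        apply hreg
        rw [map_mul, map_natCast] at hz
        linear_combination hz
      obtain ⟨w, hw⟩ := Ideal.mem_span_singleton.1
        (ih x' (Ideal.mem_span_singleton.2 ⟨z, h1⟩))
      exact Ideal.mem_span_singleton.2 ⟨w, by rw [hw]; ring⟩

/-- an element of a monoid algebra all of whose coefficients are divisible by `ℓ` -/
theorem MixPsi_dvd {A G : Type} [CommRing A] [AddCommMonoid G] (ℓ : ℕ) (x : AddMonoidAlgebra A G)
    (h : ∀ g, (ℓ : A) ∣ x.coeff g) : (ℓ : AddMonoidAlgebra A G) ∣ x := by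
  rw [← AddMonoidAlgebra.sum_coeff_single x, Finsupp.sum]
  refine Finset.dvd_sum fun g _ => ?_
  obtain ⟨c, hc⟩ := h g
  refine ⟨AddMonoidAlgebra.single g c, ?_⟩
  rw [hc, ← nsmul_eq_mul, ← nsmul_eq_mul, AddMonoidAlgebra.smul_single]

variable (ℓ : ℕ) [Fact ℓ.Prime] (K : Type) [Field K] [CharP K ℓ] [PerfectRing K ℓ] (ι : Type)

theorem charP_St : CharP (St K ι) ℓ :=
  charP_of_injective_algebraMap (algebraMap K (St K ι)).injective ℓ

theorem perfectRing_St : PerfectRing (St K ι) ℓ := by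
  haveI := charP_St ℓ K ι
  have hℓ : (ℓ : ℚ≥0) ≠ 0 := Nat.cast_ne_zero.2 (Fact.out : ℓ.Prime).ne_zero
  let d : (ι → ℚ≥0) →+ (ι → ℚ≥0) := DistribSMul.toAddMonoidHom _ ((ℓ : ℚ≥0)⁻¹)
  have hd : ∀ β : ι → ℚ≥0, d (ℓ • β) = β := by
    intro β
    funext i
    show (ℓ : ℚ≥0)⁻¹ * (ℓ • β i) = β i
    rw [nsmul_eq_mul, inv_mul_cancel_left₀ hℓ]
  have hd' : ∀ β : ι → ℚ≥0, ℓ • d β = β := by
    intro β
    rw [← map_nsmul, hd]
  let g : St K ι →+* St K ι :=
    (AddMonoidAlgebra.mapRingHom (ι → ℚ≥0) (frobeniusEquiv K ℓ).symm.toRingHom).comp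
      (AddMonoidAlgebra.mapDomainRingHom K d)
  have hg : ∀ β c, g (AddMonoidAlgebra.single β c)
      = AddMonoidAlgebra.single (d β) ((frobeniusEquiv K ℓ).symm c) := by
    intro β c
    simp [g]
  have hf : ∀ (β : ι → ℚ≥0) (c : K), frobenius (St K ι) ℓ (AddMonoidAlgebra.single β c)
      = AddMonoidAlgebra.single (ℓ • β) (frobenius K ℓ c) := by
    intro β c
    rw [frobenius_def, frobenius_def, AddMonoidAlgebra.single_pow]
  refine ⟨Function.bijective_iff_has_inverse.2 ⟨g, fun x => ?_, fun x => ?_⟩⟩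
  · show g (frobenius (St K ι) ℓ x) = x
    induction x using AddMonoidAlgebra.induction_linear with
    | zero => simp
    | add x y hx hy => rw [map_add, map_add, hx, hy]
    | single β c => rw [hf, hg, hd, frobeniusEquiv_symm_apply_frobenius]
  · show frobenius (St K ι) ℓ (g x) = x
    induction x using AddMonoidAlgebra.induction_linear with
    | zero => simp
    | add x y hx hy => rw [map_add, map_add, hx, hy]
    | single β c => rw [hg, hf, hd', frobenius_apply_frobeniusEquiv_symm]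

/-- `W(K)[X^{ℚ≥0}] → W(K[X^{ℚ≥0}])` is an isomorphism modulo every power of `ℓ`. -/
theorem exists_psi : ∃ ψ : St (WittVector ℓ K) ι →+* WittVector ℓ (St K ι),
    (∀ β : ι → ℚ≥0, ψ (qm _ β) = teichmuller ℓ (qm K β)) ∧
    (∀ a : WittVector ℓ K, ψ (algebraMap _ _ a) = WittVector.map (algebraMap K (St K ι)) a) ∧
    (∀ (n : ℕ) (y : WittVector ℓ (St K ι)), ∃ x, y - ψ x ∈
      Ideal.span {(ℓ : WittVector ℓ (St K ι)) ^ n}) ∧
    (∀ (n : ℕ) (x : St (WittVector ℓ K) ι), ψ x ∈ Ideal.span {(ℓ : WittVector ℓ (St K ι)) ^ n} →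
      x ∈ Ideal.span {(ℓ : St (WittVector ℓ K) ι) ^ n}) := by
  haveI := charP_St ℓ K ι
  haveI := perfectRing_St ℓ K ι
  let ψ : St (WittVector ℓ K) ι →+* WittVector ℓ (St K ι) :=
    AddMonoidAlgebra.liftNCRingHom (WittVector.map (algebraMap K (St K ι)))
      ((teichmuller ℓ).comp (AddMonoidAlgebra.of K (ι → ℚ≥0))) fun _ _ => Commute.all _ _
  have hψ : ∀ β a, ψ (AddMonoidAlgebra.single β a)
      = WittVector.map (algebraMap K (St K ι)) a * teichmuller ℓ (qm K β) := by
    intro β a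
    exact AddMonoidAlgebra.liftNCRingHom_single _ _ _ _ _
  have hred : ∀ x, constantCoeff (ψ x)
      = AddMonoidAlgebra.mapRingHom (ι → ℚ≥0) (constantCoeff : WittVector ℓ K →+* K) x := by
    intro x
    induction x using AddMonoidAlgebra.induction_linear with
    | zero => simp
    | add x y hx hy => rw [map_add, map_add, map_add, hx, hy]
    | single β a =>
      rw [hψ, map_mul, PM_cc_teich, AddMonoidAlgebra.mapRingHom_single, constantCoeff_apply,
        constantCoeff_apply, map_coeff, ← Algebra.smul_def, AddMonoidAlgebra.smul_single,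
        smul_eq_mul, mul_one]
  refine ⟨ψ, fun β => by rw [hψ, map_one, one_mul], fun a => ?_, ?_⟩
  · have : algebraMap (WittVector ℓ K) (St (WittVector ℓ K) ι) a
        = AddMonoidAlgebra.single 0 a := rfl
    rw [this, hψ]
    have h1 : qm K (0 : ι → ℚ≥0) = 1 := rfl
    rw [h1, map_one, mul_one]
  · refine MixPsi_abstract ℓ ψ constantCoeff (fun y hy => ?_) PM_cc_p (fun y hy => ?_) ?_
      (fun x hx => ?_)
    · have := PM_dvd (x := y) (y := 0) (by rw [hy, map_zero])
      rwa [sub_zero] at this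
    · exact eq_zero_of_p_mul_eq_zero y (by rw [mul_comm]; exact hy)
    · intro z
      obtain ⟨x, hx⟩ := AddMonoidAlgebra.map_surjective (M := ι → ℚ≥0)
        ((constantCoeff : WittVector ℓ K →+* K) : WittVector ℓ K →+ K)
        (fun c => ⟨teichmuller ℓ c, PM_cc_teich c⟩) z
      exact ⟨x, by rw [RingHom.comp_apply, hred]; exact hx⟩
    · refine MixPsi_dvd ℓ x fun β => ?_
      rw [hred] at hx
      have h1 := congrArg (fun z : St K ι => z.coeff β) hx
      simp only [AddMonoidAlgebra.coeff_mapRingHom, AddMonoidAlgebra.coeff_zero,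
        Finsupp.zero_apply] at h1
      have := PM_dvd (x := x.coeff β) (y := 0) (by rw [h1, map_zero])
      rwa [sub_zero] at this

end Crest.Agent.R183
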