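import Crest.Agent.R183.LF

/-!
# Specialization, part 1: generic points of a finitely generated domain, pushouts of rings
-/

set_option autoImplicit false

open CategoryTheory TensorProduct

namespace Crest.Agent.R183

theorem specJacInt : IsJacobsonRing ℤ := by
  rw [isJacobsonRing_iff_prime_eq]
  intro P hP
  by_cases h : P = ⊥
  · subst h
    rw [eq_bot_iff]
    intro x hx
    have h1 := Ideal.mem_jacobson_bot.1 hx x
    rw [Int.isUnit_iff] at h1
    rw [Ideal.mem_bot]
    rcases h1 with h1 | h1 <;> nlinarith [mul_self_nonneg x]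
  · have := hP.isMaximal h
    exact Ideal.jacobson_eq_self_of_isMaximal

theorem specFiniteField (κ : Type) [Field κ] [inst : Algebra ℤ κ] [Algebra.FiniteType ℤ κ] :
    Finite κ := by
  obtain rfl : inst = Ring.toIntAlgebra κ := Subsingleton.elim _ _
  have := specJacInt
  have hfin : Module.Finite ℤ κ := finite_of_finite_type_of_isJacobsonRing ℤ κ
  obtain ⟨p, hp⟩ := CharP.exists κ
  rcases CharP.char_is_prime_or_zero κ p with h | h
  · have : Fact p.Prime := ⟨h⟩
    let _ : Algebra (ZMod p) κ := ZMod.algebra κ p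
    have : Module.Finite (ZMod p) κ := Module.Finite.of_restrictScalars_finite ℤ _ _
    exact Module.finite_of_finite (ZMod p)
  · subst h
    have : CharZero κ := CharP.charP_to_charZero κ
    exfalso
    have h1 : Algebra.IsIntegral ℤ κ := inferInstance
    have h2 := isField_of_isIntegral_of_isField (R := ℤ) (S := κ) Int.cast_injective
      (Field.toIsField κ)
    exact Int.not_isField h2

/-- `Q` holds at all field-valued points of a nonempty basic open subset of `Spec L`. -/
def SpecGen (L : Type) [CommRing L] (Q : ∀ (K : Type) [Field K], (L →+* K) → Prop) : Prop :=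
  ∃ f : L, f ≠ 0 ∧ ∀ (K : Type) [Field K] (i : L →+* K), i f ≠ 0 → Q K i

namespace SpecGen

variable {L : Type} [CommRing L]

theorem finite [IsDomain L] [Algebra.FiniteType ℤ L]
    {Q : ∀ (K : Type) [Field K], (L →+* K) → Prop} (h : SpecGen L Q) :
    ∃ (κ : Type) (_ : Field κ) (_ : Finite κ) (i : L →+* κ), Q κ i := by
  obtain ⟨f, hf, h⟩ := h
  have := specJacInt
  have hJ : IsJacobsonRing L := isJacobsonRing_of_finiteType (A := ℤ)
  have h1 : (⊥ : Ideal L).jacobson = ⊥ := hJ.out Ideal.isPrime_bot.isRadical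
  have h2 : f ∉ (⊥ : Ideal L).jacobson := by rw [h1]; simpa using hf
  rw [Ideal.jacobson, Ideal.mem_sInf] at h2
  push Not at h2
  obtain ⟨m, ⟨-, hm⟩, hfm⟩ := h2
  let _ : Field (L ⧸ m) := Ideal.Quotient.field m
  have h3 : Algebra.FiniteType ℤ (L ⧸ m) :=
    Algebra.FiniteType.of_surjective (Ideal.Quotient.mkₐ ℤ m) Ideal.Quotient.mk_surjective
  exact ⟨L ⧸ m, inferInstance, @specFiniteField (L ⧸ m) _ _ h3, Ideal.Quotient.mk m,
    h _ _ fun h0 => hfm (Ideal.Quotient.eq_zero_iff_mem.1 h0)⟩

theorem self {Q : ∀ (K : Type) [Field K], (L →+* K) → Prop} (h : SpecGen L Q) {l : Type}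
    [Field l] {i : L →+* l} (hi : Function.Injective i) : Q l i := by
  obtain ⟨f, hf, h⟩ := h
  exact h l i fun h0 => hf (hi (by rw [h0, map_zero]))

theorem mono {Q Q' : ∀ (K : Type) [Field K], (L →+* K) → Prop} (h : SpecGen L Q)
    (hQ : ∀ (K : Type) [Field K] (i : L →+* K), Q K i → Q' K i) : SpecGen L Q' := by
  obtain ⟨f, hf, h⟩ := h
  exact ⟨f, hf, fun K _ i hi => hQ K i (h K i hi)⟩

theorem and [IsDomain L] {Q Q' : ∀ (K : Type) [Field K], (L →+* K) → Prop} (h : SpecGen L Q)
    (h' : SpecGen L Q') : SpecGen L (fun K _ i => Q K i ∧ Q' K i) := by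
  obtain ⟨f, hf, h⟩ := h
  obtain ⟨f', hf', h'⟩ := h'
  refine ⟨f * f', mul_ne_zero hf hf', fun K _ i hi => ?_⟩
  rw [map_mul] at hi
  exact ⟨h K i (left_ne_zero_of_mul hi), h' K i (right_ne_zero_of_mul hi)⟩

theorem all [IsDomain L] {ι : Type} [Finite ι]
    {Q : ι → ∀ (K : Type) [Field K], (L →+* K) → Prop} (h : ∀ j, SpecGen L (Q j)) :
    SpecGen L (fun K _ i => ∀ j, Q j K i) := by
  classical
  cases nonempty_fintype ι
  choose f hf h using h
  refine ⟨∏ j, f j, Finset.prod_ne_zero_iff.2 fun j _ => hf j, fun K _ i hi j => h j K i ?_⟩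
  rw [map_prod] at hi
  exact Finset.prod_ne_zero_iff.1 hi j (Finset.mem_univ j)

end SpecGen

/-- The square `L → K → R'`, `L → R → R'` is a pushout of commutative rings. -/
def SpecPO {L K R R' : Type} [CommRing L] [CommRing K] [CommRing R] [CommRing R']
    (i : L →+* K) (a : L →+* R) (a' : K →+* R') (φ : R →+* R') : Prop :=
  IsPushout (CommRingCat.ofHom i) (CommRingCat.ofHom a) (CommRingCat.ofHom a')
    (CommRingCat.ofHom φ)

namespace SpecPO

variable {L K R R' : Type} [CommRing L] [CommRing K] [CommRing R] [CommRing R']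

theorem comm {i : L →+* K} {a : L →+* R} {a' : K →+* R'} {φ : R →+* R'} (h : SpecPO i a a' φ)
    (x : L) : φ (a x) = a' (i x) :=
  (congr($(h.w).hom x)).symm

theorem paste {S S' : Type} [CommRing S] [CommRing S'] {i : L →+* K} {a : L →+* R}
    {a' : K →+* R'} {φ : R →+* R'} {b : R →+* S} {b' : R' →+* S'} {ψ : S →+* S'}
    (h : SpecPO i a a' φ) (h' : SpecPO φ b b' ψ) : SpecPO i (b.comp a) (b'.comp a') ψ :=
  IsPushout.paste_vert h h'

theorem iff [Algebra L K] [Algebra L R] [Algebra K R'] [Algebra R R'] [Algebra L R']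
    [IsScalarTower L K R'] [IsScalarTower L R R'] :
    SpecPO (algebraMap L K) (algebraMap L R) (algebraMap K R') (algebraMap R R') ↔
      Algebra.IsPushout L K R R' :=
  CommRingCat.isPushout_iff_isPushout

theorem id (i : L →+* K) : SpecPO i (RingHom.id L) (RingHom.id K) i := by
  algebraize [i]
  exact iff.2 (inferInstance : Algebra.IsPushout L K L K)

theorem mv (σ : Type) (i : L →+* K) :
    SpecPO i (MvPolynomial.C : L →+* MvPolynomial σ L) (MvPolynomial.C : K →+* MvPolynomial σ K)
      (MvPolynomial.map i) := by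
  algebraize [i]
  let _ : Algebra (MvPolynomial σ L) (MvPolynomial σ K) := MvPolynomial.algebraMvPolynomial
  exact iff.2 (inferInstance : Algebra.IsPushout L K (MvPolynomial σ L) (MvPolynomial σ K))

theorem quot (φ : R →+* R') (J : Ideal R) :
    SpecPO φ (Ideal.Quotient.mk J) (Ideal.Quotient.mk (J.map φ))
      (Ideal.quotientMap (J.map φ) φ Ideal.le_comap_map) := by
  algebraize [φ]
  refine iff.2 (⟨?_⟩ : Algebra.IsPushout R R' (R ⧸ J) (R' ⧸ J.map (algebraMap R R')))
  refine IsBaseChange.of_equiv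
    (Algebra.TensorProduct.quotIdealMapEquivTensorQuot R' J).symm.toLinearEquiv fun x => ?_
  obtain ⟨x, rfl⟩ := Ideal.Quotient.mk_surjective x
  change Submodule.Quotient.mk (x • (1 : R')) =
    Ideal.Quotient.mk (J.map (algebraMap R R')) (algebraMap R R' x)
  rw [Algebra.algebraMap_eq_smul_one]
  rfl

theorem tensor [Algebra L K] [Algebra L R] :
    SpecPO (algebraMap L K) (algebraMap L R) (algebraMap K (K ⊗[L] R))
      (Algebra.TensorProduct.includeRight : R →ₐ[L] K ⊗[L] R).toRingHom :=
  CommRingCat.isPushout_tensorProduct L K R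

theorem gen {i : L →+* K} {a : L →+* R} {a' : K →+* R'} {φ : R →+* R'} (h : SpecPO i a a' φ) :
    Subring.closure (Set.range a' ∪ Set.range φ) = ⊤ :=
  CommRingCat.closure_range_union_range_eq_top_of_isPushout h

end SpecPO

/-! ## Generic vanishing -/

theorem specTorsion {L l M N : Type} [CommRing L] [IsDomain L] [Field l] [Algebra L l]
    (hi : Function.Injective (algebraMap L l)) [AddCommGroup M] [Module L M] [AddCommGroup N]
    [Module L N] [Module l N] [IsScalarTower L l N] {g : M →ₗ[L] N} (hg : IsBaseChange l g)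
    {m : M} (hm : g m = 0) : ∃ f : L, f ≠ 0 ∧ f • m = 0 := by
  have : FaithfulSMul L l := (faithfulSMul_iff_algebraMap_injective L l).2 hi
  let _ : Algebra (FractionRing L) l := FractionRing.liftAlgebra L l
  have : Module.Flat L (FractionRing L) := IsLocalization.flat _ (nonZeroDivisors L)
  have : Module.Flat L l := Module.Flat.trans L (FractionRing L) l
  by_contra hne
  push Not at hne
  have h1 : Function.Injective (LinearMap.toSpanSingleton L M m) := by
    rw [injective_iff_map_eq_zero]
    intro f hf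
    by_contra h0
    exact hne f h0 hf
  have h2 := Module.Flat.lTensor_preserves_injective_linearMap (M := l) _ h1
  have h3 : (LinearMap.toSpanSingleton L M m).lTensor l ((1 : l) ⊗ₜ[L] (1 : L)) = 0 := by
    rw [LinearMap.lTensor_tmul, LinearMap.toSpanSingleton_apply, one_smul,
      ← hg.equiv_symm_apply, hm, map_zero]
  have h4 := congrArg (TensorProduct.rid L l) ((injective_iff_map_eq_zero _).1 h2 _ h3)
  simp at h4

theorem SpecPO.torsion {L l R R' : Type} [CommRing L] [IsDomain L] [Field l] [CommRing R]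
    [CommRing R'] {i : L →+* l} (hi : Function.Injective i) {a : L →+* R} {a' : l →+* R'}
    {φ : R →+* R'} (h : SpecPO i a a' φ) {x : R} (hx : φ x = 0) :
    ∃ f : L, f ≠ 0 ∧ a f * x = 0 := by
  algebraize [i, a, a', φ, φ.comp a]
  have : IsScalarTower L l R' := IsScalarTower.of_algebraMap_eq fun x => h.comm x
  have h1 : Algebra.IsPushout L l R R' := SpecPO.iff.1 h
  obtain ⟨f, hf, h2⟩ := specTorsion hi h1.out (m := x) hx
  exact ⟨f, hf, by rwa [Algebra.smul_def] at h2⟩

/-- Ideal membership after base change to `l` holds generically. -/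
theorem SpecPO.gen_mem {L l R R' : Type} [CommRing L] [IsDomain L] [Field l] [CommRing R]
    [CommRing R'] {i : L →+* l} (hi : Function.Injective i) {a : L →+* R} {a' : l →+* R'}
    {φ : R →+* R'} (h : SpecPO i a a' φ) {J : Ideal R} {x : R} (hx : φ x ∈ J.map φ) :
    SpecGen L (fun K _ j => ∀ (R'' : Type) [CommRing R''] (a'' : K →+* R'') (φ' : R →+* R''),
      (∀ c, φ' (a c) = a'' (j c)) → φ' x ∈ J.map φ') := by
  obtain ⟨f, hf, h1⟩ := (h.paste (SpecPO.quot φ J)).torsion hi (x := Ideal.Quotient.mk J x)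
    (by rw [Ideal.quotientMap_mk, Ideal.Quotient.eq_zero_iff_mem]; exact hx)
  refine ⟨f, hf, fun K _ j hj R'' _ a'' φ' hc => ?_⟩
  rw [RingHom.comp_apply, ← map_mul, Ideal.Quotient.eq_zero_iff_mem] at h1
  have h2 := Ideal.mul_mem_left _ (a'' (j f)⁻¹) (Ideal.mem_map_of_mem φ' h1)
  rwa [map_mul, hc, ← mul_assoc, ← map_mul, inv_mul_cancel₀ hj, map_one, one_mul] at h2

/-- An inclusion of ideals after base change to `l` holds generically. -/
theorem SpecPO.gen_le {L l R R' : Type} [CommRing L] [IsDomain L] [Field l] [CommRing R]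
    [CommRing R'] {i : L →+* l} (hi : Function.Injective i) {a : L →+* R} {a' : l →+* R'}
    {φ : R →+* R'} (h : SpecPO i a a' φ) {I J : Ideal R} (hI : I.FG) (hx : I.map φ ≤ J.map φ) :
    SpecGen L (fun K _ j => ∀ (R'' : Type) [CommRing R''] (a'' : K →+* R'') (φ' : R →+* R''),
      (∀ c, φ' (a c) = a'' (j c)) → I.map φ' ≤ J.map φ') := by
  obtain ⟨s, rfl⟩ := hI
  have h1 := SpecGen.all fun x : s => h.gen_mem hi (J := J) (x := x.1)
    (hx (Ideal.mem_map_of_mem φ (Ideal.subset_span x.2)))
  refine h1.mono fun K _ j h2 R'' _ a'' φ' hc => ?_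
  rw [Ideal.map_le_iff_le_comap, Ideal.span_le]
  intro x hx
  exact h2 ⟨x, hx⟩ R'' a'' φ' hc

/-! ## Generic constancy of the fibre dimension -/

theorem specGenericRank (L M : Type) [CommRing L] [IsDomain L] [AddCommGroup M] [Module L M]
    [Module.Finite L M] : ∃ (f : L) (r : ℕ), f ≠ 0 ∧ ∃ (u : (Fin r → L) →ₗ[L] M)
      (v : M →ₗ[L] (Fin r → L)), (∀ x, u (v x) = f • x) ∧ ∀ x, v (u x) = f • x := by
  classical
  obtain ⟨n, s, hs⟩ := Module.Finite.exists_fin (R := L) (M := M)
  obtain ⟨I, hI, hI'⟩ := exists_maximal_linearIndepOn L s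
  have h1 : ∀ i, ∃ a : L, a ≠ 0 ∧ a • s i ∈ Submodule.span L (s '' I) := fun i => by
    by_cases hi : i ∈ I
    · exact ⟨1, one_ne_zero, by rw [one_smul]; exact Submodule.subset_span ⟨i, hi, rfl⟩⟩
    · exact hI' i hi
  choose a ha ha' using h1
  let e := Fintype.equivFin I
  let w : Fin (Fintype.card I) → M := fun k => s (e.symm k)
  have hw : LinearIndependent L w := hI.comp e.symm e.symm.injective
  let u : (Fin (Fintype.card I) → L) →ₗ[L] M := Fintype.linearCombination L w
  have hu : Function.Injective u := hw.fintypeLinearCombination_injective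
  have hr : LinearMap.range u = Submodule.span L (s '' I) := by
    rw [Fintype.range_linearCombination]
    congr 1
    ext x
    constructor
    · rintro ⟨k, rfl⟩
      exact ⟨_, (e.symm k).2, rfl⟩
    · rintro ⟨i, hi, rfl⟩
      exact ⟨e ⟨i, hi⟩, by simp [w]⟩
  have h2 : ∀ x : M, (∏ i, a i) • x ∈ LinearMap.range u := fun x => by
    have hx : x ∈ Submodule.span L (Set.range s) := hs ▸ Submodule.mem_top
    induction hx using Submodule.span_induction with
    | mem x hx =>
      obtain ⟨i, rfl⟩ := hx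
      rw [← Finset.prod_erase_mul _ _ (Finset.mem_univ i), mul_smul, hr]
      exact Submodule.smul_mem _ _ (ha' i)
    | zero => simp
    | add x y _ _ hx hy => rw [smul_add]; exact add_mem hx hy
    | smul c x _ hx => rw [smul_comm]; exact Submodule.smul_mem _ _ hx
  let v : M →ₗ[L] (Fin (Fintype.card I) → L) :=
    (LinearEquiv.ofInjective u hu).symm.toLinearMap ∘ₗ
      (LinearMap.lsmul L M (∏ i, a i)).codRestrict _ h2
  have huv : ∀ x, u (v x) = (∏ i, a i) • x := fun x =>
    congrArg Subtype.val ((LinearEquiv.ofInjective u hu).apply_symm_apply ⟨_, h2 x⟩)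
  exact ⟨∏ i, a i, _, Finset.prod_ne_zero_iff.2 fun i _ => ha i, u, v, huv, fun x =>
    hu (by rw [huv, map_smul])⟩

theorem specGenericLength (L M : Type) [CommRing L] [IsDomain L] [AddCommGroup M] [Module L M]
    [Module.Finite L M] : ∃ (f : L) (r : ℕ), f ≠ 0 ∧ ∀ (K : Type) [Field K] [Algebra L K],
      algebraMap L K f ≠ 0 → Module.length K (K ⊗[L] M) = r := by
  obtain ⟨f, r, hf, u, v, huv, hvu⟩ := specGenericRank L M
  refine ⟨f, r, hf, fun K _ _ hK => ?_⟩
  have h1 : u.baseChange K ∘ₗ v.baseChange K = algebraMap L K f • LinearMap.id := by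
    rw [← LinearMap.baseChange_comp]
    ext x
    simp [huv]
  have h2 : v.baseChange K ∘ₗ u.baseChange K = algebraMap L K f • LinearMap.id := by
    rw [← LinearMap.baseChange_comp]
    refine TensorProduct.AlgebraTensorModule.ext fun k x => ?_
    simp [hvu]
  have h3 : Function.Bijective (u.baseChange K) := by
    constructor
    · rw [injective_iff_map_eq_zero]
      intro x hx
      have := LinearMap.congr_fun h2 x
      rw [LinearMap.comp_apply, hx, map_zero, LinearMap.smul_apply, LinearMap.id_apply] at this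
      exact (smul_eq_zero.1 this.symm).resolve_left hK
    · intro x
      refine ⟨(algebraMap L K f)⁻¹ • v.baseChange K x, ?_⟩
      have := LinearMap.congr_fun h1 x
      rw [LinearMap.comp_apply, LinearMap.smul_apply, LinearMap.id_apply] at this
      rw [map_smul, this, smul_smul, inv_mul_cancel₀ hK, one_smul]
  rw [← (LinearEquiv.ofBijective _ h3).length_eq, Module.length_eq_finrank,
    Module.finrank_baseChange, Module.finrank_fin_fun]

end Crest.Agent.R183
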