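import Crest.Agent.R183.SpecAux1
import Crest.Agent.R183.Sig

/-!
# Specialization, part 2: generic lengths, generic `HasSig`, descent of a finite free algebra
-/

set_option autoImplicit false

open TensorProduct

namespace Crest.Agent.R183

/-- The dimension of `R` over `K` along a ring map. -/
noncomputable def specLen {K R : Type} [CommRing K] [CommRing R] (a : K →+* R) : ℕ∞ :=
  @Module.length K R _ _ a.toAlgebra.toModule

theorem specGenLen {L R : Type} [CommRing L] [IsDomain L] [CommRing R] (c : L →+* R)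
    (hc : c.Finite) : ∃ r : ℕ∞, SpecGen L (fun K _ i => ∀ (R' : Type) [CommRing R']
      (a' : K →+* R') (φ : R →+* R'), SpecPO i c a' φ → specLen a' = r) := by
  algebraize [c]
  obtain ⟨f, r, hf, h⟩ := specGenericLength L R
  refine ⟨r, f, hf, fun K _ i hi R' _ a' φ hP => ?_⟩
  let _ : Algebra L K := i.toAlgebra
  let _ : Algebra K R' := a'.toAlgebra
  let _ : Algebra R R' := φ.toAlgebra
  let _ : Algebra L R' := (φ.comp c).toAlgebra
  have : IsScalarTower L R R' := IsScalarTower.of_algebraMap_eq fun x => rfl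
  have : IsScalarTower L K R' := IsScalarTower.of_algebraMap_eq fun x => hP.comm x
  have h1 : Algebra.IsPushout L K R R' := SpecPO.iff.1 hP
  exact h1.out.equiv.length_eq.symm.trans (h K hi)

theorem specResidue {K T ι : Type} [CommRing K] [CommRing T] (k : K →+* T) (σ : ι → T)
    (hgen : Subring.closure (Set.range k ∪ Set.range σ) = ⊤) (t : T) :
    ∃ c, t - k c ∈ sp σ := by
  have ht : t ∈ Subring.closure (Set.range k ∪ Set.range σ) := hgen ▸ Subring.mem_top t
  induction ht using Subring.closure_induction with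
  | mem x hx =>
    rcases hx with ⟨c, rfl⟩ | ⟨j, rfl⟩
    · exact ⟨c, by simp⟩
    · exact ⟨0, by rw [map_zero, sub_zero]; exact Ideal.subset_span ⟨j, rfl⟩⟩
  | zero => exact ⟨0, by simp⟩
  | one => exact ⟨1, by simp⟩
  | add x y _ _ hx hy =>
    obtain ⟨c, hc⟩ := hx
    obtain ⟨c', hc'⟩ := hy
    refine ⟨c + c', ?_⟩
    rw [map_add, add_sub_add_comm]
    exact add_mem hc hc'
  | neg x _ hx =>
    obtain ⟨c, hc⟩ := hx
    refine ⟨-c, ?_⟩
    rw [map_neg, ← neg_sub', ]
    exact neg_mem hc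
  | mul x y _ _ hx hy =>
    obtain ⟨c, hc⟩ := hx
    obtain ⟨c', hc'⟩ := hy
    refine ⟨c * c', ?_⟩
    have : x * y - k (c * c') = x * (y - k c') + (x - k c) * k c' := by rw [map_mul]; ring
    rw [this]
    exact add_mem (Ideal.mul_mem_left _ _ hc') (Ideal.mul_mem_right _ _ hc)

theorem specLenEq {K T R ι : Type} [Field K] [CommRing T] [CommRing R] [Finite ι] [Algebra T R]
    (k : K →+* T) (σ : ι → T) (hgen : Subring.closure (Set.range k ∪ Set.range σ) = ⊤)
    (hnil : ∀ j, IsNilpotent (algebraMap T R (σ j))) :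
    Module.length T R = specLen ((algebraMap T R).comp k) := by
  algebraize [k, (algebraMap T R).comp k]
  have hs := specResidue k σ hgen
  obtain ⟨n, hn⟩ : ∃ n, sp σ ^ n ≤ RingHom.ker (algebraMap T R) := by
    refine Ideal.exists_pow_le_of_le_radical_of_fg ?_
      (Submodule.fg_span (Set.finite_range σ))
    rw [Ideal.span_le]
    rintro _ ⟨j, rfl⟩
    obtain ⟨n, hn⟩ := hnil j
    exact ⟨n, by rw [RingHom.mem_ker, map_pow, hn]⟩
  have hkill : ∀ t ∈ sp σ ^ n, ∀ x : R, t • x = 0 := fun t ht x => by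
    rw [Algebra.smul_def, (RingHom.mem_ker).1 (hn ht), zero_mul]
  by_cases htop : sp σ = ⊤
  · have : Subsingleton R := ⟨fun x y => by
      rw [← one_smul T x, ← one_smul T y, hkill 1 (by simp [htop, Ideal.top_pow]),
        hkill 1 (by simp [htop, Ideal.top_pow])]⟩
    unfold specLen
    rw [Module.length_eq_zero, Module.length_eq_zero]
  · have hmax : (sp σ).IsMaximal := by
      refine ⟨⟨htop, fun I hI => ?_⟩⟩
      obtain ⟨t, ht, ht'⟩ := SetLike.exists_of_lt hI
      obtain ⟨c, hc⟩ := hs t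
      have hc0 : c ≠ 0 := by
        rintro rfl
        exact ht' (by simpa using hc)
      have h1 : k c ∈ I := by
        have := sub_mem ht (hI.le hc)
        rwa [sub_sub_cancel] at this
      exact Ideal.eq_top_of_isUnit_mem _ h1 ((Ne.isUnit hc0).map k)
    exact (length_eq_of_residue_surj (A := K) (sp σ) hs R ⟨n, hkill⟩).symm

theorem specFinite {L T R ι : Type} [CommRing L] [CommRing T] [CommRing R] [Finite ι]
    (a : L →+* T) (σ : ι → T) (hgen : Subring.closure (Set.range a ∪ Set.range σ) = ⊤)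
    (b : T →+* R) (hb : b.Finite) (hnil : ∀ j, IsNilpotent (b (σ j))) : (b.comp a).Finite := by
  algebraize [b.comp a]
  let B : Subalgebra L R := Algebra.adjoin L (Set.range fun j => b (σ j))
  have hB : Module.Finite L B := Module.Finite.iff_fg.2 <|
    fg_adjoin_of_finite (Set.finite_range _) (by
      rintro _ ⟨j, rfl⟩
      obtain ⟨n, hn⟩ := hnil j
      rcases Nat.eq_zero_or_pos n with rfl | hn0
      · have : Subsingleton R := subsingleton_of_zero_eq_one (by simpa using hn.symm)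
        exact (congrArg (IsIntegral L) (Subsingleton.elim (0 : R) _)).mp isIntegral_zero
      · exact IsIntegral.of_pow hn0 (by rw [hn]; exact isIntegral_zero))
  have hmem : ∀ t, b t ∈ B := fun t => by
    have h1 : Subring.closure (Set.range a ∪ Set.range σ) ≤ B.toSubring.comap b := by
      rw [Subring.closure_le]
      rintro _ (⟨c, rfl⟩ | ⟨j, rfl⟩)
      · exact B.algebraMap_mem c
      · exact Algebra.subset_adjoin ⟨j, rfl⟩
    exact h1 (hgen ▸ Subring.mem_top t)
  have h1 : (B.val.toRingHom.comp (b.codRestrict B hmem)).Finite := hb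
  have h2 : (algebraMap L B).Finite := RingHom.finite_algebraMap.2 hB
  exact (RingHom.Finite.of_comp_finite h1).comp h2

theorem SpecPO.gen' {L K T T' ι : Type} [CommRing L] [CommRing K] [CommRing T] [CommRing T']
    {i : L →+* K} {a : L →+* T} {k : K →+* T'} {φ : T →+* T'} (h : SpecPO i a k φ) {σ : ι → T}
    (hgen : Subring.closure (Set.range a ∪ Set.range σ) = ⊤) :
    Subring.closure (Set.range k ∪ Set.range fun j => φ (σ j)) = ⊤ := by
  rw [eq_top_iff, ← h.gen, Subring.closure_le]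
  rintro _ (⟨c, rfl⟩ | ⟨t, rfl⟩)
  · exact Subring.subset_closure (Or.inl ⟨c, rfl⟩)
  · have h1 : Subring.closure (Set.range a ∪ Set.range σ) ≤
        (Subring.closure (Set.range k ∪ Set.range fun j => φ (σ j))).comap φ := by
      rw [Subring.closure_le]
      rintro _ (⟨c, rfl⟩ | ⟨j, rfl⟩)
      · exact Subring.subset_closure (Or.inl ⟨i c, (h.comm c).symm⟩)
      · exact Subring.subset_closure (Or.inr ⟨j, rfl⟩)
    exact h1 (hgen ▸ Subring.mem_top t)

/-- The length over `T'` of the base change of a finite quotient is generically constant. -/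
theorem specGenLength {L T R ι : Type} [CommRing L] [IsDomain L] [CommRing T] [CommRing R]
    [Finite ι] (a : L →+* T) (σ : ι → T)
    (hgen : Subring.closure (Set.range a ∪ Set.range σ) = ⊤) (b : T →+* R) (J : Ideal R)
    (hfin : ((Ideal.Quotient.mk J).comp b).Finite) (hnil : ∀ j, ∃ n, b (σ j) ^ n ∈ J) :
    ∃ r : ℕ∞, SpecGen L (fun K _ i => ∀ (T' R' : Type) [CommRing T'] [CommRing R']
      [Algebra T' R'] (k : K →+* T') (φ : T →+* T') (ψ : R →+* R'), SpecPO i a k φ →
      SpecPO φ b (algebraMap T' R') ψ → ∀ J' : Ideal R', J' = J.map ψ →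
      Module.length T' (R' ⧸ J') = r) := by
  obtain ⟨r, h⟩ := specGenLen _ (specFinite a σ hgen _ hfin fun j => by
    obtain ⟨n, hn⟩ := hnil j
    exact ⟨n, by rw [RingHom.comp_apply, ← map_pow, Ideal.Quotient.eq_zero_iff_mem]; exact hn⟩)
  refine ⟨r, h.mono fun K _ i h T' R' _ _ _ k φ ψ h1 h2 J' hJ => ?_⟩
  subst hJ
  rw [specLenEq k (fun j => φ (σ j)) (h1.gen' hgen) fun j => ?_]
  · exact h _ _ _ (h1.paste (h2.paste (SpecPO.quot ψ J)))
  · obtain ⟨n, hn⟩ := hnil j
    refine ⟨n, ?_⟩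
    change Ideal.Quotient.mk _ (algebraMap T' R' (φ (σ j))) ^ n = 0
    rw [← h2.comm, ← map_pow, ← map_pow, Ideal.Quotient.eq_zero_iff_mem]
    exact Ideal.mem_map_of_mem _ hn

theorem specGenMv (σ B : Type) [CommRing B] :
    Subring.closure (Set.range (MvPolynomial.C : B →+* MvPolynomial σ B) ∪
      Set.range (MvPolynomial.X : σ → MvPolynomial σ B)) = ⊤ := by
  rw [eq_top_iff]
  rintro t -
  induction t using MvPolynomial.induction_on with
  | C c => exact Subring.subset_closure (Or.inl ⟨c, rfl⟩)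
  | add p q hp hq => exact add_mem hp hq
  | mul_X p j hp => exact mul_mem hp (Subring.subset_closure (Or.inr ⟨j, rfl⟩))

/-! ## Generic `HasSig` -/

theorem specPiMem {T S κ : Type} [CommRing T] [CommRing S] [Algebra T S] [Finite κ]
    (I : Ideal T) (x : κ → S) :
    x ∈ (I • ⊤ : Submodule T (κ → S)) ↔ ∀ k, x k ∈ I.map (algebraMap T S) := by
  classical
  cases nonempty_fintype κ
  have h1 : ∀ s : S, s ∈ I.map (algebraMap T S) ↔ s ∈ (I • ⊤ : Submodule T S) := fun s => by
    rw [Ideal.smul_top_eq_map, Submodule.restrictScalars_mem]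
  refine ⟨fun h k => (h1 _).2 (sig_map_mem (LinearMap.proj k : (κ → S) →ₗ[T] S) h), fun h => ?_⟩
  rw [← Finset.univ_sum_single x]
  exact Submodule.sum_mem _ fun k _ =>
    sig_map_mem (LinearMap.single T (fun _ : κ => S) k) ((h1 _).1 (h k))

theorem specKd {S S' ι : Type} [CommRing S] [CommRing S'] [Fintype ι] [LinearOrder ι]
    (ψ : S →+* S') (y : ι → S) (x : Finset ι → S) :
    kd (fun j => ψ (y j)) S' (fun U => ψ (x U)) = fun U => ψ (kd y S x U) := by
  funext U
  simp [kd]

theorem specGenSig {L l T T' S S' ι : Type} [CommRing L] [IsDomain L] [Field l] [CommRing T]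
    [CommRing T'] [CommRing S] [CommRing S'] [Algebra T S] [Algebra T' S'] [Module.Finite T S]
    [Fintype ι] [LinearOrder ι] {i : L →+* l} (hi : Function.Injective i) {a : L →+* T}
    {k : l →+* T'} {φ : T →+* T'} {ψ : S →+* S'} (h1 : SpecPO i a k φ)
    (h2 : SpecPO φ (algebraMap T S) (algebraMap T' S') ψ) (𝔪 : Ideal T) (y : ι → S)
    (σ : (Finset ι → S) →ₗ[T] (Finset ι → S)) (σ' : (Finset ι → S') →ₗ[T'] (Finset ι → S'))
    (hσ : ∀ x, σ' (fun U => ψ (x U)) = fun U => ψ (σ x U))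
    (h : ∀ x, kd (fun j => ψ (y j)) S' (σ' (kd (fun j => ψ (y j)) S' x)) -
      kd (fun j => ψ (y j)) S' x ∈ (𝔪.map φ • ⊤ : Submodule T' (Finset ι → S'))) :
    SpecGen L (fun K _ j => ∀ (T'' S'' : Type) [CommRing T''] [CommRing S''] [Algebra T'' S'']
      (k' : K →+* T'') (φ' : T →+* T'') (ψ' : S →+* S''), (∀ c, φ' (a c) = k' (j c)) →
      SpecPO φ' (algebraMap T S) (algebraMap T'' S'') ψ' →
      HasSig (𝔪.map φ') (fun j => ψ' (y j))) := by
  obtain ⟨n, s, hs⟩ := Module.Finite.exists_fin (R := T) (M := Finset ι → S)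
  have hmap : ∀ {T'' S'' : Type} [CommRing T''] [CommRing S''] [Algebra T'' S'']
      {φ' : T →+* T''} {ψ' : S →+* S''}, SpecPO φ' (algebraMap T S) (algebraMap T'' S'') ψ' →
      (𝔪.map φ').map (algebraMap T'' S'') = (𝔪.map (algebraMap T S)).map ψ' := by
    intro T'' S'' _ _ _ φ' ψ' h
    rw [Ideal.map_map, Ideal.map_map]
    congr 1
    ext c
    exact (h.comm c).symm
  have h3 := SpecGen.all fun q : Fin n × Finset ι => (h1.paste h2).gen_mem hi
    (J := 𝔪.map (algebraMap T S))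
    (x := (kd y S (σ (kd y S (s q.1))) - kd y S (s q.1)) q.2) (by
      have h4 := (specPiMem _ _).1 (h fun U => ψ (s q.1 U)) q.2
      rw [specKd, hσ, specKd, hmap h2] at h4
      simpa using h4)
  refine h3.mono fun K _ j h3 T'' S'' _ _ _ k' φ' ψ' hc hP => ?_
  let _ : Algebra T T'' := φ'.toAlgebra
  let _ : Algebra S S'' := ψ'.toAlgebra
  let _ : Algebra T S'' := (ψ'.comp (algebraMap T S)).toAlgebra
  have : IsScalarTower T S S'' := IsScalarTower.of_algebraMap_eq fun x => rfl
  have : IsScalarTower T T'' S'' := IsScalarTower.of_algebraMap_eq fun x => hP.comm x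
  have h4 : Algebra.IsPushout T T'' S S'' := SpecPO.iff.1 hP
  let G : (Finset ι → S) →ₗ[T] (Finset ι → S'') :=
    (IsScalarTower.toAlgHom T S S'').toLinearMap.compLeft (Finset ι)
  have hG : IsBaseChange T'' G := h4.out.finitePow (Finset ι)
  have hG' : ∀ x, G x = fun U => ψ' (x U) := fun x => rfl
  let D : (Finset ι → S'') →ₗ[T''] (Finset ι → S'') :=
    (kd (fun j => ψ' (y j)) S'').restrictScalars T''
  let N : Submodule T'' (Finset ι → S'') := 𝔪.map φ' • ⊤
  have h5 : ∀ x, D (hG.lift (G ∘ₗ σ) (D (G x))) - D (G x) ∈ N := fun x => by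
    have hx : x ∈ Submodule.span T (Set.range s) := hs ▸ Submodule.mem_top
    induction hx using Submodule.span_induction with
    | mem x hx =>
      obtain ⟨q, rfl⟩ := hx
      have h6 : ∀ x, D (G x) = G (kd y S x) := fun x => specKd ψ' y x
      rw [h6, hG.lift_eq, LinearMap.comp_apply, h6, ← map_sub]
      refine (specPiMem _ _).2 fun U => ?_
      rw [hmap hP]
      exact h3 (q, U) S'' ((algebraMap T'' S'').comp k') ψ' fun c => by
        rw [RingHom.comp_apply, RingHom.comp_apply, hP.comm, hc]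
    | zero => simp
    | add x x' _ _ hx hx' =>
      simp only [map_add]
      rw [add_sub_add_comm]
      exact add_mem hx hx'
    | smul c x _ hx =>
      rw [map_smul, ← algebraMap_smul T'' c, map_smul, map_smul, map_smul, ← smul_sub]
      exact Submodule.smul_mem _ _ hx
  refine ⟨hG.lift (G ∘ₗ σ), fun x => ?_⟩
  change D (hG.lift (G ∘ₗ σ) (D x)) - D x ∈ N
  refine hG.inductionOn x _ (by simp) h5 (fun c x hx => ?_) fun x x' hx hx' => ?_
  · rw [map_smul, map_smul, map_smul, ← smul_sub]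
    exact Submodule.smul_mem _ _ hx
  · simp only [map_add]
    rw [add_sub_add_comm]
    exact add_mem hx hx'

/-! ## Descent of a finite free algebra -/

theorem specQuotBC {T₀ T : Type} [CommRing T₀] [CommRing T] [Algebra T₀ T] (P₀ : Ideal T₀)
    (P : Ideal T) (h : P₀.map (algebraMap T₀ T) = P) :
    ∃ q : (T₀ ⧸ P₀) →ₗ[T₀] (T ⧸ P), IsBaseChange T q ∧
      ∀ t, q (Ideal.Quotient.mk P₀ t) = Ideal.Quotient.mk P (algebraMap T₀ T t) := by
  subst h
  have h1 : Algebra.IsPushout T₀ T (T₀ ⧸ P₀) (T ⧸ P₀.map (algebraMap T₀ T)) :=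
    SpecPO.iff.1 (SpecPO.quot (algebraMap T₀ T) P₀)
  exact ⟨_, h1.out, fun t => rfl⟩

theorem specFree {T₀ T S₀ S : Type} [CommRing T₀] [CommRing T] [CommRing S₀] [CommRing S]
    [Algebra T₀ S₀] [Algebra T S] {φ : T₀ →+* T} {ψ : S₀ →+* S}
    (h : SpecPO φ (algebraMap T₀ S₀) (algebraMap T S) ψ) {P₀ : Ideal T₀} {ν : ℕ}
    (e : S₀ ≃ₗ[T₀] (Fin ν → T₀ ⧸ P₀)) : Nonempty (S ≃ₗ[T] (Fin ν → T ⧸ P₀.map φ)) := by
  let _ : Algebra T₀ T := φ.toAlgebra
  let _ : Algebra S₀ S := ψ.toAlgebra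
  let _ : Algebra T₀ S := (ψ.comp (algebraMap T₀ S₀)).toAlgebra
  have : IsScalarTower T₀ S₀ S := IsScalarTower.of_algebraMap_eq fun x => rfl
  have : IsScalarTower T₀ T S := IsScalarTower.of_algebraMap_eq fun x => h.comm x
  have h1 : Algebra.IsPushout T₀ T S₀ S := SpecPO.iff.1 h
  obtain ⟨q, hq, -⟩ := specQuotBC P₀ (P₀.map φ) rfl
  exact ⟨h1.out.equiv.symm ≪≫ₗ ((hq.finitePow (Fin ν)).comp_equiv e).equiv⟩

theorem specDesc {T₀ T S ι κ : Type} [CommRing T₀] [CommRing T] [CommRing S] [Algebra T S]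
    [Fintype κ] [DecidableEq κ] (φ : T₀ →+* T) (P : Ideal T) (hP : (P.comap φ).map φ = P)
    {ν : ℕ} (e : S ≃ₗ[T] (Fin ν → T ⧸ P)) (Good : S → Prop)
    (hGood : ∀ s, Good s → ∀ k, ∃ t, Ideal.Quotient.mk P (φ t) = e s k)
    (hone : Good 1) (hmul : ∀ j k, Good (e.symm (Pi.single j 1) * e.symm (Pi.single k 1)))
    (y : ι → S) (hy : ∀ j, Good (y j)) (σ : (κ → S) →ₗ[T] (κ → S))
    (hσ : ∀ U j U', Good (σ (Pi.single U (e.symm (Pi.single j 1))) U')) :
    ∃ (S₀ : Type) (_ : CommRing S₀) (_ : Algebra T₀ S₀) (ψ : S₀ →+* S) (y₀ : ι → S₀)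
      (σ₀ : (κ → S₀) →ₗ[T₀] (κ → S₀)), Nonempty (S₀ ≃ₗ[T₀] (Fin ν → T₀ ⧸ P.comap φ)) ∧
      SpecPO φ (algebraMap T₀ S₀) (algebraMap T S) ψ ∧ (∀ j, ψ (y₀ j) = y j) ∧
      ∀ x, σ (fun U => ψ (x U)) = fun U => ψ (σ₀ x U) := by
  let _ : Algebra T₀ T := φ.toAlgebra
  let _ : Algebra T₀ S := ((algebraMap T S).comp φ).toAlgebra
  have : IsScalarTower T₀ T S := IsScalarTower.of_algebraMap_eq fun x => rfl
  obtain ⟨q, hq, hq'⟩ := specQuotBC (P.comap φ) P hP
  have hqi : Function.Injective q := by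
    rw [injective_iff_map_eq_zero]
    intro x hx
    obtain ⟨t, rfl⟩ := Ideal.Quotient.mk_surjective x
    rw [hq', Ideal.Quotient.eq_zero_iff_mem] at hx
    exact Ideal.Quotient.eq_zero_iff_mem.2 hx
  let Ψ : (Fin ν → T₀ ⧸ P.comap φ) →ₗ[T₀] S :=
    e.symm.toLinearMap.restrictScalars T₀ ∘ₗ q.compLeft (Fin ν)
  have hΨ : ∀ x, Ψ x = e.symm fun k => q (x k) := fun x => rfl
  have hΨi : Function.Injective Ψ := fun x x' h => funext fun k =>
    hqi (congrFun (e.symm.injective ((hΨ x).symm.trans (h.trans (hΨ x')))) k)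
  have hΨb : IsBaseChange T Ψ :=
    (IsBaseChange.iff_of_equiv_comm (f := q.compLeft (Fin ν)) (f' := Ψ) (LinearEquiv.refl _ _)
      e.symm (LinearMap.ext fun x => rfl)).1 (hq.finitePow (Fin ν))
  let N : Submodule T₀ S := LinearMap.range Ψ
  have hN : ∀ s, Good s → s ∈ N := fun s hs => by
    choose t ht using hGood s hs
    refine ⟨fun k => Ideal.Quotient.mk _ (t k), ?_⟩
    rw [hΨ, LinearEquiv.symm_apply_eq]
    funext k
    rw [hq']
    exact ht k
  have hb : ∀ j, Ψ (Pi.single j 1) = e.symm (Pi.single j 1) := fun j => by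
    rw [hΨ]
    congr 1
    funext k
    by_cases h : k = j
    · subst h
      rw [Pi.single_eq_same, Pi.single_eq_same, ← map_one (Ideal.Quotient.mk (P.comap φ)), hq',
        map_one, map_one]
    · rw [Pi.single_eq_of_ne h, Pi.single_eq_of_ne h, map_zero]
  have hspan : N = Submodule.span T₀ (Set.range fun j => e.symm (Pi.single j 1)) := by
    refine le_antisymm ?_ ?_
    · rintro _ ⟨x, rfl⟩
      rw [← Finset.univ_sum_single x, map_sum]
      refine Submodule.sum_mem _ fun j _ => ?_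
      obtain ⟨t, ht⟩ := Ideal.Quotient.mk_surjective (x j)
      have h1 : (Pi.single j (x j) : Fin ν → T₀ ⧸ P.comap φ) =
          t • (Pi.single j 1 : Fin ν → T₀ ⧸ P.comap φ) := by
        rw [← Pi.single_smul, ← ht, Algebra.smul_def, mul_one]
        rfl
      rw [h1, map_smul, hb]
      exact Submodule.smul_mem _ _ (Submodule.subset_span ⟨j, rfl⟩)
    · rw [Submodule.span_le]
      rintro _ ⟨j, rfl⟩
      exact ⟨_, hb j⟩
  have hNmul : N * N ≤ N := by
    conv_lhs => rw [hspan]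
    rw [Submodule.span_mul_span, Submodule.span_le]
    rintro _ ⟨_, ⟨j, rfl⟩, _, ⟨k, rfl⟩, rfl⟩
    exact hN _ (hmul j k)
  let S₀ : Subalgebra T₀ S := N.toSubalgebra (hN _ hone) fun x x' hx hx' =>
    hNmul (Submodule.mul_mem_mul hx hx')
  let Ψ' : (Fin ν → T₀ ⧸ P.comap φ) →ₗ[T₀] S₀ :=
    { toFun := fun x => ⟨Ψ x, x, rfl⟩
      map_add' := fun x x' => Subtype.ext (map_add Ψ x x')
      map_smul' := fun c x => Subtype.ext (map_smul Ψ c x) }
  have hΨ' : Function.Bijective Ψ' := by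
    refine ⟨fun x x' h => hΨi (congrArg Subtype.val h), fun s => ?_⟩
    obtain ⟨x, hx⟩ : (s : S) ∈ LinearMap.range Ψ := s.2
    exact ⟨x, Subtype.ext hx⟩
  have hval : IsBaseChange T (IsScalarTower.toAlgHom T₀ S₀ S).toLinearMap :=
    (IsBaseChange.iff_of_equiv_comm (f := Ψ)
      (f' := (IsScalarTower.toAlgHom T₀ S₀ S).toLinearMap) (LinearEquiv.ofBijective Ψ' hΨ')
      (LinearEquiv.refl _ _) (LinearMap.ext fun x => rfl)).1 hΨb
  have hσN : ∀ (x : κ → S₀) U', σ (fun U => (x U : S)) U' ∈ N := fun x U' => by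
    rw [← Finset.univ_sum_single (fun U => (x U : S)), map_sum, Finset.sum_apply]
    refine Submodule.sum_mem _ fun U _ => ?_
    have h1 : (x U : S) ∈ Submodule.span T₀ (Set.range fun j => e.symm (Pi.single j 1)) :=
      hspan ▸ (x U).2
    generalize (x U : S) = s at h1
    induction h1 using Submodule.span_induction with
    | mem s hs =>
      obtain ⟨j, rfl⟩ := hs
      exact hN _ (hσ U j U')
    | zero => simp
    | add s s' _ _ hs hs' =>
      rw [Pi.single_add, map_add, Pi.add_apply]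
      exact add_mem hs hs'
    | smul c s _ hs =>
      rw [Pi.single_smul, LinearMap.map_smul_of_tower, Pi.smul_apply]
      exact Submodule.smul_mem _ _ hs
  let σ₀ : (κ → S₀) →ₗ[T₀] (κ → S₀) :=
    { toFun := fun x U' => ⟨σ (fun U => (x U : S)) U', hσN x U'⟩
      map_add' := fun x x' => funext fun U' => Subtype.ext
        (congrFun (map_add σ (fun U => (x U : S)) (fun U => (x' U : S))) U')
      map_smul' := fun c x => funext fun U' => Subtype.ext
        (congrFun (σ.map_smul_of_tower c (fun U => (x U : S))) U') }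
  exact ⟨S₀, inferInstance, inferInstance, algebraMap S₀ S, fun j => ⟨y j, hN _ (hy j)⟩, σ₀,
    ⟨(LinearEquiv.ofBijective Ψ' hΨ').symm⟩, SpecPO.iff.2 ⟨hval⟩, fun j => rfl, fun x => rfl⟩

end Crest.Agent.R183
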