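import Crest.Agent.R183.DomH
import Crest.Agent.R183.DomIdem
import Crest.Agent.R183.DomV
import Crest.Agent.R183.Gonfl

/-!
# The data in `T`
-/

set_option autoImplicit false

open scoped ENNReal NNReal TensorProduct
open MvPolynomial IsLocalRing

namespace Crest.Agent.R183

/-- the map `R'[X] → R' ⊗ (A[X] / J)` -/
noncomputable def TData_theta {τ A : Type} [CommRing A] (R' : Type) [CommRing R'] [Algebra A R']
    (J : Ideal (MvPolynomial τ A)) :
    MvPolynomial τ R' →ₐ[R'] R' ⊗[A] (MvPolynomial τ A ⧸ J) :=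
  aeval fun j => (1 : R') ⊗ₜ[A] Ideal.Quotient.mk J (X j)

theorem TData_theta_map {τ A : Type} [CommRing A] (R' : Type) [CommRing R'] [Algebra A R']
    (J : Ideal (MvPolynomial τ A)) (p : MvPolynomial τ A) :
    TData_theta R' J (MvPolynomial.map (algebraMap A R') p) = 1 ⊗ₜ Ideal.Quotient.mk J p := by
  induction p using MvPolynomial.induction_on with
  | C a =>
    rw [map_C, algHom_C, Algebra.TensorProduct.algebraMap_apply, Algebra.algebraMap_self,
      RingHom.id_apply, ← Algebra.TensorProduct.algebraMap_apply,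
      Algebra.TensorProduct.algebraMap_apply']
    rfl
  | add p q hp hq => rw [map_add, map_add, hp, hq, map_add, TensorProduct.tmul_add]
  | mul_X p j hp =>
    rw [map_mul, map_mul, hp, map_X, TData_theta, aeval_X, Algebra.TensorProduct.tmul_mul_tmul,
      one_mul, map_mul]

theorem TData_theta_surj {τ A : Type} [CommRing A] (R' : Type) [CommRing R'] [Algebra A R']
    (J : Ideal (MvPolynomial τ A)) : Function.Surjective (TData_theta R' J) := by
  intro z
  induction z using TensorProduct.induction_on with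
  | zero => exact ⟨0, map_zero _⟩
  | tmul r y =>
    obtain ⟨p, rfl⟩ := Ideal.Quotient.mk_surjective y
    refine ⟨r • MvPolynomial.map (algebraMap A R') p, ?_⟩
    rw [map_smul, TData_theta_map, TensorProduct.smul_tmul', smul_eq_mul, mul_one]
  | add x y hx hy =>
    obtain ⟨p, rfl⟩ := hx
    obtain ⟨q, rfl⟩ := hy
    exact ⟨p + q, map_add _ _ _⟩

theorem TData_length_quot {T : Type} [CommRing T] (J I : Ideal T) :
    Module.length T ((T ⧸ J) ⧸ (I • ⊤ : Submodule T (T ⧸ J))) = Module.length T (T ⧸ (J ⊔ I)) := by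
  have h : (I • ⊤ : Submodule T (T ⧸ J)) = Submodule.map (Submodule.mkQ J) I := by
    conv_rhs => rw [← mul_one I, Ideal.one_eq_top, ← smul_eq_mul, Submodule.map_smul'',
      Submodule.map_top, Submodule.range_mkQ]
  rw [h]
  exact (Submodule.quotientQuotientEquivQuotientSup J I).length_eq

theorem exists_tdata {e s : ℕ} {A R' : Type} [CommRing A] [IsDomain A] [IsLocalRing A]
    [IsNoetherianRing A] [CommRing R'] [IsDomain R'] [IsLocalRing R'] [IsNoetherianRing R']
    [Algebra A R'] [Algebra (TT (e + 1) s A) R'] [IsScalarTower A (TT (e + 1) s A) R']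
    (x' : Fin (e + 1) → A) (hx' : maximalIdeal A = sp x') (hx0 : x' 0 ≠ 0) (hAR : FinExt A R')
    (hs : Function.Surjective (algebraMap (TT (e + 1) s A) R'))
    (hξ : ∀ j, algebraMap (TT (e + 1) s A) R' (X j) ∈ maximalIdeal R')
    (hz : ∃ c : ℕ, maximalIdeal R' ^ c ≤
      sp (fun k => algebraMap (TT (e + 1) s A) R' (zz (e + 1) s A k)))
    (hsep : ∀ j, ∃ f : Polynomial A,
      Polynomial.aeval (algebraMap (TT (e + 1) s A) R' (X j)) f = 0 ∧
      Polynomial.aeval (algebraMap (TT (e + 1) s A) R' (X j)) (Polynomial.derivative f) ≠ 0) :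
    ∃ (a mm Δ ρ k ν : ℕ) (H : Tau (e + 1) s → TT (e + 1) s A) (c : TT (e + 1) s A) (w w' : A)
      (ε : MvPolynomial (Tau (e + 1) s) (TT (e + 1) s A)) (w'' : R')
      (ψ : MvPolynomial (Tau (e + 1) s) R' →ₗ[R'] (Fin ν → R')),
      0 < a ∧ 0 < Δ ∧ 0 < ρ ∧ 0 < k ∧ w ≠ 0 ∧ w' ≠ 0 ∧ w'' ≠ 0 ∧
      (∀ j, H j ∈ RingHom.ker (algebraMap (TT (e + 1) s A) R')) ∧
      (∀ j, H j ∈ sp (sig s x')) ∧ c ∈ sp (sig s x') ∧
      (∀ i, sig s x' i ^ a ∈ sp (zz (e + 1) s A) ⊔ sp H) ∧
      (∀ i, sig s x' i ^ a ∈ sp (fun k => (C (x' k) : TT (e + 1) s A)) ⊔ sp H) ∧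
      Ideal.span {c} * RingHom.ker (algebraMap (TT (e + 1) s A) R') ^ mm ≤ sp H ∧
      MvPolynomial.aeval (fun j => (X j : TT (e + 1) s A)) ε - C w ∈
        RingHom.ker (algebraMap (TT (e + 1) s A) R') ∧
      Module.length (TT (e + 1) s A) (TT (e + 1) s A ⧸
        (sp (fun k => (C (x' k) : TT (e + 1) s A)) ⊔ sp H)) ≤ Δ ∧
      ρ * Δ ≤ ρ * ν + k ∧
      k * lsup (e + 1) (fun N => (Module.length R' (R' ⧸
          sp (fun k => algebraMap (TT (e + 1) s A) R' (zz (e + 1) s A k)) ^ N) : ℝ≥0∞)) ≤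
        ρ * lsup (e + 1) (fun N => (Module.length (TT (e + 1) s A) (TT (e + 1) s A ⧸
          (sp H ⊔ Ideal.span {C w' - c} ⊔ sp (zz (e + 1) s A) ^ N)) : ℝ≥0∞)) ∧
      (∀ f ∈ sp (fun j => MvPolynomial.map (algebraMap A R') (H j)) ⊔
        Ideal.span {MvPolynomial.map (algebraMap (TT (e + 1) s A) R') ε}, ψ f = 0) ∧
      ∀ v : Fin ν → R', w'' • v ∈ LinearMap.range ψ := by
  obtain ⟨D, a, H, hD, ha, hdeg, hHP, hHσ, hHz, hHx, hΔ⟩ := exists_domH x' hx' hAR hs hξ hz
  obtain ⟨b, -⟩ := exists_basis_quot_totalDegree D hD H hdeg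
  have := hAR.fin
  have : Module.Finite A (TT (e + 1) s A ⧸ sp H) := Module.Finite.of_basis b
  have : Module.Free A (TT (e + 1) s A ⧸ sp H) := Module.Free.of_basis b
  have hrk : Module.finrank A (TT (e + 1) s A ⧸ sp H) = D ^ (e + 1 + s) := by
    rw [Module.finrank_eq_card_basis b]; simp
  have hHle : sp H ≤ RingHom.ker (algebraMap (TT (e + 1) s A) R') :=
    Ideal.span_le.2 (Set.range_subset_iff.2 hHP)
  let φ : (TT (e + 1) s A ⧸ sp H) →ₐ[A] R' :=
    Ideal.Quotient.liftₐ (sp H) (IsScalarTower.toAlgHom A (TT (e + 1) s A) R') fun t ht => hHle ht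
  have hφ : ∀ t, φ (Ideal.Quotient.mk _ t) = algebraMap (TT (e + 1) s A) R' t := fun t => rfl
  have hφs : Function.Surjective φ := fun r => by
    obtain ⟨t, rfl⟩ := hs r
    exact ⟨_, hφ t⟩
  have hadj : Algebra.adjoin A (Set.range fun j => algebraMap (TT (e + 1) s A) R' (X j)) = ⊤ := by
    rw [Algebra.adjoin_range_eq_range_aeval, AlgHom.range_eq_top]
    have : (aeval fun j => algebraMap (TT (e + 1) s A) R' (X j)) =
        IsScalarTower.toAlgHom A (TT (e + 1) s A) R' := by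
      ext j; simp
    rw [this]
    exact hs
  obtain ⟨c₀, w, w₀, mm, ε₀, hw, hw₀, hc₀, hcm, hε₀, hrank⟩ :=
    exists_idem_int hAR.inj _ hadj hsep φ hφs
  obtain ⟨c₁, rfl⟩ := Ideal.Quotient.mk_surjective c₀
  obtain ⟨ε₁, rfl⟩ := TData_theta_surj R' (sp H) ε₀
  obtain ⟨ε, rfl⟩ := MvPolynomial.map_surjective _ hs ε₁
  have hCf : ∀ r : A, algebraMap (TT (e + 1) s A) R' (C r) = algebraMap A R' r := fun r =>
    (IsScalarTower.algebraMap_apply A (TT (e + 1) s A) R' r).symm
  have hcP : Ideal.span {C (x' 0) * c₁} * RingHom.ker (algebraMap (TT (e + 1) s A) R') ^ mm ≤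
      sp H := by
    conv_rhs => rw [← Ideal.mk_ker (I := sp H)]
    rw [← Ideal.map_eq_bot_iff_le_ker, ← le_bot_iff, ← hcm, Ideal.map_mul, Ideal.map_pow]
    refine Ideal.mul_mono ?_ (Ideal.pow_right_mono ?_ _)
    · rw [Ideal.map_span, Set.image_singleton, map_mul, Ideal.span_singleton_le_span_singleton]
      exact dvd_mul_left _ _
    · rw [Ideal.map_le_iff_le_comap]
      exact fun t ht => ht
  have hfac : (C (x' 0 * w₀) - C (x' 0) * c₁ : TT (e + 1) s A) = C (x' 0) * (C w₀ - c₁) := by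
    rw [map_mul, mul_sub]
  set J : Ideal (TT (e + 1) s A) := sp H ⊔ Ideal.span {C (x' 0 * w₀) - C (x' 0) * c₁} with hJ
  have : Module.Finite A (TT (e + 1) s A ⧸ J) :=
    Module.Finite.of_surjective
      (Ideal.Quotient.factorₐ A (le_sup_left : sp H ≤ J)).toLinearMap
      (Ideal.Quotient.factor_surjective le_sup_left)
  have hk : ∀ (Z : Type) [CommRing Z] [Algebra A Z] (g : TT (e + 1) s A →ₐ[A] Z),
      Function.Surjective g → (∀ t ∈ sp H, g t = 0) → g (C w₀ - c₁) = 0 →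
      Module.finrank A Z ≤ Module.finrank A (TT (e + 1) s A ⧸ J) := by
    intro Z _ _ g hg h1 h2
    have hle : J ≤ RingHom.ker g := by
      refine sup_le h1 ?_
      rw [Ideal.span_singleton_le_iff_mem, RingHom.mem_ker, hfac, map_mul, h2, mul_zero]
    refine LinearMap.finrank_le_finrank_of_surjective
      (f := (Ideal.Quotient.liftₐ J g fun t ht => hle ht).toLinearMap) fun z => ?_
    obtain ⟨t, rfl⟩ := hg z
    exact ⟨Ideal.Quotient.mk _ t, rfl⟩
  have hk1 := hk R' (IsScalarTower.toAlgHom A (TT (e + 1) s A) R') hs (fun t ht => hHle ht) (by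
    rw [IsScalarTower.coe_toAlgHom', map_sub, hCf, ← hc₀, hφ, sub_self])
  have hk2 := hk ((TT (e + 1) s A ⧸ sp H) ⧸
      Ideal.span {algebraMap A (TT (e + 1) s A ⧸ sp H) w₀ - Ideal.Quotient.mk _ c₁})
    ((Ideal.Quotient.mkₐ A _).comp (Ideal.Quotient.mkₐ A _))
    ((Ideal.Quotient.mkₐ_surjective A _).comp (Ideal.Quotient.mkₐ_surjective A _))
    (fun t ht => by
      rw [AlgHom.comp_apply, Ideal.Quotient.mkₐ_eq_mk, Ideal.Quotient.mkₐ_eq_mk,
        Ideal.Quotient.eq_zero_iff_mem.2 ht, map_zero])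
    (Ideal.Quotient.eq_zero_iff_mem.2 (Ideal.mem_span_singleton_self _))
  have hρ := hAR.finrank_pos
  have hdim : ringKrullDim R' ≤ (e + 1 : ℕ) :=
    hAR.ringKrullDim_le.trans (ringKrullDim_le_of_sop A x'
      (fun i => hx' ▸ Ideal.subset_span ⟨i, rfl⟩) (c := 1) (by rw [pow_one, hx']))
  have hV := domV hAR.inj hs hdim (sp (zz (e + 1) s A)) (by rwa [sp_map]) mm (x' 0 * w₀)
    (mul_ne_zero hx0 hw₀) (TT (e + 1) s A ⧸ J) (by
      intro π hπ v
      obtain ⟨t, rfl⟩ := Ideal.Quotient.mk_surjective v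
      have h1 : (x' 0 * w₀) • π • Ideal.Quotient.mk J t =
          Ideal.Quotient.mk J (C (x' 0 * w₀) * π * t) := by
        rw [mul_assoc, ← smul_eq_C_mul]; rfl
      rw [h1, Ideal.Quotient.eq_zero_iff_mem]
      refine Ideal.mul_mem_right _ _ ?_
      rw [show C (x' 0 * w₀) * π = C (x' 0) * c₁ * π + (C (x' 0 * w₀) - C (x' 0) * c₁) * π by ring]
      exact Submodule.add_mem_sup (hcP (Ideal.mul_mem_mul (Ideal.mem_span_singleton_self _) hπ))
        (Ideal.mul_mem_right _ _ (Ideal.mem_span_singleton_self _)))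
  rw [sp_map] at hV
  simp only [TData_length_quot] at hV
  obtain ⟨w'', ψ₀, φ₀, hw'', hψφ, -⟩ := exists_sandwich R'
    ((R' ⊗[A] (TT (e + 1) s A ⧸ sp H)) ⧸ Ideal.span {TData_theta R' (sp H)
      (MvPolynomial.map (algebraMap (TT (e + 1) s A) R') ε)})
  let Θ := (Ideal.Quotient.mkₐ R' (Ideal.span {TData_theta R' (sp H)
      (MvPolynomial.map (algebraMap (TT (e + 1) s A) R') ε)})).comp (TData_theta R' (sp H))
  refine ⟨a, mm, D ^ (e + 1 + s), Module.finrank A R', Module.finrank A (TT (e + 1) s A ⧸ J), _,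
    H, C (x' 0) * c₁, w, x' 0 * w₀, ε, w'', ψ₀ ∘ₗ Θ.toLinearMap, ha, pow_pos hD _, hρ,
    hρ.trans_le hk1, hw, mul_ne_zero hx0 hw₀, hw'', hHP, hHσ,
    Ideal.mul_mem_right _ _ (Ideal.subset_span ⟨Sum.inl 0, rfl⟩), hHz, hHx, hcP, ?_, hΔ, ?_, hV,
    ?_, ?_⟩
  · have key : ∀ p : MvPolynomial (Tau (e + 1) s) (TT (e + 1) s A),
        algebraMap (TT (e + 1) s A) R' (aeval (fun j => (X j : TT (e + 1) s A)) p) =
        Algebra.TensorProduct.productMap (AlgHom.id A R') φ (TData_theta R' (sp H)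
          (MvPolynomial.map (algebraMap (TT (e + 1) s A) R') p)) := by
      intro p
      induction p using MvPolynomial.induction_on with
      | C t =>
        rw [map_C, algHom_C, algHom_C, Algebra.TensorProduct.algebraMap_apply,
          Algebra.TensorProduct.productMap_left_apply]
        rfl
      | add p q hp hq => simp only [map_add, hp, hq]
      | mul_X p j hp =>
        simp only [map_mul, hp, map_X, aeval_X, TData_theta,
          Algebra.TensorProduct.productMap_right_apply, hφ]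
    rw [RingHom.mem_ker, map_sub, key, hε₀, hCf, sub_self]
  · rw [← hrk]
    exact hrank.trans (Nat.add_le_add_left hk2 _)
  · have hle : sp (fun j => MvPolynomial.map (algebraMap A R') (H j)) ⊔
        Ideal.span {MvPolynomial.map (algebraMap (TT (e + 1) s A) R') ε} ≤ RingHom.ker Θ := by
      refine sup_le (Ideal.span_le.2 (Set.range_subset_iff.2 fun j => ?_)) ?_
      · have : Ideal.Quotient.mk (sp H) (H j) = 0 :=
          Ideal.Quotient.eq_zero_iff_mem.2 (Ideal.subset_span ⟨j, rfl⟩)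
        change Ideal.Quotient.mk _ (TData_theta R' (sp H) _) = 0
        rw [TData_theta_map, this, TensorProduct.tmul_zero, map_zero]
      · rw [Ideal.span_singleton_le_iff_mem]
        exact Ideal.Quotient.eq_zero_iff_mem.2 (Ideal.mem_span_singleton_self _)
    intro f hf
    change ψ₀ (Θ f) = 0
    rw [hle hf, map_zero]
  · intro v
    obtain ⟨p, hp⟩ := ((Ideal.Quotient.mkₐ_surjective R' _).comp (TData_theta_surj R' (sp H)))
      (φ₀ v)
    refine ⟨p, ?_⟩
    rw [← hψφ, ← hp]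
    rfl

end Crest.Agent.R183
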