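import Crest.Agent.R183.Asym
import Crest.Agent.R183.SLTransfer

/-!
# Generic freeness, finite local extensions
-/

set_option autoImplicit false

open scoped ENNReal NNReal TensorProduct
open MvPolynomial IsLocalRing

namespace Crest.Agent.R183

/-- A finite module over a domain is free up to a nonzero element. -/
theorem exists_sandwich (B : Type) [CommRing B] [IsDomain B] (G : Type) [AddCommGroup G]
    [Module B G] [Module.Finite B G] :
    ∃ (w : B) (ψ : G →ₗ[B] (Fin (Module.finrank B G) → B))
      (φ : (Fin (Module.finrank B G) → B) →ₗ[B] G),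
      w ≠ 0 ∧ (∀ v, ψ (φ v) = w • v) ∧ ∀ g, φ (ψ g) = w • g := by
  obtain ⟨v, hv⟩ := exists_linearIndependent_of_le_finrank (le_refl (Module.finrank B G))
  have hφ := hv.fintypeLinearCombination_injective
  generalize Fintype.linearCombination B v = φ at hφ
  have h1 : Module.finrank B (LinearMap.range φ) = Module.finrank B G := by
    rw [← (LinearEquiv.ofInjective φ hφ).finrank_eq, Module.finrank_fin_fun]
  have h2 := (LinearMap.range φ).finrank_quotient_add_finrank
  have h3 : Module.finrank B (G ⧸ LinearMap.range φ) = 0 := by omega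
  have h4 : Module.IsTorsion B (G ⧸ LinearMap.range φ) := fun x => by
    obtain ⟨a, ha, hx⟩ := Module.finrank_eq_zero_iff.1 h3 x
    exact ⟨⟨a, mem_nonZeroDivisors_of_ne_zero ha⟩, hx⟩
  obtain ⟨w, hw, hw0⟩ := Submodule.annihilator_top_inter_nonZeroDivisors h4
  have h5 : ∀ g : G, LinearMap.lsmul B G w g ∈ LinearMap.range φ := fun g => by
    rw [← Submodule.Quotient.mk_eq_zero, LinearMap.lsmul_apply, Submodule.Quotient.mk_smul]
    exact Submodule.mem_annihilator.1 hw _ Submodule.mem_top
  have h6 : ∀ g, φ (((LinearEquiv.ofInjective φ hφ).symm.toLinearMap ∘ₗ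
      (LinearMap.lsmul B G w).codRestrict _ h5) g) = w • g := fun g =>
    LinearEquiv.ofInjective_symm_apply φ (h := hφ) ⟨_, h5 g⟩
  exact ⟨w, _, φ, nonZeroDivisors.ne_zero hw0, fun u => hφ (by rw [h6, map_smul]), h6⟩

theorem topBasic_rank_le {A M N : Type} [CommRing A] [IsDomain A] [AddCommGroup M] [Module A M]
    [AddCommGroup N] [Module A N] (f : M →ₗ[A] N)
    (hf : ∀ x, f x = 0 → ∃ a : A, a ≠ 0 ∧ a • x = 0) : Module.rank A M ≤ Module.rank A N := by
  have h1 : Module.rank A (LinearMap.ker f) = 0 := rank_eq_zero_iff.2 fun x => by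
    obtain ⟨a, ha, hx⟩ := hf x.1 x.2
    exact ⟨a, ha, Subtype.ext hx⟩
  rw [← f.rank_range_add_rank_ker, h1, add_zero]
  exact Submodule.rank_le _

/-- multiplicativity of ranks over domains -/
theorem finrank_eq_mul_of_isDomain (A B G : Type) [CommRing A] [IsDomain A] [CommRing B]
    [IsDomain B] [Algebra A B] [Module.Finite A B] (hinj : Function.Injective (algebraMap A B))
    [AddCommGroup G] [Module A G] [Module B G] [IsScalarTower A B G] [Module.Finite B G] :
    Module.finrank A G = Module.finrank A B * Module.finrank B G := by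
  obtain ⟨w, ψ, φ, hw, h1, h2⟩ := exists_sandwich B G
  obtain ⟨w', ψ', φ', hw', h1', h2'⟩ := exists_sandwich A B
  obtain ⟨a, ha, c, hc⟩ := (Algebra.IsIntegral.isIntegral (R := A) w).isAlgebraic.exists_nonzero_dvd
    (mem_nonZeroDivisors_of_ne_zero hw)
  have h3 : Module.rank A G =
      Module.rank A (Fin (Module.finrank B G) → Fin (Module.finrank A B) → A) := by
    refine le_antisymm (topBasic_rank_le (ψ'.compLeft _ ∘ₗ ψ.restrictScalars A) fun x hx => ?_)
      (LinearMap.rank_le_of_injective (φ.restrictScalars A ∘ₗ φ'.compLeft _) ?_)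
    · refine ⟨a * w', mul_ne_zero ha hw', ?_⟩
      have h4 : ψ (w' • x) = 0 := by
        rw [LinearMap.map_smul_of_tower]
        funext i
        have h5 : ψ' (ψ x i) = 0 := congrFun hx i
        rw [Pi.smul_apply, ← h2', h5, map_zero, Pi.zero_apply]
      rw [mul_smul, ← algebraMap_smul B a, hc, mul_comm, mul_smul, ← h2, h4, map_zero, smul_zero]
    · refine (injective_iff_map_eq_zero _).2 fun x hx => ?_
      have h4 : φ (fun i => φ' (x i)) = 0 := hx
      have h5 := h1 fun i => φ' (x i)
      rw [h4, map_zero] at h5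
      have h6 := (smul_eq_zero.1 h5.symm).resolve_left hw
      funext i
      have h7 := h1' (x i)
      rw [show φ' (x i) = 0 from congrFun h6 i, map_zero] at h7
      exact (smul_eq_zero.1 h7.symm).resolve_left hw'
  have h4 : Module.finrank A G =
      Module.finrank A (Fin (Module.finrank B G) → Fin (Module.finrank A B) → A) :=
    congrArg Cardinal.toNat h3
  rw [h4, Module.finrank_pi_fintype, Module.finrank_fin_fun, Finset.sum_const, Finset.card_univ,
    Fintype.card_fin, smul_eq_mul, mul_comm]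

theorem topBasic_span_comp {B G G' ι : Type} [CommRing B] [AddCommGroup G] [Module B G]
    [AddCommGroup G'] [Module B G'] (g : G →ₗ[B] G') (hg : Function.Surjective g) {v : ι → G}
    (hv : Submodule.span B (Set.range v) = ⊤) :
    Submodule.span B (Set.range fun i => g (v i)) = ⊤ := by
  rw [show (Set.range fun i => g (v i)) = g '' Set.range v from Set.range_comp g v,
    ← Submodule.map_span, hv, Submodule.map_top, LinearMap.range_eq_top.2 hg]

theorem LF.topBasic_quot_le {B : Type} [CommRing B] (μ : LF B) {G G' : Type}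
    [AddCommGroup G] [Module B G] [AddCommGroup G'] [Module B G'] (J : Ideal B)
    (φ : G →ₗ[B] G' ⧸ (J • ⊤ : Submodule B G')) (w : B)
    (hw : ∀ v : G', Submodule.Quotient.mk (w • v) ∈ LinearMap.range φ) {n : ℕ} (v : Fin n → G')
    (hv : Submodule.span B (Set.range v) = ⊤) :
    μ.val (G' ⧸ (J • ⊤ : Submodule B G')) ≤ μ.val G + n * μ.val (B ⧸ (J ⊔ Ideal.span {w})) := by
  refine (μ.le_add_of_exact φ _ φ.exact_map_mkQ_range).trans (add_le_add le_rfl ?_)
  refine μ.val_le_of_span _ _ (topBasic_span_comp _ (Submodule.mkQ_surjective _)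
    (topBasic_span_comp _ (Submodule.mkQ_surjective _) hv)) fun a ha => ?_
  refine Module.mem_annihilator.1 ((sup_le (fun b hb => ?_) ?_ : J ⊔ Ideal.span {w} ≤ _) ha)
  · exact Module.mem_annihilator.2 (LF.LFkill_quot _ (fun _ h => hsBasic_smul_quot h) b hb)
  · rw [Ideal.span_singleton_le_iff_mem, Module.mem_annihilator]
    intro x
    obtain ⟨x, rfl⟩ := Submodule.Quotient.mk_surjective _ x
    obtain ⟨x, rfl⟩ := Submodule.Quotient.mk_surjective _ x
    rw [← Submodule.Quotient.mk_smul, Submodule.Quotient.mk_eq_zero, ← Submodule.Quotient.mk_smul]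
    exact hw x

/-- comparison of quotients along a map which is surjective up to `w` -/
theorem LF.val_quot_le_of_smul_mem_range {B : Type} [CommRing B] (μ : LF B) {G G' : Type}
    [AddCommGroup G] [Module B G] [AddCommGroup G'] [Module B G'] (φ : G →ₗ[B] G') (w : B)
    (hw : ∀ v : G', w • v ∈ LinearMap.range φ) {n : ℕ} (v : Fin n → G')
    (hv : Submodule.span B (Set.range v) = ⊤) (J : Ideal B) :
    μ.val (G' ⧸ (J • ⊤ : Submodule B G')) ≤ μ.val (G ⧸ (J • ⊤ : Submodule B G)) +
      n * μ.val (B ⧸ (J ⊔ Ideal.span {w})) := by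
  have h : (J • ⊤ : Submodule B G) ≤ (J • ⊤ : Submodule B G').comap φ := by
    refine Submodule.smul_le.2 fun a ha x _ => ?_
    rw [Submodule.mem_comap, map_smul]
    exact Submodule.smul_mem_smul ha Submodule.mem_top
  refine μ.topBasic_quot_le J (Submodule.mapQ _ _ φ h) w (fun x => ?_) v hv
  obtain ⟨y, hy⟩ := hw x
  exact ⟨Submodule.Quotient.mk y, by rw [Submodule.mapQ_apply, hy]⟩

theorem LF.val_pi_quot {B : Type} [CommRing B] (μ : LF B) (n : ℕ) (J : Ideal B) :
    μ.val ((Fin n → B) ⧸ (J • ⊤ : Submodule B (Fin n → B))) = n * μ.val (B ⧸ J) := by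
  refine le_antisymm (μ.val_le_of_span J _ (topBasic_span_comp _ (Submodule.mkQ_surjective _)
    (Pi.basisFun B (Fin n)).span_eq) fun _ h => hsBasic_smul_quot h) ?_
  have h : (J • ⊤ : Submodule B (Fin n → B)) ≤
      LinearMap.ker ((Submodule.mkQ J).compLeft (Fin n)) := by
    refine Submodule.smul_le.2 fun a ha x _ => ?_
    rw [LinearMap.mem_ker, map_smul]
    funext i
    exact LF.LFkill_quot_ideal le_rfl a ha _
  have h1 := μ.le_of_surjective (Submodule.liftQ _ _ h) fun y => by
    choose x hx using fun i => Submodule.mkQ_surjective J (y i)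
    exact ⟨Submodule.Quotient.mk x, funext hx⟩
  rwa [μ.val_pi, Fintype.card_fin] at h1

/-- the lower bound for `U2` -/
theorem u2_le {R' S τ : Type} [CommRing R'] [CommRing S] [Algebra R' S] (μ : LF S)
    (I : Ideal (MvPolynomial τ R')) {ν : ℕ} (ψ : MvPolynomial τ R' →ₗ[R'] (Fin ν → R'))
    (hψ : ∀ f ∈ I, ψ f = 0) (w : R') (hw : ∀ v : Fin ν → R', w • v ∈ LinearMap.range ψ)
    (J : Ideal S) :
    ν * μ.val (S ⧸ J) ≤ μ.val (MvPolynomial τ S ⧸ (I.map (MvPolynomial.map (algebraMap R' S)) ⊔
        J.map (C : S →+* MvPolynomial τ S))) +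
      ν * μ.val (S ⧸ (J ⊔ Ideal.span {algebraMap R' S w})) := by
  obtain ⟨Ψ, hΨ⟩ : ∃ Ψ : MvPolynomial τ S →ₗ[S] (Fin ν → S),
      ∀ p, Ψ (MvPolynomial.map (algebraMap R' S) p) = fun i => algebraMap R' S (ψ p i) := by
    refine ⟨((Algebra.linearMap R' S).compLeft (Fin ν) ∘ₗ ψ).liftBaseChange S ∘ₗ
      (algebraTensorAlgEquiv R' S).symm.toLinearMap, fun p => ?_⟩
    rw [LinearMap.comp_apply, AlgEquiv.toLinearMap_apply, algebraTensorAlgEquiv_symm_map,
      LinearMap.liftBaseChange_tmul, one_smul]
    rfl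
  let K : Ideal (MvPolynomial τ S) :=
    { carrier := {g | ∀ t, Ψ (t * g) ∈ (J • ⊤ : Submodule S (Fin ν → S))}
      add_mem' := fun ha hb t => by
        rw [mul_add, map_add]
        exact add_mem (ha t) (hb t)
      zero_mem' := fun t => by
        rw [mul_zero, map_zero]
        exact zero_mem _
      smul_mem' := fun c x hx t => by
        rw [smul_eq_mul, ← mul_assoc]
        exact hx _ }
  have hK : I.map (MvPolynomial.map (algebraMap R' S)) ⊔ J.map (C : S →+* MvPolynomial τ S) ≤
      K := by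
    refine sup_le (Ideal.map_le_iff_le_comap.2 fun p hp t => ?_)
      (Ideal.map_le_iff_le_comap.2 fun a ha t => ?_)
    · induction t using MvPolynomial.induction_on' with
      | monomial m s =>
        have h1 : monomial m s * MvPolynomial.map (algebraMap R' S) p =
            s • MvPolynomial.map (algebraMap R' S) (monomial m 1 * p) := by
          rw [map_mul, map_monomial, map_one, ← smul_mul_assoc, smul_monomial, smul_eq_mul,
            mul_one]
        rw [h1, map_smul, hΨ, hψ _ (I.mul_mem_left _ hp)]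
        refine Submodule.smul_mem _ _ ?_
        simp only [Pi.zero_apply, map_zero]
        exact zero_mem _
      | add p q hp hq =>
        rw [add_mul, map_add]
        exact add_mem hp hq
    · rw [mul_comm, C_mul', map_smul]
      exact Submodule.smul_mem_smul ha Submodule.mem_top
  have hK' : Submodule.restrictScalars S (I.map (MvPolynomial.map (algebraMap R' S)) ⊔
      J.map (C : S →+* MvPolynomial τ S)) ≤
      LinearMap.ker ((J • ⊤ : Submodule S (Fin ν → S)).mkQ ∘ₗ Ψ) := fun g hg => by
    have h1 := hK hg 1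
    rw [one_mul] at h1
    exact (Submodule.Quotient.mk_eq_zero _).2 h1
  have hr : ∀ v : Fin ν → S, algebraMap R' S w • v ∈ LinearMap.range Ψ := fun v => by
    rw [pi_eq_sum_univ' v, Finset.smul_sum]
    refine Submodule.sum_mem _ fun i _ => ?_
    rw [smul_comm]
    refine Submodule.smul_mem _ _ ?_
    obtain ⟨p, hp⟩ := hw (Pi.single i 1)
    refine ⟨MvPolynomial.map (algebraMap R' S) p, ?_⟩
    rw [hΨ, hp]
    funext j
    by_cases hj : j = i
    · subst hj
      simp
    · simp [hj]
  rw [← μ.val_pi_quot, ← μ.congr (Submodule.Quotient.restrictScalarsEquiv S _)]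
  refine μ.topBasic_quot_le J (Submodule.liftQ _ _ hK') _ (fun v => ?_) _
    (Pi.basisFun S (Fin ν)).span_eq
  obtain ⟨g, hg⟩ := hr v
  exact ⟨Submodule.Quotient.mk g, by rw [← hg]; rfl⟩

/-- prime avoidance -/
theorem exists_mem_ringKrullDim_le (R : Type) [CommRing R] [IsNoetherianRing R] (e : ℕ)
    (hR : ringKrullDim R ≤ (e + 1 : ℕ)) (I : Ideal R) (hI : ringKrullDim (R ⧸ I) ≤ e) :
    ∃ w ∈ I, ringKrullDim (R ⧸ Ideal.span {w}) ≤ e := by
  have hfin : {p ∈ minimalPrimes R | ¬ I ≤ p}.Finite :=
    (minimalPrimes.finite_of_isNoetherianRing R).subset fun _ h => h.1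
  have h1 : ¬ ((I : Set R) ⊆ ⋃ p ∈ {p ∈ minimalPrimes R | ¬ I ≤ p}, ((id p : Ideal R) : Set R)) := by
    rw [Ideal.subset_union_prime_finite hfin (f := id) ⊥ ⊥ fun p hp _ _ => hp.1.1.1]
    rintro ⟨p, hp, h⟩
    exact hp.2 h
  obtain ⟨w, hwI, hw⟩ := Set.not_subset.1 h1
  refine ⟨w, hwI, ?_⟩
  rw [ringKrullDim_quotient] at hI ⊢
  refine iSup_le fun l => ?_
  by_cases h2 : I ≤ l.head.1.asIdeal
  · let l' : LTSeries (PrimeSpectrum.zeroLocus (I : Set R)) :=
      ⟨l.length, fun i => ⟨(l i).1, h2.trans (l.head_le i)⟩, l.step⟩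
    exact (Order.LTSeries.length_le_krullDim l').trans hI
  · obtain ⟨q, hq, hq'⟩ := Ideal.exists_minimalPrimes_le (bot_le : ⊥ ≤ l.head.1.asIdeal)
    have h3 : q < l.head.1.asIdeal := by
      refine lt_of_le_of_ne hq' fun h => hw (Set.mem_biUnion (x := q) ⟨hq, h ▸ h2⟩ ?_)
      rw [h]
      exact l.head.2 (Ideal.mem_span_singleton_self w)
    have h4 := (Order.LTSeries.length_le_krullDim
      ((l.map Subtype.val fun _ _ h => h).cons ⟨q, hq.1.1⟩ h3)).trans hR
    rw [RelSeries.cons_length, LTSeries.map_length] at h4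
    have h5 : l.length + 1 ≤ e + 1 := by exact_mod_cast h4
    exact_mod_cast Nat.le_of_succ_le_succ h5

/-- lengths modulo `J` and the powers of an `m`-primary ideal are error terms -/
theorem lsup_length_err (B : Type) [CommRing B] [IsLocalRing B] [IsNoetherianRing B] (e : ℕ)
    (J : Ideal B) (hJ : ringKrullDim (B ⧸ J) ≤ e) (M : Type) [AddCommGroup M] [Module B M]
    [Module.Finite B M] (I : ℕ → Ideal B) (a c : ℕ) (hI : ∀ N, maximalIdeal B ^ (a * N + c) ≤ I N) :
    lsup (e + 1)
      (fun N => (Module.length B (M ⧸ ((I N ⊔ J) • ⊤ : Submodule B M)) : ℝ≥0∞)) = 0 := by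
  obtain ⟨C, hC⟩ := growth_le B J e hJ M
  refine lsup_err C a c ENNReal.one_ne_top fun N => ?_
  have h1 : ((J ⊔ maximalIdeal B ^ (a * N + c)) • ⊤ : Submodule B M) ≤ (I N ⊔ J) • ⊤ :=
    Submodule.smul_mono_left (sup_le le_sup_right ((hI N).trans le_sup_left))
  have h2 := (Module.length_le_of_surjective (Submodule.factor h1)
    (Submodule.factor_surjective h1)).trans (hC _)
  rw [mul_one, ← ENat.toENNReal_coe, ENat.toENNReal_le]
  exact h2

/-- the same for `M = B` -/
theorem lsup_length_err' (B : Type) [CommRing B] [IsLocalRing B] [IsNoetherianRing B] (e : ℕ)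
    (J : Ideal B) (hJ : ringKrullDim (B ⧸ J) ≤ e) (I : ℕ → Ideal B) (a c : ℕ)
    (hI : ∀ N, maximalIdeal B ^ (a * N + c) ≤ I N) :
    lsup (e + 1) (fun N => (Module.length B (B ⧸ (I N ⊔ J)) : ℝ≥0∞)) = 0 := by
  rw [← lsup_length_err B e J hJ B I a c hI]
  congr 1
  funext N
  rw [(Submodule.quotEquivOfEq ((I N ⊔ J) • ⊤ : Submodule B B) (I N ⊔ J)
    (Ideal.mul_top _)).length_eq]

theorem topBasic_length_eq {A R : Type} [CommRing A] [CommRing R] [IsLocalRing A] [IsLocalRing R]
    [Algebra A R] [IsLocalHom (algebraMap A R)]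
    (h : ∀ r : R, ∃ a : A, r - algebraMap A R a ∈ maximalIdeal R) (M : Type) [AddCommGroup M]
    [Module A M] [Module R M] [IsScalarTower A R M] :
    Module.length A M = Module.length R M := by
  have h1 : Function.Surjective (algebraMap (ResidueField A) (ResidueField R)) := fun y => by
    obtain ⟨r, rfl⟩ := residue_surjective y
    obtain ⟨a, ha⟩ := h r
    refine ⟨residue A a, ?_⟩
    rw [ResidueField.algebraMap_residue, eq_comm, ← sub_eq_zero, ← map_sub, residue_eq_zero_iff]
    exact ha
  rw [IsLocalRing.length_restrictScalars A R M, Module.length_eq_of_surjective h1,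
    Module.length_eq_one (ResidueField R) (ResidueField R), mul_one]

namespace FinExt

variable {A R : Type} [CommRing A] [CommRing R] [IsLocalRing A] [IsLocalRing R] [Algebra A R]

theorem map_le (h : FinExt A R) : (maximalIdeal A).map (algebraMap A R) ≤ maximalIdeal R := by
  have := h.loc
  exact Ideal.map_le_iff_le_comap.2 fun a ha => map_nonunit (algebraMap A R) a ha

theorem pow_le (h : FinExt A R) [IsNoetherianRing R] :
    ∃ c : ℕ, maximalIdeal R ^ c ≤ (maximalIdeal A).map (algebraMap A R) := by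
  have := h.fin
  refine Ideal.exists_pow_le_of_le_radical_of_fg ?_ (IsNoetherian.noetherian _)
  rw [Ideal.radical_eq_sInf]
  refine le_sInf fun P hP => ?_
  have := hP.2
  have h1 : maximalIdeal A = P.comap (algebraMap A R) :=
    (maximalIdeal.isMaximal A).eq_of_le (Ideal.IsPrime.ne_top inferInstance)
      (Ideal.map_le_iff_le_comap.1 hP.1)
  exact (eq_maximalIdeal (Ideal.isMaximal_of_isIntegral_of_isMaximal_comap (R := A) P
    (h1 ▸ maximalIdeal.isMaximal A))).ge

theorem length_eq (h : FinExt A R) (M : Type) [AddCommGroup M] [Module A M] [Module R M]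
    [IsScalarTower A R M] : Module.length A M = Module.length R M := by
  have := h.loc
  exact topBasic_length_eq h.res M

theorem ringKrullDim_le (h : FinExt A R) : ringKrullDim R ≤ ringKrullDim A := by
  have := h.fin
  exact (ringKrullDim_le_of_isIntegral A R).trans (ringKrullDim_quotient_le _)

theorem finrank_pos [IsDomain A] (h : FinExt A R) : 0 < Module.finrank A R := by
  have := h.fin
  have h1 := LinearMap.finrank_le_finrank_of_injective (f := Algebra.linearMap A R) h.inj
  rwa [Module.finrank_self] at h1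

end FinExt

/-- lengths along a local map with trivial residue field extension -/
theorem length_eq_of_res {A R : Type} [CommRing A] [CommRing R] [IsLocalRing A] [IsLocalRing R]
    [Algebra A R] [IsLocalHom (algebraMap A R)]
    (h : ∀ r : R, ∃ a : A, r - algebraMap A R a ∈ maximalIdeal R) (M : Type) [AddCommGroup M]
    [Module A M] [Module R M] [IsScalarTower A R M] :
    Module.length A M = Module.length R M := by
  exact topBasic_length_eq h M

theorem BaseRing.ne_zero {d : ℕ} {A : Type} [CommRing A] [IsLocalRing A] {x' : Fin d → A}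
    {fin : Prop} (h : BaseRing d A x' fin) (k : Fin d) : x' k ≠ 0 := by
  intro h0
  have h1 := h.qr ∅ isUpperSet_empty subset_rfl (Pi.single k 1) (Set.notMem_empty _) 1 (by
    rw [SL_mon_single, h0, pow_one, zero_smul]
    exact zero_mem _)
  rw [one_smul, smul_eq_mul, Ideal.mul_top, ← h.max] at h1
  exact (maximalIdeal.isMaximal A).ne_top ((Ideal.eq_top_iff_one _).2 h1)

theorem BaseRing.ringKrullDim_le {d : ℕ} {A : Type} [CommRing A] [IsLocalRing A]
    [IsNoetherianRing A] {x' : Fin d → A} {fin : Prop} (h : BaseRing d A x' fin) :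
    ringKrullDim A ≤ d := by
  refine ringKrullDim_le_of_sop A x' (fun i => ?_) (c := 1) (by rw [pow_one, h.max])
  rw [h.max]
  exact Ideal.subset_span (Set.mem_range_self i)

end Crest.Agent.R183
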