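import Crest.Agent.R183.WDefs
import Crest.Agent.R183.LF

/-!
# Definitions for the top level of the argument
-/

set_option autoImplicit false

open scoped ENNReal NNReal TensorProduct
open MvPolynomial IsLocalRing

namespace Crest.Agent.R183

/-- Upper normalized limit `limsup a N / Bn d N`. -/
noncomputable def lsup (d : ℕ) (a : ℕ → ℝ≥0∞) : ℝ≥0∞ :=
  Filter.limsup (fun N => a N / Bn d N) Filter.atTop

/-- Lower normalized limit `liminf a N / Bn d N`. -/
noncomputable def linf (d : ℕ) (a : ℕ → ℝ≥0∞) : ℝ≥0∞ :=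
  Filter.liminf (fun N => a N / Bn d N) Filter.atTop

/-- A finite, injective, local extension with trivial residue field extension. -/
structure FinExt (A R : Type) [CommRing A] [CommRing R] [IsLocalRing R] [Algebra A R] : Prop where
  fin : Module.Finite A R
  inj : Function.Injective (algebraMap A R)
  loc : IsLocalHom (algebraMap A R)
  res : ∀ r : R, ∃ a : A, r - algebraMap A R a ∈ maximalIdeal R

/-- A regular base ring for which the window inequality is known. -/
structure BaseRing (d : ℕ) (A : Type) [CommRing A] [IsLocalRing A] (x' : Fin d → A)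
    (fin : Prop) : Prop where
  max : maximalIdeal A = sp x'
  qr : QR x' A
  wi : WIProp d A x' fin

/-- The hypotheses on the flat algebra `S` over the local ring `R`. -/
structure SH (R : Type) [CommRing R] [IsLocalRing R] {S : Type} [CommRing S] [Algebra R S]
    {d : ℕ} (μ : LF S) (y : Fin d → S) (fin : Prop) : Prop where
  flat : Module.Flat R S
  hy : ∃ a : ℕ, (maximalIdeal R).map (algebraMap R S) ^ a ≤ sp y
  b0 : 1 ≤ μ.val (S ⧸ (sp y ⊔ (maximalIdeal R).map (algebraMap R S)))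
  ub : μ.val (S ⧸ (maximalIdeal R).map (algebraMap R S)) ≠ ⊤
  good : fin → Module.Finite R S ∧ Module.Free R S ∧
    ∀ (M : Type) [AddCommGroup M] [Module S M] [Module R M] [IsScalarTower R S M],
      μ.val M = Module.length R M

/-- The size of `(S ⊗ M) / J (S ⊗ M)`. -/
noncomputable def tq {S : Type} [CommRing S] (μ : LF S) (J : Ideal S) (R : Type) [CommRing R]
    [Algebra R S] (M : Type) [AddCommGroup M] [Module R M] : ℝ≥0∞ :=
  μ.val ((S ⊗[R] M) ⧸ (J • ⊤ : Submodule S (S ⊗[R] M)))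

/-- The length function on `R' ⊗[R] S` induced by one on `S`. -/
noncomputable def LF.bc {S : Type} [CommRing S] (μ : LF S) (R R' : Type) [CommRing R]
    [CommRing R'] [Algebra R S] [Algebra R R'] : LF (R' ⊗[R] S) :=
  μ.comap (Algebra.TensorProduct.includeRight : S →ₐ[R] R' ⊗[R] S).toRingHom

/-- Honest data (window data without windows). -/
structure HD (d s q : ℕ) (A : Type) [CommRing A] (x' : Fin d → A) {S : Type} [CommRing S]
    [Algebra (TT d s A) S] (μ : LF S) (y : Fin d → S) where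
  (r a mm r₀ Δ : ℕ)
  H : Tau d s → TT d s A
  c : TT d s A
  P : Ideal (TT d s A)
  mg : Fin r → TT d s A
  w : A
  w' : A
  ε : MvPolynomial (Tau d s) (TT d s A)
  ha : 0 < a
  hΔ0 : 0 < Δ
  HP : ∀ j, H j ∈ P
  Hσ : ∀ j, H j ∈ sp (sig s x')
  cσ : c ∈ sp (sig s x')
  hz : ∀ i, sig s x' i ^ a ∈ sp (zz d s A) ⊔ sp H
  hx : ∀ i, sig s x' i ^ a ∈ sp (fun k => (C (x' k) : TT d s A)) ⊔ sp H
  hc : Ideal.span {c} * P ^ mm ≤ sp H
  hm : sp mg ^ (r₀ + 1) ≤ sp (zz d s A) ^ q * sp mg ^ r₀ ⊔ P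
  hε : MvPolynomial.aeval (fun j => (X j : TT d s A)) ε - C w ∈ P
  PS : ∀ π ∈ P, algebraMap (TT d s A) S π = 0
  flat : FlatMod P S
  hsig : ∀ b, HasSig (sp mg)
    (fun k => Ideal.Quotient.mk ((win s x' b).map (algebraMap (TT d s A) S)) (y k))
  hy : ∀ i, algebraMap (TT d s A) S (sig s x' i) ^ a ∈ sp y
  hΔ : Module.length (TT d s A) (TT d s A ⧸
    (sp (fun k => (C (x' k) : TT d s A)) ⊔ sp H)) ≤ Δ
  b0 : 1 ≤ μ.val (S ⧸ (sp y ⊔ (sp mg ⊔ sp (sig s x')).map (algebraMap (TT d s A) S)))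
  hub : μ.val (S ⧸ (sp (sig s x')).map (algebraMap (TT d s A) S)) ≠ ⊤

namespace HD

variable {d s q : ℕ} {A : Type} [CommRing A] {x' : Fin d → A} {S : Type} [CommRing S]
  [Algebra (TT d s A) S] {μ : LF S} {y : Fin d → S} (W : HD d s q A x' μ y)

/-- `S` is finite free over `T / P` and `μ` is the length over `T`. -/
def FinFree : Prop :=
  (∃ ν : ℕ, Nonempty (S ≃ₗ[TT d s A] (Fin ν → TT d s A ⧸ W.P))) ∧
  ∀ (M : Type) [AddCommGroup M] [Module S M] [Module (TT d s A) M]
    [IsScalarTower (TT d s A) S M], μ.val M = Module.length (TT d s A) M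

/-- The quantity bounded below by `u2`. -/
noncomputable def U2 (N : ℕ) : ℝ≥0∞ := μ.val (MvPolynomial (Tau d s) S ⧸
    (sp (fun j => MvPolynomial.map ((algebraMap (TT d s A) S).comp C) (W.H j)) ⊔
      Ideal.span {MvPolynomial.map (algebraMap (TT d s A) S) W.ε} ⊔
      (sp y ^ N).map (C : S →+* MvPolynomial (Tau d s) S)))

/-- The quantity bounded above by `u3`. -/
noncomputable def U3 (N : ℕ) : ℝ≥0∞ :=
  μ.val (S ⧸ (sp y ^ N ⊔ Ideal.span {algebraMap (TT d s A) S (C W.w)}))

/-- The quantity bounded below by `v1`. -/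
noncomputable def V1 (N : ℕ) : ℝ≥0∞ := Module.length (TT d s A) (TT d s A ⧸
    (sp W.H ⊔ Ideal.span {C W.w' - W.c} ⊔ sp (zz d s A) ^ N))

/-- The quantity bounded above by `v2`. -/
noncomputable def V2 (N : ℕ) : ℝ≥0∞ :=
  Module.length A (A ⧸ (Ideal.span {W.w'} ⊔ sp (fun k => x' k ^ (W.a * N))))

end HD

end Crest.Agent.R183
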